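import Vale.Agent.P227.M.SC2.HeatLine

/-! # P227/M/SC2: the law of `⟨v, x⟩` and the heat potential on a line, by one linear change of variables
on `E × ℝ` (helper204). -/

open MeasureTheory Filter Topology

namespace Vale.Agent.P227.M.HL

variable {n : ℕ}

/-- dual direction, `⟨v, uu v⟩ = 1` -/
noncomputable def uu (v : E n) : E n := (‖v‖ ^ 2)⁻¹ • v

/-- projection on `v^⊥` -/
noncomputable def pr (v : E n) : E n →L[ℝ] E n :=
  ContinuousLinearMap.id ℝ (E n) - (innerSL ℝ v).smulRight (uu v)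

theorem pr_apply (v z : E n) : pr v z = z - inner ℝ v z • uu v := by
  simp [pr]

theorem inner_uu {v : E n} (hv : v ≠ 0) : inner ℝ v (uu v) = 1 := by
  have h : ‖v‖ ≠ 0 := norm_ne_zero_iff.2 hv
  rw [uu, inner_smul_right, real_inner_self_eq_norm_sq]
  field_simp

theorem inner_pr {v : E n} (hv : v ≠ 0) (z : E n) : inner ℝ v (pr v z) = 0 := by
  rw [pr_apply, inner_sub_right, inner_smul_right, inner_uu hv]; ring

theorem inner_uu_pr {v : E n} (hv : v ≠ 0) (z : E n) : inner ℝ (uu v) (pr v z) = 0 := by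
  rw [uu, inner_smul_left, inner_pr hv]; simp

theorem pr_uu {v : E n} (hv : v ≠ 0) : pr v (uu v) = 0 := by
  rw [pr_apply, inner_uu hv]; simp

theorem pr_pr {v : E n} (hv : v ≠ 0) (z : E n) : pr v (pr v z) = pr v z := by
  rw [pr_apply v (pr v z), inner_pr hv]; simp

theorem pr_add (v z : E n) : pr v z + inner ℝ v z • uu v = z := by
  rw [pr_apply]; abel

/-- the linear map `(z, t) ↦ (t u + σ pr z, ⟨v, z⟩)` -/
noncomputable def Phi (v : E n) (σ : ℝ) : (E n × ℝ) →ₗ[ℝ] (E n × ℝ) where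
  toFun p := (p.2 • uu v + σ • pr v p.1, inner ℝ v p.1)
  map_add' p q := by
    refine Prod.ext ?_ ?_
    · simp only [Prod.snd_add, Prod.fst_add, add_smul, map_add, smul_add]; abel
    · simp only [Prod.fst_add, Prod.snd_add, inner_add_right]
  map_smul' a p := by
    refine Prod.ext ?_ ?_
    · simp only [Prod.smul_snd, Prod.smul_fst, map_smul, smul_add, smul_smul, smul_eq_mul,
        RingHom.id_apply]
      rw [mul_comm σ a]
    · simp only [Prod.smul_fst, inner_smul_right, Prod.smul_snd, smul_eq_mul, RingHom.id_apply]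

theorem Phi_apply (v : E n) (σ : ℝ) (p : E n × ℝ) :
    Phi v σ p = (p.2 • uu v + σ • pr v p.1, inner ℝ v p.1) := rfl

/-- its inverse -/
noncomputable def Psi (v : E n) (σ : ℝ) : (E n × ℝ) →ₗ[ℝ] (E n × ℝ) where
  toFun p := (σ⁻¹ • pr v p.1 + p.2 • uu v, inner ℝ v p.1)
  map_add' p q := by
    refine Prod.ext ?_ ?_
    · simp only [Prod.snd_add, Prod.fst_add, add_smul, map_add, smul_add]; abel
    · simp only [Prod.fst_add, Prod.snd_add, inner_add_right]
  map_smul' a p := by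
    refine Prod.ext ?_ ?_
    · simp only [Prod.smul_snd, Prod.smul_fst, map_smul, smul_add, smul_smul, smul_eq_mul,
        RingHom.id_apply]
      rw [mul_comm σ⁻¹ a]
    · simp only [Prod.smul_fst, inner_smul_right, Prod.smul_snd, smul_eq_mul, RingHom.id_apply]

theorem Psi_apply (v : E n) (σ : ℝ) (p : E n × ℝ) :
    Psi v σ p = (σ⁻¹ • pr v p.1 + p.2 • uu v, inner ℝ v p.1) := rfl

theorem Psi_Phi {v : E n} (hv : v ≠ 0) {σ : ℝ} (hσ : σ ≠ 0) (p : E n × ℝ) :
    Psi v σ (Phi v σ p) = p := by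
  rw [Psi_apply, Phi_apply]
  refine Prod.ext ?_ ?_
  · simp only [map_add, map_smul, pr_uu hv, pr_pr hv, smul_zero, zero_add, smul_smul,
      inv_mul_cancel₀ hσ, one_smul]
    exact pr_add v p.1
  · simp only [inner_add_right, inner_smul_right, inner_uu hv, inner_pr hv]
    ring

theorem Phi_Psi {v : E n} (hv : v ≠ 0) {σ : ℝ} (hσ : σ ≠ 0) (p : E n × ℝ) :
    Phi v σ (Psi v σ p) = p := by
  rw [Psi_apply, Phi_apply]
  refine Prod.ext ?_ ?_
  · simp only [map_add, map_smul, pr_uu hv, pr_pr hv, smul_zero, add_zero, smul_smul,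
      mul_inv_cancel₀ hσ, one_smul]
    rw [add_comm]
    exact pr_add v p.1
  · simp only [inner_add_right, inner_smul_right, inner_uu hv, inner_pr hv]
    ring

theorem det_Phi_ne {v : E n} (hv : v ≠ 0) {σ : ℝ} (hσ : σ ≠ 0) : LinearMap.det (Phi v σ) ≠ 0 := by
  have h : LinearMap.det (Phi v σ) * LinearMap.det (Psi v σ) = 1 := by
    rw [← LinearMap.det_comp]
    have : (Phi v σ) ∘ₗ (Psi v σ) = LinearMap.id := LinearMap.ext fun p => Phi_Psi hv hσ p
    rw [this, LinearMap.det_id]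
  exact left_ne_zero_of_mul_eq_one h

theorem emb_Phi {v : E n} (hv : v ≠ 0) {σ : ℝ} (hσ : σ ≠ 0) : MeasurableEmbedding (Phi v σ) := by
  have hc : Continuous (Phi v σ) := LinearMap.continuous_of_finiteDimensional _
  exact hc.measurableEmbedding (Function.LeftInverse.injective (Psi_Phi hv hσ))

theorem cv_aux {v : E n} (hv : v ≠ 0) {σ : ℝ} (hσ : σ ≠ 0) (G : E n × ℝ → ℝ) :
    (∫ p, G (Phi v σ p)) = |(LinearMap.det (Phi v σ))⁻¹| * ∫ q, G q ∧
      (Integrable G → Integrable (fun p => G (Phi v σ p))) := by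
  have : (volume : Measure (E n × ℝ)).IsAddHaarMeasure := by
    rw [Measure.volume_eq_prod]; infer_instance
  have hm := Measure.map_linearMap_addHaar_eq_smul_addHaar (volume : Measure (E n × ℝ))
    (det_Phi_ne hv hσ)
  have he := emb_Phi hv hσ
  constructor
  · rw [← he.integral_map, hm, integral_smul_measure, ENNReal.toReal_ofReal (abs_nonneg _),
      smul_eq_mul]
  · intro hG
    have h2 : Integrable G (Measure.map (Phi v σ) volume) := by
      rw [hm]
      exact hG.smul_measure ENNReal.ofReal_ne_top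
    exact (he.integrable_map_iff).1 h2

theorem norm_sq_split {v : E n} (hv : v ≠ 0) {σ : ℝ} (hσ : σ ≠ 0) (z : E n) (t : ℝ) :
    ‖z‖ ^ 2 = ‖pr v (t • uu v + σ • pr v z)‖ ^ 2 / σ ^ 2 + (inner ℝ v z) ^ 2 * ‖uu v‖ ^ 2 := by
  have h1 : pr v (t • uu v + σ • pr v z) = σ • pr v z := by
    rw [map_add, map_smul, map_smul, pr_uu hv, pr_pr hv]; simp
  rw [h1, norm_smul, mul_pow, Real.norm_eq_abs, sq_abs]
  conv_lhs => rw [← pr_add v z]
  rw [norm_add_sq_real, inner_smul_right, real_inner_comm (uu v) (pr v z), inner_uu_pr hv, norm_smul,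
    mul_pow,
    Real.norm_eq_abs, sq_abs]
  field_simp
  ring

/-- **change of variables** -/
theorem cv {U : E n → ℝ} {c C : ℝ} (h : Reg U c C) {v : E n} (hv : v ≠ 0) {σ : ℝ} (hσ : 0 < σ) :
    ∃ κ : ℝ, 0 < κ ∧ ∀ φ : ℝ → ℝ,
      Integrable (fun x : E n => φ (inner ℝ v x) * Real.exp (-U x - ‖pr v x‖ ^ 2 / (2 * σ ^ 2))) →
      (∫ t : ℝ, φ t * Real.exp (-heat U (σ • pr v) (t • uu v)))
        = κ * ∫ x : E n, φ (inner ℝ v x) * Real.exp (-U x - ‖pr v x‖ ^ 2 / (2 * σ ^ 2)) := by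
  have hu : uu v ≠ 0 := by
    intro h0
    have := inner_uu hv
    rw [h0, inner_zero_right] at this
    exact zero_ne_one this
  have hun : 0 < ‖uu v‖ ^ 2 := by have := norm_pos_iff.2 hu; positivity
  have hg : Integrable (fun ζ : ℝ => Real.exp (-(‖uu v‖ ^ 2 / 2) * ζ ^ 2)) :=
    integrable_exp_neg_mul_sq (by positivity)
  have hgp : 0 < ∫ ζ : ℝ, Real.exp (-(‖uu v‖ ^ 2 / 2) * ζ ^ 2) := by
    rw [integral_gaussian]
    positivity
  have hdet : 0 < |(LinearMap.det (Phi v σ))⁻¹| := abs_pos.2 (inv_ne_zero (det_Phi_ne hv hσ.ne'))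
  refine ⟨|(LinearMap.det (Phi v σ))⁻¹| * ∫ ζ : ℝ, Real.exp (-(‖uu v‖ ^ 2 / 2) * ζ ^ 2),
    mul_pos hdet hgp, fun φ hφ => ?_⟩
  set G : E n × ℝ → ℝ := fun q => (φ (inner ℝ v q.1) *
    Real.exp (-U q.1 - ‖pr v q.1‖ ^ 2 / (2 * σ ^ 2))) * Real.exp (-(‖uu v‖ ^ 2 / 2) * q.2 ^ 2) with hG
  have hGi : Integrable G := hφ.mul_prod hg
  have hGv : ∫ q, G q = (∫ x : E n, φ (inner ℝ v x) *
      Real.exp (-U x - ‖pr v x‖ ^ 2 / (2 * σ ^ 2))) * ∫ ζ : ℝ, Real.exp (-(‖uu v‖ ^ 2 / 2) * ζ ^ 2) :=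
    integral_prod_mul (fun x : E n => φ (inner ℝ v x) *
      Real.exp (-U x - ‖pr v x‖ ^ 2 / (2 * σ ^ 2))) (fun ζ : ℝ => Real.exp (-(‖uu v‖ ^ 2 / 2) * ζ ^ 2))
  obtain ⟨h1, h2⟩ := cv_aux hv hσ.ne' G
  have h3 := h2 hGi
  have hpt : ∀ (z : E n) (t : ℝ), G (Phi v σ (z, t))
      = φ t * (f U (uu v) 0 (t • uu v + (σ • pr v) z) * Real.exp (-‖z‖ ^ 2 / 2)) := by
    intro z t
    rw [hG, Phi_apply]
    simp only [f, q_zero, one_mul, smul_apply]
    have e1 : inner ℝ v (t • uu v + σ • pr v z) = t := by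
      rw [inner_add_right, inner_smul_right, inner_smul_right, inner_uu hv, inner_pr hv]; ring
    rw [e1, mul_assoc, ← Real.exp_add, ← Real.exp_add]
    congr 2
    rw [norm_sq_split hv hσ.ne' z t]
    have := hσ.ne'
    field_simp
    ring
  have h4 : (∫ p, G (Phi v σ p)) = ∫ t : ℝ, φ t * Real.exp (-heat U (σ • pr v) (t • uu v)) := by
    rw [Measure.volume_eq_prod, integral_prod_symm _ (by rw [← Measure.volume_eq_prod]; exact h3)]
    refine integral_congr_ae (Eventually.of_forall fun t => ?_)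
    simp only [hpt]
    rw [integral_const_mul, heat_eq U (uu v), neg_neg, Real.exp_log (H_zero_pos h _ _ _)]
    rfl
  rw [← h4, h1, hGv]
  ring

end Vale.Agent.P227.M.HL
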