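import Vale.Agent.P227.M.SC2.HeatLine
import Vale.Agent.P227.M.Lap.LD
import Vale.Agent.P227.M.LK.LogConvE

/-! # P227/M/SC2: lower bound of the second derivative of `heat` on a line orthogonal to the noise
(helper204). -/

open MeasureTheory Filter Topology

namespace Vale.Agent.P227.M.HL

variable {n : ℕ}

/-- strong convexity of a regular potential -/
theorem reg_convex {U : E n → ℝ} {c C : ℝ} (h : Reg U c C) {s t : ℝ} (hs : 0 ≤ s) (ht : 0 ≤ t)
    (hst : s + t = 1) (a b : E n) :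
    U (s • a + t • b) + c / 2 * (s * t) * ‖a - b‖ ^ 2 ≤ s * U a + t * U b := by
  set x := s • a + t • b with hx
  have h1 := (Lap.taylor_bounds h x (a - x)).1
  have h2 := (Lap.taylor_bounds h x (b - x)).1
  rw [add_sub_cancel] at h1 h2
  have hs1 : s = 1 - t := by linarith
  have e1 : a - x = t • (a - b) := by
    rw [hx, hs1, sub_smul, one_smul, smul_sub]; abel
  have e2 : b - x = (-s) • (a - b) := by
    have : t = 1 - s := by linarith
    rw [hx, this, sub_smul, one_smul, neg_smul, smul_sub]; abel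
  rw [e1, map_smul, norm_smul, smul_eq_mul, Real.norm_eq_abs, mul_pow, sq_abs] at h1
  rw [e2, map_smul, norm_smul, smul_eq_mul, Real.norm_eq_abs, mul_pow, sq_abs] at h2
  have h3 := mul_le_mul_of_nonneg_left h1 hs
  have h4 := mul_le_mul_of_nonneg_left h2 ht
  have e5 : s * (c / 2 * (t ^ 2 * ‖a - b‖ ^ 2)) + t * (c / 2 * ((-s) ^ 2 * ‖a - b‖ ^ 2))
      = c / 2 * (s * t) * ‖a - b‖ ^ 2 * (s + t) := by ring
  rw [hst, mul_one] at e5
  have e6 : s * (U a - U x - t * (fderiv ℝ U x) (a - b)) + t * (U b - U x - -s * (fderiv ℝ U x) (a - b))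
      = s * U a + t * U b - (s + t) * U x := by ring
  rw [hst, one_mul] at e6
  linarith

theorem monotone_deriv_nonneg {F : ℝ → ℝ} (hF : Monotone F) {d x : ℝ} (hd : HasDerivAt F d x) :
    0 ≤ d := by
  have h1 := hd.tendsto_slope
  refine ge_of_tendsto h1 ?_
  filter_upwards [self_mem_nhdsWithin] with y hy
  rcases lt_or_gt_of_ne hy with h | h
  · rw [slope_def_field]
    exact div_nonneg_of_nonpos (by linarith [hF h.le]) (by linarith)
  · rw [slope_def_field]
    exact div_nonneg (by linarith [hF h.le]) (by linarith)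

theorem second_nonneg_of_convex {F F1 : ℝ → ℝ} (hc : ConvexOn ℝ Set.univ F)
    (h1 : ∀ t, HasDerivAt F (F1 t) t) {d t : ℝ} (h2 : HasDerivAt F1 d t) : 0 ≤ d := by
  refine monotone_deriv_nonneg ?_ h2
  intro x y hxy
  rcases hxy.eq_or_lt with rfl | hlt
  · exact le_rfl
  have a1 := hc.le_slope_of_hasDerivAt (Set.mem_univ x) (Set.mem_univ y) hlt (h1 x)
  have a2 := hc.slope_le_of_hasDerivAt (Set.mem_univ x) (Set.mem_univ y) hlt (h1 y)
  exact a1.trans a2

theorem w2_lower {U : E n → ℝ} {c C : ℝ} (h : Reg U c C) (u : E n) (Q : E n →L[ℝ] E n)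
    (hQ : ∀ z, inner ℝ u (Q z) = 0) (t : ℝ) : c * ‖u‖ ^ 2 ≤ w2 U u Q (t • u) := by
  have hcp := h.c_pos
  have hUc := h.cont
  set F : ℝ → E n → ℝ := fun t z => U (t • u + Q z) + ‖z‖ ^ 2 / 2 - c / 2 * (t ^ 2 * ‖u‖ ^ 2) with hF
  have hconv : ∀ y0 y1 x0 x1, ∀ s t : ℝ, 0 < s → 0 < t → s + t = 1 →
      F (s • y0 + t • y1) (s • x0 + t • x1) ≤ s * F y0 x0 + t * F y1 x1 := by
    intro y0 y1 x0 x1 s t hs ht hst
    have e1 : (s • y0 + t • y1) • u + Q (s • x0 + t • x1)
        = s • (y0 • u + Q x0) + t • (y1 • u + Q x1) := by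
      simp only [smul_eq_mul, map_add, map_smul, smul_add, add_smul, smul_smul]; abel
    have h1 := reg_convex h hs.le ht.le hst (y0 • u + Q x0) (y1 • u + Q x1)
    have e2 : (y0 • u + Q x0) - (y1 • u + Q x1) = (y0 - y1) • u + Q (x0 - x1) := by
      rw [sub_smul, map_sub]; abel
    have h2 : (y0 - y1) ^ 2 * ‖u‖ ^ 2 ≤ ‖(y0 • u + Q x0) - (y1 • u + Q x1)‖ ^ 2 := by
      rw [e2, norm_add_sq_real, inner_smul_left, hQ, norm_smul, mul_pow, Real.norm_eq_abs, sq_abs]
      simp only [mul_zero, add_zero]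
      nlinarith [sq_nonneg ‖Q (x0 - x1)‖]
    have h3 : ‖s • x0 + t • x1‖ ^ 2 ≤ s * ‖x0‖ ^ 2 + t * ‖x1‖ ^ 2 := by
      have h31 : ‖s • x0 + t • x1‖ ≤ s * ‖x0‖ + t * ‖x1‖ := by
        refine (norm_add_le _ _).trans ?_
        rw [norm_smul, norm_smul, Real.norm_of_nonneg hs.le, Real.norm_of_nonneg ht.le]
      have h32 : ‖s • x0 + t • x1‖ ^ 2 ≤ (s * ‖x0‖ + t * ‖x1‖) ^ 2 :=
        pow_le_pow_left₀ (norm_nonneg _) h31 2
      have h33 : s * ‖x0‖ ^ 2 + t * ‖x1‖ ^ 2 - (s * ‖x0‖ + t * ‖x1‖) ^ 2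
          = s * t * (‖x0‖ - ‖x1‖) ^ 2 := by
        have : s = 1 - t := by linarith
        rw [this]; ring
      nlinarith [mul_nonneg (mul_nonneg hs.le ht.le) (sq_nonneg (‖x0‖ - ‖x1‖))]
    simp only [hF]
    rw [e1]
    have h5 : s * y0 ^ 2 + t * y1 ^ 2 - (s • y0 + t • y1) ^ 2 = s * t * (y0 - y1) ^ 2 := by
      have : s = 1 - t := by linarith
      simp only [smul_eq_mul]
      rw [this]; ring
    have h6 := mul_le_mul_of_nonneg_left h2 (show 0 ≤ c / 2 * (s * t) by positivity)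
    have h7 : c / 2 * ((s • y0 + t • y1) ^ 2 * ‖u‖ ^ 2)
        = c / 2 * ((s * y0 ^ 2 + t * y1 ^ 2 - s * t * (y0 - y1) ^ 2) * ‖u‖ ^ 2) := by
      rw [← h5]; ring
    rw [h7]
    nlinarith [h1, h6, h3]
  have hcF : ∀ y, Continuous (F y) := by
    intro y
    simp only [hF]
    fun_prop
  have hexp : ∀ y z, Real.exp (-F y z)
      = Real.exp (c / 2 * (y ^ 2 * ‖u‖ ^ 2)) * (f U u 0 (y • u + Q z) * Real.exp (-‖z‖ ^ 2 / 2)) := by
    intro y z
    simp only [hF, f, q_zero, one_mul]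
    rw [← Real.exp_add, ← Real.exp_add]
    congr 1
    ring
  have hint : ∀ y, Integrable (fun z => Real.exp (-F y z)) := by
    intro y
    simp only [hexp]
    exact (integrable_H h u Q 0 (y • u)).const_mul _
  have hP := LKE.convexOn_neg_log_integral_exp_neg F hconv (fun y => (hcF y).measurable) hint
  have hval : (fun y : ℝ => -Real.log (∫ z, Real.exp (-F y z)))
      = fun y : ℝ => heat U Q (0 + y • u) - c / 2 * (y ^ 2 * ‖u‖ ^ 2) := by
    funext y
    simp only [hexp]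
    rw [integral_const_mul, Real.log_mul (Real.exp_ne_zero _), Real.log_exp, heat_eq U u Q, zero_add]
    · unfold H
      ring
    · have := H_zero_pos h u Q (y • u)
      unfold H at this
      exact this.ne'
  rw [hval] at hP
  have d1 : ∀ t : ℝ, HasDerivAt (fun y : ℝ => heat U Q (0 + y • u) - c / 2 * (y ^ 2 * ‖u‖ ^ 2))
      (w1 U u Q (0 + t • u) - c * ‖u‖ ^ 2 * t) t := by
    intro t
    have := (hasDerivAt_heat h u Q 0 t).sub ((((hasDerivAt_id t).pow 2).mul_const (‖u‖ ^ 2)).const_mul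
      (c / 2))
    refine HasDerivAt.congr_deriv (f := fun y : ℝ => heat U Q (0 + y • u) - c / 2 * (y ^ 2 * ‖u‖ ^ 2))
      this ?_
    simp
    ring
  have d2 : HasDerivAt (fun t : ℝ => w1 U u Q (0 + t • u) - c * ‖u‖ ^ 2 * t)
      (w2 U u Q (0 + t • u) - c * ‖u‖ ^ 2) t := by
    have := (hasDerivAt_w1 h u Q 0 t).sub ((hasDerivAt_id t).const_mul (c * ‖u‖ ^ 2))
    refine HasDerivAt.congr_deriv (f := fun t : ℝ => w1 U u Q (0 + t • u) - c * ‖u‖ ^ 2 * t) this ?_
    simp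
  have := second_nonneg_of_convex hP d1 d2
  rw [zero_add] at this
  linarith

end Vale.Agent.P227.M.HL
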