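import Vale.Agent.P227.M.Bas
import Vale.Agent.P227.M.LK.Line

/-! # P227/M/SC2: linear tilts of regular self-concordant potentials (helper204). -/

open MeasureTheory Filter Topology

namespace Vale.Agent.P227.M.HL

variable {n : ℕ}

/-- tilt -/
noncomputable def tl (W : E n → ℝ) (y : E n) (x : E n) : ℝ := W x - inner ℝ y x

theorem contDiff_tl {W : E n → ℝ} (hW : ContDiff ℝ (⊤ : ℕ∞) W) (y : E n) :
    ContDiff ℝ (⊤ : ℕ∞) (tl W y) :=
  hW.sub (innerSL ℝ y).contDiff

theorem iter_tl {W : E n → ℝ} (hW : ContDiff ℝ (⊤ : ℕ∞) W) (y : E n) {k : ℕ} (hk : 2 ≤ k) (x : E n) :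
    iteratedFDeriv ℝ k (tl W y) x = iteratedFDeriv ℝ k W x := by
  have h1 : iteratedFDeriv ℝ k (fun x : E n => innerSL ℝ y x) x = 0 := by
    obtain ⟨m, rfl⟩ : ∃ m, k = m + 2 := ⟨k - 2, by omega⟩
    have h2 : fderiv ℝ (fun x : E n => innerSL ℝ y x) = fun _ => innerSL ℝ y := by
      funext z; exact (innerSL ℝ y).fderiv
    have h3 : ‖iteratedFDeriv ℝ (m + 1 + 1) (fun x : E n => innerSL ℝ y x) x‖ = 0 := by
      rw [← norm_iteratedFDeriv_fderiv, h2, iteratedFDeriv_const_of_ne (by omega)]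
      simp
    exact norm_eq_zero.1 h3
  have h4 : tl W y = W - (fun x : E n => innerSL ℝ y x) := by
    funext z; simp [tl]
  have hk' : (k : WithTop ℕ∞) ≤ (⊤ : ℕ∞) := by exact_mod_cast le_top
  rw [h4, iteratedFDeriv_sub_apply (hW.of_le hk').contDiffAt (innerSL ℝ y).contDiff.contDiffAt, h1,
    sub_zero]

theorem qf_tl {W : E n → ℝ} (hW : ContDiff ℝ (⊤ : ℕ∞) W) (y x v : E n) :
    qf (hess (tl W y) x) v = qf (hess W x) v := by
  rw [← LK.iteratedDeriv_two_line (contDiff_tl hW y), LK.iteratedDeriv_line_zero (contDiff_tl hW y),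
    iter_tl hW y le_rfl, ← LK.iteratedDeriv_line_zero hW, LK.iteratedDeriv_two_line hW]

theorem reg_tl {W : E n → ℝ} {c C : ℝ} (h : Reg W c C) (y : E n) : Reg (tl W y) c C where
  c_pos := h.c_pos
  smooth := contDiff_tl h.smooth y
  lower x v := by rw [qf_tl h.smooth]; exact h.lower x v
  upper x v := by rw [qf_tl h.smooth]; exact h.upper x v
  bdd k hk := by
    obtain ⟨B, hB⟩ := h.bdd k hk
    exact ⟨B, fun x => by rw [iter_tl h.smooth y hk]; exact hB x⟩

theorem selfConc_tl {W : E n → ℝ} (hW : ContDiff ℝ (⊤ : ℕ∞) W) {κ : ℝ} (hs : SelfConc κ W) (y : E n) :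
    SelfConc κ (tl W y) := by
  intro x v
  have h := hs x v
  rw [LK.iteratedDeriv_line_zero hW, LK.iteratedDeriv_line_zero hW] at h
  rw [LK.iteratedDeriv_line_zero (contDiff_tl hW y), LK.iteratedDeriv_line_zero (contDiff_tl hW y),
    iter_tl hW y le_rfl, iter_tl hW y (by norm_num)]
  exact h

end Vale.Agent.P227.M.HL
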