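import Vale.Agent.P227.M.Stmts
import Vale.Agent.P227.M.SC1
import Vale.Agent.P227.M.SC2.HeatConv
import Vale.Agent.P227.M.SC2.HeatCV
import Vale.Agent.P227.M.SC2.Tilt

/-! # P227/M/SC2: `StmtHeat` and the one-dimensional third moment lemma give `StmtSC` (helper204). -/

open MeasureTheory Filter Topology

namespace Vale.Agent.P227.M.HL

variable {n : ℕ}

/-- moments of `⟨v, x⟩` for `exp (-U - ‖pr x‖² / (2σ²))` -/
noncomputable def A (U : E n → ℝ) (v : E n) (σ : ℝ) (j : ℕ) : ℝ :=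
  ∫ x : E n, (inner ℝ v x) ^ j * Real.exp (-U x - ‖pr v x‖ ^ 2 / (2 * σ ^ 2))

/-- limit moments -/
noncomputable def Ai (U : E n → ℝ) (v : E n) (j : ℕ) : ℝ :=
  ∫ x : E n, (inner ℝ v x) ^ j * Real.exp (-U x)

theorem gr_inner_pow (v : E n) (j : ℕ) : Gr (fun x : E n => (inner ℝ v x) ^ j) := by
  refine Gr.pow (f := fun x : E n => inner ℝ v x) ?_ j
  refine ⟨by fun_prop, ‖v‖, 1, norm_nonneg _, fun x => ?_⟩
  rw [pow_one]
  have h1 := abs_real_inner_le_norm v x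
  have h2 := norm_nonneg v
  have h3 := norm_nonneg x
  nlinarith

theorem integrable_Ai {U : E n → ℝ} {c C : ℝ} (h : Reg U c C) (v : E n) (j : ℕ) :
    Integrable (fun x : E n => (inner ℝ v x) ^ j * Real.exp (-U x)) :=
  h.integrable_gr (gr_inner_pow v j)

theorem dom_A (U : E n → ℝ) (v : E n) (σ : ℝ) (j : ℕ) (x : E n) :
    ‖(inner ℝ v x) ^ j * Real.exp (-U x - ‖pr v x‖ ^ 2 / (2 * σ ^ 2))‖
      ≤ |(inner ℝ v x) ^ j * Real.exp (-U x)| := by
  rw [Real.norm_eq_abs, abs_mul, abs_mul, Real.abs_exp, Real.abs_exp]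
  refine mul_le_mul_of_nonneg_left (Real.exp_le_exp.2 ?_) (abs_nonneg _)
  have : 0 ≤ ‖pr v x‖ ^ 2 / (2 * σ ^ 2) := by positivity
  linarith

theorem aesm_A {U : E n → ℝ} {c C : ℝ} (h : Reg U c C) (v : E n) (σ : ℝ) (j : ℕ) :
    AEStronglyMeasurable
      (fun x : E n => (inner ℝ v x) ^ j * Real.exp (-U x - ‖pr v x‖ ^ 2 / (2 * σ ^ 2))) volume := by
  have hc := h.cont
  have : Continuous
      (fun x : E n => (inner ℝ v x) ^ j * Real.exp (-U x - ‖pr v x‖ ^ 2 / (2 * σ ^ 2))) := by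
    fun_prop
  exact this.aestronglyMeasurable

theorem integrable_A {U : E n → ℝ} {c C : ℝ} (h : Reg U c C) (v : E n) (σ : ℝ) (j : ℕ) :
    Integrable
      (fun x : E n => (inner ℝ v x) ^ j * Real.exp (-U x - ‖pr v x‖ ^ 2 / (2 * σ ^ 2))) :=
  (integrable_Ai h v j).abs.mono' (aesm_A h v σ j) (Eventually.of_forall (dom_A U v σ j))

theorem tendsto_A {U : E n → ℝ} {c C : ℝ} (h : Reg U c C) (v : E n) (j : ℕ) :
    Tendsto (fun k : ℕ => A U v ((k : ℝ) + 1) j) atTop (𝓝 (Ai U v j)) := by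
  refine tendsto_integral_of_dominated_convergence
    (fun x => |(inner ℝ v x) ^ j * Real.exp (-U x)|) (fun k => aesm_A h v _ j)
    (integrable_Ai h v j).abs (fun k => Eventually.of_forall (dom_A U v _ j))
    (Eventually.of_forall fun x => ?_)
  refine Tendsto.const_mul _ ?_
  have h1 : Tendsto (fun k : ℕ => ‖pr v x‖ ^ 2 / (2 * ((k : ℝ) + 1) ^ 2)) atTop (𝓝 0) := by
    have h2 : Tendsto (fun k : ℕ => (2 * ((k : ℝ) + 1) ^ 2)) atTop atTop := by
      refine Tendsto.const_mul_atTop (by norm_num) ?_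
      exact (tendsto_pow_atTop (by norm_num)).comp
        (tendsto_atTop_add_const_right _ _ tendsto_natCast_atTop_atTop)
    exact h2.const_div_atTop _
  have h3 := (tendsto_const_nhds (x := -U x)).sub h1
  rw [sub_zero] at h3
  exact (Real.continuous_exp.tendsto _).comp h3

theorem Ai_pos {U : E n → ℝ} {c C : ℝ} (h : Reg U c C) (v : E n) : 0 < Ai U v 0 := by
  have := h.Z_pos
  simpa [Ai] using this

theorem A_pos {U : E n → ℝ} {c C : ℝ} (h : Reg U c C) (v : E n) (σ : ℝ) : 0 < A U v σ 0 := by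
  unfold A
  rw [integral_pos_iff_support_of_nonneg (fun x => by positivity) (integrable_A h v σ 0)]
  have : Function.support (fun x : E n =>
      (inner ℝ v x) ^ 0 * Real.exp (-U x - ‖pr v x‖ ^ 2 / (2 * σ ^ 2))) = Set.univ := by
    ext x
    simp [Real.exp_ne_zero]
  rw [this]
  exact isOpen_univ.measure_pos volume ⟨0, trivial⟩

/-- integral of a cubic polynomial in `⟨v, x⟩` -/
theorem poly_A {U : E n → ℝ} {c C : ℝ} (h : Reg U c C) (v : E n) (σ : ℝ) (a0 a1 a2 a3 : ℝ) :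
    Integrable (fun x : E n => (a0 + a1 * inner ℝ v x + a2 * (inner ℝ v x) ^ 2 +
      a3 * (inner ℝ v x) ^ 3) * Real.exp (-U x - ‖pr v x‖ ^ 2 / (2 * σ ^ 2))) ∧
    (∫ x : E n, (a0 + a1 * inner ℝ v x + a2 * (inner ℝ v x) ^ 2 +
      a3 * (inner ℝ v x) ^ 3) * Real.exp (-U x - ‖pr v x‖ ^ 2 / (2 * σ ^ 2)))
      = a0 * A U v σ 0 + a1 * A U v σ 1 + a2 * A U v σ 2 + a3 * A U v σ 3 := by
  have i0 := (integrable_A h v σ 0).const_mul a0
  have i1 := (integrable_A h v σ 1).const_mul a1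
  have i2 := (integrable_A h v σ 2).const_mul a2
  have i3 := (integrable_A h v σ 3).const_mul a3
  have e : (fun x : E n => (a0 + a1 * inner ℝ v x + a2 * (inner ℝ v x) ^ 2 +
      a3 * (inner ℝ v x) ^ 3) * Real.exp (-U x - ‖pr v x‖ ^ 2 / (2 * σ ^ 2)))
      = fun x : E n => a0 * ((inner ℝ v x) ^ 0 * Real.exp (-U x - ‖pr v x‖ ^ 2 / (2 * σ ^ 2)))
        + a1 * ((inner ℝ v x) ^ 1 * Real.exp (-U x - ‖pr v x‖ ^ 2 / (2 * σ ^ 2)))
        + a2 * ((inner ℝ v x) ^ 2 * Real.exp (-U x - ‖pr v x‖ ^ 2 / (2 * σ ^ 2)))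
        + a3 * ((inner ℝ v x) ^ 3 * Real.exp (-U x - ‖pr v x‖ ^ 2 / (2 * σ ^ 2))) := by
    funext x; ring
  rw [e]
  refine ⟨((i0.add i1).add i2).add i3, ?_⟩
  have j1 : Integrable (fun x : E n =>
      a0 * ((inner ℝ v x) ^ 0 * Real.exp (-U x - ‖pr v x‖ ^ 2 / (2 * σ ^ 2)))
        + a1 * ((inner ℝ v x) ^ 1 * Real.exp (-U x - ‖pr v x‖ ^ 2 / (2 * σ ^ 2)))) := i0.add i1
  have j2 : Integrable (fun x : E n =>
      a0 * ((inner ℝ v x) ^ 0 * Real.exp (-U x - ‖pr v x‖ ^ 2 / (2 * σ ^ 2)))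
        + a1 * ((inner ℝ v x) ^ 1 * Real.exp (-U x - ‖pr v x‖ ^ 2 / (2 * σ ^ 2)))
        + a2 * ((inner ℝ v x) ^ 2 * Real.exp (-U x - ‖pr v x‖ ^ 2 / (2 * σ ^ 2)))) := j1.add i2
  rw [integral_add j2 i3, integral_add j1 i2, integral_add i0 i1,
    integral_const_mul, integral_const_mul, integral_const_mul, integral_const_mul]
  rfl

/-- finite `σ` -/
theorem third_A {U : E n → ℝ} {c C : ℝ} (h : Reg U c C) {v : E n} (hv : v ≠ 0) {σ : ℝ} (hσ : 0 < σ)
    {κ : ℝ} (hκ : 0 < κ) (hs : SelfConc κ (heat U (σ • pr v))) :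
    |A U v σ 3 / A U v σ 0 - 3 * (A U v σ 1 / A U v σ 0) * (A U v σ 2 / A U v σ 0)
        + 2 * (A U v σ 1 / A U v σ 0) ^ 3|
      ≤ 2 * κ * √(A U v σ 2 / A U v σ 0 - (A U v σ 1 / A U v σ 0) ^ 2) ^ 3 := by
  have hcp := h.c_pos
  obtain ⟨K, hK, hcv⟩ := cv h hv hσ
  set P := σ • pr v with hP
  set u := uu v with hu
  have huP : ∀ z, inner ℝ u (P z) = 0 := by
    intro z
    rw [hP, hu, smul_apply, inner_smul_right, inner_uu_pr hv, mul_zero]
  have hu0 : u ≠ 0 := by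
    intro h0
    have h1 := inner_uu hv
    rw [← hu, h0, inner_zero_right] at h1
    exact zero_ne_one h1
  have hun : 0 < ‖u‖ ^ 2 := by have := norm_pos_iff.2 hu0; positivity
  have hlow : ∀ t : ℝ, c * ‖u‖ ^ 2 ≤ w2 U u P (t • u) := w2_lower h u P huP
  have d0 : ∀ t : ℝ, HasDerivAt (fun t : ℝ => heat U P (t • u)) (w1 U u P (t • u)) t := fun t => by
    simpa using hasDerivAt_heat h u P 0 t
  have d1 : ∀ t : ℝ, HasDerivAt (fun t : ℝ => w1 U u P (t • u)) (w2 U u P (t • u)) t := fun t => by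
    simpa using hasDerivAt_w1 h u P 0 t
  have d2 : ∀ t : ℝ, HasDerivAt (fun t : ℝ => w2 U u P (t • u)) (w3 U u P (t • u)) t := fun t => by
    simpa using hasDerivAt_w2 h u P 0 t
  have hsc : ∀ t : ℝ, |w3 U u P (t • u)| ≤ 2 * κ * √(w2 U u P (t • u)) ^ 3 := by
    intro t
    have := hs (t • u) u
    rw [iteratedDeriv_two_heat h, iteratedDeriv_three_heat h, LK.rpow_three_half] at this
    · exact this
    · exact le_trans (by positivity) (hlow t)
  set A0 := A U v σ 0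
  set A1 := A U v σ 1
  set A2 := A U v σ 2
  set A3 := A U v σ 3
  have hA0 : 0 < A0 := A_pos h v σ
  set m := A1 / A0 with hm
  have v0 : (∫ t : ℝ, Real.exp (-heat U P (t • u))) = K * A0 := by
    obtain ⟨i, e⟩ := poly_A h v σ 1 0 0 0
    have h1 := hcv (fun t => 1 + 0 * t + 0 * t ^ 2 + 0 * t ^ 3) i
    simp only [e] at h1
    simpa using h1
  have v1 : (∫ t : ℝ, t * Real.exp (-heat U P (t • u))) = K * A1 := by
    obtain ⟨i, e⟩ := poly_A h v σ 0 1 0 0
    have h1 := hcv (fun t => 0 + 1 * t + 0 * t ^ 2 + 0 * t ^ 3) i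
    simp only [e] at h1
    simpa using h1
  have v2 : (∫ t : ℝ, (t - m) ^ 2 * Real.exp (-heat U P (t • u)))
      = K * (m ^ 2 * A0 - 2 * m * A1 + A2) := by
    obtain ⟨i, e⟩ := poly_A h v σ (m ^ 2) (-(2 * m)) 1 0
    have h1 := hcv (fun t => m ^ 2 + -(2 * m) * t + 1 * t ^ 2 + 0 * t ^ 3) i
    simp only [e] at h1
    have e2 : (fun t : ℝ => (t - m) ^ 2 * Real.exp (-heat U P (t • u)))
        = fun t => (m ^ 2 + -(2 * m) * t + 1 * t ^ 2 + 0 * t ^ 3) * Real.exp (-heat U P (t • u)) := by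
      funext t; ring
    rw [e2, h1]; ring
  have v3 : (∫ t : ℝ, (t - m) ^ 3 * Real.exp (-heat U P (t • u)))
      = K * (-m ^ 3 * A0 + 3 * m ^ 2 * A1 - 3 * m * A2 + A3) := by
    obtain ⟨i, e⟩ := poly_A h v σ (-m ^ 3) (3 * m ^ 2) (-(3 * m)) 1
    have h1 := hcv (fun t => -m ^ 3 + 3 * m ^ 2 * t + -(3 * m) * t ^ 2 + 1 * t ^ 3) i
    simp only [e] at h1
    have e2 : (fun t : ℝ => (t - m) ^ 3 * Real.exp (-heat U P (t • u)))
        = fun t => (-m ^ 3 + 3 * m ^ 2 * t + -(3 * m) * t ^ 2 + 1 * t ^ 3) *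
          Real.exp (-heat U P (t • u)) := by
      funext t; ring
    rw [e2, h1]; ring
  have key := SC1.third_le_sc (W := fun t => heat U P (t • u)) (W1 := fun t => w1 U u P (t • u))
    (W2 := fun t => w2 U u P (t • u)) (W3 := fun t => w3 U u P (t • u)) (c0 := c * ‖u‖ ^ 2) (c := κ)
    d0 d1 d2 (by positivity) hlow hκ hsc (Z := K * A0) (m := m)
    (v := (K * (m ^ 2 * A0 - 2 * m * A1 + A2)) / (K * A0)) v0.symm
    (by rw [v1, hm]; field_simp) (by rw [v2])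
  rw [v3] at key
  have e3 : (K * (-m ^ 3 * A0 + 3 * m ^ 2 * A1 - 3 * m * A2 + A3)) / (K * A0)
      = A3 / A0 - 3 * m * (A2 / A0) + 2 * m ^ 3 := by
    have : A1 = m * A0 := by rw [hm]; field_simp
    rw [this]
    field_simp
    ring
  have e2 : (K * (m ^ 2 * A0 - 2 * m * A1 + A2)) / (K * A0) = A2 / A0 - m ^ 2 := by
    have : A1 = m * A0 := by rw [hm]; field_simp
    rw [this]
    field_simp
    ring
  rw [e3, e2] at key
  exact key

/-- limit `σ → ∞` -/
theorem third_Ai {U : E n → ℝ} {c C : ℝ} (h : Reg U c C) {v : E n} (hv : v ≠ 0)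
    {κ : ℝ} (hκ : 0 < κ) (hs : ∀ P : E n →L[ℝ] E n, SelfConc κ (heat U P)) :
    |Ai U v 3 / Ai U v 0 - 3 * (Ai U v 1 / Ai U v 0) * (Ai U v 2 / Ai U v 0)
        + 2 * (Ai U v 1 / Ai U v 0) ^ 3|
      ≤ 2 * κ * √(Ai U v 2 / Ai U v 0 - (Ai U v 1 / Ai U v 0) ^ 2) ^ 3 := by
  have h0 := (Ai_pos h v).ne'
  have t0 := tendsto_A h v 0
  have t1 := (tendsto_A h v 1).div t0 h0
  have t2 := (tendsto_A h v 2).div t0 h0
  have t3 := (tendsto_A h v 3).div t0 h0
  have hL := ((t3.sub ((t1.const_mul 3).mul t2)).add ((t1.pow 3).const_mul 2)).abs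
  have hR := (((Real.continuous_sqrt.tendsto _).comp (t2.sub (t1.pow 2))).pow 3).const_mul (2 * κ)
  refine le_of_tendsto_of_tendsto' hL hR fun k => ?_
  exact third_A h hv (by positivity) hκ (hs _)

/-- constant `κ ≥ 0` -/
theorem third_Ai' {U : E n → ℝ} {c C : ℝ} (h : Reg U c C) {v : E n} (hv : v ≠ 0)
    {κ : ℝ} (hκ : 0 ≤ κ) (hs : ∀ P : E n →L[ℝ] E n, SelfConc κ (heat U P)) :
    |Ai U v 3 / Ai U v 0 - 3 * (Ai U v 1 / Ai U v 0) * (Ai U v 2 / Ai U v 0)
        + 2 * (Ai U v 1 / Ai U v 0) ^ 3|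
      ≤ 2 * κ * √(Ai U v 2 / Ai U v 0 - (Ai U v 1 / Ai U v 0) ^ 2) ^ 3 := by
  have key : ∀ k : ℕ, |Ai U v 3 / Ai U v 0 - 3 * (Ai U v 1 / Ai U v 0) * (Ai U v 2 / Ai U v 0)
        + 2 * (Ai U v 1 / Ai U v 0) ^ 3|
      ≤ 2 * (κ + 1 / ((k : ℝ) + 1)) * √(Ai U v 2 / Ai U v 0 - (Ai U v 1 / Ai U v 0) ^ 2) ^ 3 := by
    intro k
    refine third_Ai h hv (by positivity) fun P x w => (hs P x w).trans ?_
    by_cases hneg : 0 ≤ (iteratedDeriv 2 (fun t : ℝ => heat U P (x + t • w)) 0) ^ ((3 : ℝ) / 2)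
    · refine mul_le_mul_of_nonneg_right ?_ hneg
      have : (0 : ℝ) < 1 / ((k : ℝ) + 1) := by positivity
      linarith
    · exfalso
      apply hneg
      by_cases h2 : 0 ≤ iteratedDeriv 2 (fun t : ℝ => heat U P (x + t • w)) 0
      · exact Real.rpow_nonneg h2 _
      · push Not at h2
        rw [Real.rpow_def_of_neg h2]
        have : Real.cos ((3 : ℝ) / 2 * Real.pi) = 0 := by
          rw [show (3 : ℝ) / 2 * Real.pi = Real.pi / 2 + Real.pi by ring, Real.cos_add_pi,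
            Real.cos_pi_div_two, neg_zero]
        rw [this, mul_zero]
  have hlim : Tendsto (fun k : ℕ => 2 * (κ + 1 / ((k : ℝ) + 1)) *
      √(Ai U v 2 / Ai U v 0 - (Ai U v 1 / Ai U v 0) ^ 2) ^ 3) atTop
      (𝓝 (2 * κ * √(Ai U v 2 / Ai U v 0 - (Ai U v 1 / Ai U v 0) ^ 2) ^ 3)) := by
    have h1 : Tendsto (fun k : ℕ => 1 / ((k : ℝ) + 1)) atTop (𝓝 0) :=
      tendsto_one_div_add_atTop_nhds_zero_nat
    have h2 := ((h1.const_add κ).const_mul 2).mul_const
      (√(Ai U v 2 / Ai U v 0 - (Ai U v 1 / Ai U v 0) ^ 2) ^ 3)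
    simpa using h2
  exact ge_of_tendsto' hlim key

/-- moments of the tilted measure -/
theorem tmean_eq (W : E n → ℝ) (y v : E n) : Lap.tmean W y v = Ai (tl W y) v 1 / Ai (tl W y) v 0 := by
  unfold Lap.tmean Ai tl
  congr 1
  · refine integral_congr_ae (Eventually.of_forall fun x => ?_)
    simp only [pow_one]
    rw [real_inner_comm v x, neg_sub, real_inner_comm y x]
  · refine integral_congr_ae (Eventually.of_forall fun x => ?_)
    simp only [pow_zero, one_mul]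
    rw [neg_sub, real_inner_comm y x]

theorem tmom_eq {W : E n → ℝ} {c C : ℝ} (h : Reg W c C) (y v : E n) :
    Lap.tmom W y v 2 = Ai (tl W y) v 2 / Ai (tl W y) v 0 - (Ai (tl W y) v 1 / Ai (tl W y) v 0) ^ 2 ∧
    Lap.tmom W y v 3 = Ai (tl W y) v 3 / Ai (tl W y) v 0
      - 3 * (Ai (tl W y) v 1 / Ai (tl W y) v 0) * (Ai (tl W y) v 2 / Ai (tl W y) v 0)
      + 2 * (Ai (tl W y) v 1 / Ai (tl W y) v 0) ^ 3 := by
  have hU := reg_tl h y
  set U := tl W y with hUd
  have h0 := (Ai_pos hU v).ne'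
  have hm := tmean_eq W y v
  rw [← hUd] at hm
  set m := Ai U v 1 / Ai U v 0 with hmd
  have hA1 : Ai U v 1 = m * Ai U v 0 := by rw [hmd]; field_simp
  have hZ : (∫ x : E n, Real.exp (inner ℝ x y - W x)) = Ai U v 0 := by
    unfold Ai
    refine integral_congr_ae (Eventually.of_forall fun x => ?_)
    simp only [pow_zero, one_mul, hUd, tl]
    rw [neg_sub, real_inner_comm y x]
  have i := fun j => integrable_Ai hU v j
  constructor
  · unfold Lap.tmom
    rw [hZ, hm]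
    have e : (fun x : E n => (inner ℝ x v - m) ^ 2 * Real.exp (inner ℝ x y - W x))
        = fun x => ((inner ℝ v x) ^ 2 * Real.exp (-U x) + m ^ 2 * ((inner ℝ v x) ^ 0 * Real.exp (-U x)))
          - 2 * m * ((inner ℝ v x) ^ 1 * Real.exp (-U x)) := by
      funext x
      simp only [hUd, tl]
      rw [neg_sub, real_inner_comm y x, real_inner_comm v x]
      ring
    have k1 : Integrable (fun x : E n => (inner ℝ v x) ^ 2 * Real.exp (-U x)
        + m ^ 2 * ((inner ℝ v x) ^ 0 * Real.exp (-U x))) := (i 2).add ((i 0).const_mul _)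
    rw [e, integral_sub k1 ((i 1).const_mul _),
      integral_add (i 2) ((i 0).const_mul _), integral_const_mul, integral_const_mul]
    change (Ai U v 2 + m ^ 2 * Ai U v 0 - 2 * m * Ai U v 1) / Ai U v 0 = _
    rw [hA1]
    field_simp
    ring
  · unfold Lap.tmom
    rw [hZ, hm]
    have e : (fun x : E n => (inner ℝ x v - m) ^ 3 * Real.exp (inner ℝ x y - W x))
        = fun x => ((inner ℝ v x) ^ 3 * Real.exp (-U x)
            + 3 * m ^ 2 * ((inner ℝ v x) ^ 1 * Real.exp (-U x)))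
          - (3 * m * ((inner ℝ v x) ^ 2 * Real.exp (-U x))
            + m ^ 3 * ((inner ℝ v x) ^ 0 * Real.exp (-U x))) := by
      funext x
      simp only [hUd, tl]
      rw [neg_sub, real_inner_comm y x, real_inner_comm v x]
      ring
    have k1 : Integrable (fun x : E n => (inner ℝ v x) ^ 3 * Real.exp (-U x)
        + 3 * m ^ 2 * ((inner ℝ v x) ^ 1 * Real.exp (-U x))) := (i 3).add ((i 1).const_mul _)
    have k2 : Integrable (fun x : E n => 3 * m * ((inner ℝ v x) ^ 2 * Real.exp (-U x))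
        + m ^ 3 * ((inner ℝ v x) ^ 0 * Real.exp (-U x))) :=
      ((i 2).const_mul _).add ((i 0).const_mul _)
    rw [e, integral_sub k1 k2,
      integral_add (i 3) ((i 1).const_mul _), integral_add ((i 2).const_mul _) ((i 0).const_mul _),
      integral_const_mul, integral_const_mul, integral_const_mul]
    change (Ai U v 3 + 3 * m ^ 2 * Ai U v 1 - (3 * m * Ai U v 2 + m ^ 3 * Ai U v 0)) / Ai U v 0 = _
    rw [hA1]
    field_simp
    ring

/-- **block SC from the flow statement** -/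
theorem stmtSC_of_heat (H : StmtHeat) : StmtSC := by
  intro n W c C κ h hκ0 hκ1 hs y v
  have e2 := Lap.iteratedDeriv_two_logLap h y v 0
  have e3 := Lap.iteratedDeriv_three_logLap h y v 0
  rw [zero_smul, add_zero] at e2 e3
  rw [e2, e3]
  obtain ⟨m2, m3⟩ := tmom_eq h y v
  have hvar : 0 ≤ Lap.tmom W y v 2 := by
    unfold Lap.tmom
    exact div_nonneg (integral_nonneg fun x => by positivity) (integral_nonneg fun x => by positivity)
  rw [LK.rpow_three_half hvar]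
  by_cases hv : v = 0
  · have : Lap.tmom W y v 3 = 0 := by
      rw [m3, hv]
      simp [Ai]
    rw [this, abs_zero]
    positivity
  · rw [m2, m3]
    exact third_Ai' (reg_tl h y) hv hκ0 fun P =>
      H n (tl W y) c C κ (reg_tl h y) hκ0 hκ1 (selfConc_tl h.smooth hs y) P

end Vale.Agent.P227.M.HL
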