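import Vale.Agent.P227.M.Defs

/-! # P227/M/SC2: target of the flow part of block SC (helper204, on 981's recommendation).

`heat W P x = - log ∫ exp (-W (x + P z) - ‖z‖² / 2) dz` (unnormalised Gaussian average, covariance `P Pᵀ`;
`√s` is inside `P`). `StmtHeat` + the one-dimensional third moment lemma give `StmtSC` (`SC2/MargN.lean`). -/

open MeasureTheory

namespace Vale.Agent.P227.M

/-- unnormalised Gaussian average of `e^{-W}` in the directions of `range P` -/
noncomputable def heat {n : ℕ} (W : E n → ℝ) (P : E n →L[ℝ] E n) (x : E n) : ℝ :=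
  -Real.log (∫ z : E n, Real.exp (-W (x + P z) - ‖z‖ ^ 2 / 2))

/-- the flow keeps the self-concordance constant -/
def StmtHeat : Prop := ∀ (n : ℕ) (W : E n → ℝ) (c C κ : ℝ), Reg W c C → 0 ≤ κ → κ ≤ 1 →
  SelfConc κ W → ∀ P : E n →L[ℝ] E n, SelfConc κ (heat W P)

end Vale.Agent.P227.M
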