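import Vale.Agent.P227.M.Bas
import Vale.Agent.P227.M.LK.Line
import Vale.Agent.P227.M.SC2.HeatDef

/-! # P227/M/SC2: `heat U P` is three times differentiable along lines (helper204). -/

open MeasureTheory Filter Topology

namespace Vale.Agent.P227.M.HL

variable {n : ℕ}

/-- line derivative of order `i` -/
noncomputable def g (U : E n → ℝ) (v : E n) (i : ℕ) (x : E n) : ℝ :=
  iteratedFDeriv ℝ i U x (fun _ => v)

theorem hasDerivAt_g {U : E n → ℝ} (hU : ContDiff ℝ (⊤ : ℕ∞) U) (v : E n) (i : ℕ) (x : E n) (s : ℝ) :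
    HasDerivAt (fun t : ℝ => g U v i (x + t • v)) (g U v (i + 1) (x + s • v)) s := by
  have h1 : (fun t : ℝ => g U v i (x + t • v)) = iteratedDeriv i (fun t : ℝ => U (x + t • v)) := by
    funext t; rw [LK.iteratedDeriv_line hU]; rfl
  have hl : ContDiff ℝ (⊤ : ℕ∞) (fun t : ℝ => U (x + t • v)) :=
    hU.comp (contDiff_const.add (contDiff_id.smul contDiff_const))
  have h2 : Differentiable ℝ (iteratedDeriv i (fun t : ℝ => U (x + t • v))) :=
    hl.differentiable_iteratedDeriv i (by exact_mod_cast (WithTop.coe_lt_top i))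
  rw [h1]
  have h3 := (h2 s).hasDerivAt
  rwa [← iteratedDeriv_succ, LK.iteratedDeriv_line hU] at h3

theorem g_zero (U : E n → ℝ) (v : E n) : g U v 0 = U := by
  funext x; simp [g]

theorem cont_g {U : E n → ℝ} (hU : ContDiff ℝ (⊤ : ℕ∞) U) (v : E n) (i : ℕ) : Continuous (g U v i) := by
  have h1 : Continuous (iteratedFDeriv ℝ i U) :=
    hU.continuous_iteratedFDeriv (by exact_mod_cast le_top)
  exact (ContinuousMultilinearMap.apply ℝ (fun _ : Fin i => E n) ℝ (fun _ => v)).continuous.comp h1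

theorem gr_g {U : E n → ℝ} {c C : ℝ} (h : Reg U c C) (v : E n) (i : ℕ) (hi : 1 ≤ i) :
    Gr (g U v i) := by
  rcases Nat.lt_or_ge i 2 with h2 | h2
  · have hi1 : i = 1 := by omega
    subst hi1
    obtain ⟨B, hB⟩ := h.bdd 2 le_rfl
    have hB0 : 0 ≤ B := (norm_nonneg _).trans (hB 0)
    refine ⟨cont_g h.smooth v 1, (‖fderiv ℝ U 0‖ + B) * ‖v‖, 1, by positivity, fun x => ?_⟩
    have h3 := norm_fderiv_le h.C2 hB x
    have h4 : |g U v 1 x| ≤ ‖fderiv ℝ U x‖ * ‖v‖ := by
      unfold g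
      rw [iteratedFDeriv_one_apply]
      exact (fderiv ℝ U x).le_opNorm v
    have h5 := norm_nonneg x
    have h6 := norm_nonneg (fderiv ℝ U 0)
    have h7 : ‖fderiv ℝ U x‖ ≤ (‖fderiv ℝ U 0‖ + B) * (1 + ‖x‖) := by nlinarith
    calc |g U v 1 x| ≤ ‖fderiv ℝ U x‖ * ‖v‖ := h4
      _ ≤ ((‖fderiv ℝ U 0‖ + B) * (1 + ‖x‖)) * ‖v‖ := by gcongr
      _ = _ := by ring
  · obtain ⟨B, hB⟩ := h.bdd i h2
    refine Gr.of_bound (cont_g h.smooth v i) (B := B * ‖v‖ ^ i) fun x => ?_
    have h3 := (iteratedFDeriv ℝ i U x).le_opNorm (fun _ => v)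
    simp only [Finset.prod_const, Finset.card_univ, Fintype.card_fin] at h3
    exact h3.trans (mul_le_mul_of_nonneg_right (hB x) (by positivity))

/-- the four weights -/
noncomputable def q (U : E n → ℝ) (v : E n) : ℕ → E n → ℝ
  | 0 => fun _ => 1
  | 1 => fun x => -(g U v 1 x)
  | 2 => fun x => (g U v 1 x) ^ 2 - g U v 2 x
  | 3 => fun x => -(g U v 1 x) ^ 3 + 3 * (g U v 1 x * g U v 2 x) - g U v 3 x
  | _ => fun _ => 0

theorem q_zero (U : E n → ℝ) (v x : E n) : q U v 0 x = 1 := rfl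
theorem q_one (U : E n → ℝ) (v x : E n) : q U v 1 x = -(g U v 1 x) := rfl
theorem q_two (U : E n → ℝ) (v x : E n) : q U v 2 x = (g U v 1 x) ^ 2 - g U v 2 x := rfl
theorem q_three (U : E n → ℝ) (v x : E n) :
    q U v 3 x = -(g U v 1 x) ^ 3 + 3 * (g U v 1 x * g U v 2 x) - g U v 3 x := rfl

theorem gr_q {U : E n → ℝ} {c C : ℝ} (h : Reg U c C) (v : E n) (i : ℕ) : Gr (q U v i) := by
  have h1 := gr_g h v 1 le_rfl
  have h2 := gr_g h v 2 (by norm_num)
  have h3 := gr_g h v 3 (by norm_num)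
  match i with
  | 0 => exact Gr.const 1
  | 1 => exact h1.neg
  | 2 => exact (h1.pow 2).sub h2
  | 3 => exact (((h1.pow 3).neg).add ((h1.mul h2).const_mul 3)).sub h3
  | (k + 4) => exact Gr.const 0

/-- the weighted function -/
noncomputable def f (U : E n → ℝ) (v : E n) (i : ℕ) (x : E n) : ℝ := q U v i x * Real.exp (-U x)

theorem hasDerivAt_f {U : E n → ℝ} (hU : ContDiff ℝ (⊤ : ℕ∞) U) (v : E n) (i : ℕ) (hi : i < 3)
    (x : E n) (s : ℝ) :
    HasDerivAt (fun t : ℝ => f U v i (x + t • v)) (f U v (i + 1) (x + s • v)) s := by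
  have d0 := hasDerivAt_g hU v 0 x s
  rw [g_zero] at d0
  have d1 := hasDerivAt_g hU v 1 x s
  have d2 := hasDerivAt_g hU v 2 x s
  simp only [zero_add, Nat.reduceAdd] at d0 d1 d2
  have de : HasDerivAt (fun t : ℝ => Real.exp (-U (x + t • v)))
      (Real.exp (-U (x + s • v)) * (-(g U v 1 (x + s • v)))) s := d0.neg.exp
  interval_cases i
  · refine HasDerivAt.congr_deriv (f := fun t : ℝ => f U v 0 (x + t • v)) ?_ (?_ :
      Real.exp (-U (x + s • v)) * (-(g U v 1 (x + s • v))) = _)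
    · simpa only [f, q_zero, one_mul] using de
    · simp only [f, zero_add, q_one]; ring
  · have h1 := (d1.neg).mul de
    refine HasDerivAt.congr_deriv (f := fun t : ℝ => f U v 1 (x + t • v)) h1 ?_
    simp only [f, Nat.reduceAdd, q_two, Pi.neg_apply]; ring
  · have h1 := ((d1.pow 2).sub d2).mul de
    refine HasDerivAt.congr_deriv (f := fun t : ℝ => f U v 2 (x + t • v)) h1 ?_
    simp only [f, Nat.reduceAdd, q_three]
    norm_num
    ring

theorem cont_f {U : E n → ℝ} {c C : ℝ} (h : Reg U c C) (v : E n) (i : ℕ) : Continuous (f U v i) :=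
  (gr_q h v i).cont.mul (Real.continuous_exp.comp h.cont.neg)

theorem bdd_mul_exp {U : E n → ℝ} {c C : ℝ} (h : Reg U c C) {p : E n → ℝ} (hp : Gr p) :
    ∃ K : ℝ, 0 ≤ K ∧ ∀ x, |p x * Real.exp (-U x)| ≤ K := by
  obtain ⟨-, B, k, hB, hb⟩ := hp
  obtain ⟨A, hA⟩ := h.quad_lower
  have hc := h.c_pos
  obtain ⟨D, hD, hd⟩ := growth_le_exp (a := c / 4) (by positivity) k
  refine ⟨B * D * Real.exp A, by positivity, fun x => ?_⟩
  rw [abs_mul, Real.abs_exp]
  have h3 : Real.exp (-U x) ≤ Real.exp A * Real.exp (-(c / 4) * ‖x‖ ^ 2) := by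
    rw [← Real.exp_add]
    exact Real.exp_le_exp.2 (by have := hA x; linarith)
  calc |p x| * Real.exp (-U x)
      ≤ (B * (D * Real.exp (c / 4 * ‖x‖ ^ 2))) * (Real.exp A * Real.exp (-(c / 4) * ‖x‖ ^ 2)) :=
        mul_le_mul ((hb x).trans (mul_le_mul_of_nonneg_left (hd ‖x‖ (norm_nonneg x)) hB)) h3
          (Real.exp_pos _).le (by positivity)
    _ = B * D * Real.exp A * (Real.exp (c / 4 * ‖x‖ ^ 2) * Real.exp (-(c / 4) * ‖x‖ ^ 2)) := by ring
    _ = B * D * Real.exp A := by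
        rw [← Real.exp_add, show c / 4 * ‖x‖ ^ 2 + -(c / 4) * ‖x‖ ^ 2 = 0 by ring, Real.exp_zero,
          mul_one]

/-- Gaussian weight -/
theorem integrable_gw : Integrable (fun z : E n => Real.exp (-‖z‖ ^ 2 / 2)) := by
  have := integrable_gauss (n := n) (a := 1 / 2) (by norm_num)
  refine this.congr (Eventually.of_forall fun z => ?_)
  simp only
  congr 1
  ring

/-- smoothed functions -/
noncomputable def H (U : E n → ℝ) (v : E n) (P : E n →L[ℝ] E n) (i : ℕ) (x : E n) : ℝ :=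
  ∫ z : E n, f U v i (x + P z) * Real.exp (-‖z‖ ^ 2 / 2)

theorem integrable_H {U : E n → ℝ} {c C : ℝ} (h : Reg U c C) (v : E n) (P : E n →L[ℝ] E n) (i : ℕ)
    (x : E n) : Integrable (fun z : E n => f U v i (x + P z) * Real.exp (-‖z‖ ^ 2 / 2)) := by
  obtain ⟨K, hK, hb⟩ := bdd_mul_exp h (gr_q h v i)
  have hc := cont_f h v i
  refine (integrable_gw.const_mul K).mono' ?_ (Eventually.of_forall fun z => ?_)
  · have : Continuous (fun z : E n => f U v i (x + P z) * Real.exp (-‖z‖ ^ 2 / 2)) := by fun_prop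
    exact this.aestronglyMeasurable
  · rw [norm_mul, Real.norm_eq_abs, Real.norm_eq_abs, Real.abs_exp]
    exact mul_le_mul_of_nonneg_right (hb _) (Real.exp_pos _).le

theorem hasDerivAt_H {U : E n → ℝ} {c C : ℝ} (h : Reg U c C) (v : E n) (P : E n →L[ℝ] E n) (i : ℕ)
    (hi : i < 3) (x : E n) (s : ℝ) :
    HasDerivAt (fun t : ℝ => H U v P i (x + t • v)) (H U v P (i + 1) (x + s • v)) s := by
  obtain ⟨K, hK, hb⟩ := bdd_mul_exp h (gr_q h v (i + 1))
  have hcc := cont_f h v i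
  have key := hasDerivAt_integral_of_dominated_loc_of_deriv_le (μ := (volume : Measure (E n)))
    (F := fun (t : ℝ) (z : E n) => f U v i (x + t • v + P z) * Real.exp (-‖z‖ ^ 2 / 2))
    (F' := fun (t : ℝ) (z : E n) => f U v (i + 1) (x + t • v + P z) * Real.exp (-‖z‖ ^ 2 / 2))
    (x₀ := s) (s := Set.univ) (bound := fun z => K * Real.exp (-‖z‖ ^ 2 / 2)) Filter.univ_mem
    (Eventually.of_forall fun t => (integrable_H h v P i (x + t • v)).aestronglyMeasurable)
    (integrable_H h v P i (x + s • v))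
    (integrable_H h v P (i + 1) (x + s • v)).aestronglyMeasurable
    (Eventually.of_forall fun z t _ => by
      rw [norm_mul, Real.norm_eq_abs, Real.norm_eq_abs, Real.abs_exp]
      exact mul_le_mul_of_nonneg_right (hb _) (Real.exp_pos _).le)
    (integrable_gw.const_mul K)
    (Eventually.of_forall fun z t _ => by
      have h1 := (hasDerivAt_f h.smooth v i hi (x + P z) t).mul_const (Real.exp (-‖z‖ ^ 2 / 2))
      have e : ∀ t : ℝ, x + P z + t • v = x + t • v + P z := fun t => by abel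
      simpa only [e] using h1)
  exact key.2

theorem H_zero_pos {U : E n → ℝ} {c C : ℝ} (h : Reg U c C) (v : E n) (P : E n →L[ℝ] E n) (x : E n) :
    0 < H U v P 0 x := by
  have hi := integrable_H h v P 0 x
  unfold H
  rw [integral_pos_iff_support_of_nonneg (fun z => by
    simp only [f, q_zero, one_mul]; positivity) hi]
  have : Function.support (fun z : E n => f U v 0 (x + P z) * Real.exp (-‖z‖ ^ 2 / 2)) = Set.univ := by
    ext z
    simp [f, q_zero, Real.exp_ne_zero]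
  rw [this]
  exact isOpen_univ.measure_pos volume ⟨0, trivial⟩

theorem exp_neg_heat (U : E n → ℝ) (v : E n) (P : E n →L[ℝ] E n) (x : E n) :
    (∫ z : E n, Real.exp (-U (x + P z) - ‖z‖ ^ 2 / 2)) = H U v P 0 x := by
  unfold H
  refine integral_congr_ae (Eventually.of_forall fun z => ?_)
  simp only [f, q_zero, one_mul]
  rw [← Real.exp_add]
  congr 1
  ring

theorem heat_eq (U : E n → ℝ) (v : E n) (P : E n →L[ℝ] E n) (x : E n) :
    heat U P x = -Real.log (H U v P 0 x) := by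
  rw [heat, exp_neg_heat U v P x]

/-- normalised -/
noncomputable def r (U : E n → ℝ) (v : E n) (P : E n →L[ℝ] E n) (i : ℕ) (x : E n) : ℝ :=
  H U v P i x / H U v P 0 x

theorem hasDerivAt_r {U : E n → ℝ} {c C : ℝ} (h : Reg U c C) (v : E n) (P : E n →L[ℝ] E n) (i : ℕ)
    (hi : i < 3) (x : E n) (s : ℝ) :
    HasDerivAt (fun t : ℝ => r U v P i (x + t • v))
      (r U v P (i + 1) (x + s • v) - r U v P i (x + s • v) * r U v P 1 (x + s • v)) s := by
  have h0 := (H_zero_pos h v P (x + s • v)).ne'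
  have := (hasDerivAt_H h v P i hi x s).div (hasDerivAt_H h v P 0 (by norm_num) x s) h0
  refine HasDerivAt.congr_deriv (f := fun t : ℝ => r U v P i (x + t • v)) this ?_
  unfold r
  simp only [zero_add]
  field_simp

/-- first, second, third line derivative of `heat` -/
noncomputable def w1 (U : E n → ℝ) (v : E n) (P : E n →L[ℝ] E n) (x : E n) : ℝ := -r U v P 1 x

noncomputable def w2 (U : E n → ℝ) (v : E n) (P : E n →L[ℝ] E n) (x : E n) : ℝ :=
  -r U v P 2 x + r U v P 1 x ^ 2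

noncomputable def w3 (U : E n → ℝ) (v : E n) (P : E n →L[ℝ] E n) (x : E n) : ℝ :=
  -r U v P 3 x + 3 * (r U v P 1 x * r U v P 2 x) - 2 * r U v P 1 x ^ 3

theorem hasDerivAt_heat {U : E n → ℝ} {c C : ℝ} (h : Reg U c C) (v : E n) (P : E n →L[ℝ] E n)
    (x : E n) (s : ℝ) :
    HasDerivAt (fun t : ℝ => heat U P (x + t • v)) (w1 U v P (x + s • v)) s := by
  have h1 := ((hasDerivAt_H h v P 0 (by norm_num) x s).log (H_zero_pos h v P (x + s • v)).ne').neg
  simp only [heat_eq U v P]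
  exact h1

theorem hasDerivAt_w1 {U : E n → ℝ} {c C : ℝ} (h : Reg U c C) (v : E n) (P : E n →L[ℝ] E n)
    (x : E n) (s : ℝ) :
    HasDerivAt (fun t : ℝ => w1 U v P (x + t • v)) (w2 U v P (x + s • v)) s := by
  refine HasDerivAt.congr_deriv (f := fun t : ℝ => w1 U v P (x + t • v))
    (hasDerivAt_r h v P 1 (by norm_num) x s).neg ?_
  unfold w2
  ring

theorem hasDerivAt_w2 {U : E n → ℝ} {c C : ℝ} (h : Reg U c C) (v : E n) (P : E n →L[ℝ] E n)
    (x : E n) (s : ℝ) :
    HasDerivAt (fun t : ℝ => w2 U v P (x + t • v)) (w3 U v P (x + s • v)) s := by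
  refine HasDerivAt.congr_deriv (f := fun t : ℝ => w2 U v P (x + t • v))
    ((hasDerivAt_r h v P 2 (by norm_num) x s).neg.add
      ((hasDerivAt_r h v P 1 (by norm_num) x s).pow 2)) ?_
  unfold w3
  simp only [Nat.reduceAdd, Nat.add_one_sub_one, Nat.cast_ofNat, pow_one]
  ring

theorem iteratedDeriv_two_heat {U : E n → ℝ} {c C : ℝ} (h : Reg U c C) (v : E n) (P : E n →L[ℝ] E n)
    (x : E n) : iteratedDeriv 2 (fun t : ℝ => heat U P (x + t • v)) 0 = w2 U v P x := by
  rw [iteratedDeriv_succ', show deriv (fun t : ℝ => heat U P (x + t • v)) =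
    fun t : ℝ => w1 U v P (x + t • v) from funext fun t => (hasDerivAt_heat h v P x t).deriv,
    iteratedDeriv_one, (hasDerivAt_w1 h v P x 0).deriv]
  simp

theorem iteratedDeriv_three_heat {U : E n → ℝ} {c C : ℝ} (h : Reg U c C) (v : E n)
    (P : E n →L[ℝ] E n) (x : E n) :
    iteratedDeriv 3 (fun t : ℝ => heat U P (x + t • v)) 0 = w3 U v P x := by
  rw [iteratedDeriv_succ', show deriv (fun t : ℝ => heat U P (x + t • v)) =
    fun t : ℝ => w1 U v P (x + t • v) from funext fun t => (hasDerivAt_heat h v P x t).deriv,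
    iteratedDeriv_succ', show deriv (fun t : ℝ => w1 U v P (x + t • v)) =
    fun t : ℝ => w2 U v P (x + t • v) from funext fun t => (hasDerivAt_w1 h v P x t).deriv,
    iteratedDeriv_one, (hasDerivAt_w2 h v P x 0).deriv]
  simp

end Vale.Agent.P227.M.HL
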