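import Vale.Agent.P227.M.Defs

/-! # P227/M/SC2: the one-direction Gaussian average (helper368, on 241's note 10910). -/

open MeasureTheory

namespace Vale.Agent.P227.M

/-- one-direction Gaussian average of `e^{-W}` -/
noncomputable def heat1 {n : ℕ} (W : E n → ℝ) (p : E n) (x : E n) : ℝ :=
  -Real.log (∫ g : ℝ, Real.exp (-W (x + g • p) - g ^ 2 / 2))

/-- the one-direction average keeps the self-concordance constant -/
def StmtH1D : Prop := ∀ (n : ℕ) (W : E n → ℝ) (c C κ : ℝ), Reg W c C → 0 ≤ κ → κ ≤ 1 →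
  SelfConc κ W → ∀ p : E n, SelfConc κ (heat1 W p)

/-- the one-direction average keeps the class `Reg` -/
def StmtRG : Prop := ∀ (n : ℕ) (W : E n → ℝ) (c C : ℝ), Reg W c C →
  ∀ p : E n, ∃ c' C' : ℝ, Reg (heat1 W p) c' C'

end Vale.Agent.P227.M
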