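import Vale.Agent.P227.M.Bas
import Vale.Agent.P227.M.SC2.HeatDef

/-! # P227/M/SC2/Fub: `StmtHeat` from the one-direction heat step and the closure of the regular class
(helper241's note 10910, leaf (FU); helper343).

`heat W P` is the iteration of the one-direction averages `heat1 · (P e_i)`. -/

open MeasureTheory

namespace Vale.Agent.P227.M
namespace Fub

variable {n : ℕ}

/-- unnormalised Gaussian average in one direction -/
noncomputable def heat1 (W : E n → ℝ) (p : E n) (x : E n) : ℝ :=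
  -Real.log (∫ g : ℝ, Real.exp (-W (x + g • p) - g ^ 2 / 2))

/-- one-direction step keeps the self-concordance constant -/
def StmtH1D : Prop := ∀ (n : ℕ) (W : E n → ℝ) (c C κ : ℝ), Reg W c C → 0 ≤ κ → κ ≤ 1 →
  SelfConc κ W → ∀ p : E n, SelfConc κ (heat1 W p)

/-- one-direction step keeps the regular class -/
def StmtRG : Prop := ∀ (n : ℕ) (W : E n → ℝ) (c C : ℝ), Reg W c C →
  ∀ p : E n, ∃ c' C', Reg (heat1 W p) c' C'

/-- unnormalised Gaussian average in `m` directions -/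
noncomputable def heatm (W : E n → ℝ) (m : ℕ) (p : Fin m → E n) (x : E n) : ℝ :=
  -Real.log (∫ z : Fin m → ℝ, Real.exp (-W (x + ∑ i, z i • p i) - (∑ i, z i ^ 2) / 2))

theorem lower_bdd {W : E n → ℝ} {c C : ℝ} (h : Reg W c C) : ∃ A : ℝ, ∀ x, -W x ≤ A := by
  obtain ⟨A, hA⟩ := h.quad_lower
  refine ⟨A, fun x => ?_⟩
  have h1 := hA x
  have h2 : 0 ≤ c / 4 * ‖x‖ ^ 2 := by have := h.c_pos; positivity
  linarith

theorem integrable_gaussm (m : ℕ) :
    Integrable (fun z : Fin m → ℝ => Real.exp (-(∑ i, z i ^ 2) / 2)) := by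
  have h := Integrable.fintype_prod (μ := fun _ : Fin m => (volume : Measure ℝ))
    (f := fun _ : Fin m => fun t : ℝ => Real.exp (-(1 / 2) * t ^ 2))
    (fun _ => integrable_exp_neg_mul_sq (by norm_num))
  refine h.congr (Filter.Eventually.of_forall fun z => ?_)
  simp only
  rw [← Real.exp_sum]
  congr 1
  rw [← Finset.mul_sum]
  ring

theorem integrable_m {W : E n → ℝ} {c C : ℝ} (h : Reg W c C) (m : ℕ) (p : Fin m → E n) (x : E n) :
    Integrable (fun z : Fin m → ℝ => Real.exp (-W (x + ∑ i, z i • p i) - (∑ i, z i ^ 2) / 2)) := by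
  obtain ⟨A, hA⟩ := lower_bdd h
  have hc : Continuous W := h.cont
  refine ((integrable_gaussm m).const_mul (Real.exp A)).mono'
    (Continuous.aestronglyMeasurable (by fun_prop)) (Filter.Eventually.of_forall fun z => ?_)
  rw [Real.norm_eq_abs, abs_of_pos (Real.exp_pos _), ← Real.exp_add]
  apply Real.exp_le_exp.2
  have := hA (x + ∑ i, z i • p i)
  linarith

theorem pos_m {W : E n → ℝ} {c C : ℝ} (h : Reg W c C) (m : ℕ) (p : Fin m → E n) (x : E n) :
    0 < ∫ z : Fin m → ℝ, Real.exp (-W (x + ∑ i, z i • p i) - (∑ i, z i ^ 2) / 2) :=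
  integral_exp_pos (integrable_m h m p x)

theorem exp_neg_heatm {W : E n → ℝ} {c C : ℝ} (h : Reg W c C) (m : ℕ) (p : Fin m → E n) (x : E n) :
    Real.exp (-heatm W m p x) =
      ∫ z : Fin m → ℝ, Real.exp (-W (x + ∑ i, z i • p i) - (∑ i, z i ^ 2) / 2) := by
  rw [heatm, neg_neg, Real.exp_log (pos_m h m p x)]

theorem heatm_zero (W : E n → ℝ) (p : Fin 0 → E n) (x : E n) : heatm W 0 p x = W x := by
  rw [heatm, Measure.volume_pi_eq_dirac 0, integral_dirac]
  simp

theorem heatm_succ {W : E n → ℝ} {c C : ℝ} (h : Reg W c C) (m : ℕ) (p : Fin (m + 1) → E n) (x : E n) :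
    heatm W (m + 1) p x = heat1 (heatm W m (fun i => p i.succ)) (p 0) x := by
  rw [heatm, heat1]
  congr 2
  have hmp := (volume_preserving_piFinSuccAbove (fun _ : Fin (m + 1) => ℝ) 0).symm
  have hI := integrable_m h (m + 1) p x
  have h1 := hmp.integral_comp' (g := fun z : Fin (m + 1) → ℝ =>
    Real.exp (-W (x + ∑ i, z i • p i) - (∑ i, z i ^ 2) / 2))
  rw [← h1]
  have hI2 := (hmp.integrable_comp_emb (MeasurableEquiv.measurableEmbedding _)).2 hI
  rw [Measure.volume_eq_prod, integral_prod _ (by rw [← Measure.volume_eq_prod]; exact hI2)]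
  congr 1
  ext g
  rw [sub_eq_add_neg, Real.exp_add, exp_neg_heatm h, ← integral_mul_const]
  congr 1
  ext z
  rw [← Real.exp_add]
  congr 1
  simp only [MeasurableEquiv.piFinSuccAbove_symm_apply, Fin.insertNthEquiv_apply,
    Fin.insertNth_zero, Fin.sum_univ_succ, Fin.cons_zero, Fin.cons_succ, cast_eq]
  rw [add_assoc x]
  ring

theorem step {n : ℕ} (h1 : StmtH1D) (h2 : StmtRG) {W : E n → ℝ} {c C κ : ℝ} (hW : Reg W c C)
    (h0 : 0 ≤ κ) (hκ : κ ≤ 1) (hs : SelfConc κ W) : ∀ (m : ℕ) (p : Fin m → E n),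
    (∃ c' C', Reg (heatm W m p) c' C') ∧ SelfConc κ (heatm W m p)
  | 0, p => by
      have : heatm W 0 p = W := funext (heatm_zero W p)
      rw [this]
      exact ⟨⟨c, C, hW⟩, hs⟩
  | m + 1, p => by
      obtain ⟨⟨c', C', hR⟩, hS⟩ := step h1 h2 hW h0 hκ hs m (fun i => p i.succ)
      have : heatm W (m + 1) p = heat1 (heatm W m (fun i => p i.succ)) (p 0) :=
        funext (heatm_succ hW m p)
      rw [this]
      exact ⟨h2 n _ c' C' hR (p 0), h1 n _ c' C' κ hR h0 hκ hS (p 0)⟩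

theorem heat_eq (W : E n → ℝ) (P : E n →L[ℝ] E n) (x : E n) :
    heat W P x = heatm W n (fun i => P (ei i)) x := by
  rw [heat, heatm]
  congr 2
  have hmp := EuclideanSpace.volume_preserving_symm_measurableEquiv_toLp (Fin n)
  have h1 := hmp.symm.integral_comp' (g := fun z : E n => Real.exp (-W (x + P z) - ‖z‖ ^ 2 / 2))
  rw [← h1]
  refine integral_congr_ae (Filter.Eventually.of_forall fun z => ?_)
  have h2 : P ((MeasurableEquiv.toLp 2 (Fin n → ℝ)) z) = ∑ i, z i • P (ei i) := by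
    conv_lhs => rw [← sum_smul_ei ((MeasurableEquiv.toLp 2 (Fin n → ℝ)) z)]
    simp
  have h3 : ‖(MeasurableEquiv.toLp 2 (Fin n → ℝ)) z‖ ^ 2 = ∑ i, z i ^ 2 := by
    rw [norm_sq_eq_sum]
    simp
  have h4 : (MeasurableEquiv.toLp 2 (Fin n → ℝ)).symm.symm z =
      (MeasurableEquiv.toLp 2 (Fin n → ℝ)) z := rfl
  simp only
  rw [h4, h2, h3]

theorem stmtHeat_of (h1 : StmtH1D) (h2 : StmtRG) : StmtHeat := by
  intro n W c C κ hW h0 hκ hs P
  have : heat W P = heatm W n (fun i => P (ei i)) := funext (heat_eq W P)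
  rw [this]
  exact (step h1 h2 hW h0 hκ hs n _).2

end Fub
end Vale.Agent.P227.M
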