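import Vale.Agent.P227.M.SC2.ExpCls

/-!
P227, block SC(i): the functions `a`, `b` (second and third derivative of `-log` of the Gaussian
average in a direction `v`), their derivatives in `s`, in noise directions and in `v`.
Everything is expressed by directional derivatives `dd v F`.
-/

open MeasureTheory Set Filter Topology

namespace Vale.Agent.P227.M.SC2.HN

noncomputable section

variable {n : ℕ}

/-- directional derivative -/
def dd (v : E n) (F : E n → ℝ) : E n → ℝ := fun x => fderiv ℝ F x v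

variable {W : E n → ℝ} {c C : ℝ}

lemma CE.diff (hR : Reg W c C) {F : E n → ℝ} (h : CE W F) : Differentiable ℝ F :=
  (h.contDiff (tg_W hR)).differentiable (by simp)

lemma CE.dd (hR : Reg W c C) {F : E n → ℝ} (h : CE W F) (v : E n) : CE W (dd v F) := by
  obtain ⟨G, hG, hF⟩ := h.fderiv (tg_W hR)
  refine ⟨fun x => G x v, ?_, fun x => ?_⟩
  · exact ((ContinuousLinearMap.apply ℝ ℝ v).hasTemperateGrowth).comp hG
  · simp [HN.dd, hF]

lemma CE.add {F G : E n → ℝ} (hF : CE W F) (hG : CE W G) : CE W (fun x => F x + G x) := by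
  obtain ⟨f, hf, hf'⟩ := hF
  obtain ⟨g, hg, hg'⟩ := hG
  exact ⟨fun x => f x + g x, hf.add hg, fun x => by simp [hf', hg', mul_add]⟩

lemma CE.cmul {F : E n → ℝ} (hF : CE W F) (t : ℝ) : CE W (fun x => t * F x) := by
  obtain ⟨f, hf, hf'⟩ := hF
  refine ⟨fun x => t * f x, (Function.HasTemperateGrowth.const t).mul hf, fun x => ?_⟩
  simp only [hf', smul_eq_mul]
  ring

lemma dd_add_left (u v : E n) (F : E n → ℝ) : dd (u + v) F = fun x => dd u F x + dd v F x := by
  ext x; simp [dd]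

lemma dd_smul_left (t : ℝ) (v : E n) (F : E n → ℝ) : dd (t • v) F = fun x => t * dd v F x := by
  ext x; simp [dd]

lemma dd_add (v : E n) {F G : E n → ℝ} (hF : Differentiable ℝ F) (hG : Differentiable ℝ G) :
    dd v (fun x => F x + G x) = fun x => dd v F x + dd v G x := by
  ext x
  have h : HasFDerivAt (fun x => F x + G x) (fderiv ℝ F x + fderiv ℝ G x) x :=
    (hF x).hasFDerivAt.add (hG x).hasFDerivAt
  simp only [dd]
  rw [h.fderiv]
  simp

lemma dd_cmul (v : E n) {F : E n → ℝ} (hF : Differentiable ℝ F) (t : ℝ) :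
    dd v (fun x => t * F x) = fun x => t * dd v F x := by
  ext x
  simp only [dd]
  rw [((hF x).hasFDerivAt.const_mul t).fderiv]
  simp

lemma dd_dd {F : E n → ℝ} (hF : ContDiff ℝ 2 F) (u v x : E n) :
    dd u (dd v F) x = fderiv ℝ (fderiv ℝ F) x u v := by
  have h1 : HasFDerivAt (fderiv ℝ F) (fderiv ℝ (fderiv ℝ F) x) x :=
    ((hF.fderiv_right (m := 1) (by norm_num)).differentiable one_ne_zero x).hasFDerivAt
  have h2 : HasFDerivAt (fun y => fderiv ℝ F y v)
      ((ContinuousLinearMap.apply ℝ ℝ v).comp (fderiv ℝ (fderiv ℝ F) x)) x :=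
    (ContinuousLinearMap.apply ℝ ℝ v).hasFDerivAt.comp x h1
  have h3 : fderiv ℝ (dd v F) x =
    (ContinuousLinearMap.apply ℝ ℝ v).comp (fderiv ℝ (fderiv ℝ F) x) := h2.fderiv
  change fderiv ℝ (dd v F) x u = _
  rw [h3]
  simp

lemma dd_comm {F : E n → ℝ} (hF : ContDiff ℝ 2 F) (u v : E n) :
    dd u (dd v F) = dd v (dd u F) := by
  ext x
  rw [dd_dd hF, dd_dd hF]
  have h : IsSymmSndFDerivAt ℝ F x := hF.contDiffAt.isSymmSndFDerivAt (by simp)
  exact h.eq u v

lemma CE.cd2 (hR : Reg W c C) {F : E n → ℝ} (h : CE W F) : ContDiff ℝ 2 F :=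
  (h.contDiff (tg_W hR)).of_le (WithTop.coe_le_coe.2 (le_top : (2 : ℕ∞) ≤ ⊤))

lemma T_add (hR : Reg W c C) (P : E n →L[ℝ] E n) (s : ℝ) {F G : E n → ℝ} (hF : CE W F)
    (hG : CE W G) (x : E n) : T P s (fun x => F x + G x) x = T P s F x + T P s G x := by
  obtain ⟨B1, h1⟩ := hF.bdd hR
  obtain ⟨B2, h2⟩ := hG.bdd hR
  unfold T
  rw [← integral_add (integrable_T P s (hF.diff hR).continuous h1 x)
    (integrable_T P s (hG.diff hR).continuous h2 x)]
  congr 1
  ext g
  simp [mul_add]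

lemma T_cmul (P : E n →L[ℝ] E n) (s : ℝ) (F : E n → ℝ) (t : ℝ) (x : E n) :
    T P s (fun x => t * F x) x = t * T P s F x := by
  unfold T
  rw [← integral_const_mul]
  congr 1
  ext g
  simp only [smul_eq_mul]
  ring

/-- derivative of `T` in a direction. -/
lemma T_x (hR : Reg W c C) (P : E n →L[ℝ] E n) (s : ℝ) {F : E n → ℝ} (hF : CE W F) (x p : E n) :
    HasDerivAt (fun τ : ℝ => T P s F (x + τ • p)) (T P s (dd p F) x) 0 := by
  have hN := hF.nice hR
  obtain ⟨B, hB⟩ := hN.b0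
  obtain ⟨B1, hB1⟩ := hN.b1
  have h1 := hasFDerivAt_T P s (hN.cd.of_le (by norm_num)) hB hB1 (x + (0 : ℝ) • p)
  have h2 : HasDerivAt (fun τ : ℝ => x + τ • p) p 0 := by
    have := ((hasDerivAt_id (0 : ℝ)).smul_const p).const_add x
    simpa using this
  have h3 := h1.comp_hasDerivAt (0 : ℝ) h2
  refine h3.congr_deriv ?_
  have hc1 : Continuous (fderiv ℝ F) := (hN.cd.of_le (by norm_num)).continuous_fderiv one_ne_zero
  rw [zero_smul, add_zero]
  unfold T
  rw [ContinuousLinearMap.integral_apply (integrable_T P s hc1 hB1 x)]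
  simp [dd]

/-- derivative of `T` in `s`. -/
lemma T_s (hR : Reg W c C) (P : E n →L[ℝ] E n) {s : ℝ} (hs : 0 < s) {F : E n → ℝ} (hF : CE W F)
    (x : E n) :
    HasDerivAt (fun s : ℝ => T P s F x)
      (∑ i : Fin n, 1 / 2 * T P s (dd (P (eb i)) (dd (P (eb i)) F)) x) s := by
  refine (hasDerivAt_T P (hF.nice hR) hs x).congr_deriv ?_
  rw [Finset.smul_sum]
  refine Finset.sum_congr rfl fun i _ => ?_
  rw [smul_eq_mul]
  unfold T
  congr 2
  ext g
  rw [dd_dd (hF.cd2 hR)]

lemma T_cont (hR : Reg W c C) (P : E n →L[ℝ] E n) {F : E n → ℝ} (hF : CE W F) :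
    Continuous (fun q : ℝ × E n => T P q.1 F q.2) := by
  obtain ⟨B, hB⟩ := hF.bdd hR
  exact continuous_T P (hF.diff hR).continuous hB

/-- the density -/
def ff (W : E n → ℝ) : E n → ℝ := fun x => Real.exp (-W x)

lemma ce_ff : CE W (ff W) := CE.exp

lemma T_pos (hR : Reg W c C) (P : E n →L[ℝ] E n) (s : ℝ) (x : E n) : 0 < T P s (ff W) x := by
  obtain ⟨B, hB⟩ := (ce_ff (W := W)).bdd hR
  have hi := integrable_T P s ((ce_ff (W := W)).diff hR).continuous hB x
  unfold T
  rw [integral_pos_iff_support_of_nonneg]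
  · have : Function.support (fun g : EE n => rho g • ff W (x + Real.sqrt s • P g)) = univ := by
      ext g
      simp only [Function.mem_support, mem_univ, iff_true, smul_eq_mul]
      exact (mul_pos (rho_pos g) (Real.exp_pos _)).ne'
    rw [this]
    exact Measure.measure_univ_pos.2 (NeZero.ne _)
  · intro g
    exact (mul_pos (rho_pos g) (Real.exp_pos _)).le
  · exact hi

/-- quotient `T F / T f` -/
def r (W : E n → ℝ) (P : E n →L[ℝ] E n) (F : E n → ℝ) (s : ℝ) (x : E n) : ℝ :=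
  T P s F x / T P s (ff W) x

lemma r_x (hR : Reg W c C) (P : E n →L[ℝ] E n) (s : ℝ) {F : E n → ℝ} (hF : CE W F) (x p : E n) :
    HasDerivAt (fun τ : ℝ => r W P F s (x + τ • p))
      (r W P (dd p F) s x - r W P F s x * r W P (dd p (ff W)) s x) 0 := by
  have h := (T_x hR P s hF x p).div (T_x hR P s ce_ff x p) (T_pos hR P s _).ne'
  refine h.congr_deriv ?_
  have h0 := (T_pos hR P s x).ne'
  simp only [zero_smul, add_zero]
  unfold r
  field_simp

lemma r_s (hR : Reg W c C) (P : E n →L[ℝ] E n) {s : ℝ} (hs : 0 < s) {F : E n → ℝ} (hF : CE W F)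
    (x : E n) :
    HasDerivAt (fun s : ℝ => r W P F s x)
      (∑ i : Fin n, 1 / 2 * (r W P (dd (P (eb i)) (dd (P (eb i)) F)) s x -
        r W P F s x * r W P (dd (P (eb i)) (dd (P (eb i)) (ff W))) s x)) s := by
  have h := (T_s hR P hs hF x).div (T_s hR P hs ce_ff x) (T_pos hR P s _).ne'
  refine h.congr_deriv ?_
  have h0 := (T_pos hR P s x).ne'
  have e : ∀ i : Fin n, 1 / 2 * (r W P (dd (P (eb i)) (dd (P (eb i)) F)) s x -
        r W P F s x * r W P (dd (P (eb i)) (dd (P (eb i)) (ff W))) s x) =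
      ((1 / 2 * T P s (dd (P (eb i)) (dd (P (eb i)) F)) x) * T P s (ff W) x -
        T P s F x * (1 / 2 * T P s (dd (P (eb i)) (dd (P (eb i)) (ff W))) x)) /
        T P s (ff W) x ^ 2 := by
    intro i
    unfold r
    field_simp
  simp_rw [e]
  rw [← Finset.sum_div, Finset.sum_sub_distrib, ← Finset.sum_mul,
    Finset.mul_sum Finset.univ
      (fun i => 1 / 2 * T P s (dd (P (eb i)) (dd (P (eb i)) (ff W))) x) (T P s F x)]

lemma r_cont (hR : Reg W c C) (P : E n →L[ℝ] E n) {F : E n → ℝ} (hF : CE W F) :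
    Continuous (fun q : ℝ × E n => r W P F q.1 q.2) :=
  (T_cont hR P hF).div (T_cont hR P ce_ff) fun q => (T_pos hR P _ _).ne'

lemma r_add (hR : Reg W c C) (P : E n →L[ℝ] E n) (s : ℝ) {F G : E n → ℝ} (hF : CE W F)
    (hG : CE W G) (x : E n) :
    r W P (fun x => F x + G x) s x = r W P F s x + r W P G s x := by
  unfold r
  rw [T_add hR P s hF hG, add_div]

lemma r_cmul (P : E n →L[ℝ] E n) (s : ℝ) (F : E n → ℝ) (t : ℝ) (x : E n) :
    r W P (fun x => t * F x) s x = t * r W P F s x := by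
  unfold r
  rw [T_cmul, mul_div_assoc]

end

end Vale.Agent.P227.M.SC2.HN
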