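import Vale.Agent.P227.M.SC2.AB

/-!
P227, block SC(i): jets of `r F`, the functions `a`, `b`, the equations, and the function
`Γ = 2 κ a √a - ε b` with its derivatives.
-/

open MeasureTheory Set Filter Topology

namespace Vale.Agent.P227.M.SC2.HN

noncomputable section

variable {n : ℕ} {W : E n → ℝ} {c C : ℝ}

/-- first derivative of `r F` in direction `p` -/
def j1 (W : E n → ℝ) (P : E n →L[ℝ] E n) (p : E n) (F : E n → ℝ) (s : ℝ) (x : E n) : ℝ :=
  r W P (dd p F) s x - r W P F s x * r W P (dd p (ff W)) s x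

/-- second derivative of `r F` in direction `p` -/
def j2 (W : E n → ℝ) (P : E n →L[ℝ] E n) (p : E n) (F : E n → ℝ) (s : ℝ) (x : E n) : ℝ :=
  j1 W P p (dd p F) s x - (j1 W P p F s x * r W P (dd p (ff W)) s x +
    r W P F s x * j1 W P p (dd p (ff W)) s x)

lemma j1_x (hR : Reg W c C) (P : E n →L[ℝ] E n) (s : ℝ) {F : E n → ℝ} (hF : CE W F) (x p : E n) :
    HasDerivAt (fun τ : ℝ => r W P F s (x + τ • p)) (j1 W P p F s x) 0 := r_x hR P s hF x p

lemma j2_x (hR : Reg W c C) (P : E n →L[ℝ] E n) (s : ℝ) {F : E n → ℝ} (hF : CE W F) (x p : E n) :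
    HasDerivAt (fun τ : ℝ => j1 W P p F s (x + τ • p)) (j2 W P p F s x) 0 := by
  have h1 := j1_x hR P s (hF.dd hR p) x p
  have h2 := j1_x hR P s hF x p
  have h3 := j1_x hR P s (ce_ff.dd hR p) x p
  have h := h1.sub (h2.mul h3)
  refine h.congr_deriv ?_
  simp only [zero_smul, add_zero]
  unfold j2
  ring

lemma r_s' (hR : Reg W c C) (P : E n →L[ℝ] E n) {s : ℝ} (hs : 0 < s) {F : E n → ℝ} (hF : CE W F)
    (x : E n) :
    HasDerivAt (fun s : ℝ => r W P F s x)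
      (∑ i : Fin n, (1 / 2 * j2 W P (P (eb i)) F s x +
        r W P (dd (P (eb i)) (ff W)) s x * j1 W P (P (eb i)) F s x)) s := by
  refine (r_s hR P hs hF x).congr_deriv ?_
  refine Finset.sum_congr rfl fun i _ => ?_
  unfold j2 j1
  ring

/-- the three weights -/
def F1 (W : E n → ℝ) (v : E n) : E n → ℝ := dd v (ff W)
def F2 (W : E n → ℝ) (v : E n) : E n → ℝ := dd v (dd v (ff W))
def F3 (W : E n → ℝ) (v : E n) : E n → ℝ := dd v (dd v (dd v (ff W)))

lemma ce1 (hR : Reg W c C) (v : E n) : CE W (F1 W v) := ce_ff.dd hR v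
lemma ce2 (hR : Reg W c C) (v : E n) : CE W (F2 W v) := (ce_ff.dd hR v).dd hR v
lemma ce3 (hR : Reg W c C) (v : E n) : CE W (F3 W v) := ((ce_ff.dd hR v).dd hR v).dd hR v

/-- second derivative of `-log T` -/
def aa (W : E n → ℝ) (P : E n →L[ℝ] E n) (s : ℝ) (x v : E n) : ℝ :=
  -r W P (F2 W v) s x + r W P (F1 W v) s x ^ 2

/-- third derivative of `-log T` -/
def bb (W : E n → ℝ) (P : E n →L[ℝ] E n) (s : ℝ) (x v : E n) : ℝ :=
  -r W P (F3 W v) s x + 3 * (r W P (F2 W v) s x * r W P (F1 W v) s x) - 2 * r W P (F1 W v) s x ^ 3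

def ax (W : E n → ℝ) (P : E n →L[ℝ] E n) (p : E n) (s : ℝ) (x v : E n) : ℝ :=
  -j1 W P p (F2 W v) s x + 2 * (r W P (F1 W v) s x * j1 W P p (F1 W v) s x)

def axx (W : E n → ℝ) (P : E n →L[ℝ] E n) (p : E n) (s : ℝ) (x v : E n) : ℝ :=
  -j2 W P p (F2 W v) s x + 2 * (j1 W P p (F1 W v) s x ^ 2 +
    r W P (F1 W v) s x * j2 W P p (F1 W v) s x)

def bx (W : E n → ℝ) (P : E n →L[ℝ] E n) (p : E n) (s : ℝ) (x v : E n) : ℝ :=
  -j1 W P p (F3 W v) s x + 3 * (j1 W P p (F2 W v) s x * r W P (F1 W v) s x +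
    r W P (F2 W v) s x * j1 W P p (F1 W v) s x) -
    6 * (r W P (F1 W v) s x ^ 2 * j1 W P p (F1 W v) s x)

def bxx (W : E n → ℝ) (P : E n →L[ℝ] E n) (p : E n) (s : ℝ) (x v : E n) : ℝ :=
  -j2 W P p (F3 W v) s x + 3 * (j2 W P p (F2 W v) s x * r W P (F1 W v) s x +
    2 * (j1 W P p (F2 W v) s x * j1 W P p (F1 W v) s x) +
    r W P (F2 W v) s x * j2 W P p (F1 W v) s x) -
    6 * (2 * (r W P (F1 W v) s x * j1 W P p (F1 W v) s x ^ 2) +
      r W P (F1 W v) s x ^ 2 * j2 W P p (F1 W v) s x)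

/-- drift: `w_i = - r (dd p_i f)` -/
def ww (W : E n → ℝ) (P : E n →L[ℝ] E n) (i : Fin n) (s : ℝ) (x : E n) : ℝ :=
  -r W P (dd (P (eb i)) (ff W)) s x

/-- `m_i` = derivative of the first derivative -/
def mm (W : E n → ℝ) (P : E n →L[ℝ] E n) (p : E n) (s : ℝ) (x v : E n) : ℝ :=
  -j1 W P p (F1 W v) s x

lemma aa_x (hR : Reg W c C) (P : E n →L[ℝ] E n) (s : ℝ) (x v p : E n) :
    HasDerivAt (fun τ : ℝ => aa W P s (x + τ • p) v) (ax W P p s x v) 0 := by
  have h := (j1_x hR P s (ce2 hR v) x p).neg.add ((j1_x hR P s (ce1 hR v) x p).pow 2)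
  refine h.congr_deriv ?_
  simp only [zero_smul, add_zero]
  unfold ax
  ring

lemma ax_x (hR : Reg W c C) (P : E n →L[ℝ] E n) (s : ℝ) (x v p : E n) :
    HasDerivAt (fun τ : ℝ => ax W P p s (x + τ • p) v) (axx W P p s x v) 0 := by
  have h1 := j1_x hR P s (ce1 hR v) x p
  have h := (j2_x hR P s (ce2 hR v) x p).neg.add
    ((h1.mul (j2_x hR P s (ce1 hR v) x p)).const_mul 2)
  refine h.congr_deriv ?_
  simp only [zero_smul, add_zero]
  unfold axx
  ring

lemma bb_x (hR : Reg W c C) (P : E n →L[ℝ] E n) (s : ℝ) (x v p : E n) :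
    HasDerivAt (fun τ : ℝ => bb W P s (x + τ • p) v) (bx W P p s x v) 0 := by
  have h1 := j1_x hR P s (ce1 hR v) x p
  have h2 := j1_x hR P s (ce2 hR v) x p
  have h3 := j1_x hR P s (ce3 hR v) x p
  have h := (h3.neg.add ((h2.mul h1).const_mul 3)).sub ((h1.pow 3).const_mul 2)
  refine h.congr_deriv ?_
  simp only [zero_smul, add_zero]
  unfold bx
  norm_num
  ring

lemma bx_x (hR : Reg W c C) (P : E n →L[ℝ] E n) (s : ℝ) (x v p : E n) :
    HasDerivAt (fun τ : ℝ => bx W P p s (x + τ • p) v) (bxx W P p s x v) 0 := by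
  have h1 := j1_x hR P s (ce1 hR v) x p
  have h2 := j1_x hR P s (ce2 hR v) x p
  have k1 := j2_x hR P s (ce1 hR v) x p
  have k2 := j2_x hR P s (ce2 hR v) x p
  have k3 := j2_x hR P s (ce3 hR v) x p
  have h := (k3.neg.add (((k2.mul h1).add (h2.mul k1)).const_mul 3)).sub
    (((h1.pow 2).mul k1).const_mul 6)
  refine h.congr_deriv ?_
  simp only [zero_smul, add_zero]
  unfold bxx
  norm_num
  ring

lemma aa_s (hR : Reg W c C) (P : E n →L[ℝ] E n) {s : ℝ} (hs : 0 < s) (x v : E n) :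
    HasDerivAt (fun s : ℝ => aa W P s x v)
      (∑ i : Fin n, (1 / 2 * axx W P (P (eb i)) s x v - ww W P i s x * ax W P (P (eb i)) s x v -
        mm W P (P (eb i)) s x v ^ 2)) s := by
  have h := (r_s' hR P hs (ce2 hR v) x).neg.add ((r_s' hR P hs (ce1 hR v) x).pow 2)
  refine h.congr_deriv ?_
  simp only [Nat.cast_ofNat, Nat.add_one_sub_one, pow_one]
  rw [← Finset.sum_neg_distrib, Finset.mul_sum, ← Finset.sum_add_distrib]
  refine Finset.sum_congr rfl fun i _ => ?_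
  unfold axx ax ww mm
  ring

lemma bb_s (hR : Reg W c C) (P : E n →L[ℝ] E n) {s : ℝ} (hs : 0 < s) (x v : E n) :
    HasDerivAt (fun s : ℝ => bb W P s x v)
      (∑ i : Fin n, (1 / 2 * bxx W P (P (eb i)) s x v - ww W P i s x * bx W P (P (eb i)) s x v -
        3 * (mm W P (P (eb i)) s x v * ax W P (P (eb i)) s x v))) s := by
  have h1 := r_s' hR P hs (ce1 hR v) x
  have h2 := r_s' hR P hs (ce2 hR v) x
  have h3 := r_s' hR P hs (ce3 hR v) x
  have h := (h3.neg.add ((h2.mul h1).const_mul 3)).sub ((h1.pow 3).const_mul 2)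
  refine h.congr_deriv ?_
  simp only [Nat.cast_ofNat, Nat.add_one_sub_one]
  have e1 : ∀ (X Y Z : Fin n → ℝ) (u v : ℝ),
      -∑ i, X i + 3 * ((∑ i, Y i) * u + v * ∑ i, Z i) - 2 * (3 * u ^ 2 * ∑ i, Z i) =
      ∑ i, (-X i + 3 * (Y i * u + v * Z i) - 2 * (3 * u ^ 2 * Z i)) := by
    intro X Y Z u v
    rw [Finset.sum_sub_distrib, Finset.sum_add_distrib, Finset.sum_neg_distrib, ← Finset.mul_sum,
      ← Finset.mul_sum, Finset.sum_add_distrib, ← Finset.sum_mul, ← Finset.mul_sum, ← Finset.mul_sum]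
  rw [e1]
  refine Finset.sum_congr rfl fun i _ => ?_
  unfold bxx bx ax ww mm
  ring

end

end Vale.Agent.P227.M.SC2.HN
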