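import Vale.Agent.P227.M.SC2.AB2

/-!
P227, block SC(i): dependence of `a`, `b` on the direction `v` (derivative, homogeneity, joint
continuity), the function `Γ = 2 κ a √a - ε b`, its derivatives and the touching inequality.
-/

open MeasureTheory Set Filter Topology

namespace Vale.Agent.P227.M.SC2.HN

noncomputable section

variable {n : ℕ} {W : E n → ℝ} {c C : ℝ}

lemma F1_add (v p : E n) (τ : ℝ) : F1 W (v + τ • p) = fun x => F1 W v x + τ * F1 W p x := by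
  unfold F1
  rw [dd_add_left]
  ext x
  rw [dd_smul_left]

lemma F2_add (hR : Reg W c C) (v p : E n) (τ : ℝ) : F2 W (v + τ • p) =
    fun x => F2 W v x + (τ * (2 * dd p (F1 W v) x) + τ ^ 2 * dd p (F1 W p) x) := by
  have hv := (ce1 hR v).diff hR
  have hp := (ce1 hR p).diff hR
  have hp' : Differentiable ℝ (fun x => τ * F1 W p x) := hp.const_mul τ
  have h1 : F2 W (v + τ • p) = dd (v + τ • p) (fun x => F1 W v x + τ * F1 W p x) := by
    rw [← F1_add]; rfl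
  rw [h1, dd_add_left]
  ext x
  rw [dd_smul_left, dd_add v hv hp', dd_add p hv hp', dd_cmul v hp, dd_cmul p hp]
  have h2 : dd v (F1 W p) = dd p (F1 W v) := dd_comm (ce_ff.cd2 hR) v p
  simp only [h2]
  change F2 W v x + τ * dd p (F1 W v) x + τ * (dd p (F1 W v) x + τ * dd p (F1 W p) x) = _
  ring

lemma F3_add (hR : Reg W c C) (v p : E n) (τ : ℝ) :
    F3 W (v + τ • p) = fun x => F3 W v x + (τ * (3 * dd p (F2 W v) x) +
      (τ ^ 2 * (3 * dd p (dd p (F1 W v)) x) + τ ^ 3 * dd p (dd p (F1 W p)) x)) := by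
  have hv2 := (ce2 hR v).diff hR
  have hpv := ((ce1 hR v).dd hR p).diff hR
  have hpp := ((ce1 hR p).dd hR p).diff hR
  have h1 : F3 W (v + τ • p) = dd (v + τ • p)
      (fun x => F2 W v x + (τ * (2 * dd p (F1 W v) x) + τ ^ 2 * dd p (F1 W p) x)) := by
    rw [← F2_add hR]; rfl
  have ha : Differentiable ℝ (fun x => 2 * dd p (F1 W v) x) := hpv.const_mul 2
  have hb : Differentiable ℝ (fun x => τ * (2 * dd p (F1 W v) x)) := ha.const_mul τ
  have hc : Differentiable ℝ (fun x => τ ^ 2 * dd p (F1 W p) x) := hpp.const_mul _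
  have hd : Differentiable ℝ (fun x => τ * (2 * dd p (F1 W v) x) + τ ^ 2 * dd p (F1 W p) x) :=
    hb.add hc
  rw [h1, dd_add_left]
  ext x
  rw [dd_smul_left, dd_add v hv2 hd, dd_add p hv2 hd, dd_add v hb hc, dd_add p hb hc,
    dd_cmul v ha, dd_cmul p ha, dd_cmul v hpv, dd_cmul p hpv, dd_cmul v hpp, dd_cmul p hpp]
  have e1 : dd v (dd p (F1 W v)) = dd p (F2 W v) := dd_comm ((ce1 hR v).cd2 hR) v p
  have e2 : dd v (dd p (F1 W p)) = dd p (dd p (F1 W v)) := by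
    rw [dd_comm ((ce1 hR p).cd2 hR) v p]
    have h2 : dd v (F1 W p) = dd p (F1 W v) := dd_comm (ce_ff.cd2 hR) v p
    rw [h2]
  simp only [e1, e2]
  change F3 W v x + (τ * (2 * dd p (F2 W v) x) + τ ^ 2 * dd p (dd p (F1 W v)) x) +
    τ * (dd p (F2 W v) x + (τ * (2 * dd p (dd p (F1 W v)) x) + τ ^ 2 * dd p (dd p (F1 W p)) x)) = _
  ring

lemma r_F1_v (hR : Reg W c C) (P : E n →L[ℝ] E n) (s : ℝ) (x v p : E n) :
    HasDerivAt (fun τ : ℝ => r W P (F1 W (v + τ • p)) s x) (r W P (dd p (ff W)) s x) 0 := by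
  have e : (fun τ : ℝ => r W P (F1 W (v + τ • p)) s x) =
      fun τ => r W P (F1 W v) s x + τ * r W P (F1 W p) s x := by
    ext τ
    rw [F1_add, r_add hR P s (ce1 hR v) ((ce1 hR p).cmul τ), r_cmul]
  rw [e]
  have h := ((hasDerivAt_id (0 : ℝ)).mul_const (r W P (F1 W p) s x)).const_add
    (r W P (F1 W v) s x)
  refine h.congr_deriv ?_
  simp [F1]

lemma r_F2_v (hR : Reg W c C) (P : E n →L[ℝ] E n) (s : ℝ) (x v p : E n) :
    HasDerivAt (fun τ : ℝ => r W P (F2 W (v + τ • p)) s x) (2 * r W P (dd p (F1 W v)) s x) 0 := by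
  have e : (fun τ : ℝ => r W P (F2 W (v + τ • p)) s x) =
      fun τ => r W P (F2 W v) s x + (τ * (2 * r W P (dd p (F1 W v)) s x) +
        τ ^ 2 * r W P (dd p (F1 W p)) s x) := by
    ext τ
    rw [F2_add hR, r_add hR P s (ce2 hR v) (((((ce1 hR v).dd hR p).cmul 2).cmul τ).add
      (((ce1 hR p).dd hR p).cmul _)), r_add hR P s ((((ce1 hR v).dd hR p).cmul 2).cmul τ)
      (((ce1 hR p).dd hR p).cmul _), r_cmul, r_cmul, r_cmul]
  rw [e]
  have h := (((hasDerivAt_id (0 : ℝ)).mul_const (2 * r W P (dd p (F1 W v)) s x)).add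
    (((hasDerivAt_id (0 : ℝ)).pow 2).mul_const (r W P (dd p (F1 W p)) s x))).const_add
    (r W P (F2 W v) s x)
  refine h.congr_deriv ?_
  simp

lemma r_F3_v (hR : Reg W c C) (P : E n →L[ℝ] E n) (s : ℝ) (x v p : E n) :
    HasDerivAt (fun τ : ℝ => r W P (F3 W (v + τ • p)) s x) (3 * r W P (dd p (F2 W v)) s x) 0 := by
  have e : (fun τ : ℝ => r W P (F3 W (v + τ • p)) s x) =
      fun τ => r W P (F3 W v) s x + (τ * (3 * r W P (dd p (F2 W v)) s x) +
        (τ ^ 2 * (3 * r W P (dd p (dd p (F1 W v))) s x) +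
          τ ^ 3 * r W P (dd p (dd p (F1 W p))) s x)) := by
    ext τ
    have hG := F3_add hR v p τ
    have c1 := (((ce2 hR v).dd hR p).cmul 3).cmul τ
    have c2 := ((((ce1 hR v).dd hR p).dd hR p).cmul 3).cmul (τ ^ 2)
    have c3 := ((((ce1 hR p).dd hR p).dd hR p)).cmul (τ ^ 3)
    rw [hG, r_add hR P s (ce3 hR v) (c1.add (c2.add c3)), r_add hR P s c1 (c2.add c3),
      r_add hR P s c2 c3, r_cmul, r_cmul, r_cmul, r_cmul, r_cmul]
  rw [e]
  have h := (((hasDerivAt_id (0 : ℝ)).mul_const (3 * r W P (dd p (F2 W v)) s x)).add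
    ((((hasDerivAt_id (0 : ℝ)).pow 2).mul_const (3 * r W P (dd p (dd p (F1 W v))) s x)).add
    (((hasDerivAt_id (0 : ℝ)).pow 3).mul_const (r W P (dd p (dd p (F1 W p))) s x)))).const_add
    (r W P (F3 W v) s x)
  refine h.congr_deriv ?_
  simp

lemma aa_v (hR : Reg W c C) (P : E n →L[ℝ] E n) (s : ℝ) (x v p : E n) :
    HasDerivAt (fun τ : ℝ => aa W P s x (v + τ • p)) (2 * mm W P p s x v) 0 := by
  have h1 := r_F1_v hR P s x v p
  have h2 := r_F2_v hR P s x v p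
  have h := h2.neg.add (h1.pow 2)
  refine h.congr_deriv ?_
  simp only [zero_smul, add_zero]
  unfold mm j1
  ring

lemma bb_v (hR : Reg W c C) (P : E n →L[ℝ] E n) (s : ℝ) (x v p : E n) :
    HasDerivAt (fun τ : ℝ => bb W P s x (v + τ • p)) (3 * ax W P p s x v) 0 := by
  have h1 := r_F1_v hR P s x v p
  have h2 := r_F2_v hR P s x v p
  have h3 := r_F3_v hR P s x v p
  have h := (h3.neg.add ((h2.mul h1).const_mul 3)).sub ((h1.pow 3).const_mul 2)
  refine h.congr_deriv ?_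
  simp only [zero_smul, add_zero]
  unfold ax j1
  norm_num
  ring

/-! ### homogeneity -/

lemma F1_smul (t : ℝ) (v : E n) : F1 W (t • v) = fun x => t * F1 W v x := dd_smul_left t v _

lemma F2_smul (hR : Reg W c C) (t : ℝ) (v : E n) : F2 W (t • v) = fun x => t ^ 2 * F2 W v x := by
  have h1 : F2 W (t • v) = dd (t • v) (fun x => t * F1 W v x) := by rw [← F1_smul]; rfl
  rw [h1, dd_smul_left, dd_cmul v ((ce1 hR v).diff hR)]
  ext x
  change t * (t * F2 W v x) = _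
  ring

lemma F3_smul (hR : Reg W c C) (t : ℝ) (v : E n) : F3 W (t • v) = fun x => t ^ 3 * F3 W v x := by
  have h1 : F3 W (t • v) = dd (t • v) (fun x => t ^ 2 * F2 W v x) := by rw [← F2_smul hR]; rfl
  rw [h1, dd_smul_left, dd_cmul v ((ce2 hR v).diff hR)]
  ext x
  change t * (t ^ 2 * F3 W v x) = _
  ring

lemma aa_hom (hR : Reg W c C) (P : E n →L[ℝ] E n) (s : ℝ) (x v : E n) (t : ℝ) :
    aa W P s x (t • v) = t ^ 2 * aa W P s x v := by
  unfold aa
  rw [F1_smul, F2_smul hR, r_cmul, r_cmul]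
  ring

lemma bb_hom (hR : Reg W c C) (P : E n →L[ℝ] E n) (s : ℝ) (x v : E n) (t : ℝ) :
    bb W P s x (t • v) = t ^ 3 * bb W P s x v := by
  unfold bb
  rw [F1_smul, F2_smul hR, F3_smul hR, r_cmul, r_cmul, r_cmul]
  ring

/-! ### joint continuity -/

lemma T_expand (hR : Reg W c C) (P : E n →L[ℝ] E n) (s : ℝ) {F : E n → ℝ} (hF : CE W F)
    (v x : E n) : T P s (dd v F) x = ∑ j, v j * T P s (dd (ei j) F) x := by
  unfold T
  have h : ∀ g : EE n, rho g • dd v F (x + Real.sqrt s • P g) =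
      ∑ j, v j * (rho g • dd (ei j) F (x + Real.sqrt s • P g)) := by
    intro g
    have := fderiv_eq_sum F (x + Real.sqrt s • P g) v
    unfold dd
    rw [this, Finset.smul_sum]
    refine Finset.sum_congr rfl fun j _ => ?_
    unfold pd
    simp only [smul_eq_mul]
    ring
  simp_rw [h]
  rw [integral_finsetSum]
  · refine Finset.sum_congr rfl fun j _ => ?_
    rw [integral_const_mul]
  · intro j _
    obtain ⟨B, hB⟩ := (hF.dd hR (ei j)).bdd hR
    exact (integrable_T P s ((hF.dd hR (ei j)).diff hR).continuous hB x).const_mul _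

lemma r_expand (hR : Reg W c C) (P : E n →L[ℝ] E n) (s : ℝ) {F : E n → ℝ} (hF : CE W F)
    (v x : E n) : r W P (dd v F) s x = ∑ j, v j * r W P (dd (ei j) F) s x := by
  unfold r
  rw [T_expand hR P s hF, Finset.sum_div]
  refine Finset.sum_congr rfl fun j _ => ?_
  rw [mul_div_assoc]

lemma r_expand2 (hR : Reg W c C) (P : E n →L[ℝ] E n) (s : ℝ) {F : E n → ℝ} (hF : CE W F)
    (v x : E n) : r W P (dd v (dd v F)) s x =
      ∑ j, v j * ∑ k, v k * r W P (dd (ei k) (dd (ei j) F)) s x := by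
  rw [r_expand hR P s (hF.dd hR v)]
  refine Finset.sum_congr rfl fun j _ => ?_
  rw [dd_comm (hF.cd2 hR), r_expand hR P s (hF.dd hR (ei j))]

lemma r_expand3 (hR : Reg W c C) (P : E n →L[ℝ] E n) (s : ℝ) {F : E n → ℝ} (hF : CE W F)
    (v x : E n) : r W P (dd v (dd v (dd v F))) s x =
      ∑ j, v j * ∑ k, v k * ∑ l, v l * r W P (dd (ei l) (dd (ei k) (dd (ei j) F))) s x := by
  rw [r_expand hR P s ((hF.dd hR v).dd hR v)]
  refine Finset.sum_congr rfl fun j _ => ?_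
  rw [dd_comm ((hF.dd hR v).cd2 hR), dd_comm (hF.cd2 hR) (ei j) v, r_expand2 hR P s (hF.dd hR (ei j))]

lemma cont_coord (j : Fin n) : Continuous (fun q : ℝ × E n × E n => q.2.2 j) := by fun_prop

lemma cont_r1 (hR : Reg W c C) (P : E n →L[ℝ] E n) :
    Continuous (fun q : ℝ × E n × E n => r W P (F1 W q.2.2) q.1 q.2.1) := by
  have e : (fun q : ℝ × E n × E n => r W P (F1 W q.2.2) q.1 q.2.1) =
      fun q => ∑ j, q.2.2 j * r W P (dd (ei j) (ff W)) q.1 q.2.1 := by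
    ext q
    exact r_expand hR P q.1 ce_ff q.2.2 q.2.1
  rw [e]
  refine continuous_finset_sum _ fun j _ => (cont_coord j).mul ?_
  exact (r_cont hR P (ce_ff.dd hR (ei j))).comp (by fun_prop : Continuous fun q : ℝ × E n × E n => (q.1, q.2.1))

lemma cont_r2 (hR : Reg W c C) (P : E n →L[ℝ] E n) :
    Continuous (fun q : ℝ × E n × E n => r W P (F2 W q.2.2) q.1 q.2.1) := by
  have e : (fun q : ℝ × E n × E n => r W P (F2 W q.2.2) q.1 q.2.1) =
      fun q => ∑ j, q.2.2 j * ∑ k, q.2.2 k * r W P (dd (ei k) (dd (ei j) (ff W))) q.1 q.2.1 := by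
    ext q
    exact r_expand2 hR P q.1 ce_ff q.2.2 q.2.1
  rw [e]
  refine continuous_finset_sum _ fun j _ => (cont_coord j).mul ?_
  refine continuous_finset_sum _ fun k _ => (cont_coord k).mul ?_
  exact (r_cont hR P ((ce_ff.dd hR (ei j)).dd hR (ei k))).comp
    (by fun_prop : Continuous fun q : ℝ × E n × E n => (q.1, q.2.1))

lemma cont_r3 (hR : Reg W c C) (P : E n →L[ℝ] E n) :
    Continuous (fun q : ℝ × E n × E n => r W P (F3 W q.2.2) q.1 q.2.1) := by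
  have e : (fun q : ℝ × E n × E n => r W P (F3 W q.2.2) q.1 q.2.1) =
      fun q => ∑ j, q.2.2 j * ∑ k, q.2.2 k * ∑ l, q.2.2 l *
        r W P (dd (ei l) (dd (ei k) (dd (ei j) (ff W)))) q.1 q.2.1 := by
    ext q
    exact r_expand3 hR P q.1 ce_ff q.2.2 q.2.1
  rw [e]
  refine continuous_finset_sum _ fun j _ => (cont_coord j).mul ?_
  refine continuous_finset_sum _ fun k _ => (cont_coord k).mul ?_
  refine continuous_finset_sum _ fun l _ => (cont_coord l).mul ?_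
  exact (r_cont hR P (((ce_ff.dd hR (ei j)).dd hR (ei k)).dd hR (ei l))).comp
    (by fun_prop : Continuous fun q : ℝ × E n × E n => (q.1, q.2.1))

lemma cont_aa (hR : Reg W c C) (P : E n →L[ℝ] E n) :
    Continuous (fun q : ℝ × E n × E n => aa W P q.1 q.2.1 q.2.2) :=
  (cont_r2 hR P).neg.add ((cont_r1 hR P).pow 2)

lemma cont_bb (hR : Reg W c C) (P : E n →L[ℝ] E n) :
    Continuous (fun q : ℝ × E n × E n => bb W P q.1 q.2.1 q.2.2) :=
  (((cont_r3 hR P).neg.add (((cont_r2 hR P).mul (cont_r1 hR P)).const_mul 3))).sub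
    (((cont_r1 hR P).pow 3).const_mul 2)

/-! ### the function `Γ` -/

/-- `Γ = 2 κ a √a - ε b` -/
def Gm (W : E n → ℝ) (P : E n →L[ℝ] E n) (κ ε : ℝ) (s : ℝ) (x v : E n) : ℝ :=
  2 * κ * (aa W P s x v * Real.sqrt (aa W P s x v)) - ε * bb W P s x v

lemma Gm_hom (hR : Reg W c C) (P : E n →L[ℝ] E n) (κ ε s : ℝ) (x v : E n) {t : ℝ} (ht : 0 < t) :
    Gm W P κ ε s x (t • v) = t ^ 3 * Gm W P κ ε s x v := by
  unfold Gm
  rw [aa_hom hR, bb_hom hR, Real.sqrt_mul (by positivity), Real.sqrt_sq ht.le]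
  ring

lemma Gm_cont (hR : Reg W c C) (P : E n →L[ℝ] E n) (κ ε : ℝ) :
    Continuous (fun q : ℝ × E n × E n => Gm W P κ ε q.1 q.2.1 q.2.2) :=
  (((cont_aa hR P).mul (Real.continuous_sqrt.comp (cont_aa hR P))).const_mul (2 * κ)).sub
    ((cont_bb hR P).const_mul ε)

def Gx (W : E n → ℝ) (P : E n →L[ℝ] E n) (κ ε : ℝ) (p : E n) (s : ℝ) (x v : E n) : ℝ :=
  3 * κ * (Real.sqrt (aa W P s x v) * ax W P p s x v) - ε * bx W P p s x v

def Gxx (W : E n → ℝ) (P : E n →L[ℝ] E n) (κ ε : ℝ) (p : E n) (s : ℝ) (x v : E n) : ℝ :=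
  3 * κ * (ax W P p s x v / (2 * Real.sqrt (aa W P s x v)) * ax W P p s x v +
    Real.sqrt (aa W P s x v) * axx W P p s x v) - ε * bxx W P p s x v

def Gs (W : E n → ℝ) (P : E n →L[ℝ] E n) (κ ε : ℝ) (s : ℝ) (x v : E n) : ℝ :=
  3 * κ * (Real.sqrt (aa W P s x v) * ∑ i : Fin n, (1 / 2 * axx W P (P (eb i)) s x v -
    ww W P i s x * ax W P (P (eb i)) s x v - mm W P (P (eb i)) s x v ^ 2)) -
  ε * ∑ i : Fin n, (1 / 2 * bxx W P (P (eb i)) s x v - ww W P i s x * bx W P (P (eb i)) s x v -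
        3 * (mm W P (P (eb i)) s x v * ax W P (P (eb i)) s x v))

def Gv (W : E n → ℝ) (P : E n →L[ℝ] E n) (κ ε : ℝ) (p : E n) (s : ℝ) (x v : E n) : ℝ :=
  3 * κ * (Real.sqrt (aa W P s x v) * (2 * mm W P p s x v)) - ε * (3 * ax W P p s x v)

lemma hasDerivAt_mul_sqrt {f : ℝ → ℝ} {f' x : ℝ} (hf : HasDerivAt f f' x) (hx : 0 < f x) :
    HasDerivAt (fun y => f y * Real.sqrt (f y)) (3 / 2 * (Real.sqrt (f x) * f')) x := by
  have h1 := hf.mul (hf.sqrt hx.ne')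
  refine h1.congr_deriv ?_
  have h2 : Real.sqrt (f x) ≠ 0 := (Real.sqrt_pos.2 hx).ne'
  have h3 : Real.sqrt (f x) ^ 2 = f x := Real.sq_sqrt hx.le
  field_simp
  rw [h3]
  ring

lemma Gm_x (hR : Reg W c C) (P : E n →L[ℝ] E n) (κ ε s : ℝ) (x v p : E n)
    (ha : 0 < aa W P s x v) :
    HasDerivAt (fun τ : ℝ => Gm W P κ ε s (x + τ • p) v) (Gx W P κ ε p s x v) 0 := by
  have h1 := aa_x hR P s x v p
  have h2 := hasDerivAt_mul_sqrt h1 (by simpa using ha)
  have h := (h2.const_mul (2 * κ)).sub ((bb_x hR P s x v p).const_mul ε)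
  refine h.congr_deriv ?_
  simp only [zero_smul, add_zero]
  unfold Gx
  ring

lemma Gx_x (hR : Reg W c C) (P : E n →L[ℝ] E n) (κ ε s : ℝ) (x v p : E n)
    (ha : 0 < aa W P s x v) :
    HasDerivAt (fun τ : ℝ => Gx W P κ ε p s (x + τ • p) v) (Gxx W P κ ε p s x v) 0 := by
  have h1 := (aa_x hR P s x v p).sqrt (by simpa using ha.ne')
  have h := ((h1.mul (ax_x hR P s x v p)).const_mul (3 * κ)).sub ((bx_x hR P s x v p).const_mul ε)
  refine h.congr_deriv ?_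
  simp only [zero_smul, add_zero]
  unfold Gxx
  ring

lemma Gm_s (hR : Reg W c C) (P : E n →L[ℝ] E n) (κ ε : ℝ) {s : ℝ} (hs : 0 < s) (x v : E n)
    (ha : 0 < aa W P s x v) :
    HasDerivAt (fun s : ℝ => Gm W P κ ε s x v) (Gs W P κ ε s x v) s := by
  have h2 := hasDerivAt_mul_sqrt (aa_s hR P hs x v) ha
  have h := (h2.const_mul (2 * κ)).sub ((bb_s hR P hs x v).const_mul ε)
  refine h.congr_deriv ?_
  unfold Gs
  ring

lemma Gm_v (hR : Reg W c C) (P : E n →L[ℝ] E n) (κ ε s : ℝ) (x v p : E n)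
    (ha : 0 < aa W P s x v) :
    HasDerivAt (fun τ : ℝ => Gm W P κ ε s x (v + τ • p)) (Gv W P κ ε p s x v) 0 := by
  have h1 := aa_v hR P s x v p
  have h2 := hasDerivAt_mul_sqrt h1 (by simpa using ha)
  have h := (h2.const_mul (2 * κ)).sub ((bb_v hR P s x v p).const_mul ε)
  refine h.congr_deriv ?_
  simp only [zero_smul, add_zero]
  unfold Gv
  ring

/-- the equation of `Γ` -/
lemma DG (P : E n →L[ℝ] E n) (κ ε s : ℝ) (x v : E n) (ha : 0 < aa W P s x v) :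
    Gs W P κ ε s x v - 1 / 2 * ∑ i : Fin n, Gxx W P κ ε (P (eb i)) s x v +
      ∑ i : Fin n, ww W P i s x * Gx W P κ ε (P (eb i)) s x v =
    ∑ i : Fin n, (-(3 * κ * Real.sqrt (aa W P s x v) * mm W P (P (eb i)) s x v ^ 2) -
      3 * κ / (4 * Real.sqrt (aa W P s x v)) * ax W P (P (eb i)) s x v ^ 2 +
      3 * ε * (mm W P (P (eb i)) s x v * ax W P (P (eb i)) s x v)) := by
  have h2 : Real.sqrt (aa W P s x v) ≠ 0 := (Real.sqrt_pos.2 ha).ne'
  unfold Gs
  rw [Finset.mul_sum, Finset.mul_sum, Finset.mul_sum, Finset.mul_sum, ← Finset.sum_sub_distrib,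
    ← Finset.sum_sub_distrib, ← Finset.sum_add_distrib]
  refine Finset.sum_congr rfl fun i _ => ?_
  unfold Gxx Gx
  field_simp
  ring

/-- the touching inequality -/
lemma touch (P : E n →L[ℝ] E n) {κ ε s : ℝ} (hκ : 0 < κ) (hκ1 : κ ≤ 1) (hε : ε ^ 2 = 1)
    {x v : E n} (hv : ‖v‖ = 1) {lam B : ℝ} (hlam : 0 < lam) (ha : lam ≤ aa W P s x v)
    (hB : -B ≤ Gm W P κ ε s x v) (hG : Gm W P κ ε s x v < 0)
    (ht : ∀ i : Fin n, Gv W P κ ε (P (eb i)) s x v = 3 * Gm W P κ ε s x v * inner ℝ v (P (eb i))) :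
    (3 / (4 * κ * Real.sqrt lam) * B * ∑ i : Fin n, ‖P (eb i)‖ ^ 2) * Gm W P κ ε s x v ≤
    Gs W P κ ε s x v - 1 / 2 * ∑ i : Fin n, Gxx W P κ ε (P (eb i)) s x v +
      ∑ i : Fin n, ww W P i s x * Gx W P κ ε (P (eb i)) s x v := by
  have ha0 : 0 < aa W P s x v := lt_of_lt_of_le hlam ha
  rw [DG P κ ε s x v ha0, Finset.mul_sum, Finset.sum_mul]
  refine Finset.sum_le_sum fun i _ => ?_
  set G := Gm W P κ ε s x v with hGdef
  set σ := Real.sqrt (aa W P s x v) with hσ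
  set m := mm W P (P (eb i)) s x v
  set q := ax W P (P (eb i)) s x v
  set β := inner ℝ v (P (eb i)) with hβ
  have hσ0 : 0 < σ := Real.sqrt_pos.2 ha0
  have hsl : 0 < Real.sqrt lam := Real.sqrt_pos.2 hlam
  have hσl : Real.sqrt lam ≤ σ := Real.sqrt_le_sqrt ha
  have h1 : 3 * κ * (σ * (2 * m)) - ε * (3 * q) = 3 * G * β := ht i
  -- q = ε (2 κ σ m - β G)
  have hq : q = ε * (2 * κ * σ * m - β * G) := by
    have : ε * (ε * (3 * q)) = ε * (3 * κ * (σ * (2 * m)) - 3 * G * β) := by rw [← h1]; ring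
    have h3 : ε * (ε * (3 * q)) = 3 * q := by
      calc ε * (ε * (3 * q)) = ε ^ 2 * (3 * q) := by ring
        _ = 3 * q := by rw [hε, one_mul]
    linarith
  have hq2 : q ^ 2 = (2 * κ * σ * m - β * G) ^ 2 := by rw [hq, mul_pow, hε, one_mul]
  have hq3 : ε * (m * q) = m * (2 * κ * σ * m - β * G) := by
    rw [hq]
    calc ε * (m * (ε * (2 * κ * σ * m - β * G))) = ε ^ 2 * (m * (2 * κ * σ * m - β * G)) := by ring
      _ = _ := by rw [hε, one_mul]
  have hβ2 : β ^ 2 ≤ ‖P (eb i)‖ ^ 2 := by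
    have := abs_real_inner_le_norm v (P (eb i))
    rw [hv, one_mul] at this
    exact sq_le_sq' (by linarith [neg_abs_le β, abs_nonneg β]) ((le_abs_self β).trans this)
  -- main algebra
  have key : -(3 * κ * σ * m ^ 2) - 3 * κ / (4 * σ) * q ^ 2 + 3 * ε * (m * q) =
      3 * (1 - κ ^ 2) / κ * σ * (κ * m - β * G / (2 * σ)) ^ 2 - 3 / (4 * κ * σ) * (β * G) ^ 2 := by
    have e1 : 3 * ε * (m * q) = 3 * (m * (2 * κ * σ * m - β * G)) := by rw [← hq3]; ring
    rw [e1, hq2]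
    field_simp
    ring
  rw [key]
  have hp : 0 ≤ 3 * (1 - κ ^ 2) / κ * σ * (κ * m - β * G / (2 * σ)) ^ 2 := by
    have : 0 ≤ 1 - κ ^ 2 := by nlinarith
    positivity
  have hG2 : G ^ 2 ≤ B * (-G) := by nlinarith
  have hBn : 0 ≤ B := by linarith
  have h5 : 3 / (4 * κ * σ) * (β * G) ^ 2 ≤
      3 / (4 * κ * Real.sqrt lam) * (‖P (eb i)‖ ^ 2 * (B * (-G))) := by
    rw [mul_pow]
    have h6 : 3 / (4 * κ * σ) ≤ 3 / (4 * κ * Real.sqrt lam) := by gcongr
    have h7 : 0 ≤ β ^ 2 * G ^ 2 := by positivity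
    have h8 : β ^ 2 * G ^ 2 ≤ ‖P (eb i)‖ ^ 2 * (B * (-G)) :=
      mul_le_mul hβ2 hG2 (by positivity) (by positivity)
    exact mul_le_mul h6 h8 h7 (by positivity)
  have h9 : 3 / (4 * κ * Real.sqrt lam) * B * ‖P (eb i)‖ ^ 2 * G =
      -(3 / (4 * κ * Real.sqrt lam) * (‖P (eb i)‖ ^ 2 * (B * (-G)))) := by ring
  rw [h9]
  linarith

end

end Vale.Agent.P227.M.SC2.HN
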