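import Vale.Agent.P227.M.SC2.MP

/-! Self-concordance is preserved by the heat flow in one variable (algebra + maximum principle). -/

namespace Vale.P227M.SC2

open Set Filter Topology

/-- quadratic form `a(v)` -/
def qa (A0 A1 A2 v1 v2 : ℝ) : ℝ := A0 * v1 ^ 2 + 2 * A1 * v1 * v2 + A2 * v2 ^ 2
/-- cubic form `b(v)` -/
def qb (B0 B1 B2 B3 v1 v2 : ℝ) : ℝ :=
  B0 * v1 ^ 3 + 3 * B1 * v1 ^ 2 * v2 + 3 * B2 * v1 * v2 ^ 2 + B3 * v2 ^ 3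

/-- the algebraic identity `D G - r G_v = 3 c (1 - c^2) sqrt a m^2` -/
theorem key_identity {sa m q c : ℝ} (hsa : 0 < sa) :
    (-3 * c * sa * m ^ 2 - 3 / 4 * c * q ^ 2 / sa + 3 * m * q) -
      ((-1 + c ^ 2 / 2) * m + c / 4 * q / sa) * (6 * c * sa * m - 3 * q) =
      3 * c * (1 - c ^ 2) * sa * m ^ 2 := by
  field_simp
  ring

theorem hasDerivAt_mul_sqrt {f : ℝ → ℝ} {f' x : ℝ} (hf : HasDerivAt f f' x) (hpos : 0 < f x) :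
    HasDerivAt (fun y => f y * Real.sqrt (f y)) (3 / 2 * Real.sqrt (f x) * f') x := by
  have h := hf.mul (hf.sqrt hpos.ne')
  have hs : 0 < Real.sqrt (f x) := Real.sqrt_pos.mpr hpos
  have e : f' * Real.sqrt (f x) + f x * (f' / (2 * Real.sqrt (f x))) = 3 / 2 * Real.sqrt (f x) * f' := by
    have h2 : f x = Real.sqrt (f x) * Real.sqrt (f x) := (Real.mul_self_sqrt hpos.le).symm
    have h3 : f x * (f' / (2 * Real.sqrt (f x))) = Real.sqrt (f x) * f' / 2 := by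
      rw [div_eq_mul_inv, mul_inv]
      nth_rewrite 1 [h2]
      field_simp
    rw [h3]; ring
  rw [← e]
  exact h

theorem hasDerivAt_sqrt_mul {f q : ℝ → ℝ} {q2 x : ℝ} (hf : HasDerivAt f (q x) x)
    (hq : HasDerivAt q q2 x) (hpos : 0 < f x) :
    HasDerivAt (fun y => 3 / 2 * Real.sqrt (f y) * q y)
      (3 / 4 * (q x) ^ 2 / Real.sqrt (f x) + 3 / 2 * Real.sqrt (f x) * q2) x := by
  have h := (((hf.sqrt hpos.ne').const_mul (3 / 2)).mul hq)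
  have hs : 0 < Real.sqrt (f x) := Real.sqrt_pos.mpr hpos
  have e : 3 / 2 * (q x / (2 * Real.sqrt (f x))) * q x + 3 / 2 * Real.sqrt (f x) * q2 =
    3 / 4 * (q x) ^ 2 / Real.sqrt (f x) + 3 / 2 * Real.sqrt (f x) * q2 := by
    field_simp
    ring
  rw [← e]
  exact h

theorem abs_qb_le {B0 B1 B2 B3 v1 v2 C : ℝ} (h0 : |B0| ≤ C) (h1 : |B1| ≤ C) (h2 : |B2| ≤ C)
    (h3 : |B3| ≤ C) (hv : v1 ^ 2 + v2 ^ 2 = 1) : |qb B0 B1 B2 B3 v1 v2| ≤ 8 * C := by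
  have hC : 0 ≤ C := (abs_nonneg _).trans h0
  have e1 : |v1| ≤ 1 := abs_le_one_iff_mul_self_le_one.mpr (by nlinarith [sq_nonneg v2])
  have e2 : |v2| ≤ 1 := abs_le_one_iff_mul_self_le_one.mpr (by nlinarith [sq_nonneg v1])
  have f0 : |B0 * v1 ^ 3| ≤ C := by
    rw [abs_mul, abs_pow]
    calc |B0| * |v1| ^ 3 ≤ C * 1 := mul_le_mul h0 (pow_le_one₀ (abs_nonneg _) e1) (by positivity) hC
      _ = C := mul_one C
  have f3 : |B3 * v2 ^ 3| ≤ C := by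
    rw [abs_mul, abs_pow]
    calc |B3| * |v2| ^ 3 ≤ C * 1 := mul_le_mul h3 (pow_le_one₀ (abs_nonneg _) e2) (by positivity) hC
      _ = C := mul_one C
  have f1 : |B1 * (v1 ^ 2 * v2)| ≤ C := by
    rw [abs_mul, abs_mul, abs_pow]
    have : |v1| ^ 2 * |v2| ≤ 1 * 1 :=
      mul_le_mul (pow_le_one₀ (abs_nonneg _) e1) e2 (abs_nonneg _) zero_le_one
    calc |B1| * (|v1| ^ 2 * |v2|) ≤ C * 1 := mul_le_mul h1 (by linarith) (by positivity) hC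
      _ = C := mul_one C
  have f2 : |B2 * (v1 * v2 ^ 2)| ≤ C := by
    rw [abs_mul, abs_mul, abs_pow]
    have : |v1| * |v2| ^ 2 ≤ 1 * 1 :=
      mul_le_mul e1 (pow_le_one₀ (abs_nonneg _) e2) (by positivity) zero_le_one
    calc |B2| * (|v1| * |v2| ^ 2) ≤ C * 1 := mul_le_mul h2 (by linarith) (by positivity) hC
      _ = C := mul_one C
  have e : qb B0 B1 B2 B3 v1 v2 = B0 * v1 ^ 3 + 3 * (B1 * (v1 ^ 2 * v2)) + 3 * (B2 * (v1 * v2 ^ 2))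
      + B3 * v2 ^ 3 := by unfold qb; ring
  rw [e]
  have g0 := abs_le.mp f0
  have g1 := abs_le.mp f1
  have g2 := abs_le.mp f2
  have g3 := abs_le.mp f3
  exact abs_le.mpr ⟨by linarith [g0.1, g1.1, g2.1, g3.1], by linarith [g0.2, g1.2, g2.2, g3.2]⟩

theorem abs_le_one_of_circle {v1 v2 : ℝ} (hv : v1 ^ 2 + v2 ^ 2 = 1) : |v1| ≤ 1 ∧ |v2| ≤ 1 :=
  ⟨abs_le_one_iff_mul_self_le_one.mpr (by nlinarith [sq_nonneg v2]),
    abs_le_one_iff_mul_self_le_one.mpr (by nlinarith [sq_nonneg v1])⟩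

theorem hasDerivAt_qa {A0 A1 A2 : ℝ → ℝ} {d0 d1 d2 x v1 v2 : ℝ} (h0 : HasDerivAt A0 d0 x)
    (h1 : HasDerivAt A1 d1 x) (h2 : HasDerivAt A2 d2 x) :
    HasDerivAt (fun y => qa (A0 y) (A1 y) (A2 y) v1 v2) (qa d0 d1 d2 v1 v2) x := by
  have h := ((h0.mul_const (v1 ^ 2)).add ((h1.const_mul 2).mul_const (v1 * v2))).add
    (h2.mul_const (v2 ^ 2))
  have e : (fun y => qa (A0 y) (A1 y) (A2 y) v1 v2) =
      (fun y => A0 y * v1 ^ 2 + 2 * A1 y * (v1 * v2) + A2 y * v2 ^ 2) := by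
    funext y; unfold qa; ring
  have e2 : qa d0 d1 d2 v1 v2 = d0 * v1 ^ 2 + 2 * d1 * (v1 * v2) + d2 * v2 ^ 2 := by
    unfold qa; ring
  rw [e, e2]; exact h

theorem hasDerivAt_qb {A0 A1 A2 A3 : ℝ → ℝ} {d0 d1 d2 d3 x v1 v2 : ℝ} (h0 : HasDerivAt A0 d0 x)
    (h1 : HasDerivAt A1 d1 x) (h2 : HasDerivAt A2 d2 x) (h3 : HasDerivAt A3 d3 x) :
    HasDerivAt (fun y => qb (A0 y) (A1 y) (A2 y) (A3 y) v1 v2) (qb d0 d1 d2 d3 v1 v2) x := by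
  have h := (((h0.mul_const (v1 ^ 3)).add ((h1.const_mul 3).mul_const (v1 ^ 2 * v2))).add
    ((h2.const_mul 3).mul_const (v1 * v2 ^ 2))).add (h3.mul_const (v2 ^ 3))
  have e : (fun y => qb (A0 y) (A1 y) (A2 y) (A3 y) v1 v2) =
      (fun y => A0 y * v1 ^ 3 + 3 * A1 y * (v1 ^ 2 * v2) + 3 * A2 y * (v1 * v2 ^ 2)
        + A3 y * v2 ^ 3) := by
    funext y; unfold qb; ring
  have e2 : qb d0 d1 d2 d3 v1 v2 = d0 * v1 ^ 3 + 3 * d1 * (v1 ^ 2 * v2) + 3 * d2 * (v1 * v2 ^ 2)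
        + d3 * v2 ^ 3 := by
    unfold qb; ring
  rw [e, e2]; exact h

theorem hasDerivAt_qa_v2 (a0 a1 a2 v1 v2 : ℝ) :
    HasDerivAt (fun x => qa a0 a1 a2 v1 x) (2 * (a1 * v1 + a2 * v2)) v2 := by
  have h1 : HasDerivAt (fun x : ℝ => x) 1 v2 := hasDerivAt_id v2
  have h2 : HasDerivAt (fun x : ℝ => x ^ 2) (2 * v2) v2 := by simpa using hasDerivAt_pow 2 v2
  have h := ((h1.const_mul (2 * a1 * v1)).const_add (a0 * v1 ^ 2)).add (h2.const_mul a2)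
  have e : (fun x => qa a0 a1 a2 v1 x) = (fun x => a0 * v1 ^ 2 + 2 * a1 * v1 * x + a2 * x ^ 2) := by
    funext x; unfold qa; ring
  rw [e]
  exact h.congr_deriv (by ring)

theorem hasDerivAt_qb_v2 (b0 b1 b2 b3 v1 v2 : ℝ) :
    HasDerivAt (fun x => qb b0 b1 b2 b3 v1 x) (3 * qa b1 b2 b3 v1 v2) v2 := by
  have h1 : HasDerivAt (fun x : ℝ => x) 1 v2 := hasDerivAt_id v2
  have h2 : HasDerivAt (fun x : ℝ => x ^ 2) (2 * v2) v2 := by simpa using hasDerivAt_pow 2 v2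
  have h3 : HasDerivAt (fun x : ℝ => x ^ 3) (3 * v2 ^ 2) v2 := by simpa using hasDerivAt_pow 3 v2
  have h := (((h1.const_mul (3 * b1 * v1 ^ 2)).const_add (b0 * v1 ^ 3)).add
    (h2.const_mul (3 * b2 * v1))).add (h3.const_mul b3)
  have e : (fun x => qb b0 b1 b2 b3 v1 x) =
      (fun x => b0 * v1 ^ 3 + 3 * b1 * v1 ^ 2 * x + 3 * b2 * v1 * x ^ 2 + b3 * x ^ 3) := by
    funext x; unfold qb; ring
  rw [e]
  exact h.congr_deriv (by unfold qa; ring)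

theorem qa_hom (a0 a1 a2 v1 v2 l : ℝ) :
    qa a0 a1 a2 (l * v1) (l * v2) = l ^ 2 * qa a0 a1 a2 v1 v2 := by unfold qa; ring

theorem qb_hom (b0 b1 b2 b3 v1 v2 l : ℝ) :
    qb b0 b1 b2 b3 (l * v1) (l * v2) = l ^ 3 * qb b0 b1 b2 b3 v1 v2 := by unfold qb; ring

/-- the normalised defect -/
noncomputable def gam (c a0 a1 a2 b0 b1 b2 b3 v1 v2 : ℝ) : ℝ :=
  (2 * c * (qa a0 a1 a2 v1 v2 * Real.sqrt (qa a0 a1 a2 v1 v2)) - qb b0 b1 b2 b3 v1 v2) /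
    ((v1 ^ 2 + v2 ^ 2) * Real.sqrt (v1 ^ 2 + v2 ^ 2))

theorem gam_circle {c a0 a1 a2 b0 b1 b2 b3 v1 v2 : ℝ} (hv : v1 ^ 2 + v2 ^ 2 = 1) :
    gam c a0 a1 a2 b0 b1 b2 b3 v1 v2 =
    2 * c * (qa a0 a1 a2 v1 v2 * Real.sqrt (qa a0 a1 a2 v1 v2)) - qb b0 b1 b2 b3 v1 v2 := by
  unfold gam; rw [hv]; simp

theorem gam_hom (c a0 a1 a2 b0 b1 b2 b3 v1 v2 l : ℝ) (hl : 0 < l) :
    gam c a0 a1 a2 b0 b1 b2 b3 (l * v1) (l * v2) = gam c a0 a1 a2 b0 b1 b2 b3 v1 v2 := by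
  unfold gam
  rw [qa_hom, qb_hom]
  have e1 : (l * v1) ^ 2 + (l * v2) ^ 2 = l ^ 2 * (v1 ^ 2 + v2 ^ 2) := by ring
  rw [e1, Real.sqrt_mul (by positivity), Real.sqrt_mul (by positivity), Real.sqrt_sq hl.le]
  have e2 : 2 * c * (l ^ 2 * qa a0 a1 a2 v1 v2 * (l * Real.sqrt (qa a0 a1 a2 v1 v2))) -
      l ^ 3 * qb b0 b1 b2 b3 v1 v2 = l ^ 3 * (2 * c * (qa a0 a1 a2 v1 v2 *
        Real.sqrt (qa a0 a1 a2 v1 v2)) - qb b0 b1 b2 b3 v1 v2) := by ring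
  have e3 : l ^ 2 * (v1 ^ 2 + v2 ^ 2) * (l * Real.sqrt (v1 ^ 2 + v2 ^ 2)) =
      l ^ 3 * ((v1 ^ 2 + v2 ^ 2) * Real.sqrt (v1 ^ 2 + v2 ^ 2)) := by ring
  rw [e2, e3, mul_div_mul_left _ _ (by positivity)]

theorem hasDerivAt_gam_v2 {c a0 a1 a2 b0 b1 b2 b3 v1 v2 : ℝ} (hv : v1 ^ 2 + v2 ^ 2 = 1)
    (hpos : 0 < qa a0 a1 a2 v1 v2) :
    HasDerivAt (fun x => gam c a0 a1 a2 b0 b1 b2 b3 v1 x)
      ((6 * c * Real.sqrt (qa a0 a1 a2 v1 v2) * (a1 * v1 + a2 * v2) - 3 * qa b1 b2 b3 v1 v2) -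
        3 * v2 * (2 * c * (qa a0 a1 a2 v1 v2 * Real.sqrt (qa a0 a1 a2 v1 v2)) -
          qb b0 b1 b2 b3 v1 v2)) v2 := by
  have hN : HasDerivAt (fun x => 2 * c * (qa a0 a1 a2 v1 x * Real.sqrt (qa a0 a1 a2 v1 x)) -
      qb b0 b1 b2 b3 v1 x) (2 * c * (3 / 2 * Real.sqrt (qa a0 a1 a2 v1 v2) *
        (2 * (a1 * v1 + a2 * v2))) - 3 * qa b1 b2 b3 v1 v2) v2 :=
    ((hasDerivAt_mul_sqrt (hasDerivAt_qa_v2 a0 a1 a2 v1 v2) hpos).const_mul (2 * c)).sub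
      (hasDerivAt_qb_v2 b0 b1 b2 b3 v1 v2)
  have hn : HasDerivAt (fun x : ℝ => v1 ^ 2 + x ^ 2) (2 * v2) v2 := by
    simpa using (hasDerivAt_pow 2 v2).const_add (v1 ^ 2)
  have hd := hasDerivAt_mul_sqrt (f := fun x : ℝ => v1 ^ 2 + x ^ 2) hn (by
    show 0 < v1 ^ 2 + v2 ^ 2
    rw [hv]; norm_num)
  have hne : (v1 ^ 2 + v2 ^ 2) * Real.sqrt (v1 ^ 2 + v2 ^ 2) ≠ 0 := by rw [hv]; simp
  have h := hN.div hd hne
  have e : (fun x => gam c a0 a1 a2 b0 b1 b2 b3 v1 x) = (fun x =>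
      (2 * c * (qa a0 a1 a2 v1 x * Real.sqrt (qa a0 a1 a2 v1 x)) - qb b0 b1 b2 b3 v1 x) /
      ((v1 ^ 2 + x ^ 2) * Real.sqrt (v1 ^ 2 + x ^ 2))) := by
    funext x; rfl
  rw [e]
  refine h.congr_deriv ?_
  simp only [hv, Real.sqrt_one]
  ring

/-- `z`- or `s`-derivative of `gam` on the circle -/
theorem hasDerivAt_gam {c v1 v2 : ℝ} (hv : v1 ^ 2 + v2 ^ 2 = 1)
    {A0 A1 A2 B0 B1 B2 B3 : ℝ → ℝ} {a0 a1 a2 b0 b1 b2 b3 x : ℝ}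
    (h0 : HasDerivAt A0 a0 x) (h1 : HasDerivAt A1 a1 x) (h2 : HasDerivAt A2 a2 x)
    (k0 : HasDerivAt B0 b0 x) (k1 : HasDerivAt B1 b1 x) (k2 : HasDerivAt B2 b2 x)
    (k3 : HasDerivAt B3 b3 x) (hpos : 0 < qa (A0 x) (A1 x) (A2 x) v1 v2) :
    HasDerivAt (fun y => gam c (A0 y) (A1 y) (A2 y) (B0 y) (B1 y) (B2 y) (B3 y) v1 v2)
      (2 * c * (3 / 2 * Real.sqrt (qa (A0 x) (A1 x) (A2 x) v1 v2) * qa a0 a1 a2 v1 v2) -
        qb b0 b1 b2 b3 v1 v2) x := by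
  have e : (fun y => gam c (A0 y) (A1 y) (A2 y) (B0 y) (B1 y) (B2 y) (B3 y) v1 v2) = (fun y =>
      2 * c * (qa (A0 y) (A1 y) (A2 y) v1 v2 * Real.sqrt (qa (A0 y) (A1 y) (A2 y) v1 v2)) -
        qb (B0 y) (B1 y) (B2 y) (B3 y) v1 v2) := by
    funext y; exact gam_circle hv
  rw [e]
  exact ((hasDerivAt_mul_sqrt (f := fun y => qa (A0 y) (A1 y) (A2 y) v1 v2)
    (hasDerivAt_qa h0 h1 h2) hpos).const_mul (2 * c)).sub (hasDerivAt_qb k0 k1 k2 k3)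

theorem div_nonneg_iff_of_pos_right' {x y : ℝ} (hy : 0 < y) : 0 ≤ x / y ↔ 0 ≤ x := by
  constructor
  · intro h
    have := mul_nonneg h hy.le
    rwa [div_mul_cancel₀ _ hy.ne'] at this
  · intro h; exact div_nonneg h hy.le

theorem ka_bound {C lam c A0 A1 A2 B1 B2 B3 v1 v2 : ℝ} (hC : 0 ≤ C) (hlam : 0 < lam)
    (hc0 : 0 ≤ c) (hc1 : c ≤ 1) (hv : v1 ^ 2 + v2 ^ 2 = 1) (bA1 : |A1| ≤ C) (bA2 : |A2| ≤ C)
    (bB1 : |B1| ≤ C) (bB2 : |B2| ≤ C) (bB3 : |B3| ≤ C) (hpos : lam ≤ qa A0 A1 A2 v1 v2) :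
    3 * v2 * ((-1 + c ^ 2 / 2) * (A1 * v1 + A2 * v2) +
        c / 4 * qa B1 B2 B3 v1 v2 / Real.sqrt (qa A0 A1 A2 v1 v2)) ≤
      C + 3 * (2 * C + C / Real.sqrt lam) := by
  obtain ⟨e1, e2⟩ := abs_le_one_of_circle hv
  have hm : |A1 * v1 + A2 * v2| ≤ 2 * C := by
    refine (abs_add_le _ _).trans ?_
    rw [abs_mul, abs_mul]
    have g1 : |A1| * |v1| ≤ C * 1 := mul_le_mul bA1 e1 (abs_nonneg _) hC
    have g2 : |A2| * |v2| ≤ C * 1 := mul_le_mul bA2 e2 (abs_nonneg _) hC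
    linarith
  have hq : |qa B1 B2 B3 v1 v2| ≤ 4 * C := by
    have e : qa B1 B2 B3 v1 v2 = B1 * v1 ^ 2 + 2 * (B2 * (v1 * v2)) + B3 * v2 ^ 2 := by
      unfold qa; ring
    have f1 : |B1 * v1 ^ 2| ≤ C := by
      rw [abs_mul, abs_pow]
      calc |B1| * |v1| ^ 2 ≤ C * 1 := mul_le_mul bB1 (pow_le_one₀ (abs_nonneg _) e1)
            (by positivity) hC
        _ = C := mul_one C
    have f2 : |B2 * (v1 * v2)| ≤ C := by
      rw [abs_mul, abs_mul]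
      have : |v1| * |v2| ≤ 1 * 1 := mul_le_mul e1 e2 (abs_nonneg _) zero_le_one
      calc |B2| * (|v1| * |v2|) ≤ C * 1 := mul_le_mul bB2 (by linarith) (by positivity) hC
        _ = C := mul_one C
    have f3 : |B3 * v2 ^ 2| ≤ C := by
      rw [abs_mul, abs_pow]
      calc |B3| * |v2| ^ 2 ≤ C * 1 := mul_le_mul bB3 (pow_le_one₀ (abs_nonneg _) e2)
            (by positivity) hC
        _ = C := mul_one C
    rw [e]
    have g1 := abs_le.mp f1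
    have g2 := abs_le.mp f2
    have g3 := abs_le.mp f3
    exact abs_le.mpr ⟨by linarith [g1.1, g2.1, g3.1], by linarith [g1.2, g2.2, g3.2]⟩
  have hsl : 0 < Real.sqrt lam := Real.sqrt_pos.mpr hlam
  have hsle : Real.sqrt lam ≤ Real.sqrt (qa A0 A1 A2 v1 v2) := Real.sqrt_le_sqrt hpos
  have hsa : 0 < Real.sqrt (qa A0 A1 A2 v1 v2) := hsl.trans_le hsle
  have h1 : |(-1 + c ^ 2 / 2) * (A1 * v1 + A2 * v2)| ≤ 2 * C := by
    rw [abs_mul]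
    have hc2 : c ^ 2 ≤ 1 := pow_le_one₀ hc0 hc1
    have : |(-1 + c ^ 2 / 2)| ≤ 1 := abs_le.mpr ⟨by nlinarith [sq_nonneg c], by linarith⟩
    calc |(-1 + c ^ 2 / 2)| * |A1 * v1 + A2 * v2| ≤ 1 * (2 * C) :=
          mul_le_mul this hm (abs_nonneg _) zero_le_one
      _ = 2 * C := one_mul _
  have h2 : |c / 4 * qa B1 B2 B3 v1 v2 / Real.sqrt (qa A0 A1 A2 v1 v2)| ≤ C / Real.sqrt lam := by
    rw [abs_div, abs_mul, abs_of_pos hsa]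
    have g1 : |c / 4| * |qa B1 B2 B3 v1 v2| ≤ C := by
      have : |c / 4| ≤ 1 / 4 := by rw [abs_of_nonneg (by linarith)]; linarith
      calc |c / 4| * |qa B1 B2 B3 v1 v2| ≤ 1 / 4 * (4 * C) :=
            mul_le_mul this hq (abs_nonneg _) (by norm_num)
        _ = C := by ring
    exact div_le_div₀ hC g1 hsl hsle
  have h3 : |(-1 + c ^ 2 / 2) * (A1 * v1 + A2 * v2) +
        c / 4 * qa B1 B2 B3 v1 v2 / Real.sqrt (qa A0 A1 A2 v1 v2)| ≤ 2 * C + C / Real.sqrt lam :=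
    (abs_add_le _ _).trans (add_le_add h1 h2)
  have h4 : |3 * v2 * ((-1 + c ^ 2 / 2) * (A1 * v1 + A2 * v2) +
        c / 4 * qa B1 B2 B3 v1 v2 / Real.sqrt (qa A0 A1 A2 v1 v2))| ≤
      3 * (2 * C + C / Real.sqrt lam) := by
    rw [abs_mul]
    have : |3 * v2| ≤ 3 := by rw [abs_mul]; rw [abs_of_pos (by norm_num : (0:ℝ) < 3)]; linarith
    exact mul_le_mul this h3 (abs_nonneg _) (by norm_num)
  have := (abs_le.mp h4).2
  linarith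

theorem flow_ineq {c be A0 A1 A2 B0 B1 B2 B3 A0s A1s A2s B0s B1s B2s B3s B0z B1z B2z B3z
    B0zz B1zz B2zz B3zz v1 v2 : ℝ} (hc0 : 0 ≤ c) (hc1 : c ≤ 1)
    (hpos : 0 < qa A0 A1 A2 v1 v2)
    (eA0 : A0s - 1 / 2 * B1z + be * B1 = -A1 ^ 2)
    (eA1 : A1s - 1 / 2 * B2z + be * B2 = -(A1 * A2))
    (eA2 : A2s - 1 / 2 * B3z + be * B3 = -A2 ^ 2)
    (eB0 : B0s - 1 / 2 * B0zz + be * B0z = -(3 * A1 * B1))
    (eB1 : B1s - 1 / 2 * B1zz + be * B1z = -(A2 * B1 + 2 * A1 * B2))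
    (eB2 : B2s - 1 / 2 * B2zz + be * B2z = -(2 * A2 * B2 + A1 * B3))
    (eB3 : B3s - 1 / 2 * B3zz + be * B3z = -(3 * A2 * B3)) :
    ((-1 + c ^ 2 / 2) * (A1 * v1 + A2 * v2) +
        c / 4 * qa B1 B2 B3 v1 v2 / Real.sqrt (qa A0 A1 A2 v1 v2)) *
      ((6 * c * Real.sqrt (qa A0 A1 A2 v1 v2) * (A1 * v1 + A2 * v2) - 3 * qa B1 B2 B3 v1 v2) -
        3 * v2 * (2 * c * (qa A0 A1 A2 v1 v2 * Real.sqrt (qa A0 A1 A2 v1 v2)) -
          qb B0 B1 B2 B3 v1 v2)) +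
    3 * v2 * ((-1 + c ^ 2 / 2) * (A1 * v1 + A2 * v2) +
        c / 4 * qa B1 B2 B3 v1 v2 / Real.sqrt (qa A0 A1 A2 v1 v2)) *
      (2 * c * (qa A0 A1 A2 v1 v2 * Real.sqrt (qa A0 A1 A2 v1 v2)) - qb B0 B1 B2 B3 v1 v2) ≤
    (2 * c * (3 / 2 * Real.sqrt (qa A0 A1 A2 v1 v2) * qa A0s A1s A2s v1 v2) -
        qb B0s B1s B2s B3s v1 v2) -
      1 / 2 * (2 * c * (3 / 4 * (qa B1 B2 B3 v1 v2) ^ 2 / Real.sqrt (qa A0 A1 A2 v1 v2) +
        3 / 2 * Real.sqrt (qa A0 A1 A2 v1 v2) * qa B1z B2z B3z v1 v2) -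
        qb B0zz B1zz B2zz B3zz v1 v2) +
      be * (2 * c * (3 / 2 * Real.sqrt (qa A0 A1 A2 v1 v2) * qa B1 B2 B3 v1 v2) -
        qb B0z B1z B2z B3z v1 v2) := by
  have ea : qa A0s A1s A2s v1 v2 - 1 / 2 * qa B1z B2z B3z v1 v2 + be * qa B1 B2 B3 v1 v2 =
      -(A1 * v1 + A2 * v2) ^ 2 := by
    have : qa A0s A1s A2s v1 v2 - 1 / 2 * qa B1z B2z B3z v1 v2 + be * qa B1 B2 B3 v1 v2 =
      (A0s - 1 / 2 * B1z + be * B1) * v1 ^ 2 + 2 * (A1s - 1 / 2 * B2z + be * B2) * v1 * v2 +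
        (A2s - 1 / 2 * B3z + be * B3) * v2 ^ 2 := by unfold qa; ring
    rw [this, eA0, eA1, eA2]; ring
  have eb : qb B0s B1s B2s B3s v1 v2 - 1 / 2 * qb B0zz B1zz B2zz B3zz v1 v2 +
      be * qb B0z B1z B2z B3z v1 v2 = -(3 * (A1 * v1 + A2 * v2) * qa B1 B2 B3 v1 v2) := by
    have : qb B0s B1s B2s B3s v1 v2 - 1 / 2 * qb B0zz B1zz B2zz B3zz v1 v2 +
      be * qb B0z B1z B2z B3z v1 v2 =
      (B0s - 1 / 2 * B0zz + be * B0z) * v1 ^ 3 +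
      3 * (B1s - 1 / 2 * B1zz + be * B1z) * v1 ^ 2 * v2 +
      3 * (B2s - 1 / 2 * B2zz + be * B2z) * v1 * v2 ^ 2 +
      (B3s - 1 / 2 * B3zz + be * B3z) * v2 ^ 3 := by unfold qb; ring
    rw [this, eB0, eB1, eB2, eB3]; unfold qa; ring
  have hsa : 0 < Real.sqrt (qa A0 A1 A2 v1 v2) := Real.sqrt_pos.mpr hpos
  have hkey := key_identity (m := A1 * v1 + A2 * v2) (q := qa B1 B2 B3 v1 v2) (c := c) hsa
  set sa := Real.sqrt (qa A0 A1 A2 v1 v2) with hsadef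
  set m := A1 * v1 + A2 * v2 with hm
  set q := qa B1 B2 B3 v1 v2 with hq
  set as' := qa A0s A1s A2s v1 v2
  set qz := qa B1z B2z B3z v1 v2
  set bs := qb B0s B1s B2s B3s v1 v2
  set bzz := qb B0zz B1zz B2zz B3zz v1 v2
  set bz := qb B0z B1z B2z B3z v1 v2
  set X := 2 * c * (qa A0 A1 A2 v1 v2 * sa) - qb B0 B1 B2 B3 v1 v2
  have hR : (2 * c * (3 / 2 * sa * as') - bs) -
      1 / 2 * (2 * c * (3 / 4 * q ^ 2 / sa + 3 / 2 * sa * qz) - bzz) +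
      be * (2 * c * (3 / 2 * sa * q) - bz) =
      3 * c * sa * (as' - 1 / 2 * qz + be * q) - (bs - 1 / 2 * bzz + be * bz) -
        3 / 4 * c * q ^ 2 / sa := by ring
  have hL : ((-1 + c ^ 2 / 2) * m + c / 4 * q / sa) * ((6 * c * sa * m - 3 * q) - 3 * v2 * X) +
      3 * v2 * ((-1 + c ^ 2 / 2) * m + c / 4 * q / sa) * X =
      ((-1 + c ^ 2 / 2) * m + c / 4 * q / sa) * (6 * c * sa * m - 3 * q) := by ring
  rw [hR, hL, ea, eb]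
  have hnn : 0 ≤ 3 * c * (1 - c ^ 2) * sa * m ^ 2 := by
    have : 0 ≤ 1 - c ^ 2 := by nlinarith
    positivity
  have e3 : 3 * c * sa * -m ^ 2 - -(3 * m * q) - 3 / 4 * c * q ^ 2 / sa =
      -3 * c * sa * m ^ 2 - 3 / 4 * c * q ^ 2 / sa + 3 * m * q := by ring
  rw [e3]
  linarith

theorem contOn_qa {X : Type*} [TopologicalSpace X] {f0 f1 f2 g1 g2 : X → ℝ} {t : Set X}
    (h0 : ContinuousOn f0 t) (h1 : ContinuousOn f1 t) (h2 : ContinuousOn f2 t)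
    (k1 : ContinuousOn g1 t) (k2 : ContinuousOn g2 t) :
    ContinuousOn (fun p => qa (f0 p) (f1 p) (f2 p) (g1 p) (g2 p)) t := by
  unfold qa; fun_prop

theorem contOn_qb {X : Type*} [TopologicalSpace X] {f0 f1 f2 f3 g1 g2 : X → ℝ} {t : Set X}
    (h0 : ContinuousOn f0 t) (h1 : ContinuousOn f1 t) (h2 : ContinuousOn f2 t)
    (h3 : ContinuousOn f3 t) (k1 : ContinuousOn g1 t) (k2 : ContinuousOn g2 t) :
    ContinuousOn (fun p => qb (f0 p) (f1 p) (f2 p) (f3 p) (g1 p) (g2 p)) t := by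
  unfold qb; fun_prop

/-- THE FLOW THEOREM. `A0 = w_tt, A1 = w_tz, A2 = w_zz, B0 = w_ttt, B1 = w_ttz, B2 = w_tzz,
B3 = w_zzz` at fixed `t`, as functions of `(s,z)`; `be = w_z`. -/
theorem sc_flow (S C lam c : ℝ) (hC : 0 ≤ C) (hlam : 0 < lam) (hc0 : 0 ≤ c) (hc1 : c ≤ 1)
    (be A0 A1 A2 B0 B1 B2 B3 A0s A1s A2s B0s B1s B2s B3s : ℝ → ℝ → ℝ)
    (B0z B1z B2z B3z B0zz B1zz B2zz B3zz : ℝ → ℝ → ℝ)
    -- continuity on the closed strip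
    (cA0 : ContinuousOn (Function.uncurry A0) {p | 0 ≤ p.1 ∧ p.1 ≤ S})
    (cA1 : ContinuousOn (Function.uncurry A1) {p | 0 ≤ p.1 ∧ p.1 ≤ S})
    (cA2 : ContinuousOn (Function.uncurry A2) {p | 0 ≤ p.1 ∧ p.1 ≤ S})
    (cB0 : ContinuousOn (Function.uncurry B0) {p | 0 ≤ p.1 ∧ p.1 ≤ S})
    (cB1 : ContinuousOn (Function.uncurry B1) {p | 0 ≤ p.1 ∧ p.1 ≤ S})
    (cB2 : ContinuousOn (Function.uncurry B2) {p | 0 ≤ p.1 ∧ p.1 ≤ S})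
    (cB3 : ContinuousOn (Function.uncurry B3) {p | 0 ≤ p.1 ∧ p.1 ≤ S})
    -- derivatives in `s`, `0 < s ≤ S`
    (sA0 : ∀ s z, 0 < s → s ≤ S → HasDerivAt (fun s' => A0 s' z) (A0s s z) s)
    (sA1 : ∀ s z, 0 < s → s ≤ S → HasDerivAt (fun s' => A1 s' z) (A1s s z) s)
    (sA2 : ∀ s z, 0 < s → s ≤ S → HasDerivAt (fun s' => A2 s' z) (A2s s z) s)
    (sB0 : ∀ s z, 0 < s → s ≤ S → HasDerivAt (fun s' => B0 s' z) (B0s s z) s)
    (sB1 : ∀ s z, 0 < s → s ≤ S → HasDerivAt (fun s' => B1 s' z) (B1s s z) s)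
    (sB2 : ∀ s z, 0 < s → s ≤ S → HasDerivAt (fun s' => B2 s' z) (B2s s z) s)
    (sB3 : ∀ s z, 0 < s → s ≤ S → HasDerivAt (fun s' => B3 s' z) (B3s s z) s)
    -- derivatives in `z`, `0 < s ≤ S`
    (zA0 : ∀ s z, 0 < s → s ≤ S → HasDerivAt (fun z' => A0 s z') (B1 s z) z)
    (zA1 : ∀ s z, 0 < s → s ≤ S → HasDerivAt (fun z' => A1 s z') (B2 s z) z)
    (zA2 : ∀ s z, 0 < s → s ≤ S → HasDerivAt (fun z' => A2 s z') (B3 s z) z)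
    (zB0 : ∀ s z, 0 < s → s ≤ S → HasDerivAt (fun z' => B0 s z') (B0z s z) z)
    (zB1 : ∀ s z, 0 < s → s ≤ S → HasDerivAt (fun z' => B1 s z') (B1z s z) z)
    (zB2 : ∀ s z, 0 < s → s ≤ S → HasDerivAt (fun z' => B2 s z') (B2z s z) z)
    (zB3 : ∀ s z, 0 < s → s ≤ S → HasDerivAt (fun z' => B3 s z') (B3z s z) z)
    (zB0z : ∀ s z, 0 < s → s ≤ S → HasDerivAt (fun z' => B0z s z') (B0zz s z) z)
    (zB1z : ∀ s z, 0 < s → s ≤ S → HasDerivAt (fun z' => B1z s z') (B1zz s z) z)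
    (zB2z : ∀ s z, 0 < s → s ≤ S → HasDerivAt (fun z' => B2z s z') (B2zz s z) z)
    (zB3z : ∀ s z, 0 < s → s ≤ S → HasDerivAt (fun z' => B3z s z') (B3zz s z) z)
    -- the seven equations
    (eA0 : ∀ s z, 0 < s → s ≤ S →
      A0s s z - 1 / 2 * B1z s z + be s z * B1 s z = -(A1 s z) ^ 2)
    (eA1 : ∀ s z, 0 < s → s ≤ S →
      A1s s z - 1 / 2 * B2z s z + be s z * B2 s z = -(A1 s z * A2 s z))
    (eA2 : ∀ s z, 0 < s → s ≤ S →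
      A2s s z - 1 / 2 * B3z s z + be s z * B3 s z = -(A2 s z) ^ 2)
    (eB0 : ∀ s z, 0 < s → s ≤ S →
      B0s s z - 1 / 2 * B0zz s z + be s z * B0z s z = -(3 * A1 s z * B1 s z))
    (eB1 : ∀ s z, 0 < s → s ≤ S →
      B1s s z - 1 / 2 * B1zz s z + be s z * B1z s z =
        -(A2 s z * B1 s z + 2 * A1 s z * B2 s z))
    (eB2 : ∀ s z, 0 < s → s ≤ S →
      B2s s z - 1 / 2 * B2zz s z + be s z * B2z s z =
        -(2 * A2 s z * B2 s z + A1 s z * B3 s z))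
    (eB3 : ∀ s z, 0 < s → s ≤ S →
      B3s s z - 1 / 2 * B3zz s z + be s z * B3z s z = -(3 * A2 s z * B3 s z))
    -- bounds
    (bA1 : ∀ s z, 0 ≤ s → s ≤ S → |A1 s z| ≤ C)
    (bA2 : ∀ s z, 0 ≤ s → s ≤ S → |A2 s z| ≤ C)
    (bB0 : ∀ s z, 0 ≤ s → s ≤ S → |B0 s z| ≤ C)
    (bB1 : ∀ s z, 0 ≤ s → s ≤ S → |B1 s z| ≤ C)
    (bB2 : ∀ s z, 0 ≤ s → s ≤ S → |B2 s z| ≤ C)
    (bB3 : ∀ s z, 0 ≤ s → s ≤ S → |B3 s z| ≤ C)
    (bbe : ∀ s z, 0 < s → s ≤ S → |be s z| ≤ C * (1 + |z|))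
    (low : ∀ s z v1 v2, 0 ≤ s → s ≤ S →
      lam * (v1 ^ 2 + v2 ^ 2) ≤ qa (A0 s z) (A1 s z) (A2 s z) v1 v2)
    -- initial condition
    (init : ∀ z v1 v2, qb (B0 0 z) (B1 0 z) (B2 0 z) (B3 0 z) v1 v2 ≤
      2 * c * (qa (A0 0 z) (A1 0 z) (A2 0 z) v1 v2 *
        Real.sqrt (qa (A0 0 z) (A1 0 z) (A2 0 z) v1 v2))) :
    ∀ s z v1 v2, 0 ≤ s → s ≤ S →
      |qb (B0 s z) (B1 s z) (B2 s z) (B3 s z) v1 v2| ≤
      2 * c * (qa (A0 s z) (A1 s z) (A2 s z) v1 v2 *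
        Real.sqrt (qa (A0 s z) (A1 s z) (A2 s z) v1 v2)) := by
  -- one-sided statement on the circle
  have hcirc : ∀ s z v1 v2, 0 ≤ s → s ≤ S → v1 ^ 2 + v2 ^ 2 = 1 →
      0 ≤ gam c (A0 s z) (A1 s z) (A2 s z) (B0 s z) (B1 s z) (B2 s z) (B3 s z) v1 v2 := by
    have hpos : ∀ s z v1 v2, 0 ≤ s → s ≤ S → v1 ^ 2 + v2 ^ 2 = 1 →
        lam ≤ qa (A0 s z) (A1 s z) (A2 s z) v1 v2 := by
      intro s z v1 v2 h1 h2 h3
      have := low s z v1 v2 h1 h2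
      rw [h3, mul_one] at this; exact this
    refine mp S (8 * C) (C + 3 * (2 * C + C / Real.sqrt lam)) (by positivity)
      (fun s z v1 v2 => gam c (A0 s z) (A1 s z) (A2 s z) (B0 s z) (B1 s z) (B2 s z) (B3 s z) v1 v2)
      (fun s z v1 v2 => 2 * c * (3 / 2 * Real.sqrt (qa (A0 s z) (A1 s z) (A2 s z) v1 v2) *
        qa (A0s s z) (A1s s z) (A2s s z) v1 v2) - qb (B0s s z) (B1s s z) (B2s s z) (B3s s z) v1 v2)
      (fun s z v1 v2 => 2 * c * (3 / 2 * Real.sqrt (qa (A0 s z) (A1 s z) (A2 s z) v1 v2) *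
        qa (B1 s z) (B2 s z) (B3 s z) v1 v2) - qb (B0z s z) (B1z s z) (B2z s z) (B3z s z) v1 v2)
      (fun s z v1 v2 => 2 * c * (3 / 4 * (qa (B1 s z) (B2 s z) (B3 s z) v1 v2) ^ 2 /
          Real.sqrt (qa (A0 s z) (A1 s z) (A2 s z) v1 v2) +
        3 / 2 * Real.sqrt (qa (A0 s z) (A1 s z) (A2 s z) v1 v2) *
          qa (B1z s z) (B2z s z) (B3z s z) v1 v2) -
        qb (B0zz s z) (B1zz s z) (B2zz s z) (B3zz s z) v1 v2)
      (fun s z v1 v2 => (6 * c * Real.sqrt (qa (A0 s z) (A1 s z) (A2 s z) v1 v2) *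
          (A1 s z * v1 + A2 s z * v2) - 3 * qa (B1 s z) (B2 s z) (B3 s z) v1 v2) -
        3 * v2 * (2 * c * (qa (A0 s z) (A1 s z) (A2 s z) v1 v2 *
          Real.sqrt (qa (A0 s z) (A1 s z) (A2 s z) v1 v2)) -
          qb (B0 s z) (B1 s z) (B2 s z) (B3 s z) v1 v2))
      (fun s z v1 v2 => (-1 + c ^ 2 / 2) * (A1 s z * v1 + A2 s z * v2) +
        c / 4 * qa (B1 s z) (B2 s z) (B3 s z) v1 v2 /
          Real.sqrt (qa (A0 s z) (A1 s z) (A2 s z) v1 v2))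
      (fun s z v1 v2 => 3 * v2 * ((-1 + c ^ 2 / 2) * (A1 s z * v1 + A2 s z * v2) +
        c / 4 * qa (B1 s z) (B2 s z) (B3 s z) v1 v2 /
          Real.sqrt (qa (A0 s z) (A1 s z) (A2 s z) v1 v2)))
      be ?_ ?_ ?_ ?_ ?_ ?_ ?_ ?_ ?_ ?_ ?_
    · -- continuity
      have hproj : ∀ {A : ℝ → ℝ → ℝ}, ContinuousOn (Function.uncurry A) {p | 0 ≤ p.1 ∧ p.1 ≤ S} →
          ContinuousOn (fun p : ℝ × ℝ × ℝ × ℝ => A p.1 p.2.1)
            {p | 0 ≤ p.1 ∧ p.1 ≤ S ∧ p.2.2.1 ^ 2 + p.2.2.2 ^ 2 = 1} := by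
        intro A hA
        exact hA.comp (f := fun p : ℝ × ℝ × ℝ × ℝ => (p.1, p.2.1)) (by fun_prop)
          (fun p hp => ⟨hp.1, hp.2.1⟩)
      have k0 := hproj cA0
      have k1 := hproj cA1
      have k2 := hproj cA2
      have l0 := hproj cB0
      have l1 := hproj cB1
      have l2 := hproj cB2
      have l3 := hproj cB3
      have hq : ContinuousOn (fun p : ℝ × ℝ × ℝ × ℝ =>
          qa (A0 p.1 p.2.1) (A1 p.1 p.2.1) (A2 p.1 p.2.1) p.2.2.1 p.2.2.2)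
          {p | 0 ≤ p.1 ∧ p.1 ≤ S ∧ p.2.2.1 ^ 2 + p.2.2.2 ^ 2 = 1} :=
        contOn_qa k0 k1 k2 (by fun_prop) (by fun_prop)
      have hb : ContinuousOn (fun p : ℝ × ℝ × ℝ × ℝ =>
          qb (B0 p.1 p.2.1) (B1 p.1 p.2.1) (B2 p.1 p.2.1) (B3 p.1 p.2.1) p.2.2.1 p.2.2.2)
          {p | 0 ≤ p.1 ∧ p.1 ≤ S ∧ p.2.2.1 ^ 2 + p.2.2.2 ^ 2 = 1} :=
        contOn_qb l0 l1 l2 l3 (by fun_prop) (by fun_prop)
      have hmain := (continuousOn_const (c := 2 * c)).mul (hq.mul hq.sqrt) |>.sub hb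
      refine hmain.congr (fun p hp => ?_)
      exact gam_circle hp.2.2
    · intro s z v1 v2 l hl; exact gam_hom _ _ _ _ _ _ _ _ _ _ _ hl
    · intro s z v1 v2 h1 h2 h3
      show -(8 * C) ≤ gam c _ _ _ _ _ _ _ v1 v2
      rw [gam_circle h3]
      have e1 := (abs_le.mp (abs_qb_le (bB0 s z h1 h2) (bB1 s z h1 h2) (bB2 s z h1 h2)
        (bB3 s z h1 h2) h3)).2
      have e2 : 0 ≤ 2 * c * (qa (A0 s z) (A1 s z) (A2 s z) v1 v2 *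
        Real.sqrt (qa (A0 s z) (A1 s z) (A2 s z) v1 v2)) :=
        mul_nonneg (by linarith) (mul_nonneg (hlam.le.trans (hpos s z v1 v2 h1 h2 h3))
          (Real.sqrt_nonneg _))
      linarith
    · intro z v1 v2 h3
      show 0 ≤ gam c _ _ _ _ _ _ _ v1 v2
      rw [gam_circle h3]
      have := init z v1 v2
      linarith
    · intro s z v1 v2 h1 h2 h3
      exact hasDerivAt_gam h3 (sA0 s z h1 h2) (sA1 s z h1 h2) (sA2 s z h1 h2) (sB0 s z h1 h2)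
        (sB1 s z h1 h2) (sB2 s z h1 h2) (sB3 s z h1 h2)
        (hlam.trans_le (hpos s z v1 v2 h1.le h2 h3))
    · intro s z v1 v2 h1 h2 h3
      exact hasDerivAt_gam h3 (zA0 s z h1 h2) (zA1 s z h1 h2) (zA2 s z h1 h2) (zB0 s z h1 h2)
        (zB1 s z h1 h2) (zB2 s z h1 h2) (zB3 s z h1 h2)
        (hlam.trans_le (hpos s z v1 v2 h1.le h2 h3))
    · intro s z v1 v2 h1 h2 h3
      have k := hasDerivAt_sqrt_mul
        (f := fun y => qa (A0 s y) (A1 s y) (A2 s y) v1 v2)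
        (q := fun y => qa (B1 s y) (B2 s y) (B3 s y) v1 v2)
        (hasDerivAt_qa (zA0 s z h1 h2) (zA1 s z h1 h2) (zA2 s z h1 h2))
        (hasDerivAt_qa (zB1 s z h1 h2) (zB2 s z h1 h2) (zB3 s z h1 h2))
        (hlam.trans_le (hpos s z v1 v2 h1.le h2 h3))
      exact (k.const_mul (2 * c)).sub
        (hasDerivAt_qb (zB0z s z h1 h2) (zB1z s z h1 h2) (zB2z s z h1 h2) (zB3z s z h1 h2))
    · intro s z v1 v2 h1 h2 h3
      exact hasDerivAt_gam_v2 h3 (hlam.trans_le (hpos s z v1 v2 h1.le h2 h3))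
    · intro s z h1 h2
      refine (bbe s z h1 h2).trans (mul_le_mul_of_nonneg_right ?_ (by positivity))
      have : 0 ≤ 3 * (2 * C + C / Real.sqrt lam) := by positivity
      linarith
    · intro s z v1 v2 h1 h2 h3
      exact ka_bound hC hlam hc0 hc1 h3 (bA1 s z h1.le h2) (bA2 s z h1.le h2) (bB1 s z h1.le h2)
        (bB2 s z h1.le h2) (bB3 s z h1.le h2) (hpos s z v1 v2 h1.le h2 h3)
    · intro s z v1 v2 h1 h2 h3
      show _ * _ + _ * gam c _ _ _ _ _ _ _ v1 v2 ≤ _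
      rw [gam_circle h3]
      exact flow_ineq hc0 hc1 (hlam.trans_le (hpos s z v1 v2 h1.le h2 h3))
        (eA0 s z h1 h2) (eA1 s z h1 h2) (eA2 s z h1 h2) (eB0 s z h1 h2) (eB1 s z h1 h2)
        (eB2 s z h1 h2) (eB3 s z h1 h2)
  -- general v
  have hall : ∀ s z v1 v2, 0 ≤ s → s ≤ S → qb (B0 s z) (B1 s z) (B2 s z) (B3 s z) v1 v2 ≤
      2 * c * (qa (A0 s z) (A1 s z) (A2 s z) v1 v2 *
        Real.sqrt (qa (A0 s z) (A1 s z) (A2 s z) v1 v2)) := by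
    intro s z v1 v2 h1 h2
    by_cases hv : v1 ^ 2 + v2 ^ 2 = 0
    · have e1 : v1 = 0 := by nlinarith [sq_nonneg v1, sq_nonneg v2]
      have e2 : v2 = 0 := by nlinarith [sq_nonneg v1, sq_nonneg v2]
      subst e1; subst e2
      simp [qa, qb]
    · have hvpos : 0 < v1 ^ 2 + v2 ^ 2 := lt_of_le_of_ne (by positivity) (Ne.symm hv)
      set l : ℝ := (Real.sqrt (v1 ^ 2 + v2 ^ 2))⁻¹ with hl
      have hlpos : 0 < l := inv_pos.mpr (Real.sqrt_pos.mpr hvpos)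
      have hunit : (l * v1) ^ 2 + (l * v2) ^ 2 = 1 := by
        have : (l * v1) ^ 2 + (l * v2) ^ 2 = l ^ 2 * (v1 ^ 2 + v2 ^ 2) := by ring
        rw [this, hl, inv_pow, Real.sq_sqrt hvpos.le]
        exact inv_mul_cancel₀ hvpos.ne'
      have h3 := hcirc s z (l * v1) (l * v2) h1 h2 hunit
      rw [gam_hom _ _ _ _ _ _ _ _ _ _ _ hlpos] at h3
      unfold gam at h3
      have h4 : 0 < (v1 ^ 2 + v2 ^ 2) * Real.sqrt (v1 ^ 2 + v2 ^ 2) :=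
        mul_pos hvpos (Real.sqrt_pos.mpr hvpos)
      have h5 := (div_nonneg_iff_of_pos_right' h4).mp h3
      linarith
  intro s z v1 v2 h1 h2
  refine abs_le.mpr ⟨?_, hall s z v1 v2 h1 h2⟩
  have h3 := hall s z (-v1) (-v2) h1 h2
  have e1 : qb (B0 s z) (B1 s z) (B2 s z) (B3 s z) (-v1) (-v2) =
      - qb (B0 s z) (B1 s z) (B2 s z) (B3 s z) v1 v2 := by unfold qb; ring
  have e2 : qa (A0 s z) (A1 s z) (A2 s z) (-v1) (-v2) = qa (A0 s z) (A1 s z) (A2 s z) v1 v2 := by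
    unfold qa; ring
  rw [e1, e2] at h3
  linarith

end Vale.P227M.SC2
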