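import Mathlib

/-!
P227, block SC-2 (H2) (helper241): one-dimensional bounds for the tilted Gaussian measures
`e^{-U} dx`, `1 ≤ U'' ≤ L`. Everything is centred at the mode `m` (`U' m = 0`):
moments about the mode, Brascamp-Lieb (in one dimension, by Cauchy-Schwarz and one integration
by parts), bounds for the cumulants of order 2 and 3.
-/

open MeasureTheory Set Real

namespace Vale.Agent.P227.M.SC2

/-- one-dimensional potential: `U' = U1`, `U1' = U2`, `1 ≤ U2 ≤ L` -/
structure Pot (U U1 U2 : ℝ → ℝ) (L : ℝ) : Prop where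
  d0 : ∀ x, HasDerivAt U (U1 x) x
  d1 : ∀ x, HasDerivAt U1 (U2 x) x
  lo : ∀ x, 1 ≤ U2 x
  hi : ∀ x, U2 x ≤ L
  c2 : Continuous U2

namespace Pot

variable {U U1 U2 : ℝ → ℝ} {L : ℝ}

theorem c0 (h : Pot U U1 U2 L) : Continuous U :=
  continuous_iff_continuousAt.2 fun x => (h.d0 x).continuousAt

theorem c1 (h : Pot U U1 U2 L) : Continuous U1 :=
  continuous_iff_continuousAt.2 fun x => (h.d1 x).continuousAt

theorem slope_lo (h : Pot U U1 U2 L) {x y : ℝ} (hxy : x ≤ y) : y - x ≤ U1 y - U1 x := by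
  have hm : Monotone (fun t => U1 t - t) :=
    monotone_of_hasDerivAt_nonneg (f' := fun t => U2 t - 1)
      (fun t => (h.d1 t).sub (hasDerivAt_id t)) (fun t => sub_nonneg.2 (h.lo t))
  have := hm hxy
  simp only at this
  linarith

theorem slope_hi (h : Pot U U1 U2 L) {x y : ℝ} (hxy : x ≤ y) : U1 y - U1 x ≤ L * (y - x) := by
  have hm : Monotone (fun t => L * t - U1 t) :=
    monotone_of_hasDerivAt_nonneg (f' := fun t => L - U2 t)
      (fun t => (((hasDerivAt_id t).const_mul L).sub (h.d1 t)).congr_deriv (by simp))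
      (fun t => sub_nonneg.2 (h.hi t))
  have := hm hxy
  simp only at this
  linarith

theorem exists_mode (h : Pot U U1 U2 L) : ∃ m, U1 m = 0 := by
  have h1 : U1 (-|U1 0|) ≤ 0 := by
    have := h.slope_lo (x := -|U1 0|) (y := 0) (by simp)
    have := le_abs_self (U1 0)
    linarith
  have h2 : 0 ≤ U1 (|U1 0|) := by
    have := h.slope_lo (x := 0) (y := |U1 0|) (by simp)
    have := neg_abs_le (U1 0)
    linarith
  have hle : -|U1 0| ≤ |U1 0| := by have := abs_nonneg (U1 0); linarith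
  obtain ⟨m, -, hm⟩ := intermediate_value_Icc hle h.c1.continuousOn ⟨h1, h2⟩
  exact ⟨m, hm⟩

theorem L_ge (h : Pot U U1 U2 L) : 1 ≤ L := (h.lo 0).trans (h.hi 0)

theorem U1_abs_le (h : Pot U U1 U2 L) {m : ℝ} (hm : U1 m = 0) (x : ℝ) :
    |U1 x| ≤ L * |x - m| := by
  have hL := h.L_ge
  rcases le_total x m with hx | hx
  · have h1 := h.slope_lo hx
    have h2 := h.slope_hi hx
    rw [abs_of_nonpos (by linarith : x - m ≤ 0), abs_of_nonpos (by linarith)]
    nlinarith
  · have h1 := h.slope_lo hx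
    have h2 := h.slope_hi hx
    rw [abs_of_nonneg (by linarith : 0 ≤ x - m), abs_of_nonneg (by linarith)]
    nlinarith

theorem mul_U1_ge (h : Pot U U1 U2 L) {m : ℝ} (hm : U1 m = 0) (x : ℝ) :
    (x - m) ^ 2 ≤ (x - m) * U1 x := by
  rcases le_total x m with hx | hx
  · have h1 := h.slope_lo hx
    nlinarith
  · have h1 := h.slope_lo hx
    nlinarith

theorem growth (h : Pot U U1 U2 L) {m : ℝ} (hm : U1 m = 0) (x : ℝ) :
    U m + (x - m) ^ 2 / 2 ≤ U x := by
  set φ : ℝ → ℝ := fun t => U t - (t - m) ^ 2 / 2 with hφ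
  have hd : ∀ t, HasDerivAt φ (U1 t - (t - m)) t := fun t => by
    have h1 : HasDerivAt (fun t : ℝ => (t - m) ^ 2 / 2) (t - m) t := by
      have := (((hasDerivAt_id t).sub_const m).pow 2).div_const 2
      simpa using this
    exact (h.d0 t).sub h1
  have hc : Continuous φ := continuous_iff_continuousAt.2 fun t => (hd t).continuousAt
  rcases lt_trichotomy x m with hx | hx | hx
  · obtain ⟨ξ, hξ, he⟩ := exists_hasDerivAt_eq_slope φ (fun t => U1 t - (t - m)) hx
      hc.continuousOn (fun t _ => hd t)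
    have h1 : U1 ξ - (ξ - m) ≤ 0 := by
      have := h.slope_lo hξ.2.le
      linarith
    rw [he, div_le_iff₀ (by linarith)] at h1
    simp only [hφ] at h1
    nlinarith
  · subst hx; simp
  · obtain ⟨ξ, hξ, he⟩ := exists_hasDerivAt_eq_slope φ (fun t => U1 t - (t - m)) hx
      hc.continuousOn (fun t _ => hd t)
    have h1 : 0 ≤ U1 ξ - (ξ - m) := by
      have := h.slope_lo hξ.1.le
      linarith
    rw [he, le_div_iff₀ (by linarith)] at h1
    simp only [hφ] at h1
    nlinarith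

end Pot

theorem integrable_pow_gauss (k : ℕ) : Integrable (fun x : ℝ => x ^ k * exp (-(x ^ 2 / 2))) := by
  have h := integrable_rpow_mul_exp_neg_mul_sq (b := 1 / 2) (by norm_num) (s := (k : ℝ))
    (by have : (0 : ℝ) ≤ k := Nat.cast_nonneg k; linarith)
  refine h.congr (Filter.Eventually.of_forall fun x => ?_)
  simp only [rpow_natCast]
  congr 2
  ring

namespace Pot

variable {U U1 U2 : ℝ → ℝ} {L : ℝ}

/-- master integrability lemma -/
theorem integrable (h : Pot U U1 U2 L) {m : ℝ} (hm : U1 m = 0) {G : ℝ → ℝ} (hG : Continuous G)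
    {C : ℝ} (hb : ∀ x, |G x| ≤ C * (1 + (x - m) ^ 8)) :
    Integrable (fun x => G x * exp (-U x)) := by
  have hint : Integrable (fun x : ℝ =>
      (|C| * exp (-U m)) * ((1 + (x - m) ^ 8) * exp (-((x - m) ^ 2 / 2)))) := by
    have h0 : Integrable (fun x : ℝ => (1 + x ^ 8) * exp (-(x ^ 2 / 2))) := by
      have := (integrable_pow_gauss 0).add (integrable_pow_gauss 8)
      refine this.congr (Filter.Eventually.of_forall fun x => ?_)
      simp only [Pi.add_apply]
      ring
    exact (h0.comp_sub_right m).const_mul _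
  refine hint.mono' (hG.mul (continuous_exp.comp h.c0.neg)).aestronglyMeasurable
    (Filter.Eventually.of_forall fun x => ?_)
  rw [Real.norm_eq_abs, abs_mul, abs_of_pos (exp_pos _)]
  have h1 := h.growth hm x
  have h2 : exp (-U x) ≤ exp (-U m) * exp (-((x - m) ^ 2 / 2)) := by
    rw [← exp_add]
    exact exp_le_exp.2 (by linarith)
  have h3 : |G x| ≤ |C| * (1 + (x - m) ^ 8) :=
    (hb x).trans (mul_le_mul_of_nonneg_right (le_abs_self C) (by positivity))
  calc |G x| * exp (-U x) ≤ (|C| * (1 + (x - m) ^ 8)) * (exp (-U m) * exp (-((x - m) ^ 2 / 2))) :=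
        mul_le_mul h3 h2 (exp_pos _).le (by positivity)
    _ = _ := by ring

/-- integration by parts -/
theorem ibp (h : Pot U U1 U2 L) {G G1 : ℝ → ℝ} (hG : ∀ x, HasDerivAt G (G1 x) x)
    (i0 : Integrable (fun x => G x * exp (-U x))) (i1 : Integrable (fun x => G1 x * exp (-U x)))
    (i2 : Integrable (fun x => (G x * U1 x) * exp (-U x))) :
    ∫ x, (G x * U1 x) * exp (-U x) = ∫ x, G1 x * exp (-U x) := by
  have hd : ∀ x, HasDerivAt (fun x => G x * exp (-U x))
      (G1 x * exp (-U x) - (G x * U1 x) * exp (-U x)) x := fun x => by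
    exact ((hG x).mul ((h.d0 x).neg.exp)).congr_deriv (by simp only [Pi.neg_apply]; ring)
  have h0 := integral_eq_zero_of_hasDerivAt_of_integrable hd (i1.sub i2) i0
  rw [integral_sub i1 i2] at h0
  linarith

end Pot

theorem abs_pow_le_master (y : ℝ) {k : ℕ} (hk : k ≤ 8) : |y| ^ k ≤ 1 + y ^ 8 := by
  have h8 : y ^ 8 = |y| ^ 8 := by
    have : (8 : ℕ) = 2 * 4 := rfl
    rw [this, pow_mul, pow_mul, sq_abs]
  rw [h8]
  rcases le_total |y| 1 with h | h
  · have := pow_le_one₀ (n := k) (abs_nonneg y) h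
    have : 0 ≤ |y| ^ 8 := by positivity
    linarith
  · have := pow_le_pow_right₀ h hk
    linarith

namespace Pot

variable {U U1 U2 : ℝ → ℝ} {L : ℝ}

theorem int_pow (h : Pot U U1 U2 L) {m : ℝ} (hm : U1 m = 0) {k : ℕ} (hk : k ≤ 8) :
    Integrable (fun x => (x - m) ^ k * exp (-U x)) :=
  h.integrable hm (C := 1) (by fun_prop) (fun x => by
    rw [abs_pow, one_mul]; exact abs_pow_le_master _ hk)

theorem int_abs_pow (h : Pot U U1 U2 L) {m : ℝ} (hm : U1 m = 0) {k : ℕ} (hk : k ≤ 8) :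
    Integrable (fun x => |x - m| ^ k * exp (-U x)) :=
  h.integrable hm (C := 1) (by fun_prop) (fun x => by
    rw [abs_pow, one_mul, abs_abs]; exact abs_pow_le_master _ hk)

theorem int_pow_U1 (h : Pot U U1 U2 L) {m : ℝ} (hm : U1 m = 0) {k : ℕ} (hk : k ≤ 7) :
    Integrable (fun x => ((x - m) ^ k * U1 x) * exp (-U x)) :=
  h.integrable hm (C := L) (((continuous_id.sub continuous_const).pow k).mul h.c1) (fun x => by
    have h1 := h.U1_abs_le hm x
    have hL := h.L_ge
    rw [abs_mul, abs_pow]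
    calc |x - m| ^ k * |U1 x| ≤ |x - m| ^ k * (L * |x - m|) := by gcongr
      _ = L * |x - m| ^ (k + 1) := by ring
      _ ≤ L * (1 + (x - m) ^ 8) := by
        gcongr
        exact abs_pow_le_master _ (by omega))

theorem Z_pos (h : Pot U U1 U2 L) : 0 < ∫ x, exp (-U x) := by
  obtain ⟨m, hm⟩ := h.exists_mode
  have hi : Integrable (fun x => exp (-U x)) := by
    simpa using h.int_pow hm (k := 0) (by norm_num)
  exact integral_exp_pos hi

theorem int_one (h : Pot U U1 U2 L) : Integrable (fun x => exp (-U x)) := by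
  obtain ⟨m, hm⟩ := h.exists_mode
  simpa using h.int_pow hm (k := 0) (by norm_num)

/-- second moment about the mode -/
theorem mom2 (h : Pot U U1 U2 L) {m : ℝ} (hm : U1 m = 0) :
    ∫ x, (x - m) ^ 2 * exp (-U x) ≤ ∫ x, exp (-U x) := by
  have hibp := h.ibp (G := fun x => x - m) (G1 := fun _ => 1)
    (fun x => (hasDerivAt_id x).sub_const m)
    (by simpa using h.int_pow hm (k := 1) (by norm_num))
    (by simpa using h.int_one)
    (by simpa using h.int_pow_U1 hm (k := 1) (by norm_num))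
  simp only [one_mul] at hibp
  rw [← hibp]
  refine integral_mono (h.int_pow hm (by norm_num))
    (by simpa using h.int_pow_U1 hm (k := 1) (by norm_num)) (fun x => ?_)
  exact mul_le_mul_of_nonneg_right (h.mul_U1_ge hm x) (exp_pos _).le

/-- fourth moment about the mode -/
theorem mom4 (h : Pot U U1 U2 L) {m : ℝ} (hm : U1 m = 0) :
    ∫ x, (x - m) ^ 4 * exp (-U x) ≤ 3 * ∫ x, exp (-U x) := by
  have hibp := h.ibp (G := fun x => (x - m) ^ 3) (G1 := fun x => 3 * (x - m) ^ 2)
    (fun x => (((hasDerivAt_id x).sub_const m).pow 3).congr_deriv (by simp))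
    (h.int_pow hm (by norm_num))
    (by simpa [mul_assoc] using (h.int_pow hm (k := 2) (by norm_num)).const_mul 3)
    (h.int_pow_U1 hm (by norm_num))
  have h2 : ∫ x, 3 * (x - m) ^ 2 * exp (-U x) = 3 * ∫ x, (x - m) ^ 2 * exp (-U x) := by
    rw [← integral_const_mul]
    exact integral_congr_ae (Filter.Eventually.of_forall fun x => by ring_nf)
  have h3 : ∫ x, (x - m) ^ 4 * exp (-U x) ≤ ∫ x, ((x - m) ^ 3 * U1 x) * exp (-U x) := by
    refine integral_mono (h.int_pow hm (by norm_num)) (h.int_pow_U1 hm (by norm_num)) (fun x => ?_)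
    have := h.mul_U1_ge hm x
    refine mul_le_mul_of_nonneg_right ?_ (exp_pos _).le
    nlinarith [sq_nonneg (x - m), mul_le_mul_of_nonneg_left this (sq_nonneg (x - m))]
  have := h.mom2 hm
  rw [hibp, h2] at h3
  linarith

/-- pointwise Cauchy-Schwarz behind Brascamp-Lieb -/
theorem bl_pt (h : Pot U U1 U2 L) {m : ℝ} (hm : U1 m = 0) {X X1 H : ℝ → ℝ}
    (hX : ∀ x, HasDerivAt X (X1 x) x) (hH : ∀ x, HasDerivAt H ((X1 x) ^ 2 / U2 x) x)
    (hHm : H m = 0) (x : ℝ) : (X x - X m) ^ 2 ≤ H x * U1 x := by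
  have key : ∀ l : ℝ, Monotone (fun t => H t + l ^ 2 * U1 t - 2 * l * X t) := fun l => by
    refine monotone_of_hasDerivAt_nonneg
      (f' := fun t => (X1 t) ^ 2 / U2 t + l ^ 2 * U2 t - 2 * l * X1 t)
      (fun t => ((hH t).add ((h.d1 t).const_mul (l ^ 2))).sub ((hX t).const_mul (2 * l)))
      (fun t => ?_)
    have h2 : 0 < U2 t := lt_of_lt_of_le one_pos (h.lo t)
    have : (X1 t) ^ 2 / U2 t + l ^ 2 * U2 t - 2 * l * X1 t = (X1 t - l * U2 t) ^ 2 / U2 t := by
      field_simp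
      ring
    simp only [Pi.zero_apply, this]
    positivity
  rcases lt_trichotomy x m with hx | hx | hx
  · have hu : U1 x < 0 := by
      have := h.slope_lo hx.le
      linarith
    have h1 := key ((X x - X m) / U1 x) hx.le
    simp only [hHm, hm] at h1
    have h2 : H x - (X x - X m) ^ 2 / U1 x ≤ 0 := by
      have e : ((X x - X m) / U1 x) ^ 2 * U1 x = (X x - X m) ^ 2 / U1 x := by
        field_simp
      have e2 : 2 * ((X x - X m) / U1 x) * (X x - X m) = 2 * ((X x - X m) ^ 2 / U1 x) := by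
        ring
      nlinarith
    have h3 : 0 ≤ (H x - (X x - X m) ^ 2 / U1 x) * U1 x :=
      mul_nonneg_of_nonpos_of_nonpos h2 hu.le
    rw [sub_mul, div_mul_cancel₀ _ hu.ne] at h3
    linarith
  · subst hx
    simp [hm]
  · have hu : 0 < U1 x := by
      have := h.slope_lo hx.le
      linarith
    have h1 := key ((X x - X m) / U1 x) hx.le
    simp only [hHm, hm] at h1
    have h2 : 0 ≤ H x - (X x - X m) ^ 2 / U1 x := by
      have e : ((X x - X m) / U1 x) ^ 2 * U1 x = (X x - X m) ^ 2 / U1 x := by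
        field_simp
      have e2 : 2 * ((X x - X m) / U1 x) * (X x - X m) = 2 * ((X x - X m) ^ 2 / U1 x) := by
        ring
      nlinarith
    have h3 : 0 ≤ (H x - (X x - X m) ^ 2 / U1 x) * U1 x := mul_nonneg h2 hu.le
    rw [sub_mul, div_mul_cancel₀ _ hu.ne'] at h3
    linarith

end Pot

/-- data of an observable: `X' = X1`, `|X1| ≤ K`, `X1` continuous -/
structure Obs (X X1 : ℝ → ℝ) (K : ℝ) : Prop where
  d : ∀ x, HasDerivAt X (X1 x) x
  b : ∀ x, |X1 x| ≤ K
  c : Continuous X1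

namespace Obs

variable {X X1 : ℝ → ℝ} {K : ℝ}

theorem K0 (h : Obs X X1 K) : 0 ≤ K := (abs_nonneg _).trans (h.b 0)

theorem cont (h : Obs X X1 K) : Continuous X :=
  continuous_iff_continuousAt.2 fun x => (h.d x).continuousAt

theorem lip (h : Obs X X1 K) (x y : ℝ) : |X x - X y| ≤ K * |x - y| := by
  have hmv := Convex.norm_image_sub_le_of_norm_hasDerivWithin_le (f := X) (f' := X1) (C := K)
    (s := univ) (x := y) (y := x) (fun t _ => (h.d t).hasDerivWithinAt)
    (fun t _ => by rw [Real.norm_eq_abs]; exact h.b t) convex_univ (mem_univ _) (mem_univ _)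
  simpa [Real.norm_eq_abs] using hmv

end Obs

namespace Pot

variable {U U1 U2 : ℝ → ℝ} {L : ℝ}

/-- Brascamp-Lieb, centred at the mode -/
theorem bl (h : Pot U U1 U2 L) {m : ℝ} (hm : U1 m = 0) {X X1 : ℝ → ℝ} {K : ℝ} (hX : Obs X X1 K) :
    ∫ x, (X x - X m) ^ 2 * exp (-U x) ≤ ∫ x, ((X1 x) ^ 2 / U2 x) * exp (-U x) := by
  have hU2 : ∀ t, 0 < U2 t := fun t => lt_of_lt_of_le one_pos (h.lo t)
  have hcq : Continuous (fun x => (X1 x) ^ 2 / U2 x) :=
    (hX.c.pow 2).div₀ h.c2 (fun t => (hU2 t).ne')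
  have hq0 : ∀ x, 0 ≤ (X1 x) ^ 2 / U2 x := fun x => div_nonneg (sq_nonneg _) (hU2 x).le
  have hqK : ∀ x, (X1 x) ^ 2 / U2 x ≤ K ^ 2 := fun x => by
    have h1 : (X1 x) ^ 2 ≤ K ^ 2 := by
      rw [← sq_abs]
      exact pow_le_pow_left₀ (abs_nonneg _) (hX.b x) 2
    calc (X1 x) ^ 2 / U2 x ≤ (X1 x) ^ 2 / 1 := div_le_div_of_nonneg_left (sq_nonneg _) one_pos (h.lo x)
      _ ≤ K ^ 2 := by rwa [div_one]
  set H : ℝ → ℝ := fun x => ∫ t in m..x, (X1 t) ^ 2 / U2 t with hHdef
  have hH : ∀ x, HasDerivAt H ((X1 x) ^ 2 / U2 x) x := fun x =>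
    intervalIntegral.integral_hasDerivAt_right (hcq.intervalIntegrable _ _)
      (hcq.stronglyMeasurableAtFilter _ _) hcq.continuousAt
  have hHO : Obs H (fun x => (X1 x) ^ 2 / U2 x) (K ^ 2) :=
    ⟨hH, fun x => by rw [abs_of_nonneg (hq0 x)]; exact hqK x, hcq⟩
  have hHm : H m = 0 := by simp [hHdef]
  have hHb : ∀ x, |H x| ≤ K ^ 2 * |x - m| := fun x => by
    have := hHO.lip x m
    rwa [hHm, sub_zero] at this
  have iX : Integrable (fun x => (X x - X m) ^ 2 * exp (-U x)) :=
    h.integrable hm (C := K ^ 2) ((hX.cont.sub continuous_const).pow 2) (fun x => by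
      rw [abs_pow]
      calc |X x - X m| ^ 2 ≤ (K * |x - m|) ^ 2 := by
            gcongr
            exact hX.lip x m
        _ = K ^ 2 * |x - m| ^ 2 := by ring
        _ ≤ _ := by
          gcongr
          exact abs_pow_le_master _ (by norm_num))
  have iH : Integrable (fun x => H x * exp (-U x)) :=
    h.integrable hm (C := K ^ 2) hHO.cont (fun x => (hHb x).trans (by
      gcongr
      simpa using abs_pow_le_master (x - m) (k := 1) (by norm_num)))
  have iq : Integrable (fun x => ((X1 x) ^ 2 / U2 x) * exp (-U x)) :=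
    h.integrable hm (C := K ^ 2) hcq (fun x => by
      rw [abs_of_nonneg (hq0 x)]
      calc (X1 x) ^ 2 / U2 x ≤ K ^ 2 * 1 := by rw [mul_one]; exact hqK x
        _ ≤ _ := by
          gcongr
          have : 0 ≤ (x - m) ^ 8 := by positivity
          linarith)
  have iHU : Integrable (fun x => (H x * U1 x) * exp (-U x)) :=
    h.integrable hm (C := K ^ 2 * L) (hHO.cont.mul h.c1) (fun x => by
      rw [abs_mul]
      have hL := h.L_ge
      calc |H x| * |U1 x| ≤ (K ^ 2 * |x - m|) * (L * |x - m|) :=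
            mul_le_mul (hHb x) (h.U1_abs_le hm x) (abs_nonneg _) (by positivity)
        _ = (K ^ 2 * L) * |x - m| ^ 2 := by ring
        _ ≤ _ := by
          gcongr
          exact abs_pow_le_master _ (by norm_num))
  rw [← h.ibp hH iH iq iHU]
  exact integral_mono iX iHU (fun x =>
    mul_le_mul_of_nonneg_right (h.bl_pt hm hX.d hH hHm x) (exp_pos _).le)

/-- the tilted probability measure `e^{-U} dx / Z` -/
noncomputable def nu (U : ℝ → ℝ) : Measure ℝ := volume.tilted (fun x => -U x)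

theorem nu_prob (h : Pot U U1 U2 L) : IsProbabilityMeasure (nu U) :=
  isProbabilityMeasure_tilted h.int_one

theorem nu_integral (U φ : ℝ → ℝ) :
    ∫ x, φ x ∂(nu U) = (∫ x, φ x * exp (-U x)) / (∫ x, exp (-U x)) := by
  unfold nu
  rw [integral_tilted, ← integral_div]
  refine integral_congr_ae (Filter.Eventually.of_forall fun x => ?_)
  simp only [smul_eq_mul]
  ring

theorem nu_integrable (h : Pot U U1 U2 L) {φ : ℝ → ℝ}
    (hφ : Integrable (fun x => φ x * exp (-U x))) : Integrable φ (nu U) := by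
  unfold nu
  rw [integrable_tilted_iff h.int_one]
  refine hφ.congr (Filter.Eventually.of_forall fun x => ?_)
  simp only [smul_eq_mul]
  ring

/-- the cumulant bounds of order two and three -/
theorem cumulants (h : Pot U U1 U2 L) {X X1 Y T : ℝ → ℝ} {K LY M kap LY' : ℝ} (hX : Obs X X1 K)
    (cY : Continuous Y) (hY : ∀ x, |Y x| ≤ LY) (hY' : ∀ x, Y x ≤ LY')
    (cT : Continuous T) (hT : ∀ x, |T x| ≤ M)
    (hk : ∀ x, kap ≤ Y x - (X1 x) ^ 2 / U2 x) :
    (kap ≤ -(∫ x, ((X x) ^ 2 - Y x) ∂(nu U)) + (∫ x, X x ∂(nu U)) ^ 2) ∧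
    (-(∫ x, ((X x) ^ 2 - Y x) ∂(nu U)) + (∫ x, X x ∂(nu U)) ^ 2 ≤ LY') ∧
    |-(∫ x, (-(X x) ^ 3 + 3 * (X x * Y x) - T x) ∂(nu U))
      + 3 * (-(∫ x, X x ∂(nu U)) * (∫ x, ((X x) ^ 2 - Y x) ∂(nu U)))
      - 2 * (-(∫ x, X x ∂(nu U))) ^ 3| ≤ 7 * K ^ 3 + 6 * (K * LY) + M := by
  obtain ⟨m, hm⟩ := h.exists_mode
  have := h.nu_prob
  have hK := hX.K0
  have hLY : 0 ≤ LY := (abs_nonneg _).trans (hY 0)
  set x0 := X m with hx0
  set Xt : ℝ → ℝ := fun x => X x - x0 with hXt
  have cXt : Continuous Xt := hX.cont.sub continuous_const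
  have bXt : ∀ x, |Xt x| ≤ K * |x - m| := fun x => hX.lip x m
  -- moments of `|x - m|`
  have iA : ∀ k : ℕ, k ≤ 8 → Integrable (fun x => |x - m| ^ k) (nu U) := fun k hk =>
    h.nu_integrable (h.int_abs_pow hm hk)
  have Zp := h.Z_pos
  have q2 : ∫ x, |x - m| ^ 2 ∂(nu U) ≤ 1 := by
    rw [nu_integral, div_le_one Zp]
    simpa only [sq_abs] using h.mom2 hm
  have q4 : ∫ x, |x - m| ^ 4 ∂(nu U) ≤ 3 := by
    rw [nu_integral, div_le_iff₀ Zp]
    have e : ∀ x : ℝ, |x - m| ^ 4 = (x - m) ^ 4 := fun x => by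
      have : (4 : ℕ) = 2 * 2 := rfl
      rw [this, pow_mul, pow_mul, sq_abs]
    simp only [e]
    exact h.mom4 hm
  have q1 : ∫ x, |x - m| ∂(nu U) ≤ 1 := by
    have i1 : Integrable (fun x => |x - m|) (nu U) := by simpa using iA 1 (by norm_num)
    have : ∫ x, |x - m| ∂(nu U) ≤ ∫ x, (1 + |x - m| ^ 2) / 2 ∂(nu U) :=
      integral_mono i1 (((integrable_const 1).add (iA 2 (by norm_num))).div_const 2)
        (fun x => by
          have := sq_nonneg (|x - m| - 1)
          simp only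
          nlinarith)
    rw [integral_div, integral_add (integrable_const 1) (iA 2 (by norm_num))] at this
    simp only [integral_const, probReal_univ, smul_eq_mul, mul_one] at this
    linarith
  have q3 : ∫ x, |x - m| ^ 3 ∂(nu U) ≤ 2 := by
    have : ∫ x, |x - m| ^ 3 ∂(nu U) ≤ ∫ x, (|x - m| ^ 2 + |x - m| ^ 4) / 2 ∂(nu U) :=
      integral_mono (iA 3 (by norm_num))
        (((iA 2 (by norm_num)).add (iA 4 (by norm_num))).div_const 2)
        (fun x => by
          have h1 : 0 ≤ |x - m| ^ 2 * (|x - m| - 1) ^ 2 := by positivity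
          simp only
          nlinarith)
    rw [integral_div, integral_add (iA 2 (by norm_num)) (iA 4 (by norm_num))] at this
    linarith
  -- integrability
  have iXt : Integrable Xt (nu U) := by
    refine Integrable.mono' ((iA 1 (by norm_num)).const_mul K) cXt.aestronglyMeasurable
      (Filter.Eventually.of_forall fun x => ?_)
    rw [Real.norm_eq_abs, pow_one]
    exact bXt x
  have iXt2 : Integrable (fun x => (Xt x) ^ 2) (nu U) := by
    refine Integrable.mono' ((iA 2 (by norm_num)).const_mul (K ^ 2))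
      (cXt.pow 2).aestronglyMeasurable (Filter.Eventually.of_forall fun x => ?_)
    rw [Real.norm_eq_abs, abs_pow, ← mul_pow]
    exact pow_le_pow_left₀ (abs_nonneg _) (bXt x) 2
  have iXt3 : Integrable (fun x => (Xt x) ^ 3) (nu U) := by
    refine Integrable.mono' ((iA 3 (by norm_num)).const_mul (K ^ 3))
      (cXt.pow 3).aestronglyMeasurable (Filter.Eventually.of_forall fun x => ?_)
    rw [Real.norm_eq_abs, abs_pow, ← mul_pow]
    exact pow_le_pow_left₀ (abs_nonneg _) (bXt x) 3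
  have iY : Integrable Y (nu U) :=
    Integrable.mono' (integrable_const LY) cY.aestronglyMeasurable
      (Filter.Eventually.of_forall fun x => hY x)
  have iT : Integrable T (nu U) :=
    Integrable.mono' (integrable_const M) cT.aestronglyMeasurable
      (Filter.Eventually.of_forall fun x => hT x)
  have iXY : Integrable (fun x => Xt x * Y x) (nu U) := by
    refine Integrable.mono' (((iA 1 (by norm_num)).const_mul K).mul_const LY)
      (cXt.mul cY).aestronglyMeasurable (Filter.Eventually.of_forall fun x => ?_)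
    rw [Real.norm_eq_abs, abs_mul, pow_one]
    exact mul_le_mul (bXt x) (hY x) (abs_nonneg _) (by positivity)
  -- names for the moments
  set m1 := ∫ x, Xt x ∂(nu U) with hm1
  set m2 := ∫ x, (Xt x) ^ 2 ∂(nu U) with hm2
  set m3 := ∫ x, (Xt x) ^ 3 ∂(nu U) with hm3
  set y1 := ∫ x, Y x ∂(nu U) with hy1
  set xy := ∫ x, Xt x * Y x ∂(nu U) with hxy
  set t1 := ∫ x, T x ∂(nu U) with ht1
  have e1 : ∫ x, X x ∂(nu U) = x0 + m1 := by
    have : ∀ x, X x = x0 + Xt x := fun x => by simp [hXt]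
    simp only [this]
    rw [integral_add (integrable_const x0) iXt]
    simp [hm1]
  have e2 : ∫ x, ((X x) ^ 2 - Y x) ∂(nu U) = x0 ^ 2 + 2 * x0 * m1 + m2 - y1 := by
    have : ∀ x, (X x) ^ 2 - Y x = (x0 ^ 2 + (2 * x0) * Xt x) + (Xt x) ^ 2 - Y x := fun x => by
      simp only [hXt]; ring
    simp only [this]
    have i1 : Integrable (fun x => x0 ^ 2 + (2 * x0) * Xt x) (nu U) :=
      (integrable_const _).add (iXt.const_mul _)
    have i2 : Integrable (fun x => (x0 ^ 2 + (2 * x0) * Xt x) + (Xt x) ^ 2) (nu U) := i1.add iXt2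
    rw [integral_sub i2 iY, integral_add i1 iXt2,
      integral_add (integrable_const _) (iXt.const_mul _), integral_const_mul]
    simp [hm1, hm2, hy1]
  have e3 : ∫ x, (-(X x) ^ 3 + 3 * (X x * Y x) - T x) ∂(nu U)
      = -(x0 ^ 3 + 3 * x0 ^ 2 * m1 + 3 * x0 * m2 + m3) + 3 * (x0 * y1 + xy) - t1 := by
    have : ∀ x, -(X x) ^ 3 + 3 * (X x * Y x) - T x
        = (((((-x0 ^ 3) + (-3 * x0 ^ 2) * Xt x) + (-3 * x0) * (Xt x) ^ 2) + (-1) * (Xt x) ^ 3)
          + ((3 * x0) * Y x + 3 * (Xt x * Y x))) - T x := fun x => by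
      simp only [hXt]; ring
    simp only [this]
    have i1 : Integrable (fun x => (-x0 ^ 3) + (-3 * x0 ^ 2) * Xt x) (nu U) :=
      (integrable_const (μ := nu U) (-x0 ^ 3)).add (iXt.const_mul (-3 * x0 ^ 2))
    have i2 : Integrable (fun x => ((-x0 ^ 3) + (-3 * x0 ^ 2) * Xt x)
        + (-3 * x0) * (Xt x) ^ 2) (nu U) := i1.add (iXt2.const_mul (-3 * x0))
    have i3 : Integrable (fun x => (((-x0 ^ 3) + (-3 * x0 ^ 2) * Xt x)
        + (-3 * x0) * (Xt x) ^ 2) + (-1) * (Xt x) ^ 3) (nu U) := i2.add (iXt3.const_mul (-1))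
    have i4 : Integrable (fun x => (3 * x0) * Y x + 3 * (Xt x * Y x)) (nu U) :=
      (iY.const_mul (3 * x0)).add (iXY.const_mul 3)
    have i5 : Integrable (fun x => ((((-x0 ^ 3) + (-3 * x0 ^ 2) * Xt x)
        + (-3 * x0) * (Xt x) ^ 2) + (-1) * (Xt x) ^ 3)
        + ((3 * x0) * Y x + 3 * (Xt x * Y x))) (nu U) := i3.add i4
    rw [integral_sub i5 iT, integral_add i3 i4, integral_add i2 (iXt3.const_mul (-1)),
      integral_add i1 (iXt2.const_mul (-3 * x0)),
      integral_add (integrable_const _) (iXt.const_mul _),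
      integral_add (iY.const_mul (3 * x0)) (iXY.const_mul 3)]
    simp only [integral_const_mul, integral_const, probReal_univ, smul_eq_mul, one_mul]
    rw [← hm1, ← hm2, ← hm3, ← hy1, ← hxy, ← ht1]
    ring
  rw [e1, e2, e3]
  -- bounds of the moments
  have b1 : |m1| ≤ K := by
    calc |m1| ≤ ∫ x, |Xt x| ∂(nu U) := abs_integral_le_integral_abs
      _ ≤ ∫ x, K * |x - m| ∂(nu U) :=
        integral_mono iXt.abs (by simpa using (iA 1 (by norm_num)).const_mul K) bXt
      _ = K * ∫ x, |x - m| ∂(nu U) := integral_const_mul _ _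
      _ ≤ K * 1 := by gcongr
      _ = K := mul_one _
  have b2' : m2 ≤ ∫ x, (X1 x) ^ 2 / U2 x ∂(nu U) := by
    rw [hm2, nu_integral, nu_integral]
    exact div_le_div_of_nonneg_right (h.bl hm hX) Zp.le
  have b20 : 0 ≤ m2 := integral_nonneg fun x => sq_nonneg _
  have b2 : m2 ≤ K ^ 2 := by
    calc m2 ≤ ∫ x, K ^ 2 * |x - m| ^ 2 ∂(nu U) :=
        integral_mono iXt2 ((iA 2 (by norm_num)).const_mul _) (fun x => by
          simp only
          rw [← mul_pow, ← sq_abs]
          exact pow_le_pow_left₀ (abs_nonneg _) (bXt x) 2)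
      _ = K ^ 2 * ∫ x, |x - m| ^ 2 ∂(nu U) := integral_const_mul _ _
      _ ≤ K ^ 2 * 1 := by gcongr
      _ = K ^ 2 := mul_one _
  have b3 : |m3| ≤ 2 * K ^ 3 := by
    calc |m3| ≤ ∫ x, |(Xt x) ^ 3| ∂(nu U) := abs_integral_le_integral_abs
      _ ≤ ∫ x, K ^ 3 * |x - m| ^ 3 ∂(nu U) :=
        integral_mono iXt3.abs ((iA 3 (by norm_num)).const_mul _) (fun x => by
          simp only
          rw [abs_pow, ← mul_pow]
          exact pow_le_pow_left₀ (abs_nonneg _) (bXt x) 3)
      _ = K ^ 3 * ∫ x, |x - m| ^ 3 ∂(nu U) := integral_const_mul _ _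
      _ ≤ K ^ 3 * 2 := by gcongr
      _ = 2 * K ^ 3 := by ring
  have by1 : |y1| ≤ LY := by
    calc |y1| ≤ ∫ x, |Y x| ∂(nu U) := abs_integral_le_integral_abs
      _ ≤ ∫ _, LY ∂(nu U) := integral_mono iY.abs (integrable_const _) hY
      _ = LY := by simp
  have bt1 : |t1| ≤ M := by
    calc |t1| ≤ ∫ x, |T x| ∂(nu U) := abs_integral_le_integral_abs
      _ ≤ ∫ _, M ∂(nu U) := integral_mono iT.abs (integrable_const _) hT
      _ = M := by simp
  have bxy : |xy| ≤ K * LY := by
    calc |xy| ≤ ∫ x, |Xt x * Y x| ∂(nu U) := abs_integral_le_integral_abs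
      _ ≤ ∫ x, (K * LY) * |x - m| ∂(nu U) :=
        integral_mono iXY.abs (by simpa using (iA 1 (by norm_num)).const_mul (K * LY))
          (fun x => by
            simp only
            rw [abs_mul]
            calc |Xt x| * |Y x| ≤ (K * |x - m|) * LY :=
                  mul_le_mul (bXt x) (hY x) (abs_nonneg _) (by positivity)
              _ = _ := by ring)
      _ = (K * LY) * ∫ x, |x - m| ∂(nu U) := integral_const_mul _ _
      _ ≤ (K * LY) * 1 := by gcongr
      _ = K * LY := mul_one _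
  have iq : Integrable (fun x => (X1 x) ^ 2 / U2 x) (nu U) := by
    refine Integrable.mono' (integrable_const (K ^ 2))
      ((hX.c.pow 2).div₀ h.c2
        (fun t => (lt_of_lt_of_le one_pos (h.lo t)).ne')).aestronglyMeasurable
      (Filter.Eventually.of_forall fun x => ?_)
    have hp : 0 < U2 x := lt_of_lt_of_le one_pos (h.lo x)
    rw [Real.norm_eq_abs, abs_of_nonneg (div_nonneg (sq_nonneg _) hp.le)]
    calc (X1 x) ^ 2 / U2 x ≤ (X1 x) ^ 2 / 1 :=
          div_le_div_of_nonneg_left (sq_nonneg _) one_pos (h.lo x)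
      _ ≤ K ^ 2 := by
        rw [div_one, ← sq_abs]
        exact pow_le_pow_left₀ (abs_nonneg _) (hX.b x) 2
  have bk : kap ≤ y1 - ∫ x, (X1 x) ^ 2 / U2 x ∂(nu U) := by
    rw [hy1, ← integral_sub iY iq]
    calc kap = ∫ _, kap ∂(nu U) := by simp
      _ ≤ _ := integral_mono (integrable_const _) (iY.sub iq) hk
  have by2 : y1 ≤ LY' := by
    calc y1 ≤ ∫ _, LY' ∂(nu U) := integral_mono iY (integrable_const _) hY'
      _ = LY' := by simp
  have bv : m1 ^ 2 ≤ m2 := by
    have h0 : 0 ≤ ∫ x, (Xt x - m1) ^ 2 ∂(nu U) := integral_nonneg fun x => sq_nonneg _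
    have e : ∫ x, (Xt x - m1) ^ 2 ∂(nu U) = m2 - m1 ^ 2 := by
      have : ∀ x, (Xt x - m1) ^ 2 = (Xt x) ^ 2 + (-2 * m1) * Xt x + m1 ^ 2 := fun x => by ring
      simp only [this]
      have i1 : Integrable (fun x => (Xt x) ^ 2 + (-2 * m1) * Xt x) (nu U) :=
        iXt2.add (iXt.const_mul _)
      rw [integral_add i1 (integrable_const _),
        integral_add iXt2 (iXt.const_mul _), integral_const_mul]
      simp only [integral_const, probReal_univ, smul_eq_mul, one_mul]
      rw [← hm1, ← hm2]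
      ring
    rw [e] at h0
    linarith
  refine ⟨?_, ?_, ?_⟩
  · nlinarith [sq_nonneg m1]
  · nlinarith
  · have e : -(-(x0 ^ 3 + 3 * x0 ^ 2 * m1 + 3 * x0 * m2 + m3) + 3 * (x0 * y1 + xy) - t1)
        + 3 * (-(x0 + m1) * (x0 ^ 2 + 2 * x0 * m1 + m2 - y1)) - 2 * (-(x0 + m1)) ^ 3
        = m3 - 3 * m1 * m2 + 2 * m1 ^ 3 - 3 * xy + 3 * (m1 * y1) + t1 := by ring
    rw [e]
    have c1 : |m1 * m2| ≤ K ^ 3 := by
      rw [abs_mul, abs_of_nonneg b20]
      calc |m1| * m2 ≤ K * K ^ 2 := mul_le_mul b1 b2 b20 hK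
        _ = K ^ 3 := by ring
    have c2 : |m1 ^ 3| ≤ K ^ 3 := by
      rw [abs_pow]
      exact pow_le_pow_left₀ (abs_nonneg _) b1 3
    have c3 : |m1 * y1| ≤ K * LY := by
      rw [abs_mul]
      exact mul_le_mul b1 by1 (abs_nonneg _) hK
    rw [abs_le] at *
    constructor <;> linarith [b3.1, b3.2, c1.1, c1.2, c2.1, c2.2, c3.1, c3.2, bxy.1, bxy.2,
      bt1.1, bt1.2]

end Pot

end Vale.Agent.P227.M.SC2
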