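import Vale.Agent.P227.M.SC2.Mode
import Vale.Agent.P227.M.SC2.HeatLine

/-! Uniform bounds for the first three line derivatives of `heat W P`, `‖P‖ ≤ R`. -/

open MeasureTheory Real

set_option linter.unusedSectionVars false

namespace Vale.Agent.P227.M.Cum

variable {n : ℕ}

/-- potential of the tilted Gaussian -/
noncomputable def hp (U : E n → ℝ) (P : E n →L[ℝ] E n) (x : E n) (z : E n) : ℝ :=
  U (x + P z) + ‖z‖ ^ 2 / 2

theorem H_eq (U : E n → ℝ) (v : E n) (P : E n →L[ℝ] E n) (i : ℕ) (x : E n) :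
    HL.H U v P i x = ∫ z, HL.q U v i (x + P z) * exp (-(hp U P x z)) := by
  unfold HL.H HL.f hp
  refine integral_congr_ae (Filter.Eventually.of_forall fun z => ?_)
  simp only
  rw [mul_assoc, ← exp_add]
  congr 2
  ring

theorem H0_eq (U : E n → ℝ) (v : E n) (P : E n →L[ℝ] E n) (x : E n) :
    HL.H U v P 0 x = ∫ z, exp (-(hp U P x z)) := by
  rw [H_eq]
  simp [HL.q_zero]

theorem r_eq (U : E n → ℝ) (v : E n) (P : E n →L[ℝ] E n) (i : ℕ) (x : E n) :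
    HL.r U v P i x = Ev (hp U P x) (fun z => HL.q U v i (x + P z)) := by
  unfold HL.r Ev
  rw [H_eq, H0_eq]

/-- uniform Lipschitz constants -/
theorem g_lip {U : E n → ℝ} {c C : ℝ} (h : Reg U c C) (i : ℕ) (hi : 1 ≤ i) :
    ∃ B : ℝ, 0 ≤ B ∧ ∀ v x y : E n, |HL.g U v i x - HL.g U v i y| ≤ B * ‖v‖ ^ i * ‖x - y‖ := by
  obtain ⟨B, hB⟩ := h.bdd (i + 1) (by omega)
  have hB0 : 0 ≤ B := (norm_nonneg _).trans (hB 0)
  refine ⟨B, hB0, fun v x y => ?_⟩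
  have hd : Differentiable ℝ (iteratedFDeriv ℝ i U) := by
    have := (contDiff_infty.1 h.smooth (i + 1)).differentiable_iteratedFDeriv (m := i)
      (by exact_mod_cast Nat.lt_succ_self i)
    exact this
  have h1 := (convex_univ : Convex ℝ (Set.univ : Set (E n))).norm_image_sub_le_of_norm_fderiv_le
    (f := iteratedFDeriv ℝ i U) (C := B) (x := y) (y := x) (fun z _ => hd z)
    (fun z _ => by rw [norm_fderiv_iteratedFDeriv]; exact hB z) (Set.mem_univ _) (Set.mem_univ _)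
  have h2 : HL.g U v i x - HL.g U v i y = (iteratedFDeriv ℝ i U x - iteratedFDeriv ℝ i U y) (fun _ => v) := by
    simp [HL.g]
  rw [h2, ← Real.norm_eq_abs]
  calc ‖(iteratedFDeriv ℝ i U x - iteratedFDeriv ℝ i U y) (fun _ => v)‖
      ≤ ‖iteratedFDeriv ℝ i U x - iteratedFDeriv ℝ i U y‖ * ∏ _j : Fin i, ‖v‖ :=
        ContinuousMultilinearMap.le_opNorm _ _
    _ ≤ (B * ‖x - y‖) * ‖v‖ ^ i := by
        rw [Finset.prod_const, Finset.card_univ, Fintype.card_fin]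
        exact mul_le_mul_of_nonneg_right h1 (by positivity)
    _ = _ := by ring

theorem g_bdd {U : E n → ℝ} {c C : ℝ} (h : Reg U c C) (i : ℕ) (hi : 2 ≤ i) :
    ∃ B : ℝ, 0 ≤ B ∧ ∀ v x : E n, |HL.g U v i x| ≤ B * ‖v‖ ^ i := by
  obtain ⟨B, hB⟩ := h.bdd i hi
  have hB0 : 0 ≤ B := (norm_nonneg _).trans (hB 0)
  refine ⟨B, hB0, fun v x => ?_⟩
  have h3 := (iteratedFDeriv ℝ i U x).le_opNorm (fun _ => v)
  simp only [Finset.prod_const, Finset.card_univ, Fintype.card_fin] at h3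
  exact h3.trans (mul_le_mul_of_nonneg_right (hB x) (by positivity))

/-- uniform pinching for `‖P‖ ≤ R` -/
theorem exists_pinch_R {W : E n → ℝ} {c C : ℝ} (hW : Reg W c C) {R : ℝ} {P : E n →L[ℝ] E n}
    (hP : ‖P‖ ≤ R) (x : E n) : ∃ z0 : E n, Pinch (hp W P x) (1 + |C| * R ^ 2) z0 ∧
      ‖z0‖ ≤ R * ‖fderiv ℝ W x‖ := by
  obtain ⟨z0, h0⟩ := exists_pinch_reg hW P x
  have hR : 0 ≤ R := (norm_nonneg _).trans hP
  have hle : 1 + C * ‖P‖ ^ 2 ≤ 1 + |C| * R ^ 2 := by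
    have h1 : C * ‖P‖ ^ 2 ≤ |C| * ‖P‖ ^ 2 := mul_le_mul_of_nonneg_right (le_abs_self C) (sq_nonneg _)
    have h2 : |C| * ‖P‖ ^ 2 ≤ |C| * R ^ 2 :=
      mul_le_mul_of_nonneg_left (pow_le_pow_left₀ (norm_nonneg _) hP 2) (abs_nonneg _)
    linarith
  refine ⟨z0, h0.mono hle, ?_⟩
  have h2 : ContDiff ℝ 2 W := contDiff_infty.1 hW.smooth 2
  have hl := h0.lower 0
  simp only [map_zero, add_zero, norm_zero, zero_sub, norm_neg] at hl
  -- convexity of W along the segment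
  have hT := (taylor_line (V := E n) h2 P (L := |C| * ‖P‖ ^ 2) (fun q z => by
      rw [← qf_hess_eq h2]
      exact le_trans (mul_nonneg hW.c_pos.le (sq_nonneg _)) (hW.lower q (P z)))
    (fun q z => by
      rw [← qf_hess_eq h2]
      refine (hW.upper q (P z)).trans ?_
      have h5 : ‖P z‖ ^ 2 ≤ (‖P‖ * ‖z‖) ^ 2 := pow_le_pow_left₀ (norm_nonneg _) (P.le_opNorm z) 2
      calc C * ‖P z‖ ^ 2 ≤ |C| * ‖P z‖ ^ 2 := mul_le_mul_of_nonneg_right (le_abs_self C) (sq_nonneg _)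
        _ ≤ |C| * (‖P‖ * ‖z‖) ^ 2 := mul_le_mul_of_nonneg_left h5 (abs_nonneg _)
        _ = _ := by ring) x 0 z0).1
  simp only [map_zero, add_zero, norm_zero, sub_zero, inner_zero_left] at hT
  have h6 : -(‖fderiv ℝ W x‖ * (R * ‖z0‖)) ≤ fderiv ℝ W x (P z0) := by
    have h7 := (fderiv ℝ W x).le_opNorm (P z0)
    rw [Real.norm_eq_abs] at h7
    have h8 : ‖P z0‖ ≤ R * ‖z0‖ := (P.le_opNorm z0).trans (mul_le_mul_of_nonneg_right hP (norm_nonneg _))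
    have h9 := (abs_le.mp h7).1
    have h10 : ‖fderiv ℝ W x‖ * ‖P z0‖ ≤ ‖fderiv ℝ W x‖ * (R * ‖z0‖) :=
      mul_le_mul_of_nonneg_left h8 (norm_nonneg _)
    linarith
  by_contra hc
  push Not at hc
  have h11 : 0 < ‖z0‖ := lt_of_le_of_lt (by positivity) hc
  nlinarith

/-- drift bound -/
theorem w1_bound {W : E n → ℝ} {c C : ℝ} (hW : Reg W c C) (R : ℝ) :
    ∃ K : ℝ, 0 ≤ K ∧ ∀ P : E n →L[ℝ] E n, ‖P‖ ≤ R → ∀ x v : E n,
      |HL.r W v P 1 x| ≤ K * ‖v‖ * (1 + ‖x‖) := by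
  rcases le_or_gt 0 R with hR | hR
  swap
  · exact ⟨0, le_rfl, fun P hP => absurd (norm_nonneg P) (by linarith)⟩
  have h2 : ContDiff ℝ 2 W := contDiff_infty.1 hW.smooth 2
  obtain ⟨B, hB⟩ := hW.bdd 2 le_rfl
  have hB0 : 0 ≤ B := (norm_nonneg _).trans (hB 0)
  set D := ‖fderiv ℝ W 0‖ with hD
  have hD0 : 0 ≤ D := norm_nonneg _
  have hKp : 0 < 1 + |C| * R ^ 2 := by positivity
  set J := Bc (E n) (1 + |C| * R ^ 2) with hJ
  have hJ0 : 0 ≤ J := Bc_nonneg _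
  set M := (D + B) * (1 + B * R) * (1 + R) with hM
  set M2 := D + B + B * R * (R * (D + B)) + B * R with hM2
  have hM20 : 0 ≤ M2 := by positivity
  refine ⟨M2 * J, by positivity, fun P hP x v => ?_⟩
  obtain ⟨z0, hp0, hz0⟩ := exists_pinch_R hW hP x
  rw [r_eq]
  have hfx : ‖fderiv ℝ W x‖ ≤ (D + B) * (1 + ‖x‖) := by
    have := norm_fderiv_le h2 hB x
    have hx := norm_nonneg x
    nlinarith
  have key : ∀ z, |HL.q W v 1 (x + P z)| ≤ (M2 * ‖v‖ * (1 + ‖x‖)) * (1 + ‖z - z0‖) ^ 3 := by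
    intro z
    rw [HL.q_one, abs_neg]
    have h3 : |HL.g W v 1 (x + P z)| ≤ ‖fderiv ℝ W (x + P z)‖ * ‖v‖ := by
      unfold HL.g
      rw [iteratedFDeriv_one_apply]
      exact (fderiv ℝ W _).le_opNorm v
    have h4 := norm_fderiv_le h2 hB (x + P z)
    have h5 : ‖x + P z‖ ≤ ‖x‖ + R * (‖z - z0‖ + R * ((D + B) * (1 + ‖x‖))) := by
      have e1 : ‖P z‖ ≤ R * ‖z‖ := (P.le_opNorm z).trans (mul_le_mul_of_nonneg_right hP (norm_nonneg _))
      have e2 : ‖z‖ ≤ ‖z - z0‖ + ‖z0‖ := by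
        have := norm_add_le (z - z0) z0
        simpa using this
      have e3 : ‖z0‖ ≤ R * ((D + B) * (1 + ‖x‖)) := hz0.trans (mul_le_mul_of_nonneg_left hfx hR)
      have e4 : ‖z‖ ≤ ‖z - z0‖ + R * ((D + B) * (1 + ‖x‖)) := by linarith
      calc ‖x + P z‖ ≤ ‖x‖ + ‖P z‖ := norm_add_le _ _
        _ ≤ ‖x‖ + R * ‖z‖ := by linarith
        _ ≤ _ := by
          have := mul_le_mul_of_nonneg_left e4 hR
          linarith
    set u := ‖z - z0‖ with hu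
    have hu0 : 0 ≤ u := norm_nonneg _
    have hx := norm_nonneg x
    have h6 : ‖fderiv ℝ W (x + P z)‖ ≤ M2 * (1 + ‖x‖) * (1 + u) := by
      have e5 : B * ‖x + P z‖ ≤ B * (‖x‖ + R * (u + R * ((D + B) * (1 + ‖x‖)))) :=
        mul_le_mul_of_nonneg_left h5 hB0
      have e6 : D + B * (‖x‖ + R * (u + R * ((D + B) * (1 + ‖x‖)))) ≤ M2 * (1 + ‖x‖) * (1 + u) := by
        rw [hM2]
        have t1 : 0 ≤ D * (‖x‖ + u + ‖x‖ * u) := by positivity
        have t2 : 0 ≤ B * (1 + u + ‖x‖ * u) := by positivity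
        have t3 : 0 ≤ B * R * (R * (D + B)) * ((1 + ‖x‖) * u) := by positivity
        have t4 : 0 ≤ B * R * (1 + ‖x‖ + ‖x‖ * u) := by positivity
        nlinarith
      linarith
    have h7 : (1 + u) ≤ (1 + u) ^ 3 := by
      have : (1:ℝ) ≤ (1 + u) ^ 2 := one_le_pow₀ (by linarith)
      nlinarith
    calc |HL.g W v 1 (x + P z)| ≤ ‖fderiv ℝ W (x + P z)‖ * ‖v‖ := h3
      _ ≤ (M2 * (1 + ‖x‖) * (1 + u)) * ‖v‖ := mul_le_mul_of_nonneg_right h6 (norm_nonneg _)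
      _ = (M2 * ‖v‖ * (1 + ‖x‖)) * (1 + u) := by ring
      _ ≤ _ := mul_le_mul_of_nonneg_left h7 (by positivity)
  have := hp0.abs_Ev_le hKp (by positivity) key
  calc _ ≤ (M2 * ‖v‖ * (1 + ‖x‖)) * J := this
    _ = _ := by ring

/-- the normalised weights through covariances and the third cumulant -/
theorem r_expr {W : E n → ℝ} {P : E n →L[ℝ] E n} {x v : E n} {K : ℝ} {z0 : E n}
    (hp0 : Pinch (hp W P x) K z0)
    (G1 : Gr z0 1 (fun z => HL.g W v 1 (x + P z))) (G2 : Gr z0 1 (fun z => HL.g W v 2 (x + P z)))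
    (G3 : Gr z0 3 (fun z => HL.g W v 3 (x + P z))) :
    -(HL.r W v P 2 x) + (HL.r W v P 1 x) ^ 2 =
      Ev (hp W P x) (fun z => HL.g W v 2 (x + P z)) -
        cov (hp W P x) (fun z => HL.g W v 1 (x + P z)) (fun z => HL.g W v 1 (x + P z)) ∧
    -(HL.r W v P 3 x) + 3 * HL.r W v P 2 x * HL.r W v P 1 x - 2 * (HL.r W v P 1 x) ^ 3 =
      Ev (hp W P x) (fun z => HL.g W v 3 (x + P z)) -
        3 * cov (hp W P x) (fun z => HL.g W v 1 (x + P z)) (fun z => HL.g W v 2 (x + P z)) +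
        k3 (hp W P x) (fun z => HL.g W v 1 (x + P z)) (fun z => HL.g W v 1 (x + P z))
          (fun z => HL.g W v 1 (x + P z)) := by
  set U := hp W P x with hUdef
  set g1 : E n → ℝ := fun z => HL.g W v 1 (x + P z) with hg1
  set g2 : E n → ℝ := fun z => HL.g W v 2 (x + P z) with hg2
  set g3 : E n → ℝ := fun z => HL.g W v 3 (x + P z) with hg3
  have I2 := G2.integrable (by norm_num) hp0
  have I3 := G3.integrable le_rfl hp0
  have I11 : Integrable (fun z => (g1 z * g1 z) * exp (-U z)) := (G1.mul G1).integrable (by norm_num) hp0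
  have I12 : Integrable (fun z => (g1 z * g2 z) * exp (-U z)) := (G1.mul G2).integrable (by norm_num) hp0
  have I111 : Integrable (fun z => (g1 z * g1 z * g1 z) * exp (-U z)) :=
    ((G1.mul G1).mul G1).integrable (by norm_num) hp0
  have r1 : HL.r W v P 1 x = -Ev U g1 := by
    rw [r_eq]
    have := Ev_const_mul (U := U) (-1) g1
    rw [← neg_one_mul, ← this]
    congr 1
    funext z
    rw [HL.q_one]; ring
  have r2 : HL.r W v P 2 x = Ev U (fun z => g1 z * g1 z) - Ev U g2 := by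
    rw [r_eq]
    have i2 : Integrable (fun z => ((-1) * g2 z) * exp (-U z)) := by
      simpa [mul_assoc] using I2.const_mul (-1)
    have e := Ev_add (U := U) I11 i2
    rw [Ev_const_mul] at e
    rw [sub_eq_add_neg, ← neg_one_mul, ← e]
    congr 1
    funext z
    rw [HL.q_two]; ring
  have r3 : HL.r W v P 3 x = -Ev U (fun z => g1 z * g1 z * g1 z) + 3 * Ev U (fun z => g1 z * g2 z) -
      Ev U g3 := by
    rw [r_eq]
    have i1 : Integrable (fun z => ((-1) * (g1 z * g1 z * g1 z)) * exp (-U z)) := by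
      simpa [mul_assoc] using I111.const_mul (-1)
    have i2 : Integrable (fun z => (3 * (g1 z * g2 z)) * exp (-U z)) := by
      simpa [mul_assoc] using I12.const_mul 3
    have i3 : Integrable (fun z => ((-1) * g3 z) * exp (-U z)) := by
      simpa [mul_assoc] using I3.const_mul (-1)
    have i12 : Integrable (fun z => ((-1) * (g1 z * g1 z * g1 z) + 3 * (g1 z * g2 z)) * exp (-U z)) := by
      refine (i1.add i2).congr (Filter.Eventually.of_forall fun z => ?_)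
      simp only [Pi.add_apply]; ring
    have e1 := Ev_add (U := U) i1 i2
    have e2 := Ev_add (U := U) i12 i3
    rw [e1, Ev_const_mul, Ev_const_mul, Ev_const_mul] at e2
    have e3 : -Ev U (fun z => g1 z * g1 z * g1 z) + 3 * Ev U (fun z => g1 z * g2 z) - Ev U g3 =
        -1 * Ev U (fun z => g1 z * g1 z * g1 z) + 3 * Ev U (fun z => g1 z * g2 z) + -1 * Ev U g3 := by
      ring
    rw [e3, ← e2]
    congr 1
    funext z
    rw [HL.q_three]; ring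
  constructor
  · rw [r1, r2]; unfold cov; ring
  · rw [r1, r2, r3]; unfold cov k3; ring

/-- second and third derivative bounds at one point -/
theorem w23_aux {W : E n → ℝ} {P : E n →L[ℝ] E n} {x v : E n} {K R : ℝ} (hK : 0 < K) (hR : 0 ≤ R)
    {z0 : E n} (hp0 : Pinch (hp W P x) K z0)
    (c1 : Continuous (fun z => HL.g W v 1 (x + P z))) (c2 : Continuous (fun z => HL.g W v 2 (x + P z)))
    (c3 : Continuous (fun z => HL.g W v 3 (x + P z))) {B1 B2 D2 D3 : ℝ} (hB1 : 0 ≤ B1) (hB2 : 0 ≤ B2)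
    (hD2 : 0 ≤ D2) (hD3 : 0 ≤ D3)
    (b1 : ∀ z, |HL.g W v 1 (x + P z) - HL.g W v 1 (x + P z0)| ≤ (B1 * R * ‖v‖) * ‖z - z0‖)
    (b2 : ∀ z, |HL.g W v 2 (x + P z) - HL.g W v 2 (x + P z0)| ≤ (B2 * R * ‖v‖ ^ 2) * ‖z - z0‖)
    (d2 : ∀ z, |HL.g W v 2 (x + P z)| ≤ D2 * ‖v‖ ^ 2)
    (d3 : ∀ z, |HL.g W v 3 (x + P z)| ≤ D3 * ‖v‖ ^ 3) :
    |-(HL.r W v P 2 x) + (HL.r W v P 1 x) ^ 2| ≤
      (D2 * Bc (E n) K + (B1 * R) ^ 2 * (Bc (E n) K + Bc (E n) K ^ 2)) * ‖v‖ ^ 2 ∧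
    |-(HL.r W v P 3 x) + 3 * HL.r W v P 2 x * HL.r W v P 1 x - 2 * (HL.r W v P 1 x) ^ 3| ≤
      (D3 * Bc (E n) K + 3 * ((B1 * R) * (B2 * R) * (Bc (E n) K + Bc (E n) K ^ 2)) +
        (B1 * R) ^ 3 * (Bc (E n) K + 3 * Bc (E n) K ^ 2 + 2 * Bc (E n) K ^ 3)) * ‖v‖ ^ 3 := by
  have hn := norm_nonneg v
  have p1 : 0 ≤ B1 * R * ‖v‖ := by positivity
  have p2 : 0 ≤ B2 * R * ‖v‖ ^ 2 := by positivity
  have G1 := gr_of_lip c1 p1 b1
  have G2 := gr_of_lip c2 p2 b2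
  have hge1 : ∀ z, (1:ℝ) ≤ (1 + ‖z - z0‖) ^ 3 := fun z => one_le_pow₀ (by linarith [norm_nonneg (z - z0)])
  have q2 : 0 ≤ D2 * ‖v‖ ^ 2 := by positivity
  have q3 : 0 ≤ D3 * ‖v‖ ^ 3 := by positivity
  have bd2 : ∀ z, |HL.g W v 2 (x + P z)| ≤ (D2 * ‖v‖ ^ 2) * (1 + ‖z - z0‖) ^ 3 := fun z =>
    (d2 z).trans (le_mul_of_one_le_right q2 (hge1 z))
  have bd3 : ∀ z, |HL.g W v 3 (x + P z)| ≤ (D3 * ‖v‖ ^ 3) * (1 + ‖z - z0‖) ^ 3 := fun z =>
    (d3 z).trans (le_mul_of_one_le_right q3 (hge1 z))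
  have G3 : Gr z0 3 (fun z => HL.g W v 3 (x + P z)) := ⟨c3, _, q3, bd3⟩
  have E2 := hp0.abs_Ev_le hK q2 bd2
  have E3 := hp0.abs_Ev_le hK q3 bd3
  have C11 := hp0.abs_cov_le hK c1 c1 p1 p1 b1 b1
  have C12 := hp0.abs_cov_le hK c1 c2 p1 p2 b1 b2
  have K111 := hp0.abs_k3_le hK c1 c1 c1 p1 p1 p1 b1 b1 b1
  obtain ⟨ea, eb⟩ := r_expr (v := v) hp0 G1 G2 G3
  rw [ea, eb]
  constructor
  · refine (abs_sub _ _).trans ((add_le_add E2 C11).trans (le_of_eq ?_))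
    ring
  · have t1 := abs_add_le (Ev (hp W P x) (fun z => HL.g W v 3 (x + P z)) -
        3 * cov (hp W P x) (fun z => HL.g W v 1 (x + P z)) (fun z => HL.g W v 2 (x + P z)))
        (k3 (hp W P x) (fun z => HL.g W v 1 (x + P z)) (fun z => HL.g W v 1 (x + P z))
          (fun z => HL.g W v 1 (x + P z)))
    have t2 := abs_sub (Ev (hp W P x) (fun z => HL.g W v 3 (x + P z)))
      (3 * cov (hp W P x) (fun z => HL.g W v 1 (x + P z)) (fun z => HL.g W v 2 (x + P z)))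
    rw [abs_mul, abs_of_pos (by norm_num : (0:ℝ) < 3)] at t2
    refine t1.trans ((add_le_add (t2.trans (add_le_add E3
      (mul_le_mul_of_nonneg_left C12 (by norm_num)))) K111).trans (le_of_eq ?_))
    ring

/-- second and third derivative bounds -/
theorem w23_bound {W : E n → ℝ} {c C : ℝ} (hW : Reg W c C) (R : ℝ) :
    ∃ K : ℝ, 0 ≤ K ∧ ∀ P : E n →L[ℝ] E n, ‖P‖ ≤ R → ∀ x v : E n,
      |-(HL.r W v P 2 x) + (HL.r W v P 1 x) ^ 2| ≤ K * ‖v‖ ^ 2 ∧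
      |-(HL.r W v P 3 x) + 3 * HL.r W v P 2 x * HL.r W v P 1 x - 2 * (HL.r W v P 1 x) ^ 3| ≤
        K * ‖v‖ ^ 3 := by
  rcases le_or_gt 0 R with hR | hR
  swap
  · exact ⟨0, le_rfl, fun P hP => absurd (norm_nonneg P) (by linarith)⟩
  obtain ⟨B1, hB1, l1⟩ := g_lip hW 1 le_rfl
  obtain ⟨B2, hB2, l2⟩ := g_lip hW 2 (by norm_num)
  obtain ⟨D2, hD2, d2⟩ := g_bdd hW 2 (by norm_num)
  obtain ⟨D3, hD3, d3⟩ := g_bdd hW 3 (by norm_num)
  obtain ⟨KK, hKK⟩ : ∃ KK, KK = 1 + |C| * R ^ 2 := ⟨_, rfl⟩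
  have hKp : 0 < KK := by rw [hKK]; positivity
  have hJ0 : 0 ≤ Bc (E n) KK := Bc_nonneg _
  obtain ⟨KA, hKA⟩ : ∃ KA, KA = D2 * Bc (E n) KK + (B1 * R) ^ 2 * (Bc (E n) KK + Bc (E n) KK ^ 2) := ⟨_, rfl⟩
  obtain ⟨KB, hKB⟩ : ∃ KB, KB = D3 * Bc (E n) KK +
    3 * ((B1 * R) * (B2 * R) * (Bc (E n) KK + Bc (E n) KK ^ 2)) +
    (B1 * R) ^ 3 * (Bc (E n) KK + 3 * Bc (E n) KK ^ 2 + 2 * Bc (E n) KK ^ 3) := ⟨_, rfl⟩
  have hKA0 : 0 ≤ KA := by rw [hKA]; positivity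
  have hKB0 : 0 ≤ KB := by rw [hKB]; positivity
  refine ⟨KA + KB, by positivity, fun P hP x v => ?_⟩
  obtain ⟨z0, hp0, -⟩ := exists_pinch_R hW hP x
  rw [← hKK] at hp0
  have cP : Continuous (fun z : E n => x + P z) := by fun_prop
  have hdist : ∀ z, ‖(x + P z) - (x + P z0)‖ ≤ R * ‖z - z0‖ := fun z => by
    have e : (x + P z) - (x + P z0) = P (z - z0) := by rw [map_sub]; abel
    rw [e]
    exact (P.le_opNorm _).trans (mul_le_mul_of_nonneg_right hP (norm_nonneg _))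
  have b1 : ∀ z, |HL.g W v 1 (x + P z) - HL.g W v 1 (x + P z0)| ≤ (B1 * R * ‖v‖) * ‖z - z0‖ := fun z => by
    refine (l1 v _ _).trans ?_
    calc B1 * ‖v‖ ^ 1 * ‖(x + P z) - (x + P z0)‖ ≤ B1 * ‖v‖ ^ 1 * (R * ‖z - z0‖) :=
          mul_le_mul_of_nonneg_left (hdist z) (by positivity)
      _ = _ := by ring
  have b2 : ∀ z, |HL.g W v 2 (x + P z) - HL.g W v 2 (x + P z0)| ≤ (B2 * R * ‖v‖ ^ 2) * ‖z - z0‖ := fun z => by
    refine (l2 v _ _).trans ?_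
    calc B2 * ‖v‖ ^ 2 * ‖(x + P z) - (x + P z0)‖ ≤ B2 * ‖v‖ ^ 2 * (R * ‖z - z0‖) :=
          mul_le_mul_of_nonneg_left (hdist z) (by positivity)
      _ = _ := by ring
  obtain ⟨e1, e2⟩ := w23_aux hKp hR hp0 ((HL.cont_g hW.smooth v 1).comp cP)
    ((HL.cont_g hW.smooth v 2).comp cP) ((HL.cont_g hW.smooth v 3).comp cP) hB1 hB2 hD2 hD3 b1 b2
    (fun z => d2 v _) (fun z => d3 v _)
  rw [← hKA] at e1
  rw [← hKB] at e2
  have hn := norm_nonneg v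
  refine ⟨e1.trans ?_, e2.trans ?_⟩
  · exact mul_le_mul_of_nonneg_right (by linarith) (by positivity)
  · exact mul_le_mul_of_nonneg_right (by linarith) (by positivity)

end Vale.Agent.P227.M.Cum
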