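import Vale.Agent.P227.M.SC.Mode
import Vale.Agent.P227.M.SC2.HeatLine

/-! # P227/M/SC2: uniform bounds of the line derivatives of `heat W P` -/

open MeasureTheory Filter Topology

namespace Vale.Agent.P227.M.HL

open Vale.P227SC.Bd

variable {n : ℕ}

/-- second order Taylor bounds on `[0, 1]` -/
theorem taylor01 {h h' h'' : ℝ → ℝ} {a b : ℝ} (d : ∀ t, HasDerivAt h (h' t) t)
    (d' : ∀ t, HasDerivAt h' (h'' t) t) (ha : ∀ t, a ≤ h'' t) (hb : ∀ t, h'' t ≤ b) :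
    h 0 + h' 0 + a / 2 ≤ h 1 ∧ h 1 ≤ h 0 + h' 0 + b / 2 := by
  have key : ∀ t, 0 < t → a * t ≤ h' t - h' 0 ∧ h' t - h' 0 ≤ b * t := by
    intro t ht
    obtain ⟨c, hc, hc'⟩ := exists_hasDerivAt_eq_slope h' h'' ht
      (fun z _ => (d' z).continuousAt.continuousWithinAt) (fun z _ => d' z)
    have e : h' t - h' 0 = h'' c * t := by
      rw [sub_zero] at hc'
      rw [hc', div_mul_cancel₀ _ ht.ne']
    rw [e]
    exact ⟨mul_le_mul_of_nonneg_right (ha c) ht.le, mul_le_mul_of_nonneg_right (hb c) ht.le⟩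
  constructor
  · obtain ⟨c, hc, hc'⟩ := exists_hasDerivAt_eq_slope (fun t => h t - h' 0 * t - a / 2 * t ^ 2)
      (fun t => h' t - h' 0 - a * t) (zero_lt_one)
      (fun z _ => by
        have := ((d z).sub ((hasDerivAt_id z).const_mul (h' 0))).sub
          (((hasDerivAt_id z).pow 2).const_mul (a / 2))
        exact this.continuousAt.continuousWithinAt)
      (fun z _ => by
        have := ((d z).sub ((hasDerivAt_id z).const_mul (h' 0))).sub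
          (((hasDerivAt_id z).pow 2).const_mul (a / 2))
        refine this.congr_deriv ?_
        simp; ring)
    have k := (key c hc.1).1
    have h2 : 0 ≤ h' c - h' 0 - a * c := by linarith
    rw [hc'] at h2
    norm_num at h2
    linarith
  · obtain ⟨c, hc, hc'⟩ := exists_hasDerivAt_eq_slope (fun t => h t - h' 0 * t - b / 2 * t ^ 2)
      (fun t => h' t - h' 0 - b * t) (zero_lt_one)
      (fun z _ => by
        have := ((d z).sub ((hasDerivAt_id z).const_mul (h' 0))).sub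
          (((hasDerivAt_id z).pow 2).const_mul (b / 2))
        exact this.continuousAt.continuousWithinAt)
      (fun z _ => by
        have := ((d z).sub ((hasDerivAt_id z).const_mul (h' 0))).sub
          (((hasDerivAt_id z).pow 2).const_mul (b / 2))
        refine this.congr_deriv ?_
        simp; ring)
    have k := (key c hc.1).2
    have h2 : h' c - h' 0 - b * c ≤ 0 := by linarith
    rw [hc'] at h2
    norm_num at h2
    linarith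

theorem lip_fderiv {W : E n → ℝ} (hW : ContDiff ℝ 2 W) {B : ℝ}
    (hB : ∀ x, ‖iteratedFDeriv ℝ 2 W x‖ ≤ B) (x y : E n) :
    ‖fderiv ℝ W x - fderiv ℝ W y‖ ≤ B * ‖x - y‖ := by
  have hd2 : Differentiable ℝ (fderiv ℝ W) :=
    (hW.fderiv_right (m := 1) (by norm_num)).differentiable (by norm_num)
  exact (convex_univ).norm_image_sub_le_of_norm_fderiv_le (𝕜 := ℝ)
    (fun z _ => hd2 z) (fun z _ => norm_fderiv_fderiv_le hB z) (Set.mem_univ y) (Set.mem_univ x)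

theorem tay_of_reg {W : E n → ℝ} {c C : ℝ} (h : Reg W c C) {B : ℝ}
    (hB : ∀ x, ‖iteratedFDeriv ℝ 2 W x‖ ≤ B) : Tay W (fderiv ℝ W) B := by
  have hB0 : 0 ≤ B := (norm_nonneg _).trans (hB 0)
  have hd1 : Differentiable ℝ W := h.C2.differentiable (by norm_num)
  have hd2 : Differentiable ℝ (fderiv ℝ W) :=
    (h.C2.fderiv_right (m := 1) (by norm_num)).differentiable (by norm_num)
  have key : ∀ x y : E n, W x + fderiv ℝ W x (y - x) + 0 / 2 ≤ W y ∧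
      W y ≤ W x + fderiv ℝ W x (y - x) + (B * ‖y - x‖ ^ 2) / 2 := by
    intro x y
    set v := y - x with hv
    have hx : ∀ t : ℝ, HasDerivAt (fun t : ℝ => x + t • v) v t := fun t => by
      simpa using ((hasDerivAt_id t).smul_const v).const_add x
    have e1 : ∀ t : ℝ, HasDerivAt (fun t : ℝ => W (x + t • v)) (fderiv ℝ W (x + t • v) v) t :=
      fun t => (hd1 _).hasFDerivAt.comp_hasDerivAt t (hx t)
    have e2 : ∀ t : ℝ, HasDerivAt (fun t : ℝ => fderiv ℝ W (x + t • v) v)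
        (fderiv ℝ (fderiv ℝ W) (x + t • v) v v) t := fun t => by
      have := ((hd2 _).hasFDerivAt.comp_hasDerivAt t (hx t)).clm_apply (hasDerivAt_const t v)
      refine this.congr_deriv ?_
      simp
    have k := taylor01 (a := 0) (b := B * ‖v‖ ^ 2) e1 e2 (fun t => ?_) (fun t => ?_)
    · have ey : x + (1:ℝ) • v = y := by rw [hv]; simp
      have ex : x + (0:ℝ) • v = x := by simp
      simp only [ey, ex] at k
      exact k
    · rw [← qf_hess_eq h.C2]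
      exact le_trans (mul_nonneg h.c_pos.le (sq_nonneg _)) (h.lower _ _)
    · have h1 := norm_fderiv_fderiv_le hB (x + t • v)
      calc fderiv ℝ (fderiv ℝ W) (x + t • v) v v ≤ ‖fderiv ℝ (fderiv ℝ W) (x + t • v) v v‖ :=
            Real.le_norm_self _
        _ ≤ ‖fderiv ℝ (fderiv ℝ W) (x + t • v) v‖ * ‖v‖ := ContinuousLinearMap.le_opNorm _ _
        _ ≤ (‖fderiv ℝ (fderiv ℝ W) (x + t • v)‖ * ‖v‖) * ‖v‖ := by
            gcongr; exact ContinuousLinearMap.le_opNorm _ _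
        _ ≤ (B * ‖v‖) * ‖v‖ := by gcongr
        _ = _ := by ring
  exact ⟨hB0, h.cont, fun x y => by linarith [(key x y).1], fun x y => by linarith [(key x y).2]⟩

theorem g_one {W : E n → ℝ} (v x : E n) : g W v 1 x = fderiv ℝ W x v := by
  unfold g
  rw [iteratedFDeriv_one_apply]

theorem abs_g_le {W : E n → ℝ} (v x : E n) (i : ℕ) {B : ℝ} (hB : ‖iteratedFDeriv ℝ i W x‖ ≤ B) :
    |g W v i x| ≤ B * ‖v‖ ^ i := by
  have h3 := (iteratedFDeriv ℝ i W x).le_opNorm (fun _ => v)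
  simp only [Finset.prod_const, Finset.card_univ, Fintype.card_fin] at h3
  exact h3.trans (mul_le_mul_of_nonneg_right hB (by positivity))

theorem H_eq (W : E n → ℝ) (v : E n) (P : E n →L[ℝ] E n) (i : ℕ) (x : E n) :
    H W v P i x = ∫ z : E n, q W v i (x + P z) * Real.exp (-(W (x + P z) + (1 / 2) * ‖z‖ ^ 2)) := by
  unfold H
  refine integral_congr_ae (Eventually.of_forall fun z => ?_)
  simp only [f]
  rw [mul_assoc, ← Real.exp_add]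
  congr 2
  ring

theorem three_of_reg {W : E n → ℝ} {c C B2 B3 R : ℝ} (h : Reg W c C) (hR : 0 ≤ R)
    (hB2 : ∀ x, ‖iteratedFDeriv ℝ 2 W x‖ ≤ B2) (hB3 : ∀ x, ‖iteratedFDeriv ℝ 3 W x‖ ≤ B3)
    (P : E n →L[ℝ] E n) (hP : ‖P‖ ≤ R) (x v y0 : E n) :
    Three (fun z : E n => g W v 1 (x + P z)) (fun z => g W v 2 (x + P z))
      (fun z => g W v 3 (x + P z)) y0 (B2 * R * ‖v‖) (B2 * ‖v‖ ^ 2) (B3 * ‖v‖ ^ 3) := by
  have hB20 : 0 ≤ B2 := (norm_nonneg _).trans (hB2 0)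
  have hB30 : 0 ≤ B3 := (norm_nonneg _).trans (hB3 0)
  have hv0 := norm_nonneg v
  have hc : Continuous (fun z : E n => x + P z) := by fun_prop
  refine ⟨(cont_g h.smooth v 1).comp hc, (cont_g h.smooth v 2).comp hc,
    (cont_g h.smooth v 3).comp hc, by positivity, by positivity, by positivity, fun z => ?_,
    fun z => abs_g_le v _ 2 (hB2 _), fun z => abs_g_le v _ 3 (hB3 _)⟩
  rw [g_one, g_one, ← sub_apply, ← Real.norm_eq_abs]
  have h1 := lip_fderiv h.C2 hB2 (x + P z) (x + P y0)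
  have h2 : x + P z - (x + P y0) = P (z - y0) := by rw [map_sub]; abel
  rw [h2] at h1
  have h3 : ‖P (z - y0)‖ ≤ R * ‖z - y0‖ :=
    (P.le_opNorm _).trans (mul_le_mul_of_nonneg_right hP (norm_nonneg _))
  calc ‖(fderiv ℝ W (x + P z) - fderiv ℝ W (x + P y0)) v‖
      ≤ ‖fderiv ℝ W (x + P z) - fderiv ℝ W (x + P y0)‖ * ‖v‖ :=
        ContinuousLinearMap.le_opNorm _ _
    _ ≤ (B2 * (R * ‖z - y0‖)) * ‖v‖ :=
        mul_le_mul_of_nonneg_right (h1.trans (mul_le_mul_of_nonneg_left h3 hB20)) hv0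
    _ = _ := by ring

theorem e0 (W : E n → ℝ) (P : E n →L[ℝ] E n) (x v : E n) :
    H W v P 0 x = ∫ z : E n, Real.exp (-(W (x + P z) + (1 / 2) * ‖z‖ ^ 2)) := by
  rw [H_eq]; simp only [q_zero, one_mul]

theorem e1 (W : E n → ℝ) (P : E n →L[ℝ] E n) (x v : E n) :
    H W v P 1 x = ∫ z : E n, (-g W v 1 (x + P z)) *
      Real.exp (-(W (x + P z) + (1 / 2) * ‖z‖ ^ 2)) := by
  rw [H_eq]; simp only [q_one]

theorem e2 (W : E n → ℝ) (P : E n →L[ℝ] E n) (x v : E n) :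
    H W v P 2 x = ∫ z : E n, (g W v 1 (x + P z) ^ 2 - g W v 2 (x + P z)) *
      Real.exp (-(W (x + P z) + (1 / 2) * ‖z‖ ^ 2)) := by
  rw [H_eq]; simp only [q_two]

theorem e3 (W : E n → ℝ) (P : E n →L[ℝ] E n) (x v : E n) :
    H W v P 3 x = ∫ z : E n, (-g W v 1 (x + P z) ^ 3 +
      3 * g W v 1 (x + P z) * g W v 2 (x + P z) - g W v 3 (x + P z)) *
      Real.exp (-(W (x + P z) + (1 / 2) * ‖z‖ ^ 2)) := by
  rw [H_eq]; simp only [q_three, mul_assoc]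

theorem pin_of_reg {W : E n → ℝ} {c C B2 R : ℝ} (h : Reg W c C)
    (hB2 : ∀ x, ‖iteratedFDeriv ℝ 2 W x‖ ≤ B2) (P : E n →L[ℝ] E n) (hP : ‖P‖ ≤ R) (x : E n) :
    ∃ y0 : E n, Pin (fun z : E n => W (x + P z) + (1 / 2) * ‖z‖ ^ 2) y0 (1 + B2 * R ^ 2) ∧
      ‖y0‖ ≤ ‖P‖ * ‖fderiv ℝ W x‖ := by
  have hB20 : 0 ≤ B2 := (norm_nonneg _).trans (hB2 0)
  obtain ⟨y0, pin, hy0⟩ := exists_mode (tay_of_reg h hB2) P x
  refine ⟨y0, ⟨pin.cont, pin.lo, fun y => (pin.hi y).trans ?_⟩, hy0⟩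
  have h1 : 1 + B2 * ‖P‖ ^ 2 ≤ 1 + B2 * R ^ 2 := by
    have := pow_le_pow_left₀ (norm_nonneg P) hP 2
    have := mul_le_mul_of_nonneg_left this hB20
    linarith
  have h2 := mul_le_mul_of_nonneg_right h1 (sq_nonneg ‖y - y0‖)
  linarith

theorem arith1 {G0 B2 R t : ℝ} (hG : 0 ≤ G0) (hB : 0 ≤ B2) (ht : 0 ≤ t) :
    G0 + B2 * (t + R ^ 2 * (G0 + B2 * t)) ≤ (2 * G0 + B2) * (1 + B2 * R ^ 2) * (1 + t) := by
  have h : (2 * G0 + B2) * (1 + B2 * R ^ 2) * (1 + t) - (G0 + B2 * (t + R ^ 2 * (G0 + B2 * t))) =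
      B2 + B2 ^ 2 * R ^ 2 + t * (2 * G0 + 2 * (G0 * (B2 * R ^ 2))) + G0 + G0 * (B2 * R ^ 2) := by
    ring
  have h2 : 0 ≤ B2 + B2 ^ 2 * R ^ 2 + t * (2 * G0 + 2 * (G0 * (B2 * R ^ 2))) + G0 +
      G0 * (B2 * R ^ 2) := by positivity
  linarith

theorem bound1 {W : E n → ℝ} {c C B2 B3 R : ℝ} (h : Reg W c C) (hR : 0 ≤ R)
    (hB2 : ∀ x, ‖iteratedFDeriv ℝ 2 W x‖ ≤ B2) (hB3 : ∀ x, ‖iteratedFDeriv ℝ 3 W x‖ ≤ B3)
    (P : E n →L[ℝ] E n) (hP : ‖P‖ ≤ R) (x v : E n) :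
    |w1 W v P x| ≤ ((2 * ‖fderiv ℝ W 0‖ + B2) * (1 + B2 * R ^ 2) +
      JJ (E n) (1 + B2 * R ^ 2) * (B2 * R)) * (1 + ‖x‖) * ‖v‖ := by
  have hB20 : 0 ≤ B2 := (norm_nonneg _).trans (hB2 0)
  obtain ⟨y0, pin, hy0⟩ := pin_of_reg h hB2 P hP x
  have k1 := pin.drift (by positivity) (three_of_reg h hR hB2 hB3 P hP x v y0)
  rw [← e0 W P x v, ← e1] at k1
  have a1 : |w1 W v P x| = |H W v P 1 x / H W v P 0 x| := by
    unfold w1 r; rw [abs_neg]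
  rw [a1]
  refine k1.trans ?_
  have hv0 := norm_nonneg v
  have hx0 := norm_nonneg x
  have hn := norm_fderiv_le h.C2 hB2
  have hJ0 : 0 ≤ JJ (E n) (1 + B2 * R ^ 2) := JJ_nonneg _
  generalize JJ (E n) (1 + B2 * R ^ 2) = J at *
  have a3 : ‖P y0‖ ≤ R ^ 2 * (‖fderiv ℝ W 0‖ + B2 * ‖x‖) := by
    have b1 : ‖y0‖ ≤ R * (‖fderiv ℝ W 0‖ + B2 * ‖x‖) :=
      hy0.trans (mul_le_mul hP (hn x) (norm_nonneg _) hR)
    calc ‖P y0‖ ≤ ‖P‖ * ‖y0‖ := P.le_opNorm _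
      _ ≤ R * (R * (‖fderiv ℝ W 0‖ + B2 * ‖x‖)) := mul_le_mul hP b1 (norm_nonneg _) hR
      _ = _ := by ring
  have a4 : ‖x + P y0‖ ≤ ‖x‖ + R ^ 2 * (‖fderiv ℝ W 0‖ + B2 * ‖x‖) :=
    (norm_add_le _ _).trans (by linarith)
  have a6 : ‖fderiv ℝ W (x + P y0)‖ ≤ (2 * ‖fderiv ℝ W 0‖ + B2) * (1 + B2 * R ^ 2) * (1 + ‖x‖) :=
    (hn _).trans ((add_le_add_right (mul_le_mul_of_nonneg_left a4 hB20) _).trans
      (arith1 (norm_nonneg _) hB20 hx0))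
  have a2 : |g W v 1 (x + P y0)| ≤
      (2 * ‖fderiv ℝ W 0‖ + B2) * (1 + B2 * R ^ 2) * (1 + ‖x‖) * ‖v‖ := by
    rw [g_one, ← Real.norm_eq_abs]
    exact (ContinuousLinearMap.le_opNorm _ _).trans (mul_le_mul_of_nonneg_right a6 hv0)
  have a5 : 0 ≤ J * (B2 * R) * ‖x‖ * ‖v‖ := by positivity
  calc |g W v 1 (x + P y0)| + J * (B2 * R * ‖v‖)
      ≤ (2 * ‖fderiv ℝ W 0‖ + B2) * (1 + B2 * R ^ 2) * (1 + ‖x‖) * ‖v‖ + J * (B2 * R * ‖v‖) +
        J * (B2 * R) * ‖x‖ * ‖v‖ := by linarith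
    _ = _ := by ring

theorem bound2 {W : E n → ℝ} {c C B2 B3 R : ℝ} (h : Reg W c C) (hR : 0 ≤ R)
    (hB2 : ∀ x, ‖iteratedFDeriv ℝ 2 W x‖ ≤ B2) (hB3 : ∀ x, ‖iteratedFDeriv ℝ 3 W x‖ ≤ B3)
    (P : E n →L[ℝ] E n) (hP : ‖P‖ ≤ R) (x v : E n) :
    |w2 W v P x| ≤ (1 + JJ (E n) (1 + B2 * R ^ 2)) ^ 2 * ((B2 * R) ^ 2 + B2) * ‖v‖ ^ 2 := by
  have hB20 : 0 ≤ B2 := (norm_nonneg _).trans (hB2 0)
  obtain ⟨y0, pin, -⟩ := pin_of_reg h hB2 P hP x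
  have k2 := pin.cum2 (by positivity) (three_of_reg h hR hB2 hB3 P hP x v y0)
  rw [← e0 W P x v, ← e1, ← e2] at k2
  have a1 : w2 W v P x = -(H W v P 2 x / H W v P 0 x - (H W v P 1 x / H W v P 0 x) ^ 2) := by
    unfold w2 r; ring
  rw [a1, abs_neg]
  refine k2.trans (le_of_eq ?_)
  ring

theorem bound3 {W : E n → ℝ} {c C B2 B3 R : ℝ} (h : Reg W c C) (hR : 0 ≤ R)
    (hB2 : ∀ x, ‖iteratedFDeriv ℝ 2 W x‖ ≤ B2) (hB3 : ∀ x, ‖iteratedFDeriv ℝ 3 W x‖ ≤ B3)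
    (P : E n →L[ℝ] E n) (hP : ‖P‖ ≤ R) (x v : E n) :
    |w3 W v P x| ≤ 6 * (1 + JJ (E n) (1 + B2 * R ^ 2)) ^ 3 *
      ((B2 * R) ^ 3 + (B2 * R) * B2 + B3) * ‖v‖ ^ 3 := by
  have hB20 : 0 ≤ B2 := (norm_nonneg _).trans (hB2 0)
  obtain ⟨y0, pin, -⟩ := pin_of_reg h hB2 P hP x
  have k3 := pin.cum3 (by positivity) (three_of_reg h hR hB2 hB3 P hP x v y0)
  rw [← e0 W P x v, ← e1, ← e2, ← e3] at k3
  have a1 : w3 W v P x = -(H W v P 3 x / H W v P 0 x -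
      3 * (H W v P 2 x / H W v P 0 x) * (H W v P 1 x / H W v P 0 x) +
      2 * (H W v P 1 x / H W v P 0 x) ^ 3) := by
    unfold w3 r; ring
  rw [a1, abs_neg]
  refine k3.trans (le_of_eq ?_)
  ring

/-- UNIFORM BOUNDS: `‖P‖ ≤ R` -/
theorem unif_bounds {W : E n → ℝ} {c C : ℝ} (h : Reg W c C) (R : ℝ) (hR : 0 ≤ R) :
    ∃ B : ℝ, 0 ≤ B ∧ ∀ P : E n →L[ℝ] E n, ‖P‖ ≤ R → ∀ x v : E n,
      |w1 W v P x| ≤ B * (1 + ‖x‖) * ‖v‖ ∧ |w2 W v P x| ≤ B * ‖v‖ ^ 2 ∧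
        |w3 W v P x| ≤ B * ‖v‖ ^ 3 := by
  obtain ⟨B2, hB2⟩ := h.bdd 2 le_rfl
  obtain ⟨B3, hB3⟩ := h.bdd 3 (by norm_num)
  have hB20 : 0 ≤ B2 := (norm_nonneg _).trans (hB2 0)
  have hB30 : 0 ≤ B3 := (norm_nonneg _).trans (hB3 0)
  have b1 := fun P hP x v => bound1 (R := R) h hR hB2 hB3 P hP x v
  have b2 := fun P hP x v => bound2 (R := R) h hR hB2 hB3 P hP x v
  have b3 := fun P hP x v => bound3 (R := R) h hR hB2 hB3 P hP x v
  have hJ0 : 0 ≤ JJ (E n) (1 + B2 * R ^ 2) := JJ_nonneg _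
  generalize JJ (E n) (1 + B2 * R ^ 2) = J at *
  have c1 : 0 ≤ (2 * ‖fderiv ℝ W 0‖ + B2) * (1 + B2 * R ^ 2) + J * (B2 * R) := by positivity
  have c2 : 0 ≤ (1 + J) ^ 2 * ((B2 * R) ^ 2 + B2) := by positivity
  have c3 : 0 ≤ 6 * (1 + J) ^ 3 * ((B2 * R) ^ 3 + (B2 * R) * B2 + B3) := by positivity
  generalize (2 * ‖fderiv ℝ W 0‖ + B2) * (1 + B2 * R ^ 2) + J * (B2 * R) = D1 at *
  generalize (1 + J) ^ 2 * ((B2 * R) ^ 2 + B2) = D2 at *
  generalize 6 * (1 + J) ^ 3 * ((B2 * R) ^ 3 + (B2 * R) * B2 + B3) = D3 at *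
  refine ⟨D1 + D2 + D3, by positivity, fun P hP x v => ⟨?_, ?_, ?_⟩⟩
  · refine (b1 P hP x v).trans ?_
    gcongr
    linarith
  · refine (b2 P hP x v).trans ?_
    gcongr
    linarith
  · refine (b3 P hP x v).trans ?_
    gcongr
    linarith

end Vale.Agent.P227.M.HL
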