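import Vale.Agent.P227.M.SC2.Low234
import Vale.Agent.P227.M.SC2.AB2
import Vale.Agent.P227.M.SC2.UBd

/-! # P227/M/SC2: `aa = w2`, `bb = w3`, `ww = w1` (helper234): the functions of `AB2` (flow) are the line
derivatives of `heat W (√s P)` of `HeatLine`; bounds for `aa`, `bb`, `ww`. -/

open MeasureTheory Filter Topology

namespace Vale.Agent.P227.M.Br2

open SC2.HN

variable {n : ℕ}

theorem line {g : E n → ℝ} (hg : Differentiable ℝ g) (y v : E n) :
    HasDerivAt (fun t : ℝ => g (y + t • v)) (fderiv ℝ g y v) 0 := by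
  have h1 : HasDerivAt (fun t : ℝ => y + t • v) v 0 := by
    simpa using ((hasDerivAt_id (0 : ℝ)).smul_const v).const_add y
  have h2 : HasFDerivAt g (fderiv ℝ g y) (y + (0 : ℝ) • v) := by
    rw [zero_smul, add_zero]
    exact (hg y).hasFDerivAt
  exact h2.comp_hasDerivAt (0 : ℝ) h1

theorem F0_eq (W : E n → ℝ) (v : E n) : HL.f W v 0 = ff W := by
  funext y
  simp [HL.f, HL.q_zero, ff]

variable {W : E n → ℝ} {c C : ℝ}

theorem F1_eq (h : Reg W c C) (v : E n) : F1 W v = HL.f W v 1 := by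
  funext y
  have h1 := line (ce_ff.diff h) y v
  have h2 := HL.hasDerivAt_f h.smooth v 0 (by norm_num) y 0
  simp only [F0_eq, zero_smul, add_zero, zero_add] at h2
  exact h1.unique h2

theorem F2_eq (h : Reg W c C) (v : E n) : F2 W v = HL.f W v 2 := by
  funext y
  have h1 := line ((ce1 h v).diff h) y v
  have h2 := HL.hasDerivAt_f h.smooth v 1 (by norm_num) y 0
  simp only [← F1_eq h, zero_smul, add_zero, Nat.reduceAdd] at h2
  exact h1.unique h2

theorem F3_eq (h : Reg W c C) (v : E n) : F3 W v = HL.f W v 3 := by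
  funext y
  have h1 := line ((ce2 h v).diff h) y v
  have h2 := HL.hasDerivAt_f h.smooth v 2 (by norm_num) y 0
  simp only [← F2_eq h, zero_smul, add_zero, Nat.reduceAdd] at h2
  exact h1.unique h2

theorem T_H (W : E n → ℝ) (v : E n) (P : E n →L[ℝ] E n) (s : ℝ) (k : ℕ) (x : E n) :
    T P s (HL.f W v k) x = HL.H W v (Real.sqrt s • P) k x := by
  unfold T HL.H rho
  refine integral_congr_ae (Eventually.of_forall fun z => ?_)
  simp only [smul_eq_mul, _root_.smul_apply]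
  ring

theorem r_eq (W : E n → ℝ) (v : E n) (P : E n →L[ℝ] E n) (s : ℝ) (k : ℕ) (x : E n) :
    SC2.HN.r W P (HL.f W v k) s x = HL.r W v (Real.sqrt s • P) k x := by
  unfold SC2.HN.r HL.r
  rw [T_H, ← F0_eq W v, T_H]

theorem aa_eq (h : Reg W c C) (P : E n →L[ℝ] E n) (s : ℝ) (x v : E n) :
    aa W P s x v = HL.w2 W v (Real.sqrt s • P) x := by
  unfold aa HL.w2
  rw [F1_eq h, F2_eq h, r_eq, r_eq]

theorem bb_eq (h : Reg W c C) (P : E n →L[ℝ] E n) (s : ℝ) (x v : E n) :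
    bb W P s x v = HL.w3 W v (Real.sqrt s • P) x := by
  unfold bb HL.w3
  rw [F1_eq h, F2_eq h, F3_eq h, r_eq, r_eq, r_eq]
  ring

theorem ww_eq (h : Reg W c C) (P : E n →L[ℝ] E n) (i : Fin n) (s : ℝ) (x : E n) :
    ww W P i s x = HL.w1 W (P (eb i)) (Real.sqrt s • P) x := by
  unfold ww HL.w1
  rw [show dd (P (eb i)) (ff W) = F1 W (P (eb i)) from rfl, F1_eq h, r_eq]

/-- lower bound of `aa` -/
theorem aa_lower (h : Reg W c C) (P : E n →L[ℝ] E n) (S : ℝ) :
    ∃ lam : ℝ, 0 < lam ∧ ∀ s : ℝ, 0 ≤ s → s ≤ S → ∀ x v : E n, lam * ‖v‖ ^ 2 ≤ aa W P s x v := by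
  obtain ⟨lam, h0, h1⟩ := Low234.low_s h P S
  exact ⟨lam, h0, fun s hs hsS x v => by rw [aa_eq h]; exact h1 s hs hsS x v⟩

/-- upper bounds of `aa`, `bb`, `ww` -/
theorem ub (h : Reg W c C) (P : E n →L[ℝ] E n) (S : ℝ) :
    ∃ B : ℝ, 0 ≤ B ∧ ∀ s : ℝ, 0 ≤ s → s ≤ S → ∀ x v : E n,
      |aa W P s x v| ≤ B * ‖v‖ ^ 2 ∧ |bb W P s x v| ≤ B * ‖v‖ ^ 3 ∧
        ∀ i, |ww W P i s x| ≤ B * (1 + ‖x‖) * ‖P (eb i)‖ := by
  obtain ⟨B, hB, hb⟩ := HL.unif_bounds h (Real.sqrt S * ‖P‖) (by positivity)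
  refine ⟨B, hB, fun s hs hsS x v => ?_⟩
  have hP : ‖Real.sqrt s • P‖ ≤ Real.sqrt S * ‖P‖ := by
    rw [norm_smul, Real.norm_eq_abs, abs_of_nonneg (Real.sqrt_nonneg s)]
    exact mul_le_mul_of_nonneg_right (Real.sqrt_le_sqrt hsS) (norm_nonneg _)
  refine ⟨?_, ?_, fun i => ?_⟩
  · rw [aa_eq h]; exact (hb _ hP x v).2.1
  · rw [bb_eq h]; exact (hb _ hP x v).2.2
  · rw [ww_eq h]; exact (hb _ hP x _).1

/-- `iteratedDeriv` of `heat W P` on lines through `aa`, `bb` at time `1` -/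
theorem heat_two (h : Reg W c C) (P : E n →L[ℝ] E n) (x v : E n) :
    iteratedDeriv 2 (fun t : ℝ => heat W P (x + t • v)) 0 = aa W P 1 x v := by
  rw [HL.iteratedDeriv_two_heat h v P x, aa_eq h]
  simp

theorem heat_three (h : Reg W c C) (P : E n →L[ℝ] E n) (x v : E n) :
    iteratedDeriv 3 (fun t : ℝ => heat W P (x + t • v)) 0 = bb W P 1 x v := by
  rw [HL.iteratedDeriv_three_heat h v P x, bb_eq h]
  simp

/-- time `0`: the functions of `W` itself -/
theorem aa_zero (h : Reg W c C) (P : E n →L[ℝ] E n) (x v : E n) :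
    aa W P 0 x v = iteratedDeriv 2 (fun t : ℝ => W (x + t • v)) 0 := by
  have h1 : ∀ (F : E n → ℝ), SC2.HN.r W P F 0 x = F x / ff W x := by
    intro F
    unfold SC2.HN.r T
    simp only [Real.sqrt_zero, zero_smul, add_zero, smul_eq_mul]
    rw [integral_mul_const, integral_mul_const]
    have h2 : (∫ g : E n, rho g) ≠ 0 := by
      have h3 := T_pos h P 0 x
      unfold T at h3
      simp only [Real.sqrt_zero, zero_smul, add_zero, smul_eq_mul] at h3
      rw [integral_mul_const] at h3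
      intro h4
      rw [h4] at h3
      simp at h3
    rw [mul_div_mul_left _ _ h2]
  have hd1 : ∀ t, HasDerivAt (fun t : ℝ => W (x + t • v)) (HL.g W v 1 (x + t • v)) t := by
    intro t
    simpa only [HL.g_zero] using HL.hasDerivAt_g h.smooth v 0 x t
  have hd2 : ∀ t, HasDerivAt (fun t : ℝ => HL.g W v 1 (x + t • v)) (HL.g W v 2 (x + t • v)) t :=
    fun t => HL.hasDerivAt_g h.smooth v 1 x t
  rw [iteratedDeriv_succ', show deriv (fun t : ℝ => W (x + t • v)) =
    fun t : ℝ => HL.g W v 1 (x + t • v) from funext fun t => (hd1 t).deriv,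
    iteratedDeriv_one, (hd2 0).deriv]
  unfold aa
  rw [h1, h1, F1_eq h, F2_eq h]
  have he : Real.exp (-W x) ≠ 0 := (Real.exp_pos _).ne'
  simp only [HL.f, HL.q_one, HL.q_two, ff, zero_smul, add_zero]
  rw [mul_div_cancel_right₀ _ he, mul_div_cancel_right₀ _ he]
  ring

theorem bb_zero (h : Reg W c C) (P : E n →L[ℝ] E n) (x v : E n) :
    bb W P 0 x v = iteratedDeriv 3 (fun t : ℝ => W (x + t • v)) 0 := by
  have h1 : ∀ (F : E n → ℝ), SC2.HN.r W P F 0 x = F x / ff W x := by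
    intro F
    unfold SC2.HN.r T
    simp only [Real.sqrt_zero, zero_smul, add_zero, smul_eq_mul]
    rw [integral_mul_const, integral_mul_const]
    have h2 : (∫ g : E n, rho g) ≠ 0 := by
      have h3 := T_pos h P 0 x
      unfold T at h3
      simp only [Real.sqrt_zero, zero_smul, add_zero, smul_eq_mul] at h3
      rw [integral_mul_const] at h3
      intro h4
      rw [h4] at h3
      simp at h3
    rw [mul_div_mul_left _ _ h2]
  have hd1 : ∀ t, HasDerivAt (fun t : ℝ => W (x + t • v)) (HL.g W v 1 (x + t • v)) t := by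
    intro t
    simpa only [HL.g_zero] using HL.hasDerivAt_g h.smooth v 0 x t
  have hd2 : ∀ t, HasDerivAt (fun t : ℝ => HL.g W v 1 (x + t • v)) (HL.g W v 2 (x + t • v)) t :=
    fun t => HL.hasDerivAt_g h.smooth v 1 x t
  have hd3 : ∀ t, HasDerivAt (fun t : ℝ => HL.g W v 2 (x + t • v)) (HL.g W v 3 (x + t • v)) t :=
    fun t => HL.hasDerivAt_g h.smooth v 2 x t
  rw [iteratedDeriv_succ', show deriv (fun t : ℝ => W (x + t • v)) =
    fun t : ℝ => HL.g W v 1 (x + t • v) from funext fun t => (hd1 t).deriv,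
    iteratedDeriv_succ', show deriv (fun t : ℝ => HL.g W v 1 (x + t • v)) =
    fun t : ℝ => HL.g W v 2 (x + t • v) from funext fun t => (hd2 t).deriv,
    iteratedDeriv_one, (hd3 0).deriv]
  unfold bb
  rw [h1, h1, h1, F1_eq h, F2_eq h, F3_eq h]
  have he : Real.exp (-W x) ≠ 0 := (Real.exp_pos _).ne'
  simp only [HL.f, HL.q_one, HL.q_two, HL.q_three, ff, zero_smul, add_zero]
  rw [mul_div_cancel_right₀ _ he, mul_div_cancel_right₀ _ he, mul_div_cancel_right₀ _ he]
  ring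

end Vale.Agent.P227.M.Br2
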