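import Mathlib

/-!
P227, block SC(i): the Gaussian semigroup `T A s F p = ∫ ρ(g) F(p + √s A g) dg` on functions with
values in a normed space: derivatives in `p` and `s` (heat equation), continuity.
-/

open MeasureTheory Set Filter Topology

namespace Vale.Agent.P227.M.SC2.HN

noncomputable section

abbrev EE (n : ℕ) := EuclideanSpace ℝ (Fin n)

variable {n : ℕ}

/-- Gaussian weight (not normalised). -/
def rho (g : EE n) : ℝ := Real.exp (-(‖g‖ ^ 2) / 2)

lemma rho_pos (g : EE n) : 0 < rho g := Real.exp_pos _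

lemma continuous_rho : Continuous (rho : EE n → ℝ) := by
  unfold rho; fun_prop

lemma integrable_exp_neg_sq {b : ℝ} (hb : 0 < b) :
    Integrable (fun g : EE n => Real.exp (-(b * ‖g‖ ^ 2))) := by
  have h := GaussianFourier.integrable_cexp_neg_mul_sq_norm_add (V := EE n) (b := (b : ℂ))
    (by simpa using hb) 0 0
  have h2 := h.norm
  refine h2.congr (Eventually.of_forall fun g => ?_)
  simp only [inner_zero_left, Complex.ofReal_zero, mul_zero, add_zero]
  rw [Complex.norm_exp]
  congr 1
  have : (-(b : ℂ) * (‖g‖ : ℂ) ^ 2) = ((-(b * ‖g‖ ^ 2) : ℝ) : ℂ) := by push_cast; ring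
  rw [this, Complex.ofReal_re]

lemma integrable_pow_rho (k : ℕ) : Integrable (fun g : EE n => ‖g‖ ^ k * rho g) := by
  have h := (integrable_exp_neg_sq (n := n) (b := 1 / 4) (by norm_num)).const_mul
    ((k.factorial : ℝ) * Real.exp 1)
  refine h.mono' ((continuous_norm.pow k).mul continuous_rho).aestronglyMeasurable
    (Eventually.of_forall fun g => ?_)
  rw [Real.norm_eq_abs, abs_of_nonneg (mul_nonneg (pow_nonneg (norm_nonneg _) _) (rho_pos g).le)]
  have h1 : ‖g‖ ^ k ≤ k.factorial * Real.exp ‖g‖ := by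
    have := Real.pow_div_factorial_le_exp ‖g‖ (norm_nonneg g) k
    rw [div_le_iff₀ (by positivity)] at this
    linarith
  have h2 : Real.exp ‖g‖ * rho g ≤ Real.exp 1 * Real.exp (-(1 / 4 * ‖g‖ ^ 2)) := by
    rw [rho, ← Real.exp_add, ← Real.exp_add]
    apply Real.exp_le_exp.2
    nlinarith [sq_nonneg (‖g‖ - 2)]
  calc ‖g‖ ^ k * rho g ≤ (k.factorial * Real.exp ‖g‖) * rho g :=
        mul_le_mul_of_nonneg_right h1 (rho_pos g).le
    _ = k.factorial * (Real.exp ‖g‖ * rho g) := by ring
    _ ≤ k.factorial * (Real.exp 1 * Real.exp (-(1 / 4 * ‖g‖ ^ 2))) :=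
        mul_le_mul_of_nonneg_left h2 (by positivity)
    _ = _ := by ring

lemma integrable_rho : Integrable (fun g : EE n => rho g) := by
  simpa using integrable_pow_rho (n := n) 0

variable {E' : Type*} [NormedAddCommGroup E'] [NormedSpace ℝ E']
variable {F0 : Type*} [NormedAddCommGroup F0] [NormedSpace ℝ F0]

/-- the (unnormalised) Gaussian average. -/
def T (A : EE n →L[ℝ] E') (s : ℝ) (F : E' → F0) (p : E') : F0 :=
  ∫ g : EE n, rho g • F (p + Real.sqrt s • A g)

/-- bounded functions, together with two derivatives -/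
structure Nice (F : E' → F0) : Prop where
  cd : ContDiff ℝ 2 F
  b0 : ∃ C, ∀ p, ‖F p‖ ≤ C
  b1 : ∃ C, ∀ p, ‖fderiv ℝ F p‖ ≤ C
  b2 : ∃ C, ∀ p, ‖fderiv ℝ (fderiv ℝ F) p‖ ≤ C

lemma integrable_T (A : EE n →L[ℝ] E') (s : ℝ) {F : E' → F0} (hc : Continuous F) {C : ℝ}
    (hC : ∀ p, ‖F p‖ ≤ C) (p : E') :
    Integrable (fun g : EE n => rho g • F (p + Real.sqrt s • A g)) := by
  refine (integrable_rho.const_mul C).mono' ?_ (Eventually.of_forall fun g => ?_)
  · exact (continuous_rho.smul (hc.comp (by fun_prop))).aestronglyMeasurable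
  · rw [norm_smul, Real.norm_eq_abs, abs_of_pos (rho_pos g), mul_comm]
    exact mul_le_mul_of_nonneg_right (hC _) (rho_pos g).le

/-- (H1) derivative in `p`. -/
lemma hasFDerivAt_T (A : EE n →L[ℝ] E') (s : ℝ) {F : E' → F0} (hc : ContDiff ℝ 1 F) {C C1 : ℝ}
    (hC : ∀ p, ‖F p‖ ≤ C) (hC1 : ∀ p, ‖fderiv ℝ F p‖ ≤ C1) (p : E') :
    HasFDerivAt (T A s F) (T A s (fderiv ℝ F) p) p := by
  have hF' : Continuous (fderiv ℝ F) := hc.continuous_fderiv one_ne_zero
  refine hasFDerivAt_integral_of_dominated_of_fderiv_le (s := univ)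
    (F := fun p g => rho g • F (p + Real.sqrt s • A g))
    (F' := fun p g => rho g • fderiv ℝ F (p + Real.sqrt s • A g))
    (bound := fun g => C1 * rho g) univ_mem ?_ ?_ ?_ ?_ ?_ ?_
  · exact Eventually.of_forall fun q =>
      (integrable_T A s hc.continuous hC q).aestronglyMeasurable
  · exact integrable_T A s hc.continuous hC p
  · exact (continuous_rho.smul (hF'.comp (by fun_prop))).aestronglyMeasurable
  · refine Eventually.of_forall fun g q _ => ?_
    rw [norm_smul, Real.norm_eq_abs, abs_of_pos (rho_pos g), mul_comm]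
    exact mul_le_mul_of_nonneg_right (hC1 _) (rho_pos g).le
  · exact integrable_rho.const_mul C1
  · refine Eventually.of_forall fun g q _ => ?_
    have h1 : HasFDerivAt F (fderiv ℝ F (q + Real.sqrt s • A g)) (q + Real.sqrt s • A g) :=
      (hc.differentiable one_ne_zero _).hasFDerivAt
    have h2 : HasFDerivAt (fun q : E' => q + Real.sqrt s • A g) (ContinuousLinearMap.id ℝ E') q :=
      (hasFDerivAt_id q).add_const _
    have h3 := ((h1.comp q h2).const_smul (rho g)).congr_fderiv
      (g' := rho g • fderiv ℝ F (q + Real.sqrt s • A g)) (by ext v; simp)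
    exact h3

/-- basis vector -/
abbrev eb (i : Fin n) : EE n := EuclideanSpace.single i 1

lemma hasFDerivAt_rho (g : EE n) : HasFDerivAt (rho : EE n → ℝ) (-(rho g) • innerSL ℝ g) g := by
  have h1 : HasFDerivAt (fun g : EE n => -(‖g‖ ^ 2) / 2) (-(innerSL ℝ g)) g := by
    have h := ((hasStrictFDerivAt_norm_sq g).hasFDerivAt).const_mul (-(1 / 2 : ℝ))
    have h' : (fun g : EE n => -(‖g‖ ^ 2) / 2) = fun g => -(1 / 2 : ℝ) * ‖g‖ ^ 2 := by
      ext g; ring
    rw [h']
    exact h.congr_fderiv (by ext v; simp)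
  exact h1.exp.congr_fderiv (by ext v; simp [rho])

lemma inner_eb (g : EE n) (i : Fin n) : innerSL ℝ g (eb i) = g i := by
  simp [eb, EuclideanSpace.inner_single_right]

lemma sum_eb (g : EE n) : g = ∑ i, g i • eb i := by
  ext j
  simp [eb, Pi.single_apply]

lemma abs_coord_le (g : EE n) (i : Fin n) : |g i| ≤ ‖g‖ := by
  simpa using PiLp.norm_apply_le g i

lemma stein (A : EE n →L[ℝ] E') (s : ℝ) {G : E' → F0} (hc : ContDiff ℝ 1 G) {C C1 : ℝ}
    (hC : ∀ p, ‖G p‖ ≤ C) (hC1 : ∀ p, ‖fderiv ℝ G p‖ ≤ C1) (p : E') (i : Fin n) :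
    ∫ g : EE n, (g i * rho g) • G (p + Real.sqrt s • A g) =
      Real.sqrt s • ∫ g : EE n, rho g • fderiv ℝ G (p + Real.sqrt s • A g) (A (eb i)) := by
  have hG' : Continuous (fderiv ℝ G) := hc.continuous_fderiv one_ne_zero
  have h := integral_bilinear_hasFDerivAt_right_eq_neg_left_of_integrable (μ := (volume : Measure (EE n)))
    (f := (rho : EE n → ℝ)) (f' := fun g => -(rho g) • innerSL ℝ g)
    (g := fun g : EE n => G (p + Real.sqrt s • A g))
    (g' := fun g : EE n => (fderiv ℝ G (p + Real.sqrt s • A g)).comp (Real.sqrt s • A))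
    (v := eb i) (B := ContinuousLinearMap.lsmul ℝ ℝ) ?_ ?_ ?_ ?_ ?_
  · simp only [ContinuousLinearMap.lsmul_apply, _root_.smul_apply, inner_eb,
      ContinuousLinearMap.comp_apply, map_smul] at h
    rw [← integral_smul]
    rw [h, ← integral_neg]
    congr 1
    ext g
    rw [smul_smul, ← neg_smul]
    congr 1
    ring
  · refine ((integrable_pow_rho 1).const_mul C).mono' ?_ (Eventually.of_forall fun g => ?_)
    · refine Continuous.aestronglyMeasurable ?_
      simp only [ContinuousLinearMap.lsmul_apply, _root_.smul_apply, inner_eb]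
      have : Continuous fun g : EE n => G (p + Real.sqrt s • A g) := hc.continuous.comp (by fun_prop)
      have h3 : Continuous fun g : EE n => g i := by fun_prop
      exact ((continuous_rho.neg.mul h3)).smul this
    · simp only [ContinuousLinearMap.lsmul_apply, _root_.smul_apply, inner_eb]
      rw [norm_smul, norm_smul, norm_neg, Real.norm_eq_abs, Real.norm_eq_abs, abs_of_pos (rho_pos g)]
      have h1 := abs_coord_le g i
      have h2 := hC (p + Real.sqrt s • A g)
      have h3 := (rho_pos g).le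
      have h4 := norm_nonneg (G (p + Real.sqrt s • A g))
      calc rho g * |g i| * ‖G (p + Real.sqrt s • A g)‖ ≤ rho g * ‖g‖ * C := by gcongr
        _ = _ := by ring
  · have hb : ∀ g : EE n, ‖fderiv ℝ G (p + Real.sqrt s • A g) (Real.sqrt s • A (eb i))‖ ≤
        C1 * ‖Real.sqrt s • A (eb i)‖ := fun g =>
      ((fderiv ℝ G (p + Real.sqrt s • A g)).le_opNorm _).trans
        (mul_le_mul_of_nonneg_right (hC1 _) (norm_nonneg _))
    refine (integrable_rho.const_mul (C1 * ‖Real.sqrt s • A (eb i)‖)).mono' ?_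
      (Eventually.of_forall fun g => ?_)
    · refine Continuous.aestronglyMeasurable ?_
      simp only [ContinuousLinearMap.lsmul_apply, ContinuousLinearMap.comp_apply,
        _root_.smul_apply]
      have : Continuous fun g : EE n => fderiv ℝ G (p + Real.sqrt s • A g) := hG'.comp (by fun_prop)
      exact continuous_rho.smul (this.clm_apply continuous_const)
    · simp only [ContinuousLinearMap.lsmul_apply, ContinuousLinearMap.comp_apply,
        _root_.smul_apply]
      rw [norm_smul, Real.norm_eq_abs, abs_of_pos (rho_pos g), mul_comm]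
      exact mul_le_mul_of_nonneg_right (hb g) (rho_pos g).le
  · simpa [ContinuousLinearMap.lsmul_apply] using integrable_T A s hc.continuous hC p
  · intro g _
    exact hasFDerivAt_rho g
  · intro g _
    have h1 : HasFDerivAt G (fderiv ℝ G (p + Real.sqrt s • A g)) (p + Real.sqrt s • A g) :=
      (hc.differentiable one_ne_zero _).hasFDerivAt
    have h2 : HasFDerivAt (fun g : EE n => p + Real.sqrt s • A g) (Real.sqrt s • A) g := by
      have := (A.hasFDerivAt (x := g)).const_smul (Real.sqrt s)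
      simpa using this.const_add p
    exact h1.comp g h2

/-- (H2) the heat equation. -/
lemma hasDerivAt_T (A : EE n →L[ℝ] E') {F : E' → F0} (hN : Nice F) {s : ℝ} (hs : 0 < s) (p : E') :
    HasDerivAt (fun s => T A s F p)
      ((1 / 2 : ℝ) • ∑ i : Fin n, ∫ g : EE n, rho g •
        fderiv ℝ (fderiv ℝ F) (p + Real.sqrt s • A g) (A (eb i)) (A (eb i))) s := by
  obtain ⟨C, hC⟩ := hN.b0
  obtain ⟨C1, hC1⟩ := hN.b1
  obtain ⟨C2, hC2⟩ := hN.b2
  have hcd1 : ContDiff ℝ 1 (fderiv ℝ F) := hN.cd.fderiv_right (by norm_num)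
  have hF' : Continuous (fderiv ℝ F) := hcd1.continuous
  have hs2 : 0 < s / 2 := by linarith
  have key := (hasDerivAt_integral_of_dominated_loc_of_deriv_le (μ := (volume : Measure (EE n)))
    (s := Ioi (s / 2)) (x₀ := s)
    (F := fun t g => rho g • F (p + Real.sqrt t • A g))
    (F' := fun t g => rho g • ((1 / (2 * Real.sqrt t)) • fderiv ℝ F (p + Real.sqrt t • A g) (A g)))
    (bound := fun g => (1 / (2 * Real.sqrt (s / 2))) * C1 * ‖A‖ * (‖g‖ ^ 1 * rho g))
    (Ioi_mem_nhds (by linarith)) ?_ ?_ ?_ ?_ ?_ ?_).2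
  · refine key.congr_deriv ?_
    have e0 : ∀ g : EE n, rho g • ((1 / (2 * Real.sqrt s)) • fderiv ℝ F (p + Real.sqrt s • A g) (A g))
        = (1 / (2 * Real.sqrt s)) • ∑ i : Fin n, (g i * rho g) •
          fderiv ℝ F (p + Real.sqrt s • A g) (A (eb i)) := by
      intro g
      have hAg : A g = ∑ i : Fin n, g i • A (eb i) := by
        conv_lhs => rw [sum_eb g]
        simp [map_sum]
      rw [smul_comm, hAg, map_sum, Finset.smul_sum]
      congr 1
      refine Finset.sum_congr rfl fun i _ => ?_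
      rw [map_smul, smul_smul, mul_comm]
    have hGcd : ∀ i : Fin n, ContDiff ℝ 1 (fun q => fderiv ℝ F q (A (eb i))) := fun i =>
      hcd1.clm_apply contDiff_const
    have hGb : ∀ i : Fin n, ∀ q, ‖fderiv ℝ F q (A (eb i))‖ ≤ C1 * ‖A (eb i)‖ := fun i q =>
      ((fderiv ℝ F q).le_opNorm _).trans (mul_le_mul_of_nonneg_right (hC1 _) (norm_nonneg _))
    have hGd : ∀ i : Fin n, ∀ q v, fderiv ℝ (fun q => fderiv ℝ F q (A (eb i))) q v =
        fderiv ℝ (fderiv ℝ F) q v (A (eb i)) := by
      intro i q v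
      have h1 : HasFDerivAt (fderiv ℝ F) (fderiv ℝ (fderiv ℝ F) q) q :=
        (hcd1.differentiable one_ne_zero q).hasFDerivAt
      have h2 := (h1.clm_apply (hasFDerivAt_const (A (eb i)) q)).fderiv
      rw [h2]
      simp
    have hGb1 : ∀ i : Fin n, ∀ q, ‖fderiv ℝ (fun q => fderiv ℝ F q (A (eb i))) q‖ ≤
        C2 * ‖A (eb i)‖ := by
      intro i q
      refine ContinuousLinearMap.opNorm_le_bound _
        (mul_nonneg (le_trans (norm_nonneg (fderiv ℝ (fderiv ℝ F) q)) (hC2 q))
          (norm_nonneg (A (eb i)))) fun v => ?_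
      rw [hGd]
      calc ‖fderiv ℝ (fderiv ℝ F) q v (A (eb i))‖ ≤ ‖fderiv ℝ (fderiv ℝ F) q v‖ * ‖A (eb i)‖ :=
            ContinuousLinearMap.le_opNorm _ _
        _ ≤ (C2 * ‖v‖) * ‖A (eb i)‖ := by
            gcongr
            exact ((fderiv ℝ (fderiv ℝ F) q).le_opNorm v).trans
              (mul_le_mul_of_nonneg_right (hC2 q) (norm_nonneg _))
        _ = _ := by ring
    have hint : ∀ i : Fin n, Integrable (fun g : EE n => (g i * rho g) •
        fderiv ℝ F (p + Real.sqrt s • A g) (A (eb i))) := by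
      intro i
      refine ((integrable_pow_rho 1).const_mul (C1 * ‖A (eb i)‖)).mono' ?_
        (Eventually.of_forall fun g => ?_)
      · refine Continuous.aestronglyMeasurable ?_
        have h5 : Continuous fun g : EE n => fderiv ℝ F (p + Real.sqrt s • A g) (A (eb i)) :=
          (hGcd i).continuous.comp (by fun_prop)
        have h3 : Continuous fun g : EE n => g i := by fun_prop
        exact (h3.mul continuous_rho).smul h5
      · rw [norm_smul, Real.norm_eq_abs, abs_mul, abs_of_pos (rho_pos g)]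
        have h1 := abs_coord_le g i
        have h2 := hGb i (p + Real.sqrt s • A g)
        have h3 := (rho_pos g).le
        calc |g i| * rho g * ‖fderiv ℝ F (p + Real.sqrt s • A g) (A (eb i))‖
            ≤ ‖g‖ * rho g * (C1 * ‖A (eb i)‖) := by gcongr
          _ = _ := by ring
    simp_rw [e0]
    rw [integral_smul, integral_finsetSum _ (fun i _ => hint i)]
    have e1 : ∀ i : Fin n, ∫ g : EE n, (g i * rho g) •
        fderiv ℝ F (p + Real.sqrt s • A g) (A (eb i)) = Real.sqrt s • ∫ g : EE n, rho g •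
        fderiv ℝ (fderiv ℝ F) (p + Real.sqrt s • A g) (A (eb i)) (A (eb i)) := by
      intro i
      have h := stein A s (hGcd i) (hGb i) (hGb1 i) p i
      simp_rw [hGd] at h
      exact h
    simp_rw [e1]
    rw [← Finset.smul_sum, smul_smul]
    congr 1
    have : Real.sqrt s ≠ 0 := (Real.sqrt_pos.2 hs).ne'
    field_simp
  · exact Eventually.of_forall fun t =>
      (integrable_T A t hN.cd.continuous hC p).aestronglyMeasurable
  · exact integrable_T A s hN.cd.continuous hC p
  · refine Continuous.aestronglyMeasurable ?_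
    have : Continuous fun g : EE n => fderiv ℝ F (p + Real.sqrt s • A g) := hF'.comp (by fun_prop)
    exact continuous_rho.smul (continuous_const.smul (this.clm_apply A.continuous))
  · refine Eventually.of_forall fun g t ht => ?_
    have ht' : s / 2 < t := ht
    have h1 : ‖fderiv ℝ F (p + Real.sqrt t • A g) (A g)‖ ≤ C1 * (‖A‖ * ‖g‖) :=
      ((fderiv ℝ F (p + Real.sqrt t • A g)).le_opNorm _).trans
        (mul_le_mul (hC1 _) (A.le_opNorm g) (norm_nonneg _) ((norm_nonneg _).trans (hC1 p)))
    have h2 : 1 / (2 * Real.sqrt t) ≤ 1 / (2 * Real.sqrt (s / 2)) := by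
      apply one_div_le_one_div_of_le (by positivity)
      have := Real.sqrt_le_sqrt ht'.le
      linarith
    have h3 : 0 ≤ 1 / (2 * Real.sqrt t) := by positivity
    rw [norm_smul, norm_smul, Real.norm_eq_abs, abs_of_pos (rho_pos g), Real.norm_eq_abs,
      abs_of_nonneg h3]
    have h4 := (rho_pos g).le
    calc rho g * (1 / (2 * Real.sqrt t) * ‖fderiv ℝ F (p + Real.sqrt t • A g) (A g)‖)
        ≤ rho g * (1 / (2 * Real.sqrt (s / 2)) * (C1 * (‖A‖ * ‖g‖))) := by
          gcongr
      _ = _ := by ring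
  · exact (integrable_pow_rho 1).const_mul _
  · refine Eventually.of_forall fun g t ht => ?_
    have ht' : 0 < t := lt_trans hs2 ht
    have h1 : HasFDerivAt F (fderiv ℝ F (p + Real.sqrt t • A g)) (p + Real.sqrt t • A g) :=
      (hN.cd.differentiable two_ne_zero _).hasFDerivAt
    have h2 : HasDerivAt (fun t : ℝ => p + Real.sqrt t • A g) ((1 / (2 * Real.sqrt t)) • A g) t := by
      have := (Real.hasDerivAt_sqrt ht'.ne').smul_const (A g)
      exact this.const_add p
    have h3 := (h1.comp_hasDerivAt t h2).const_smul (rho g)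
    refine h3.congr_deriv ?_
    simp

/-- (H3) joint continuity. -/
lemma continuous_T (A : EE n →L[ℝ] E') {F : E' → F0} (hc : Continuous F) {C : ℝ}
    (hC : ∀ p, ‖F p‖ ≤ C) : Continuous (fun q : ℝ × E' => T A q.1 F q.2) := by
  refine continuous_of_dominated (bound := fun g : EE n => C * rho g) ?_ ?_ ?_ ?_
  · intro q
    exact (integrable_T A q.1 hc hC q.2).aestronglyMeasurable
  · intro q
    refine Eventually.of_forall fun g => ?_
    rw [norm_smul, Real.norm_eq_abs, abs_of_pos (rho_pos g), mul_comm]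
    exact mul_le_mul_of_nonneg_right (hC _) (rho_pos g).le
  · exact integrable_rho.const_mul C
  · refine Eventually.of_forall fun g => ?_
    have h1 : Continuous fun q : ℝ × E' => q.2 + Real.sqrt q.1 • A g := by fun_prop
    exact continuous_const.smul (hc.comp h1)

end

end Vale.Agent.P227.M.SC2.HN
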