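import Vale.Agent.P227.M.Bas
import Vale.Agent.P227.M.SC2.HeatN

/-!
P227, block SC(i): all derivatives of `exp (-W)` are bounded when `Reg W c C`.
-/

open MeasureTheory Set Filter Topology

namespace Vale.Agent.P227.M.SC2.HN

noncomputable section

variable {n : ℕ}
variable {F0 : Type*} [NormedAddCommGroup F0] [NormedSpace ℝ F0]

lemma tg_fderiv {f : E n → F0} (hf : f.HasTemperateGrowth) : (fderiv ℝ f).HasTemperateGrowth := by
  refine ⟨hf.1.fderiv_right (by simp), fun k => ?_⟩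
  obtain ⟨m, C, h⟩ := hf.2 (k + 1)
  exact ⟨m, C, fun x => by rw [norm_iteratedFDeriv_fderiv]; exact h x⟩

lemma tg_W {W : E n → ℝ} {c C : ℝ} (h : Reg W c C) : W.HasTemperateGrowth := by
  obtain ⟨B, hB⟩ := h.bdd 2 le_rfl
  have h2 : ContDiff ℝ 2 W := h.smooth.of_le (WithTop.coe_le_coe.2 (le_top : (2 : ℕ∞) ≤ ⊤))
  have hd2 : (fderiv ℝ (fderiv ℝ W)).HasTemperateGrowth := by
    refine ⟨(h.smooth.fderiv_right (m := (⊤ : ℕ∞)) (by simp)).fderiv_right (by simp), fun k => ?_⟩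
    obtain ⟨B', hB'⟩ := h.bdd (k + 2) (by omega)
    refine ⟨0, B', fun x => ?_⟩
    rw [norm_iteratedFDeriv_fderiv, norm_iteratedFDeriv_fderiv]
    simpa using hB' x
  have hd1 : (fderiv ℝ W).HasTemperateGrowth := by
    refine Function.HasTemperateGrowth.of_fderiv hd2
      ((h.smooth.fderiv_right (m := (⊤ : ℕ∞)) (by simp)).differentiable (by simp))
      (k := 1) (C := ‖fderiv ℝ W 0‖ + |B|) (fun x => ?_)
    have h1 := norm_fderiv_le h2 hB x
    have h3 := norm_nonneg x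
    have h4 := norm_nonneg (fderiv ℝ W 0)
    have h5 := le_abs_self B
    have h6 := abs_nonneg B
    nlinarith
  refine Function.HasTemperateGrowth.of_fderiv hd1 (h.smooth.differentiable (by simp))
      (k := 2) (C := |W 0| + ‖fderiv ℝ W 0‖ + |B|) (fun x => ?_)
  have hdiff : Differentiable ℝ W := h.smooth.differentiable (by simp)
  have h1 := (convex_ball (0 : E n) (‖x‖ + 1)).norm_image_sub_le_of_norm_fderiv_le
    (f := W) (C := ‖fderiv ℝ W 0‖ + |B| * (‖x‖ + 1)) (x := 0) (y := x) (fun z _ => hdiff z)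
    (fun z hz => by
      have h1 := norm_fderiv_le h2 hB z
      have h3 : ‖z‖ < ‖x‖ + 1 := by simpa using hz
      have h4 : B * ‖z‖ ≤ |B| * (‖x‖ + 1) :=
        (mul_le_mul_of_nonneg_right (le_abs_self B) (norm_nonneg z)).trans
          (mul_le_mul_of_nonneg_left h3.le (abs_nonneg B))
      linarith)
    (by simp; positivity) (by simp)
  rw [sub_zero] at h1
  have h3 := norm_nonneg x
  have h4 := norm_nonneg (fderiv ℝ W 0)
  have h6 := abs_nonneg B
  have h7 : ‖W x‖ ≤ |W 0| + ‖W x - W 0‖ := by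
    have := norm_add_le (W 0) (W x - W 0)
    simpa using this
  have h8 := abs_nonneg (W 0)
  nlinarith [mul_nonneg h3 h3, mul_nonneg h4 h3, mul_nonneg h6 h3, mul_nonneg h8 h3]

/-- functions of the form `exp (-W) • G` with `G` of temperate growth. -/
def CE (W : E n → ℝ) (F : E n → F0) : Prop :=
  ∃ G : E n → F0, G.HasTemperateGrowth ∧ ∀ x, F x = Real.exp (-W x) • G x

lemma CE.eq {W : E n → ℝ} {F : E n → F0} {G : E n → F0} (h : ∀ x, F x = Real.exp (-W x) • G x) :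
    F = fun x => Real.exp (-W x) • G x := funext h

lemma CE.fderiv {W : E n → ℝ} (hW : W.HasTemperateGrowth) {F : E n → F0} (h : CE W F) :
    CE W (_root_.fderiv ℝ F) := by
  obtain ⟨G, hG, hF⟩ := h
  refine ⟨fun x => _root_.fderiv ℝ G x - (_root_.fderiv ℝ W x).smulRight (G x), ?_, ?_⟩
  · refine (tg_fderiv hG).sub ?_
    exact (ContinuousLinearMap.smulRightL ℝ (E n) F0).bilinear_hasTemperateGrowth (tg_fderiv hW) hG
  · intro x
    rw [funext hF]
    have h1 : HasFDerivAt W (_root_.fderiv ℝ W x) x :=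
      (hW.1.differentiable (by simp) x).hasFDerivAt
    have h2 : HasFDerivAt G (_root_.fderiv ℝ G x) x :=
      (hG.1.differentiable (by simp) x).hasFDerivAt
    have h3 : HasFDerivAt (fun x => Real.exp (-W x) • G x)
        (Real.exp (-W x) • _root_.fderiv ℝ G x +
          (Real.exp (-W x) • -_root_.fderiv ℝ W x).smulRight (G x)) x := h1.neg.exp.smul h2
    rw [h3.fderiv]
    ext v
    simp [sub_eq_add_neg, smul_smul]

lemma CE.contDiff {W : E n → ℝ} (hW : W.HasTemperateGrowth) {F : E n → F0} (h : CE W F) :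
    ContDiff ℝ (⊤ : ℕ∞) F := by
  obtain ⟨G, hG, hF⟩ := h
  rw [funext hF]
  exact (Real.contDiff_exp.comp hW.1.neg).smul hG.1

lemma CE.bdd {W : E n → ℝ} {c C : ℝ} (hR : Reg W c C) {F : E n → F0} (h : CE W F) :
    ∃ B, ∀ x, ‖F x‖ ≤ B := by
  obtain ⟨G, hG, hF⟩ := h
  obtain ⟨k, D, hD⟩ := hG.2 0
  have h2 : ContDiff ℝ 2 W := hR.smooth.of_le (WithTop.coe_le_coe.2 (le_top : (2 : ℕ∞) ≤ ⊤))
  have hc := hR.c_pos
  set b := ‖_root_.fderiv ℝ W 0‖ with hb
  -- (1+r)^k ≤ k! exp(1+r)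
  refine ⟨|D| * (k.factorial * Real.exp (1 + (b + 1) ^ 2 / (2 * c) - W 0)), fun x => ?_⟩
  have h3 := lower_quad h2 hR.lower x
  have h4 : -(b * ‖x‖) ≤ _root_.fderiv ℝ W 0 x := by
    have := (_root_.fderiv ℝ W 0).le_opNorm x
    rw [Real.norm_eq_abs] at this
    linarith [neg_abs_le (_root_.fderiv ℝ W 0 x)]
  have h5 : (1 + ‖x‖) ^ k ≤ k.factorial * Real.exp (1 + ‖x‖) := by
    have := Real.pow_div_factorial_le_exp (1 + ‖x‖) (by positivity) k
    rw [div_le_iff₀ (by positivity)] at this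
    linarith
  have h6 : ‖G x‖ ≤ D * (1 + ‖x‖) ^ k := by simpa using hD x
  rw [hF, norm_smul, Real.norm_eq_abs, abs_of_pos (Real.exp_pos _)]
  have h7 : Real.exp (-W x) * Real.exp (1 + ‖x‖) ≤ Real.exp (1 + (b + 1) ^ 2 / (2 * c) - W 0) := by
    rw [← Real.exp_add]
    apply Real.exp_le_exp.2
    have h8 : (b + 1) * ‖x‖ - c / 2 * ‖x‖ ^ 2 ≤ (b + 1) ^ 2 / (2 * c) := by
      rw [le_div_iff₀ (by positivity)]
      nlinarith [sq_nonneg (c * ‖x‖ - (b + 1))]
    linarith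
  calc Real.exp (-W x) * ‖G x‖ ≤ Real.exp (-W x) * (|D| * (k.factorial * Real.exp (1 + ‖x‖))) := by
        have h9 : ‖G x‖ ≤ |D| * (k.factorial * Real.exp (1 + ‖x‖)) :=
          h6.trans (mul_le_mul (le_abs_self D) h5 (by positivity) (abs_nonneg D))
        exact mul_le_mul_of_nonneg_left h9 (Real.exp_pos _).le
    _ = |D| * (k.factorial * (Real.exp (-W x) * Real.exp (1 + ‖x‖))) := by ring
    _ ≤ _ := by gcongr

lemma CE.nice {W : E n → ℝ} {c C : ℝ} (hR : Reg W c C) {F : E n → F0} (h : CE W F) : Nice F where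
  cd := (h.contDiff (tg_W hR)).of_le (WithTop.coe_le_coe.2 (le_top : (2 : ℕ∞) ≤ ⊤))
  b0 := h.bdd hR
  b1 := (h.fderiv (tg_W hR)).bdd hR
  b2 := ((h.fderiv (tg_W hR)).fderiv (tg_W hR)).bdd hR

lemma CE.exp {W : E n → ℝ} : CE W (fun x => Real.exp (-W x)) :=
  ⟨fun _ => 1, Function.HasTemperateGrowth.const 1, fun x => by simp⟩

end

end Vale.Agent.P227.M.SC2.HN
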