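import Vale.Agent.P227.M.SC2.Low234
import Vale.Agent.P227.M.SC2.ExpCls

/-! # P227/M/SC2: `HL.H W v (√s P) k x` is the average of the `k`-th derivative of `exp (-W)` (helper234). -/

open MeasureTheory Filter Topology

namespace Vale.Agent.P227.M.Bridge234

variable {n : ℕ}

noncomputable section

/-- `exp (-W)` and its derivatives -/
def e0 (W : E n → ℝ) : E n → ℝ := fun y => Real.exp (-W y)

def e1 (W : E n → ℝ) : E n → (E n →L[ℝ] ℝ) := fderiv ℝ (e0 W)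

abbrev B2 (n : ℕ) : Type := E n →L[ℝ] E n →L[ℝ] ℝ

abbrev B3 (n : ℕ) : Type := E n →L[ℝ] B2 n

instance instB2a : NormedAddCommGroup (B2 n) := ContinuousLinearMap.toNormedAddCommGroup

instance instB2b : NormedSpace ℝ (B2 n) := ContinuousLinearMap.toNormedSpace

instance instB3a : NormedAddCommGroup (B3 n) := ContinuousLinearMap.toNormedAddCommGroup

instance instB3b : NormedSpace ℝ (B3 n) := ContinuousLinearMap.toNormedSpace

def e2 (W : E n → ℝ) : E n → B2 n := fderiv ℝ (e1 W)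

def e3 (W : E n → ℝ) : E n → B3 n := fderiv ℝ (e2 W)

theorem smooth0 {W : E n → ℝ} (h : ContDiff ℝ (⊤ : ℕ∞) W) : ContDiff ℝ (⊤ : ℕ∞) (e0 W) :=
  Real.contDiff_exp.comp h.neg

theorem smooth1 {W : E n → ℝ} (h : ContDiff ℝ (⊤ : ℕ∞) W) : ContDiff ℝ (⊤ : ℕ∞) (e1 W) :=
  (smooth0 h).fderiv_right (by simp)

theorem smooth2 {W : E n → ℝ} (h : ContDiff ℝ (⊤ : ℕ∞) W) : ContDiff ℝ (⊤ : ℕ∞) (e2 W) :=
  (smooth1 h).fderiv_right (by simp)

theorem smooth3 {W : E n → ℝ} (h : ContDiff ℝ (⊤ : ℕ∞) W) : ContDiff ℝ (⊤ : ℕ∞) (e3 W) :=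
  (smooth2 h).fderiv_right (by simp)

theorem line {F : Type*} [NormedAddCommGroup F] [NormedSpace ℝ F] {g : E n → F}
    (hg : ContDiff ℝ (⊤ : ℕ∞) g) (y v : E n) :
    HasDerivAt (fun t : ℝ => g (y + t • v)) (fderiv ℝ g y v) 0 := by
  have h1 : HasDerivAt (fun t : ℝ => y + t • v) v 0 := by
    simpa using ((hasDerivAt_id (0 : ℝ)).smul_const v).const_add y
  have h2 : HasFDerivAt g (fderiv ℝ g y) (y + (0 : ℝ) • v) := by
    rw [zero_smul, add_zero]
    exact (hg.differentiable (by simp) y).hasFDerivAt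
  exact h2.comp_hasDerivAt (0 : ℝ) h1

theorem f_zero (W : E n → ℝ) (v y : E n) : HL.f W v 0 y = e0 W y := by
  simp [HL.f, HL.q_zero, e0]

theorem e1_apply {W : E n → ℝ} (h : ContDiff ℝ (⊤ : ℕ∞) W) (v y : E n) :
    e1 W y v = HL.f W v 1 y := by
  have h1 := line (smooth0 h) y v
  have h2 := HL.hasDerivAt_f h v 0 (by norm_num) y 0
  simp only [f_zero, zero_smul, add_zero, zero_add] at h2
  exact h1.unique h2

theorem e2_apply {W : E n → ℝ} (h : ContDiff ℝ (⊤ : ℕ∞) W) (v y : E n) :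
    e2 W y v v = HL.f W v 2 y := by
  have h1 := line (smooth1 h) y v
  have h1' := h1.clm_apply (hasDerivAt_const (0 : ℝ) v)
  have h2 := HL.hasDerivAt_f h v 1 (by norm_num) y 0
  simp only [← e1_apply h, zero_smul, add_zero, Nat.reduceAdd] at h2
  simp only [map_zero, add_zero] at h1'
  exact h1'.unique h2

theorem e3_apply {W : E n → ℝ} (h : ContDiff ℝ (⊤ : ℕ∞) W) (v y : E n) :
    e3 W y v v v = HL.f W v 3 y := by
  have h1 := line (smooth2 h) y v
  have h1' := (h1.clm_apply (hasDerivAt_const (0 : ℝ) v)).clm_apply (hasDerivAt_const (0 : ℝ) v)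
  have h2 := HL.hasDerivAt_f h v 2 (by norm_num) y 0
  simp only [← e2_apply h, zero_smul, add_zero, Nat.reduceAdd] at h2
  simp only [map_zero, add_zero] at h1'
  exact h1'.unique h2

theorem rho_eq (z : E n) : SC2.HN.rho z = Real.exp (-‖z‖ ^ 2 / 2) := by
  unfold SC2.HN.rho
  rfl

theorem T_eq {F : Type*} [NormedAddCommGroup F] [NormedSpace ℝ F] (P : E n →L[ℝ] E n) (s : ℝ)
    (G : E n → F) (x : E n) :
    SC2.HN.T P s G x = ∫ z : E n, Real.exp (-‖z‖ ^ 2 / 2) • G (x + (Real.sqrt s • P) z) := by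
  unfold SC2.HN.T
  simp only [rho_eq, _root_.smul_apply]

theorem T0 (W : E n → ℝ) (v : E n) (P : E n →L[ℝ] E n) (s : ℝ) (x : E n) :
    SC2.HN.T P s (e0 W) x = HL.H W v (Real.sqrt s • P) 0 x := by
  rw [T_eq, HL.H]
  refine integral_congr_ae (Eventually.of_forall fun z => ?_)
  simp only [f_zero, smul_eq_mul]
  ring

/-- averages of the derivatives, applied to a vector -/
theorem T1 {W : E n → ℝ} (h : ContDiff ℝ (⊤ : ℕ∞) W) {C : ℝ} (hC : ∀ y, ‖e1 W y‖ ≤ C) (v : E n)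
    (P : E n →L[ℝ] E n) (s : ℝ) (x : E n) :
    SC2.HN.T P s (e1 W) x v = HL.H W v (Real.sqrt s • P) 1 x := by
  have hi := SC2.HN.integrable_T (n := n) P s (smooth1 h).continuous hC x
  have h1 : SC2.HN.T P s (e1 W) x v =
      ∫ g : E n, (SC2.HN.rho g • e1 W (x + Real.sqrt s • P g)) v := by
    unfold SC2.HN.T
    exact ContinuousLinearMap.integral_apply hi v
  rw [h1, HL.H]
  refine integral_congr_ae (Eventually.of_forall fun z => ?_)
  simp only [_root_.smul_apply, e1_apply h, rho_eq, smul_eq_mul]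
  ring

theorem T2 {W : E n → ℝ} (h : ContDiff ℝ (⊤ : ℕ∞) W) {C : ℝ} (hC : ∀ y, ‖e2 W y‖ ≤ C) (v : E n)
    (P : E n →L[ℝ] E n) (s : ℝ) (x : E n) :
    SC2.HN.T P s (e2 W) x v v = HL.H W v (Real.sqrt s • P) 2 x := by
  have hi := SC2.HN.integrable_T (n := n) P s (smooth2 h).continuous hC x
  have h1 : SC2.HN.T P s (e2 W) x v =
      ∫ g : E n, (SC2.HN.rho g • e2 W (x + Real.sqrt s • P g)) v := by
    unfold SC2.HN.T
    exact ContinuousLinearMap.integral_apply hi v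
  have hi2 : Integrable (fun g : E n => (SC2.HN.rho g • e2 W (x + Real.sqrt s • P g)) v) :=
    ((ContinuousLinearMap.apply ℝ (E n →L[ℝ] ℝ) v).integrable_comp hi)
  rw [h1, ContinuousLinearMap.integral_apply hi2 v, HL.H]
  refine integral_congr_ae (Eventually.of_forall fun z => ?_)
  simp only [_root_.smul_apply, e2_apply h, rho_eq, smul_eq_mul]
  ring

theorem T3 {W : E n → ℝ} (h : ContDiff ℝ (⊤ : ℕ∞) W) {C : ℝ} (hC : ∀ y, ‖e3 W y‖ ≤ C) (v : E n)
    (P : E n →L[ℝ] E n) (s : ℝ) (x : E n) :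
    SC2.HN.T P s (e3 W) x v v v = HL.H W v (Real.sqrt s • P) 3 x := by
  have hi := SC2.HN.integrable_T (n := n) P s (smooth3 h).continuous hC x
  have h1 : SC2.HN.T P s (e3 W) x v =
      ∫ g : E n, (SC2.HN.rho g • e3 W (x + Real.sqrt s • P g)) v := by
    unfold SC2.HN.T
    exact ContinuousLinearMap.integral_apply hi v
  have hi2 : Integrable (fun g : E n => (SC2.HN.rho g • e3 W (x + Real.sqrt s • P g)) v) :=
    ((ContinuousLinearMap.apply ℝ (B2 n) v).integrable_comp hi)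
  have hi3 : Integrable (fun g : E n => (SC2.HN.rho g • e3 W (x + Real.sqrt s • P g)) v v) :=
    ((ContinuousLinearMap.apply ℝ (E n →L[ℝ] ℝ) v).integrable_comp hi2)
  rw [h1, ContinuousLinearMap.integral_apply hi2 v, ContinuousLinearMap.integral_apply hi3 v, HL.H]
  refine integral_congr_ae (Eventually.of_forall fun z => ?_)
  simp only [_root_.smul_apply, e3_apply h, rho_eq, smul_eq_mul]
  ring

open SC2.HN in
theorem b1 {W : E n → ℝ} {c C : ℝ} (h : Reg W c C) : ∃ B, ∀ y, ‖e1 W y‖ ≤ B :=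
  (CE.exp.fderiv (tg_W h)).bdd h

open SC2.HN in
theorem b2 {W : E n → ℝ} {c C : ℝ} (h : Reg W c C) : ∃ B, ∀ y, ‖e2 W y‖ ≤ B :=
  ((CE.exp.fderiv (tg_W h)).fderiv (tg_W h)).bdd h

open SC2.HN in
theorem b3 {W : E n → ℝ} {c C : ℝ} (h : Reg W c C) : ∃ B, ∀ y, ‖e3 W y‖ ≤ B :=
  (((CE.exp.fderiv (tg_W h)).fderiv (tg_W h)).fderiv (tg_W h)).bdd h

/-- positivity of the mass -/
theorem T0_pos {W : E n → ℝ} {c C : ℝ} (h : Reg W c C) (P : E n →L[ℝ] E n) (s : ℝ) (x : E n) :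
    0 < SC2.HN.T P s (e0 W) x := by
  rw [T0 W 0]
  exact HL.H_zero_pos h 0 _ x

/-- block (d) in terms of `T P s (D^k exp (-W))` -/
theorem low_T {W : E n → ℝ} {c C : ℝ} (h : Reg W c C) (P : E n →L[ℝ] E n) (S : ℝ) :
    ∃ lam : ℝ, 0 < lam ∧ ∀ s : ℝ, 0 ≤ s → s ≤ S → ∀ x v : E n,
      lam * ‖v‖ ^ 2 ≤ -(SC2.HN.T P s (e2 W) x v v / SC2.HN.T P s (e0 W) x)
        + (SC2.HN.T P s (e1 W) x v / SC2.HN.T P s (e0 W) x) ^ 2 := by
  obtain ⟨lam, h0, h1⟩ := Low234.low_s h P S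
  obtain ⟨B1, hB1⟩ := b1 h
  obtain ⟨B2, hB2⟩ := b2 h
  refine ⟨lam, h0, fun s hs hsS x v => ?_⟩
  have h2 := h1 s hs hsS x v
  rw [T2 h.smooth hB2, T1 h.smooth hB1, T0 W v]
  simpa only [HL.w2, HL.r] using h2

end

end Vale.Agent.P227.M.Bridge234
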