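import Mathlib

/-!
P227/M, block SC-2: smooth functions with bounded derivatives of all orders, directional
derivatives, and averages over translations.
-/

namespace Vale.Agent.P227.M.SC2

open MeasureTheory ProbabilityTheory Filter Topology
open scoped ContDiff

variable {V G : Type} [NormedAddCommGroup V] [NormedSpace ℝ V] [NormedAddCommGroup G]
  [NormedSpace ℝ G]

/-- Smooth with bounded derivatives of all orders. -/
def BS (f : V → G) : Prop :=
  ContDiff ℝ ∞ f ∧ ∀ k : ℕ, ∃ C, ∀ x, ‖iteratedFDeriv ℝ k f x‖ ≤ C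

theorem BS.cont {f : V → G} (hf : BS f) : Continuous f := hf.1.continuous

theorem BS.bd {f : V → G} (hf : BS f) : ∃ C, ∀ x, ‖f x‖ ≤ C := by
  obtain ⟨C, hC⟩ := hf.2 0
  refine ⟨C, fun x => ?_⟩
  have := hC x
  rwa [norm_iteratedFDeriv_zero] at this

theorem BS.diff {f : V → G} (hf : BS f) : Differentiable ℝ f :=
  hf.1.differentiable (by simp)

theorem BS.fderiv {f : V → G} (hf : BS f) : BS (fderiv ℝ f) := by
  refine ⟨hf.1.fderiv_right (by simp), fun k => ?_⟩
  obtain ⟨C, hC⟩ := hf.2 (k + 1)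
  refine ⟨C, fun x => ?_⟩
  rw [norm_iteratedFDeriv_fderiv]
  exact hC x

/-- The directional derivative. -/
noncomputable def dd (v : V) (f : V → G) (x : V) : G := fderiv ℝ f x v

theorem BS.dd {f : V → G} (hf : BS f) (v : V) : BS (dd v f) := by
  have h1 := hf.fderiv
  refine ⟨h1.1.clm_apply contDiff_const, fun k => ?_⟩
  obtain ⟨C, hC⟩ := h1.2 k
  refine ⟨‖v‖ * C, fun x => ?_⟩
  refine (norm_iteratedFDeriv_clm_apply_const (h1.1.contDiffAt.of_le (by exact_mod_cast le_top))
    le_rfl).trans ?_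
  exact mul_le_mul_of_nonneg_left (hC x) (norm_nonneg v)

theorem BS.hasDerivAt {f : V → ℝ} (hf : BS f) (x v : V) (t : ℝ) :
    HasDerivAt (fun t : ℝ => f (x + t • v)) (SC2.dd v f (x + t • v)) t := by
  have h1 := (hf.diff (x + t • v)).hasFDerivAt
  have h2 : HasDerivAt (fun t : ℝ => x + t • v) v t := by
    have := ((hasDerivAt_id t).smul_const v).const_add x
    simpa using this
  exact h1.comp_hasDerivAt t h2

theorem BS.dd_comm {f : V → ℝ} (hf : BS f) (u v : V) :
    SC2.dd v (SC2.dd u f) = SC2.dd u (SC2.dd v f) := by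
  funext x
  have h1 := (hf.fderiv.diff x)
  have e : ∀ u v : V, SC2.dd v (SC2.dd u f) x = _root_.fderiv ℝ (_root_.fderiv ℝ f) x v u := by
    intro u v
    unfold SC2.dd
    rw [fderiv_clm_apply h1 (differentiableAt_const u)]
    simp
  rw [e, e]
  have h2 : IsSymmSndFDerivAt ℝ f x :=
    (hf.1.contDiffAt (x := x)).isSymmSndFDerivAt (by
      rw [minSmoothness_of_isRCLikeNormedField]
      exact WithTop.coe_le_coe.2 le_top)
  exact h2 v u

/-! ### Averages over translations -/

variable {Ω : Type} [MeasurableSpace Ω] {μ : Measure Ω} [IsFiniteMeasure μ] {Y : Ω → V}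

/-- The average over translations. -/
noncomputable def TT (μ : Measure Ω) (Y : Ω → V) (f : V → G) (x : V) : G := ∫ o, f (x + Y o) ∂μ

theorem TT_int (hY : AEStronglyMeasurable Y μ) {f : V → G} (hf : BS f) (x : V) :
    Integrable (fun o => f (x + Y o)) μ := by
  obtain ⟨C, hC⟩ := hf.bd
  exact Integrable.mono' (integrable_const C)
    (hf.cont.comp_aestronglyMeasurable (aestronglyMeasurable_const.add hY))
    (Eventually.of_forall fun o => hC _)

theorem TT_fderiv (hY : AEStronglyMeasurable Y μ) {f : V → G} (hf : BS f) (x : V) :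
    HasFDerivAt (TT μ Y f) (TT μ Y (_root_.fderiv ℝ f) x) x := by
  obtain ⟨C, hC⟩ := hf.fderiv.bd
  have hm : ∀ x, AEStronglyMeasurable (fun o => x + Y o) μ := fun x =>
    aestronglyMeasurable_const.add hY
  exact hasFDerivAt_integral_of_dominated_of_fderiv_le (s := Set.univ) (bound := fun _ => C)
    (F := fun y o => f (y + Y o)) (F' := fun y o => _root_.fderiv ℝ f (y + Y o)) (x₀ := x)
    Filter.univ_mem
    (Eventually.of_forall fun y => hf.cont.comp_aestronglyMeasurable (hm y))
    (TT_int hY hf x) (hf.fderiv.cont.comp_aestronglyMeasurable (hm x))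
    (Eventually.of_forall fun o y _ => hC _) (integrable_const _)
    (Eventually.of_forall fun o y _ => by
      have h1 := (hf.diff (y + Y o)).hasFDerivAt
      have h2 : HasFDerivAt (fun y => y + Y o) (ContinuousLinearMap.id ℝ V) y :=
        (hasFDerivAt_id y).add_const _
      exact h1.comp y h2)

theorem TT_contDiff (hY : AEStronglyMeasurable Y μ) (n : ℕ) : ∀ {G : Type}
    [NormedAddCommGroup G] [NormedSpace ℝ G] {f : V → G}, BS f → ContDiff ℝ n (TT μ Y f) := by
  induction n with
  | zero =>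
    intro G _ _ f hf
    have : Differentiable ℝ (TT μ Y f) := fun x => (TT_fderiv hY hf x).differentiableAt
    exact_mod_cast contDiff_zero.2 this.continuous
  | succ n ih =>
    intro G _ _ f hf
    have h1 : ContDiff ℝ ((n : ℕ∞ω) + 1) (TT μ Y f) := by
      rw [contDiff_succ_iff_fderiv]
      refine ⟨fun x => (TT_fderiv hY hf x).differentiableAt, by simp, ?_⟩
      have : _root_.fderiv ℝ (TT μ Y f) = TT μ Y (_root_.fderiv ℝ f) :=
        funext fun x => (TT_fderiv hY hf x).fderiv
      rw [this]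
      exact ih hf.fderiv
    exact_mod_cast h1

theorem TT_bd (hY : AEStronglyMeasurable Y μ) (n : ℕ) : ∀ {G : Type}
    [NormedAddCommGroup G] [NormedSpace ℝ G] {f : V → G}, BS f →
    ∃ C, ∀ x, ‖iteratedFDeriv ℝ n (TT μ Y f) x‖ ≤ C := by
  induction n with
  | zero =>
    intro G _ _ f hf
    obtain ⟨C, hC⟩ := hf.bd
    refine ⟨C * μ.real Set.univ, fun x => ?_⟩
    rw [norm_iteratedFDeriv_zero]
    exact norm_integral_le_of_norm_le_const (Eventually.of_forall fun o => hC _)
  | succ n ih =>
    intro G _ _ f hf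
    obtain ⟨C, hC⟩ := ih hf.fderiv
    refine ⟨C, fun x => ?_⟩
    have : _root_.fderiv ℝ (TT μ Y f) = TT μ Y (_root_.fderiv ℝ f) :=
      funext fun x => (TT_fderiv hY hf x).fderiv
    rw [← norm_iteratedFDeriv_fderiv, this]
    exact hC x

theorem BS.TT (hY : AEStronglyMeasurable Y μ) {f : V → G} (hf : BS f) : BS (TT μ Y f) :=
  ⟨contDiff_infty.2 fun n => TT_contDiff hY n hf, fun k => TT_bd hY k hf⟩

theorem TT_dd (hY : AEStronglyMeasurable Y μ) [CompleteSpace G] {f : V → G} (hf : BS f) (v : V) :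
    SC2.dd v (SC2.TT μ Y f) = SC2.TT μ Y (SC2.dd v f) := by
  funext x
  unfold SC2.dd
  rw [(TT_fderiv hY hf x).fderiv]
  unfold SC2.TT
  exact ContinuousLinearMap.integral_apply (TT_int hY hf.fderiv x) v

end Vale.Agent.P227.M.SC2
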