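import Mathlib

/-! Service file: moments, covariances and third cumulants of Lipschitz functions under `e^{-U}`,
`1 ≤ D²U ≤ K` (in the form of two-sided quadratic bounds around the mode). -/

open MeasureTheory Real

set_option linter.unusedSectionVars false

namespace Vale.Agent.P227.M.Cum

variable {V : Type*} [NormedAddCommGroup V] [InnerProductSpace ℝ V] [FiniteDimensional ℝ V]
  [MeasurableSpace V] [BorelSpace V]

/-- normalised expectation with density `e^{-U}` -/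
noncomputable def Ev (U h : V → ℝ) : ℝ := (∫ y, h y * exp (-U y)) / ∫ y, exp (-U y)

/-- two-sided quadratic bounds around the mode `y0` -/
structure Pinch (U : V → ℝ) (K : ℝ) (y0 : V) : Prop where
  cont : Continuous U
  lower : ∀ y, U y0 + ‖y - y0‖ ^ 2 / 2 ≤ U y
  upper : ∀ y, U y ≤ U y0 + K * ‖y - y0‖ ^ 2 / 2

theorem Pinch.mono {U : V → ℝ} {K K' : ℝ} {y0 : V} (h : Pinch U K y0) (hK : K ≤ K') : Pinch U K' y0 := by
  refine ⟨h.cont, h.lower, fun y => (h.upper y).trans ?_⟩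
  have : K * ‖y - y0‖ ^ 2 ≤ K' * ‖y - y0‖ ^ 2 := mul_le_mul_of_nonneg_right hK (sq_nonneg _)
  linarith

theorem integrable_gauss {b : ℝ} (hb : 0 < b) (y0 : V) :
    Integrable (fun y : V => exp (-(b * ‖y - y0‖ ^ 2))) := by
  have h0 : Integrable (fun y : V => exp (-(b * ‖y‖ ^ 2))) := by
    have h1 := (GaussianFourier.integrable_cexp_neg_mul_sq_norm_add (V := V) (b := (b : ℂ))
      (by simpa using hb) 0 0).norm
    refine h1.congr (Filter.Eventually.of_forall fun y => ?_)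
    simp only [zero_mul, add_zero]
    rw [Complex.norm_exp]
    congr 1
    have : (-(b : ℂ) * (‖y‖ : ℂ) ^ 2) = ((-(b * ‖y‖ ^ 2) : ℝ) : ℂ) := by push_cast; ring
    rw [this, Complex.ofReal_re]
  exact h0.comp_sub_right y0

/-- the moment constant -/
noncomputable def Bc (V : Type*) [NormedAddCommGroup V] [InnerProductSpace ℝ V] [FiniteDimensional ℝ V]
    [MeasurableSpace V] [BorelSpace V] (K : ℝ) : ℝ :=
  (∫ y : V, 6 * exp 2 * exp (-(1 / 4 * ‖y‖ ^ 2))) / ∫ y : V, exp (-(K / 2 * ‖y‖ ^ 2))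

theorem poly_exp_le {x : ℝ} (hx : 0 ≤ x) :
    (1 + x) ^ 3 * exp (-(x ^ 2 / 2)) ≤ 6 * exp 2 * exp (-(1 / 4 * x ^ 2)) := by
  have h1 : (1 + x) ^ 3 ≤ 6 * exp (1 + x) := by
    have := Real.pow_div_factorial_le_exp (1 + x) (by linarith) 3
    rw [div_le_iff₀ (by positivity)] at this
    have h6 : ((Nat.factorial 3 : ℕ) : ℝ) = 6 := by norm_num [Nat.factorial]
    rw [h6] at this
    linarith
  have h2 : exp (1 + x) * exp (-(x ^ 2 / 2)) ≤ exp 2 * exp (-(1 / 4 * x ^ 2)) := by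
    rw [← exp_add, ← exp_add]
    apply exp_le_exp.mpr
    nlinarith [sq_nonneg (x - 2)]
  calc (1 + x) ^ 3 * exp (-(x ^ 2 / 2)) ≤ 6 * exp (1 + x) * exp (-(x ^ 2 / 2)) :=
        mul_le_mul_of_nonneg_right h1 (exp_pos _).le
    _ = 6 * (exp (1 + x) * exp (-(x ^ 2 / 2))) := by ring
    _ ≤ 6 * (exp 2 * exp (-(1 / 4 * x ^ 2))) := by linarith
    _ = _ := by ring

section
variable {U : V → ℝ} {K : ℝ} {y0 : V}

theorem Pinch.exp_le (hU : Pinch U K y0) (y : V) :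
    exp (-U y) ≤ exp (-U y0) * exp (-(‖y - y0‖ ^ 2 / 2)) := by
  rw [← exp_add]; apply exp_le_exp.mpr; linarith [hU.lower y]

theorem Pinch.le_exp (hU : Pinch U K y0) (y : V) :
    exp (-U y0) * exp (-(K / 2 * ‖y - y0‖ ^ 2)) ≤ exp (-U y) := by
  rw [← exp_add]; apply exp_le_exp.mpr; linarith [hU.upper y]

theorem Pinch.poly_le (hU : Pinch U K y0) (y : V) :
    (1 + ‖y - y0‖) ^ 3 * exp (-U y) ≤ exp (-U y0) * (6 * exp 2 * exp (-(1 / 4 * ‖y - y0‖ ^ 2))) := by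
  calc (1 + ‖y - y0‖) ^ 3 * exp (-U y)
      ≤ (1 + ‖y - y0‖) ^ 3 * (exp (-U y0) * exp (-(‖y - y0‖ ^ 2 / 2))) :=
        mul_le_mul_of_nonneg_left (hU.exp_le y) (by positivity)
    _ = exp (-U y0) * ((1 + ‖y - y0‖) ^ 3 * exp (-(‖y - y0‖ ^ 2 / 2))) := by ring
    _ ≤ _ := mul_le_mul_of_nonneg_left (poly_exp_le (norm_nonneg _)) (exp_pos _).le

theorem Pinch.integrable (hU : Pinch U K y0) {h : V → ℝ} (hc : Continuous h) {L : ℝ}
    (hb : ∀ y, |h y| ≤ L * (1 + ‖y - y0‖) ^ 3) : Integrable (fun y => h y * exp (-U y)) := by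
  have hg : Integrable (fun y : V => |L| * (exp (-U y0) * (6 * exp 2 * exp (-(1 / 4 * ‖y - y0‖ ^ 2))))) :=
    (((integrable_gauss (by norm_num : (0:ℝ) < 1 / 4) y0).const_mul (6 * exp 2)).const_mul
      (exp (-U y0))).const_mul |L|
  refine hg.mono' (hc.mul (continuous_exp.comp hU.cont.neg)).aestronglyMeasurable
    (Filter.Eventually.of_forall fun y => ?_)
  rw [norm_mul, Real.norm_eq_abs, Real.norm_eq_abs, abs_of_pos (exp_pos _)]
  calc |h y| * exp (-U y) ≤ (|L| * (1 + ‖y - y0‖) ^ 3) * exp (-U y) := by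
        apply mul_le_mul_of_nonneg_right _ (exp_pos _).le
        exact (hb y).trans (mul_le_mul_of_nonneg_right (le_abs_self L) (by positivity))
    _ = |L| * ((1 + ‖y - y0‖) ^ 3 * exp (-U y)) := by ring
    _ ≤ _ := mul_le_mul_of_nonneg_left (hU.poly_le y) (abs_nonneg _)

theorem Pinch.integrable_exp (hU : Pinch U K y0) : Integrable (fun y => exp (-U y)) := by
  have := hU.integrable (h := fun _ => 1) continuous_const (L := 1) (fun y => by
    have : (1:ℝ) ≤ (1 + ‖y - y0‖) ^ 3 := one_le_pow₀ (by linarith [norm_nonneg (y - y0)])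
    simpa using this)
  simpa using this

theorem Pinch.K_pos [Nontrivial V] (hU : Pinch U K y0) : 1 ≤ K := by
  obtain ⟨v, hv⟩ := exists_ne (0 : V)
  have h1 := hU.lower (y0 + v)
  have h2 := hU.upper (y0 + v)
  have hn : 0 < ‖v‖ ^ 2 := by positivity
  simp only [add_sub_cancel_left] at h1 h2
  nlinarith

theorem Pinch.Z_pos (hU : Pinch U K y0) : 0 < ∫ y, exp (-U y) :=
  integral_exp_pos hU.integrable_exp

theorem Pinch.Z_ge (hU : Pinch U K y0) (hK : 0 < K) :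
    exp (-U y0) * (∫ y : V, exp (-(K / 2 * ‖y‖ ^ 2))) ≤ ∫ y, exp (-U y) := by
  have h1 : (∫ y : V, exp (-(K / 2 * ‖y‖ ^ 2))) = ∫ y : V, exp (-(K / 2 * ‖y - y0‖ ^ 2)) :=
    (integral_sub_right_eq_self (fun y : V => exp (-(K / 2 * ‖y‖ ^ 2))) y0).symm
  rw [h1, ← integral_const_mul]
  exact integral_mono ((integrable_gauss (by linarith) y0).const_mul _) hU.integrable_exp
    (fun y => hU.le_exp y)

theorem Bc_nonneg (K : ℝ) : 0 ≤ Bc V K := by
  unfold Bc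
  exact div_nonneg (integral_nonneg fun y => by positivity) (integral_nonneg fun y => (exp_pos _).le)

theorem Pinch.abs_Ev_le (hU : Pinch U K y0) (hK : 0 < K) {h : V → ℝ} {L : ℝ} (hL : 0 ≤ L)
    (hb : ∀ y, |h y| ≤ L * (1 + ‖y - y0‖) ^ 3) : |Ev U h| ≤ L * Bc V K := by
  unfold Ev Bc
  have hZ := hU.Z_pos
  have hG : 0 < ∫ y : V, exp (-(K / 2 * ‖y‖ ^ 2)) := by
    apply integral_exp_pos
    have := integrable_gauss (V := V) (b := K / 2) (by linarith) 0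
    simpa using this
  rw [abs_div, abs_of_pos hZ, div_le_iff₀ hZ]
  have h6 : (∫ y : V, 6 * exp 2 * exp (-(1 / 4 * ‖y‖ ^ 2))) =
      ∫ y : V, 6 * exp 2 * exp (-(1 / 4 * ‖y - y0‖ ^ 2)) :=
    (integral_sub_right_eq_self (fun y : V => 6 * exp 2 * exp (-(1 / 4 * ‖y‖ ^ 2))) y0).symm
  have h1 : |∫ y, h y * exp (-U y)| ≤
      ∫ y : V, L * (exp (-U y0) * (6 * exp 2 * exp (-(1 / 4 * ‖y - y0‖ ^ 2)))) := by
    rw [← Real.norm_eq_abs]
    refine (norm_integral_le_of_norm_le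
      ((((integrable_gauss (by norm_num : (0:ℝ) < 1 / 4) y0).const_mul (6 * exp 2)).const_mul
      (exp (-U y0))).const_mul L) (Filter.Eventually.of_forall fun y => ?_))
    rw [norm_mul, Real.norm_eq_abs, Real.norm_eq_abs, abs_of_pos (exp_pos _)]
    calc |h y| * exp (-U y) ≤ (L * (1 + ‖y - y0‖) ^ 3) * exp (-U y) :=
          mul_le_mul_of_nonneg_right (hb y) (exp_pos _).le
      _ = L * ((1 + ‖y - y0‖) ^ 3 * exp (-U y)) := by ring
      _ ≤ _ := mul_le_mul_of_nonneg_left (hU.poly_le y) hL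
  refine h1.trans ?_
  rw [integral_const_mul, integral_const_mul, ← h6]
  set A := ∫ y : V, 6 * exp 2 * exp (-(1 / 4 * ‖y‖ ^ 2)) with hA
  set G := ∫ y : V, exp (-(K / 2 * ‖y‖ ^ 2)) with hGdef
  have hA0 : 0 ≤ A := integral_nonneg fun y => by positivity
  have hge := hU.Z_ge hK
  have : L * (exp (-U y0) * A) = L * (A / G) * (exp (-U y0) * G) := by
    field_simp
  rw [this]
  exact mul_le_mul_of_nonneg_left hge (mul_nonneg hL (div_nonneg hA0 hG.le))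

/-! linearity -/

theorem Ev_add {h1 h2 : V → ℝ} (i1 : Integrable (fun y => h1 y * exp (-U y)))
    (i2 : Integrable (fun y => h2 y * exp (-U y))) : Ev U (fun y => h1 y + h2 y) = Ev U h1 + Ev U h2 := by
  unfold Ev
  rw [← add_div, ← integral_add i1 i2]
  congr 1
  exact integral_congr_ae (Filter.Eventually.of_forall fun y => by simp only; ring)

theorem Ev_const_mul (c : ℝ) (h : V → ℝ) : Ev U (fun y => c * h y) = c * Ev U h := by
  unfold Ev
  rw [mul_div_assoc', ← integral_const_mul]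
  congr 1
  exact integral_congr_ae (Filter.Eventually.of_forall fun y => by simp only; ring)

theorem Pinch.Ev_const (hU : Pinch U K y0) (c : ℝ) : Ev U (fun _ => c) = c := by
  unfold Ev
  rw [integral_const_mul, mul_div_assoc, div_self hU.Z_pos.ne', mul_one]

end

/-- covariance -/
noncomputable def cov (U h1 h2 : V → ℝ) : ℝ := Ev U (fun y => h1 y * h2 y) - Ev U h1 * Ev U h2

/-- third cumulant -/
noncomputable def k3 (U h1 h2 h3 : V → ℝ) : ℝ :=
  Ev U (fun y => h1 y * h2 y * h3 y) - Ev U h1 * Ev U (fun y => h2 y * h3 y)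
    - Ev U h2 * Ev U (fun y => h1 y * h3 y) - Ev U h3 * Ev U (fun y => h1 y * h2 y)
    + 2 * Ev U h1 * Ev U h2 * Ev U h3

section
variable {U : V → ℝ} {K : ℝ} {y0 : V}

theorem pow_le_cube {x : ℝ} (hx : 0 ≤ x) : 1 ≤ (1 + x) ^ 3 ∧ x ≤ (1 + x) ^ 3 ∧ x ^ 2 ≤ (1 + x) ^ 3 ∧
    x ^ 3 ≤ (1 + x) ^ 3 := by
  refine ⟨one_le_pow₀ (by linarith), by nlinarith [mul_nonneg hx hx, mul_nonneg (mul_nonneg hx hx) hx],
    by nlinarith [mul_nonneg hx hx, mul_nonneg (mul_nonneg hx hx) hx],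
    pow_le_pow_left₀ hx (by linarith) 3⟩

/-- growth of order `j` around `y0` -/
def Gr (y0 : V) (j : ℕ) (h : V → ℝ) : Prop :=
  Continuous h ∧ ∃ L, 0 ≤ L ∧ ∀ y, |h y| ≤ L * (1 + ‖y - y0‖) ^ j

theorem Gr.mul {i j : ℕ} {f g : V → ℝ} (hf : Gr y0 i f) (hg : Gr y0 j g) :
    Gr y0 (i + j) (fun y => f y * g y) := by
  obtain ⟨cf, L, hL, bf⟩ := hf
  obtain ⟨cg, M, hM, bg⟩ := hg
  refine ⟨cf.mul cg, L * M, mul_nonneg hL hM, fun y => ?_⟩
  rw [abs_mul]
  calc |f y| * |g y| ≤ (L * (1 + ‖y - y0‖) ^ i) * (M * (1 + ‖y - y0‖) ^ j) :=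
        mul_le_mul (bf y) (bg y) (abs_nonneg _) (by positivity)
    _ = _ := by rw [pow_add]; ring

theorem Gr.mono {i j : ℕ} (hij : i ≤ j) {f : V → ℝ} (hf : Gr y0 i f) : Gr y0 j f := by
  obtain ⟨cf, L, hL, bf⟩ := hf
  exact ⟨cf, L, hL, fun y => (bf y).trans (mul_le_mul_of_nonneg_left
    (pow_le_pow_right₀ (by linarith [norm_nonneg (y - y0)]) hij) hL)⟩

theorem Gr.integrable {j : ℕ} {f : V → ℝ} (hf : Gr y0 j f) (hj : j ≤ 3) (hU : Pinch U K y0) :
    Integrable (fun y => f y * exp (-U y)) := by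
  obtain ⟨cf, L, _, bf⟩ := hf.mono hj
  exact hU.integrable cf bf

theorem gr_of_lip {f : V → ℝ} (hc : Continuous f) {L : ℝ} (hL : 0 ≤ L)
    (b : ∀ y, |f y - f y0| ≤ L * ‖y - y0‖) : Gr y0 1 f := by
  refine ⟨hc, |f y0| + L, by positivity, fun y => ?_⟩
  have h1 := b y
  have h2 : |f y| ≤ |f y - f y0| + |f y0| := by
    have := abs_add_le (f y - f y0) (f y0)
    simpa using this
  have h3 := norm_nonneg (y - y0)
  have h4 := abs_nonneg (f y0)
  rw [pow_one]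
  nlinarith

theorem Pinch.Ev_shift (hU : Pinch U K y0) {h g : V → ℝ} {i j : ℕ} (hh : Gr y0 i h) (hg : Gr y0 j g)
    (hij : i + j ≤ 3) (c : ℝ) :
    Ev U (fun y => (h y + c) * g y) = Ev U (fun y => h y * g y) + c * Ev U g := by
  have i1 := (hh.mul hg).integrable hij hU
  have i2 : Integrable (fun y => (c * g y) * exp (-U y)) := by
    simpa [mul_assoc] using (hg.integrable (by omega) hU).const_mul c
  rw [← Ev_const_mul, ← Ev_add i1 i2]
  congr 1
  funext y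
  ring

theorem Pinch.Ev_add_const (hU : Pinch U K y0) {h : V → ℝ} {i : ℕ} (hh : Gr y0 i h)
    (hi : i ≤ 3) (c : ℝ) : Ev U (fun y => h y + c) = Ev U h + c := by
  have i1 := hh.integrable hi hU
  have i2 : Integrable (fun y => c * exp (-U y)) := hU.integrable_exp.const_mul c
  have := Ev_add i1 i2
  rw [hU.Ev_const] at this
  exact this

theorem cov_comm (h1 h2 : V → ℝ) : cov U h1 h2 = cov U h2 h1 := by
  unfold cov
  rw [mul_comm (Ev U h1)]
  congr 2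
  funext y
  ring

theorem k3_comm12 (h1 h2 h3 : V → ℝ) : k3 U h1 h2 h3 = k3 U h2 h1 h3 := by
  unfold k3
  have e1 : (fun y => h1 y * h2 y * h3 y) = (fun y => h2 y * h1 y * h3 y) := by funext y; ring
  have e2 : (fun y => h1 y * h2 y) = (fun y => h2 y * h1 y) := by funext y; ring
  rw [e1, e2]
  ring

theorem k3_comm13 (h1 h2 h3 : V → ℝ) : k3 U h1 h2 h3 = k3 U h3 h2 h1 := by
  unfold k3
  have e1 : (fun y => h1 y * h2 y * h3 y) = (fun y => h3 y * h2 y * h1 y) := by funext y; ring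
  have e2 : (fun y => h1 y * h2 y) = (fun y => h2 y * h1 y) := by funext y; ring
  have e3 : (fun y => h1 y * h3 y) = (fun y => h3 y * h1 y) := by funext y; ring
  have e4 : (fun y => h2 y * h3 y) = (fun y => h3 y * h2 y) := by funext y; ring
  rw [e1, e2, e3, e4]
  ring

theorem Pinch.cov_shift (hU : Pinch U K y0) {h1 h2 : V → ℝ} (g1 : Gr y0 1 h1) (g2 : Gr y0 1 h2)
    (c : ℝ) : cov U (fun y => h1 y + c) h2 = cov U h1 h2 := by
  unfold cov
  rw [hU.Ev_shift g1 g2 (by norm_num), hU.Ev_add_const g1 (by norm_num)]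
  ring

theorem Pinch.k3_shift (hU : Pinch U K y0) {h1 h2 h3 : V → ℝ} (g1 : Gr y0 1 h1) (g2 : Gr y0 1 h2)
    (g3 : Gr y0 1 h3) (c : ℝ) : k3 U (fun y => h1 y + c) h2 h3 = k3 U h1 h2 h3 := by
  unfold k3
  have e : (fun y => (h1 y + c) * h2 y * h3 y) = (fun y => (h1 y + c) * (h2 y * h3 y)) := by
    funext y; ring
  have e' : (fun y => h1 y * h2 y * h3 y) = (fun y => h1 y * (h2 y * h3 y)) := by
    funext y; ring
  rw [e, e', hU.Ev_shift g1 (g2.mul g3) (by norm_num), hU.Ev_add_const g1 (by norm_num),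
    hU.Ev_shift g1 g3 (by norm_num), hU.Ev_shift g1 g2 (by norm_num)]
  ring

/-- covariance of two functions which are Lipschitz with respect to the mode -/
theorem Pinch.abs_cov_le (hU : Pinch U K y0) (hK : 0 < K) {h1 h2 : V → ℝ} (c1 : Continuous h1)
    (c2 : Continuous h2) {L1 L2 : ℝ} (hL1 : 0 ≤ L1) (hL2 : 0 ≤ L2)
    (b1 : ∀ y, |h1 y - h1 y0| ≤ L1 * ‖y - y0‖) (b2 : ∀ y, |h2 y - h2 y0| ≤ L2 * ‖y - y0‖) :
    |cov U h1 h2| ≤ L1 * L2 * (Bc V K + Bc V K ^ 2) := by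
  have g1 := gr_of_lip c1 hL1 b1
  have g2 := gr_of_lip c2 hL2 b2
  set X1 : V → ℝ := fun y => h1 y + (-h1 y0) with hX1
  set X2 : V → ℝ := fun y => h2 y + (-h2 y0) with hX2
  have b1' : ∀ y, |X1 y| ≤ L1 * ‖y - y0‖ := fun y => by simpa [X1, sub_eq_add_neg] using b1 y
  have b2' : ∀ y, |X2 y| ≤ L2 * ‖y - y0‖ := fun y => by simpa [X2, sub_eq_add_neg] using b2 y
  have cX1 : Continuous X1 := c1.add continuous_const
  have cX2 : Continuous X2 := c2.add continuous_const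
  have gX1 : Gr y0 1 X1 := gr_of_lip cX1 hL1 (fun y => by simpa [X1, sub_eq_add_neg] using b1 y)
  have hc : cov U h1 h2 = cov U X1 X2 := by
    rw [← hU.cov_shift g1 g2 (-h1 y0), cov_comm, ← hU.cov_shift g2 gX1 (-h2 y0), cov_comm]
  rw [hc]
  unfold cov
  have B1 : ∀ y, |X1 y| ≤ L1 * (1 + ‖y - y0‖) ^ 3 := fun y =>
    (b1' y).trans (mul_le_mul_of_nonneg_left (pow_le_cube (norm_nonneg _)).2.1 hL1)
  have B2 : ∀ y, |X2 y| ≤ L2 * (1 + ‖y - y0‖) ^ 3 := fun y =>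
    (b2' y).trans (mul_le_mul_of_nonneg_left (pow_le_cube (norm_nonneg _)).2.1 hL2)
  have B12 : ∀ y, |X1 y * X2 y| ≤ (L1 * L2) * (1 + ‖y - y0‖) ^ 3 := fun y => by
    rw [abs_mul]
    calc |X1 y| * |X2 y| ≤ (L1 * ‖y - y0‖) * (L2 * ‖y - y0‖) :=
          mul_le_mul (b1' y) (b2' y) (abs_nonneg _) (by positivity)
      _ = (L1 * L2) * ‖y - y0‖ ^ 2 := by ring
      _ ≤ _ := mul_le_mul_of_nonneg_left (pow_le_cube (norm_nonneg _)).2.2.1 (by positivity)
  have a12 := hU.abs_Ev_le hK (by positivity) B12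
  have a1 := hU.abs_Ev_le hK hL1 B1
  have a2 := hU.abs_Ev_le hK hL2 B2
  have hB := Bc_nonneg (V := V) K
  calc |Ev U (fun y => X1 y * X2 y) - Ev U X1 * Ev U X2|
      ≤ |Ev U (fun y => X1 y * X2 y)| + |Ev U X1 * Ev U X2| := abs_sub _ _
    _ ≤ L1 * L2 * Bc V K + (L1 * Bc V K) * (L2 * Bc V K) := by
        rw [abs_mul]
        exact add_le_add a12 (mul_le_mul a1 a2 (abs_nonneg _) (by positivity))
    _ = _ := by ring

/-- third cumulant of three functions which are Lipschitz with respect to the mode -/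
theorem Pinch.abs_k3_le (hU : Pinch U K y0) (hK : 0 < K) {h1 h2 h3 : V → ℝ} (c1 : Continuous h1)
    (c2 : Continuous h2) (c3 : Continuous h3) {L1 L2 L3 : ℝ} (hL1 : 0 ≤ L1) (hL2 : 0 ≤ L2) (hL3 : 0 ≤ L3)
    (b1 : ∀ y, |h1 y - h1 y0| ≤ L1 * ‖y - y0‖) (b2 : ∀ y, |h2 y - h2 y0| ≤ L2 * ‖y - y0‖)
    (b3 : ∀ y, |h3 y - h3 y0| ≤ L3 * ‖y - y0‖) :
    |k3 U h1 h2 h3| ≤ L1 * L2 * L3 * (Bc V K + 3 * Bc V K ^ 2 + 2 * Bc V K ^ 3) := by
  have g1 := gr_of_lip c1 hL1 b1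
  have g2 := gr_of_lip c2 hL2 b2
  have g3 := gr_of_lip c3 hL3 b3
  set X1 : V → ℝ := fun y => h1 y + (-h1 y0) with hX1
  set X2 : V → ℝ := fun y => h2 y + (-h2 y0) with hX2
  set X3 : V → ℝ := fun y => h3 y + (-h3 y0) with hX3
  have b1' : ∀ y, |X1 y| ≤ L1 * ‖y - y0‖ := fun y => by simpa [X1, sub_eq_add_neg] using b1 y
  have b2' : ∀ y, |X2 y| ≤ L2 * ‖y - y0‖ := fun y => by simpa [X2, sub_eq_add_neg] using b2 y
  have b3' : ∀ y, |X3 y| ≤ L3 * ‖y - y0‖ := fun y => by simpa [X3, sub_eq_add_neg] using b3 y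
  have cX1 : Continuous X1 := c1.add continuous_const
  have cX2 : Continuous X2 := c2.add continuous_const
  have cX3 : Continuous X3 := c3.add continuous_const
  have gX1 : Gr y0 1 X1 := gr_of_lip cX1 hL1 (fun y => by simpa [X1, sub_eq_add_neg] using b1 y)
  have gX2 : Gr y0 1 X2 := gr_of_lip cX2 hL2 (fun y => by simpa [X2, sub_eq_add_neg] using b2 y)
  have hc : k3 U h1 h2 h3 = k3 U X1 X2 X3 := by
    rw [← hU.k3_shift g1 g2 g3 (-h1 y0), k3_comm12, ← hU.k3_shift g2 gX1 g3 (-h2 y0), k3_comm12,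
      k3_comm13, ← hU.k3_shift g3 gX2 gX1 (-h3 y0), k3_comm13]
  rw [hc]
  unfold k3
  have B1 : ∀ y, |X1 y| ≤ L1 * (1 + ‖y - y0‖) ^ 3 := fun y =>
    (b1' y).trans (mul_le_mul_of_nonneg_left (pow_le_cube (norm_nonneg _)).2.1 hL1)
  have B2 : ∀ y, |X2 y| ≤ L2 * (1 + ‖y - y0‖) ^ 3 := fun y =>
    (b2' y).trans (mul_le_mul_of_nonneg_left (pow_le_cube (norm_nonneg _)).2.1 hL2)
  have B3 : ∀ y, |X3 y| ≤ L3 * (1 + ‖y - y0‖) ^ 3 := fun y =>
    (b3' y).trans (mul_le_mul_of_nonneg_left (pow_le_cube (norm_nonneg _)).2.1 hL3)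
  have B12 : ∀ y, |X1 y * X2 y| ≤ (L1 * L2) * (1 + ‖y - y0‖) ^ 3 := fun y => by
    rw [abs_mul]
    calc |X1 y| * |X2 y| ≤ (L1 * ‖y - y0‖) * (L2 * ‖y - y0‖) :=
          mul_le_mul (b1' y) (b2' y) (abs_nonneg _) (by positivity)
      _ = (L1 * L2) * ‖y - y0‖ ^ 2 := by ring
      _ ≤ _ := mul_le_mul_of_nonneg_left (pow_le_cube (norm_nonneg _)).2.2.1 (by positivity)
  have B13 : ∀ y, |X1 y * X3 y| ≤ (L1 * L3) * (1 + ‖y - y0‖) ^ 3 := fun y => by
    rw [abs_mul]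
    calc |X1 y| * |X3 y| ≤ (L1 * ‖y - y0‖) * (L3 * ‖y - y0‖) :=
          mul_le_mul (b1' y) (b3' y) (abs_nonneg _) (by positivity)
      _ = (L1 * L3) * ‖y - y0‖ ^ 2 := by ring
      _ ≤ _ := mul_le_mul_of_nonneg_left (pow_le_cube (norm_nonneg _)).2.2.1 (by positivity)
  have B23 : ∀ y, |X2 y * X3 y| ≤ (L2 * L3) * (1 + ‖y - y0‖) ^ 3 := fun y => by
    rw [abs_mul]
    calc |X2 y| * |X3 y| ≤ (L2 * ‖y - y0‖) * (L3 * ‖y - y0‖) :=
          mul_le_mul (b2' y) (b3' y) (abs_nonneg _) (by positivity)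
      _ = (L2 * L3) * ‖y - y0‖ ^ 2 := by ring
      _ ≤ _ := mul_le_mul_of_nonneg_left (pow_le_cube (norm_nonneg _)).2.2.1 (by positivity)
  have B123 : ∀ y, |X1 y * X2 y * X3 y| ≤ (L1 * L2 * L3) * (1 + ‖y - y0‖) ^ 3 := fun y => by
    rw [abs_mul, abs_mul]
    calc |X1 y| * |X2 y| * |X3 y| ≤ (L1 * ‖y - y0‖) * (L2 * ‖y - y0‖) * (L3 * ‖y - y0‖) :=
          mul_le_mul (mul_le_mul (b1' y) (b2' y) (abs_nonneg _) (by positivity)) (b3' y)
            (abs_nonneg _) (by positivity)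
      _ = (L1 * L2 * L3) * ‖y - y0‖ ^ 3 := by ring
      _ ≤ _ := mul_le_mul_of_nonneg_left (pow_le_cube (norm_nonneg _)).2.2.2 (by positivity)
  have a123 := hU.abs_Ev_le hK (by positivity) B123
  have a12 := hU.abs_Ev_le hK (by positivity) B12
  have a13 := hU.abs_Ev_le hK (by positivity) B13
  have a23 := hU.abs_Ev_le hK (by positivity) B23
  have a1 := hU.abs_Ev_le hK hL1 B1
  have a2 := hU.abs_Ev_le hK hL2 B2
  have a3 := hU.abs_Ev_le hK hL3 B3
  have hB := Bc_nonneg (V := V) K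
  set B := Bc V K with hBdef
  have p1 : |Ev U X1 * Ev U (fun y => X2 y * X3 y)| ≤ (L1 * B) * (L2 * L3 * B) := by
    rw [abs_mul]; exact mul_le_mul a1 a23 (abs_nonneg _) (by positivity)
  have p2 : |Ev U X2 * Ev U (fun y => X1 y * X3 y)| ≤ (L2 * B) * (L1 * L3 * B) := by
    rw [abs_mul]; exact mul_le_mul a2 a13 (abs_nonneg _) (by positivity)
  have p3 : |Ev U X3 * Ev U (fun y => X1 y * X2 y)| ≤ (L3 * B) * (L1 * L2 * B) := by
    rw [abs_mul]; exact mul_le_mul a3 a12 (abs_nonneg _) (by positivity)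
  have p4 : |2 * Ev U X1 * Ev U X2 * Ev U X3| ≤ 2 * (L1 * B) * (L2 * B) * (L3 * B) := by
    rw [abs_mul, abs_mul, abs_mul, abs_of_pos (by norm_num : (0:ℝ) < 2)]
    exact mul_le_mul (mul_le_mul (mul_le_mul_of_nonneg_left a1 (by norm_num)) a2 (abs_nonneg _)
      (by positivity)) a3 (abs_nonneg _) (by positivity)
  rw [abs_le] at *
  constructor <;> nlinarith [a123.1, a123.2, p1.1, p1.2, p2.1, p2.2, p3.1, p3.2, p4.1, p4.2]

end

end Vale.Agent.P227.M.Cum
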