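import Vale.Agent.P227.M.SC2.HeatDef
import Vale.Agent.P227.M.SC2.Heat1Def

/-! # P227/M/SC2/Fub488 (helper488): `StmtHeat` from the shared one-direction statements `StmtH1D` and
`StmtRG` of `SC2/Heat1Def.lean` (note 10910): `heat W P` is the iterate of `heat1` along `P e_1, ..., P e_n` (Fubini). -/

open MeasureTheory

namespace Vale.Agent.P227.M.SC2.Fub488

variable {n : ℕ}

/-! ## a lower bound for regular potentials -/

private theorem fub_sum_ei (v : E n) : ∑ i, v i • (ei i : E n) = v := by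
  ext j
  simp [ei, Finset.sum_apply, Pi.single_apply]

private theorem fub_hess {f : E n → ℝ} (hf : ContDiff ℝ 2 f) (x : E n) (i j : Fin n) :
    hess f x i j = (fderiv ℝ (fderiv ℝ f) x (ei i)) (ei j) := by
  have h1 : DifferentiableAt ℝ (fderiv ℝ f) x :=
    ((hf.fderiv_right (m := 1) (by norm_num)).differentiable (by norm_num)) x
  unfold hess pd
  rw [fderiv_clm_apply h1 (differentiableAt_const _)]
  simp

private theorem fub_qf {f : E n → ℝ} (hf : ContDiff ℝ 2 f) (x v : E n) :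
    qf (hess f x) v = fderiv ℝ (fderiv ℝ f) x v v := by
  have h1 : fderiv ℝ (fderiv ℝ f) x v = ∑ i, v i • fderiv ℝ (fderiv ℝ f) x (ei i) := by
    conv_lhs => rw [← fub_sum_ei v]
    rw [map_sum]
    exact Finset.sum_congr rfl fun i _ => by rw [map_smul]
  rw [h1, sum_apply, qf]
  refine Finset.sum_congr rfl fun i _ => ?_
  rw [smul_apply]
  have h2 : fderiv ℝ (fderiv ℝ f) x (ei i) v = ∑ j, v j * fderiv ℝ (fderiv ℝ f) x (ei i) (ei j) := by
    conv_lhs => rw [← fub_sum_ei v]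
    rw [map_sum]
    exact Finset.sum_congr rfl fun j _ => by rw [map_smul, smul_eq_mul]
  rw [h2, smul_eq_mul, Finset.mul_sum]
  exact Finset.sum_congr rfl fun j _ => by rw [fub_hess hf]; ring

theorem reg_bddBelow {W : E n → ℝ} {c C : ℝ} (h : Reg W c C) : ∃ B : ℝ, ∀ x, B ≤ W x := by
  have hf : ContDiff ℝ 2 W := by exact_mod_cast contDiff_infty.1 h.smooth 2
  have hd1 : Differentiable ℝ W := hf.differentiable (by norm_num)
  have hd2 : Differentiable ℝ (fderiv ℝ W) :=
    (hf.fderiv_right (m := 1) (by norm_num)).differentiable (by norm_num)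
  set K := ‖fderiv ℝ W 0‖ with hK
  refine ⟨W 0 - K ^ 2 / (2 * c), fun x => ?_⟩
  have hc := h.c_pos
  have hl : ∀ t : ℝ, HasDerivAt (fun t : ℝ => t • x) x t := fun t => by
    simpa using (hasDerivAt_id t).smul_const x
  have e1 : ∀ t : ℝ, HasDerivAt (fun t : ℝ => W (t • x)) (fderiv ℝ W (t • x) x) t := fun t =>
    (hd1 (t • x)).hasFDerivAt.comp_hasDerivAt t (hl t)
  have e2 : ∀ t : ℝ, HasDerivAt (fun t : ℝ => fderiv ℝ W (t • x) x)
      (fderiv ℝ (fderiv ℝ W) (t • x) x x) t := fun t => by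
    have h1 : HasDerivAt (fun t : ℝ => fderiv ℝ W (t • x)) (fderiv ℝ (fderiv ℝ W) (t • x) x) t :=
      (hd2 (t • x)).hasFDerivAt.comp_hasDerivAt t (hl t)
    simpa using h1.clm_apply (hasDerivAt_const t x)
  have e3 : ∀ t : ℝ, HasDerivAt (fun t : ℝ => fderiv ℝ W (t • x) x - c * ‖x‖ ^ 2 * t)
      (fderiv ℝ (fderiv ℝ W) (t • x) x x - c * ‖x‖ ^ 2) t := fun t => by
    have h1 := (e2 t).sub ((hasDerivAt_id' t).const_mul (c * ‖x‖ ^ 2))
    refine h1.congr_deriv ?_
    ring
  have m1 : Monotone (fun t : ℝ => fderiv ℝ W (t • x) x - c * ‖x‖ ^ 2 * t) := by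
    refine monotone_of_deriv_nonneg (fun t => (e3 t).differentiableAt) fun t => ?_
    rw [(e3 t).deriv, ← fub_qf hf]
    linarith [h.lower (t • x) x]
  have e4 : ∀ t : ℝ, HasDerivAt (fun t : ℝ => W (t • x) - c * ‖x‖ ^ 2 / 2 * t ^ 2)
      (fderiv ℝ W (t • x) x - c * ‖x‖ ^ 2 * t) t := fun t => by
    have h1 := (e1 t).sub ((hasDerivAt_pow 2 t).const_mul (c * ‖x‖ ^ 2 / 2))
    refine h1.congr_deriv ?_
    simp; ring
  obtain ⟨s, hs, hs1⟩ := exists_hasDerivAt_eq_slope _ _ (zero_lt_one (α := ℝ))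
    (fun t _ => (e4 t).continuousAt.continuousWithinAt) (fun t _ => e4 t)
  have h0 := m1 hs.1.le
  simp only [zero_smul, mul_zero, sub_zero, one_smul, one_pow, mul_one, div_one, ne_eq,
    OfNat.ofNat_ne_zero, not_false_eq_true, zero_pow] at h0 hs1
  have h2 : -(K * ‖x‖) ≤ fderiv ℝ W 0 x := by
    have := (fderiv ℝ W 0).le_opNorm x
    rw [Real.norm_eq_abs] at this
    linarith [neg_abs_le (fderiv ℝ W 0 x)]
  have h3 : K * ‖x‖ - c / 2 * ‖x‖ ^ 2 ≤ K ^ 2 / (2 * c) := by
    rw [le_div_iff₀ (by positivity)]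
    nlinarith [sq_nonneg (K - c * ‖x‖)]
  nlinarith [h2, h3, h0, hs1]

/-! ## Fubini -/

/-- Gaussian average along finitely many directions -/
noncomputable def heatF {m : ℕ} (W : E n → ℝ) (p : Fin m → E n) (x : E n) : ℝ :=
  -Real.log (∫ g : Fin m → ℝ, Real.exp (-W (x + ∑ j, g j • p j) - (∑ j, g j ^ 2) / 2))

theorem heatF_zero (W : E n → ℝ) (p : Fin 0 → E n) : heatF W p = W := by
  funext x
  unfold heatF
  rw [Measure.volume_pi_eq_dirac (0 : Fin 0 → ℝ), integral_dirac]
  simp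

theorem gauss_integrable : Integrable (fun g : ℝ => Real.exp (-(g ^ 2 / 2))) := by
  have h := integrable_exp_neg_mul_sq (b := 1 / 2) (by norm_num)
  refine h.congr (Filter.Eventually.of_forall fun g => ?_)
  simp only
  congr 1
  ring

theorem gaussF_integrable (m : ℕ) :
    Integrable (fun g : Fin m → ℝ => Real.exp (-((∑ j, g j ^ 2) / 2))) := by
  have h := Integrable.fintype_prod (𝕜 := ℝ) (ι := Fin m) (E := ℝ) (μ := fun _ => volume)
    (f := fun _ => fun g : ℝ => Real.exp (-(g ^ 2 / 2))) (fun _ => gauss_integrable)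
  refine h.congr (Filter.Eventually.of_forall fun g => ?_)
  simp only
  rw [← Real.exp_sum]
  congr 1
  rw [Finset.sum_neg_distrib, Finset.sum_div]

theorem heatF_succ {m : ℕ} {W : E n → ℝ} {B : ℝ} (hB : ∀ x, B ≤ W x) (hW : Continuous W)
    (p : Fin (m + 1) → E n) : heatF W p = heatF (heat1 W (p 0)) (fun j => p j.succ) := by
  funext x
  unfold heatF
  congr 2
  have hI : ∀ y : E n, Integrable (fun g : ℝ => Real.exp (-W (y + g • p 0) - g ^ 2 / 2)) := by
    intro y
    refine ((gauss_integrable.const_mul (Real.exp (-B)))).mono' ?_ (Filter.Eventually.of_forall fun g => ?_)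
    · exact (by fun_prop : Continuous fun g : ℝ => Real.exp (-W (y + g • p 0) - g ^ 2 / 2)).aestronglyMeasurable
    · rw [Real.norm_eq_abs, abs_of_pos (Real.exp_pos _), ← Real.exp_add]
      exact Real.exp_le_exp.2 (by linarith [hB (y + g • p 0)])
  have hpos : ∀ y : E n, 0 < ∫ g : ℝ, Real.exp (-W (y + g • p 0) - g ^ 2 / 2) := fun y =>
    integral_exp_pos (hI y)
  have h1 : ∀ g : Fin m → ℝ,
      Real.exp (-heat1 W (p 0) (x + ∑ j, g j • p j.succ) - (∑ j, g j ^ 2) / 2) =
      ∫ g0 : ℝ, Real.exp (-W (x + (g0 • p 0 + ∑ j, g j • p j.succ)) - (g0 ^ 2 + ∑ j, g j ^ 2) / 2) := by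
    intro g
    rw [sub_eq_add_neg, Real.exp_add, heat1, neg_neg, Real.exp_log (hpos _), ← integral_mul_const]
    refine integral_congr_ae (Filter.Eventually.of_forall fun g0 => ?_)
    simp only
    rw [← Real.exp_add]
    have : x + ∑ j, g j • p j.succ + g0 • p 0 = x + (g0 • p 0 + ∑ j, g j • p j.succ) := by abel
    rw [this]
    congr 1
    ring
  simp only [h1]
  have h2 : Integrable (fun z : ℝ × (Fin m → ℝ) =>
      Real.exp (-W (x + (z.1 • p 0 + ∑ j, z.2 j • p j.succ)) - (z.1 ^ 2 + ∑ j, z.2 j ^ 2) / 2))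
      (volume.prod volume) := by
    have h3 := (gauss_integrable.mul_prod (gaussF_integrable m)).const_mul (Real.exp (-B))
    refine h3.mono' ?_ (Filter.Eventually.of_forall fun z => ?_)
    · exact (by fun_prop : Continuous fun z : ℝ × (Fin m → ℝ) =>
        Real.exp (-W (x + (z.1 • p 0 + ∑ j, z.2 j • p j.succ)) - (z.1 ^ 2 + ∑ j, z.2 j ^ 2) / 2)).aestronglyMeasurable
    · rw [Real.norm_eq_abs, abs_of_pos (Real.exp_pos _), ← Real.exp_add, ← Real.exp_add]
      exact Real.exp_le_exp.2 (by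
        have := hB (x + (z.1 • p 0 + ∑ j, z.2 j • p j.succ))
        linarith)
  rw [← integral_prod_symm _ h2]
  rw [← (volume_preserving_piFinSuccAbove (fun _ : Fin (m + 1) => ℝ) 0).symm.integral_comp']
  refine integral_congr_ae (Filter.Eventually.of_forall fun z => ?_)
  simp only
  rw [Fin.sum_univ_succ, Fin.sum_univ_succ]
  simp [MeasurableEquiv.piFinSuccAbove]

theorem heat_eq (W : E n → ℝ) (P : E n →L[ℝ] E n) : heat W P = heatF W (fun i => P (ei i)) := by
  funext x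
  unfold heat heatF
  congr 2
  rw [← (EuclideanSpace.volume_preserving_symm_measurableEquiv_toLp (Fin n)).integral_comp']
  refine integral_congr_ae (Filter.Eventually.of_forall fun z => ?_)
  simp only
  have h1 : P z = ∑ i, z i • P (ei i) := by
    conv_lhs => rw [← fub_sum_ei z]
    rw [map_sum]
    exact Finset.sum_congr rfl fun i _ => by rw [map_smul]
  have h2 : ‖z‖ ^ 2 = ∑ i, z i ^ 2 := by
    rw [EuclideanSpace.norm_sq_eq]
    simp
  rw [h1, h2]
  rfl

theorem selfConc_heatF (h1 : StmtH1D) (h2 : StmtRG) (n m : ℕ) : ∀ (W : E n → ℝ) (c C κ : ℝ),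
    Reg W c C → 0 ≤ κ → κ ≤ 1 → SelfConc κ W → ∀ p : Fin m → E n, SelfConc κ (heatF W p) := by
  induction m with
  | zero =>
    intro W c C κ _ _ _ hs p
    rw [heatF_zero]
    exact hs
  | succ m ih =>
    intro W c C κ hW h0 h01 hs p
    obtain ⟨B, hB⟩ := reg_bddBelow hW
    obtain ⟨c', C', hR⟩ := h2 n W c C hW (p 0)
    rw [heatF_succ hB hW.smooth.continuous]
    exact ih _ c' C' κ hR h0 h01 (h1 n W c C κ hW h0 h01 hs (p 0)) _

/-- (FU) -/
theorem stmtHeat_of (h1 : StmtH1D) (h2 : StmtRG) : StmtHeat := by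
  intro n W c C κ hW h0 h01 hs P
  rw [heat_eq]
  exact selfConc_heatF h1 h2 n n W c C κ hW h0 h01 hs _

end Vale.Agent.P227.M.SC2.Fub488
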