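import Vale.Agent.P227.M.SC2.R2
import Vale.Agent.P227.M.SC2.Bs
import Vale.Agent.P227.M.SC2.ExpCls
import Vale.Agent.P227.M.SC2.Heat1Def
import Vale.Agent.P227.M.LK.Line

/-!
P227, block SC-2 (helper241): `StmtH1D`: the one-direction Gaussian average keeps the
self-concordance constant, from the two-dimensional lemma `r2`.
The plane `x + t v + z p` may be degenerate: the jets are regularised algebraically by the factor
`exp (-ε t² / 2)`, then `ε → 0`.
-/

open MeasureTheory ProbabilityTheory Filter Topology Set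
open scoped ContDiff

namespace Vale.Agent.P227.M.SC2.H1

open Vale.P227M.SC2 (qa qb)

/-! ### `exp (-W)` is smooth with bounded derivatives -/

theorem ce_bs {n : ℕ} {W : E n → ℝ} {c C : ℝ} (hR : Reg W c C) (k : ℕ) :
    ∀ {F0 : Type} [NormedAddCommGroup F0] [NormedSpace ℝ F0] {F : E n → F0}, HN.CE W F →
    ∃ B, ∀ x, ‖iteratedFDeriv ℝ k F x‖ ≤ B := by
  induction k with
  | zero =>
    intro F0 _ _ F hF
    obtain ⟨B, hB⟩ := hF.bdd hR
    exact ⟨B, fun x => by rw [norm_iteratedFDeriv_zero]; exact hB x⟩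
  | succ k ih =>
    intro F0 _ _ F hF
    obtain ⟨B, hB⟩ := ih (hF.fderiv (HN.tg_W hR))
    exact ⟨B, fun x => by rw [← norm_iteratedFDeriv_fderiv]; exact hB x⟩

theorem bs_exp {n : ℕ} {W : E n → ℝ} {c C : ℝ} (hR : Reg W c C) :
    BS (fun x => Real.exp (-W x)) :=
  ⟨HN.CE.contDiff (HN.tg_W hR) HN.CE.exp, fun k => ce_bs hR k HN.CE.exp⟩

/-! ### Cumulants along a line -/

/-- iterated derivatives of `- log k0` -/
theorem cum_line {k0 k1 k2 k3 : ℝ → ℝ} (h0 : ∀ t, HasDerivAt k0 (k1 t) t)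
    (h1 : ∀ t, HasDerivAt k1 (k2 t) t) (h2 : ∀ t, HasDerivAt k2 (k3 t) t) (hp : ∀ t, 0 < k0 t)
    (c0 : ℝ) :
    iteratedDeriv 2 (fun t => -Real.log (k0 t) + c0) 0 = -(k2 0 / k0 0) + (k1 0 / k0 0) ^ 2 ∧
    iteratedDeriv 3 (fun t => -Real.log (k0 t) + c0) 0
      = -(k3 0 / k0 0) + 3 * ((k1 0 / k0 0) * (k2 0 / k0 0)) - 2 * (k1 0 / k0 0) ^ 3 := by
  have d0 : ∀ t, HasDerivAt (fun t => -Real.log (k0 t) + c0) (-(k1 t / k0 t)) t := fun t =>
    (((h0 t).log (hp t).ne').fun_neg).add_const c0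
  have d1 : ∀ t, HasDerivAt (fun t => -(k1 t / k0 t)) (-(k2 t / k0 t) + (k1 t / k0 t) ^ 2) t :=
    fun t => by
      have hne := (hp t).ne'
      refine (((h1 t).fun_div (h0 t) hne).fun_neg).congr_deriv ?_
      field_simp
      ring
  have d2 : ∀ t, HasDerivAt (fun t => -(k2 t / k0 t) + (k1 t / k0 t) ^ 2)
      (-(k3 t / k0 t) + 3 * ((k1 t / k0 t) * (k2 t / k0 t)) - 2 * (k1 t / k0 t) ^ 3) t :=
    fun t => by
      have hne := (hp t).ne'
      refine (((h2 t).fun_div (h0 t) hne).fun_neg.fun_add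
        (((h1 t).fun_div (h0 t) hne).fun_pow 2)).congr_deriv ?_
      simp only [Nat.cast_ofNat, Nat.reduceSub, pow_one]
      field_simp
      ring
  have e0 : deriv (fun t => -Real.log (k0 t) + c0) = fun t => -(k1 t / k0 t) :=
    funext fun t => (d0 t).deriv
  have e1 : deriv (fun t => -(k1 t / k0 t)) = fun t => -(k2 t / k0 t) + (k1 t / k0 t) ^ 2 :=
    funext fun t => (d1 t).deriv
  constructor
  · rw [iteratedDeriv_succ', e0, iteratedDeriv_one, e1]
  · rw [iteratedDeriv_succ', e0, iteratedDeriv_succ', e1, iteratedDeriv_one, (d2 0).deriv]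

section

variable {V : Type} [NormedAddCommGroup V] [NormedSpace ℝ V]

theorem bs_iter {G : V → ℝ} (hG : BS G) (v : V) (i : ℕ) : BS ((dd v)^[i] G) := by
  induction i with
  | zero => exact hG
  | succ i ih =>
    rw [Function.iterate_succ_apply']
    exact ih.dd v

/-- cumulants of `- log G` along a line, `G` smooth, bounded, positive -/
theorem cum_bs {G : V → ℝ} (hG : BS G) (hp : ∀ x, 0 < G x) (x v : V) (c0 : ℝ) :
    iteratedDeriv 2 (fun t : ℝ => -Real.log (G (x + t • v)) + c0) 0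
      = -(dd v (dd v G) x / G x) + (dd v G x / G x) ^ 2 ∧
    iteratedDeriv 3 (fun t : ℝ => -Real.log (G (x + t • v)) + c0) 0
      = -(dd v (dd v (dd v G)) x / G x) + 3 * ((dd v G x / G x) * (dd v (dd v G) x / G x))
        - 2 * (dd v G x / G x) ^ 3 := by
  have h := cum_line (k0 := fun t => G (x + t • v)) (k1 := fun t => dd v G (x + t • v))
    (k2 := fun t => dd v (dd v G) (x + t • v)) (k3 := fun t => dd v (dd v (dd v G)) (x + t • v))
    (fun t => hG.hasDerivAt x v t) (fun t => (hG.dd v).hasDerivAt x v t)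
    (fun t => ((hG.dd v).dd v).hasDerivAt x v t) (fun t => hp _) c0
  simpa only [zero_smul, add_zero] using h

theorem dd_lin (G : V → ℝ) (v p : V) (a b : ℝ) (x : V) :
    dd (a • v + b • p) G x = a * dd v G x + b * dd p G x := by
  unfold dd
  rw [map_add, map_smul, map_smul]
  rfl

theorem dd_lin' (G : V → ℝ) (v p : V) (a b : ℝ) :
    dd (a • v + b • p) G = fun x => a * dd v G x + b * dd p G x :=
  funext fun x => dd_lin G v p a b x

theorem dd2_lin {G : V → ℝ} (hG : BS G) (v p : V) (a b : ℝ) (x : V) :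
    dd (a • v + b • p) (dd (a • v + b • p) G) x
      = a ^ 2 * dd v (dd v G) x + 2 * a * b * dd p (dd v G) x + b ^ 2 * dd p (dd p G) x := by
  rw [dd_lin, hG.dd_comm (a • v + b • p) v, hG.dd_comm (a • v + b • p) p, dd_lin, dd_lin,
    hG.dd_comm p v]
  ring

theorem dd3_lin {G : V → ℝ} (hG : BS G) (v p : V) (a b : ℝ) (x : V) :
    dd (a • v + b • p) (dd (a • v + b • p) (dd (a • v + b • p) G)) x
      = a ^ 3 * dd v (dd v (dd v G)) x + 3 * a ^ 2 * b * dd p (dd v (dd v G)) x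
        + 3 * a * b ^ 2 * dd p (dd p (dd v G)) x + b ^ 3 * dd p (dd p (dd p G)) x := by
  set ξ := a • v + b • p with hξ
  have hv := hG.dd v
  have hp := hG.dd p
  rw [hξ, dd2_lin (hG.dd _), ← hξ, hG.dd_comm ξ v, hG.dd_comm ξ p, hv.dd_comm ξ v,
    hv.dd_comm ξ p, hp.dd_comm ξ p, hξ, dd_lin, dd_lin, dd_lin]
  have e1 : dd v (dd p (dd v G)) = dd p (dd v (dd v G)) := hv.dd_comm p v
  have e2 : dd v (dd p (dd p G)) = dd p (dd p (dd v G)) := by
    rw [hp.dd_comm p v, hG.dd_comm p v]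
  rw [e1, e2]
  ring

end

/-! ### The regularised jet -/

section jet

variable {n : ℕ}

/-- the jet of `G` on the plane `x + t v + z p` at `t = 0` -/
noncomputable def jf (G : E n → ℝ) (x v p : E n) (i j : ℕ) (z : ℝ) : ℝ :=
  ((dd p)^[j] ((dd v)^[i] G)) (x + z • p)

/-- the regularised jet (factor `exp (-ε t² / 2)` at `t = 0`) -/
noncomputable def jh (ε : ℝ) (G : E n → ℝ) (x v p : E n) : ℕ → ℕ → ℝ → ℝ
  | 0, j => jf G x v p 0 j
  | 1, j => jf G x v p 1 j
  | 2, j => fun z => jf G x v p 2 j z - ε * jf G x v p 0 j z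
  | 3, j => fun z => jf G x v p 3 j z - 3 * ε * jf G x v p 1 j z
  | _, _ => fun _ => 0

variable {G : E n → ℝ} (hG : BS G) (x v p : E n)

include hG in
theorem jf_bs (i j : ℕ) : BS ((dd p)^[j] ((dd v)^[i] G)) := bs_iter (bs_iter hG v i) p j

include hG in
theorem jf_deriv (i j : ℕ) (z : ℝ) :
    HasDerivAt (jf G x v p i j) (jf G x v p i (j + 1) z) z := by
  have h := (jf_bs hG v p i j).hasDerivAt x p z
  unfold jf
  rw [Function.iterate_succ_apply']
  exact h

include hG in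
theorem jf_cont (i j : ℕ) : Continuous (jf G x v p i j) :=
  continuous_iff_continuousAt.2 fun z => (jf_deriv hG x v p i j z).continuousAt

include hG in
theorem jf_bd (i j : ℕ) : ∃ C, ∀ z, |jf G x v p i j z| ≤ C := by
  obtain ⟨C, hC⟩ := (jf_bs hG v p i j).bd
  exact ⟨C, fun z => hC _⟩

include hG in
theorem jh_jet (hp : ∀ y, 0 < G y) (ε : ℝ) : Jet (jh ε G x v p) := by
  refine ⟨fun i j _ z => ?_, fun i j _ => ?_, fun i j _ => ?_, fun z => hp _⟩
  · match i with
    | 0 => exact jf_deriv hG x v p 0 j z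
    | 1 => exact jf_deriv hG x v p 1 j z
    | 2 => exact (jf_deriv hG x v p 2 j z).fun_sub ((jf_deriv hG x v p 0 j z).const_mul ε)
    | 3 => exact (jf_deriv hG x v p 3 j z).fun_sub ((jf_deriv hG x v p 1 j z).const_mul (3 * ε))
    | (k + 4) => exact hasDerivAt_const z (0 : ℝ)
  · match i with
    | 0 => exact jf_cont hG x v p 0 j
    | 1 => exact jf_cont hG x v p 1 j
    | 2 => exact (jf_cont hG x v p 2 j).sub ((jf_cont hG x v p 0 j).const_mul ε)
    | 3 => exact (jf_cont hG x v p 3 j).sub ((jf_cont hG x v p 1 j).const_mul (3 * ε))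
    | (k + 4) => exact continuous_const
  · match i with
    | 0 => exact jf_bd hG x v p 0 j
    | 1 => exact jf_bd hG x v p 1 j
    | 2 =>
      obtain ⟨C1, h1⟩ := jf_bd hG x v p 2 j
      obtain ⟨C2, h2⟩ := jf_bd hG x v p 0 j
      refine ⟨C1 + |ε| * C2, fun z => ?_⟩
      calc |jf G x v p 2 j z - ε * jf G x v p 0 j z|
          ≤ |jf G x v p 2 j z| + |ε * jf G x v p 0 j z| := abs_sub _ _
        _ ≤ _ := by rw [abs_mul]; gcongr; exacts [h1 z, h2 z]
    | 3 =>
      obtain ⟨C1, h1⟩ := jf_bd hG x v p 3 j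
      obtain ⟨C2, h2⟩ := jf_bd hG x v p 1 j
      refine ⟨C1 + |3 * ε| * C2, fun z => ?_⟩
      calc |jf G x v p 3 j z - 3 * ε * jf G x v p 1 j z|
          ≤ |jf G x v p 3 j z| + |3 * ε * jf G x v p 1 j z| := abs_sub _ _
        _ ≤ _ := by rw [abs_mul]; gcongr; exacts [h1 z, h2 z]
    | (k + 4) => exact ⟨0, fun z => by simp [jh]⟩

include hG in
/-- the forms at `s = 0` -/
theorem jh_zero (hp : ∀ y, 0 < G y) (ε : ℝ) (z v1 v2 : ℝ) :
    Q (jh ε G x v p) 0 z v1 v2
      = iteratedDeriv 2 (fun t : ℝ => -Real.log (G ((x + z • p) + t • (v1 • v + v2 • p))) + 0) 0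
        + ε * v1 ^ 2 ∧
    R (jh ε G x v p) 0 z v1 v2
      = iteratedDeriv 3 (fun t : ℝ => -Real.log (G ((x + z • p) + t • (v1 • v + v2 • p))) + 0) 0 := by
  have hc := cum_bs hG hp (x + z • p) (v1 • v + v2 • p) 0
  rw [hc.1, hc.2, dd3_lin hG, dd2_lin hG, dd_lin, Q_eq, R_eq]
  have hne := (hp (x + z • p)).ne'
  simp only [u_zero, jh, jf, Function.iterate_succ_apply', Function.iterate_zero, id_eq]
  constructor
  · field_simp
    ring
  · field_simp
    ring

end jet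

/-! ### Quantitative non-degeneracy -/

theorem pinch {n : ℕ} (v p : E n) (hp : p ≠ 0) {c ε : ℝ} (hc : 0 < c) (hε : 0 < ε) :
    ∃ lam > 0, ∀ v1 v2 : ℝ,
      lam * (v1 ^ 2 + v2 ^ 2) ≤ c * ‖v1 • v + v2 • p‖ ^ 2 + ε * v1 ^ 2 := by
  set M := ‖v‖ with hM
  set N := ‖p‖ with hN
  have hN0 : 0 < N := norm_pos_iff.2 hp
  have hM0 : 0 ≤ M := norm_nonneg _
  set D := c * M ^ 2 + ε with hD
  have hD0 : 0 < D := by positivity
  set θ := ε / (2 * D) with hθ
  have hθ0 : 0 < θ := by positivity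
  have hθD : θ * (2 * D) = ε := by rw [hθ]; field_simp
  have hθ1 : θ ≤ 1 := by
    rw [hθ, div_le_one (by positivity), hD]
    have : 0 ≤ c * M ^ 2 := by positivity
    linarith
  have hcθ : c * θ * M ^ 2 ≤ ε / 2 := by
    have h1 : 0 ≤ θ * ε := by positivity
    have h2 : θ * (2 * (c * M ^ 2 + ε)) = ε := by rw [← hD]; exact hθD
    nlinarith
  refine ⟨min (c * θ * N ^ 2 / 2) (ε / 2), by positivity, fun v1 v2 => ?_⟩
  set X := ‖v1 • v + v2 • p‖ with hX
  have hX0 : 0 ≤ X := norm_nonneg _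
  have h1 : |v2| * N ≤ X + |v1| * M := by
    have e : v2 • p = (v1 • v + v2 • p) - v1 • v := by abel
    calc |v2| * N = ‖v2 • p‖ := by rw [norm_smul, Real.norm_eq_abs]
      _ = ‖(v1 • v + v2 • p) - v1 • v‖ := by rw [← e]
      _ ≤ X + ‖v1 • v‖ := norm_sub_le _ _
      _ = X + |v1| * M := by rw [norm_smul, Real.norm_eq_abs]
  have h2 : v2 ^ 2 * N ^ 2 ≤ 2 * X ^ 2 + 2 * (v1 ^ 2 * M ^ 2) := by
    have h3 : (|v2| * N) ^ 2 ≤ (X + |v1| * M) ^ 2 := pow_le_pow_left₀ (by positivity) h1 2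
    have h4 : (|v2| * N) ^ 2 = v2 ^ 2 * N ^ 2 := by rw [mul_pow, sq_abs]
    have h5 : (|v1| * M) ^ 2 = v1 ^ 2 * M ^ 2 := by rw [mul_pow, sq_abs]
    nlinarith [sq_nonneg (X - |v1| * M)]
  have h6 : c * θ * X ^ 2 ≤ c * X ^ 2 := by
    have : 0 ≤ c * X ^ 2 := by positivity
    nlinarith
  have h7 : c * θ * N ^ 2 / 2 * v2 ^ 2 + ε / 2 * v1 ^ 2 ≤ c * X ^ 2 + ε * v1 ^ 2 := by
    have h8 : c * θ * (v2 ^ 2 * N ^ 2) ≤ c * θ * (2 * X ^ 2 + 2 * (v1 ^ 2 * M ^ 2)) :=
      mul_le_mul_of_nonneg_left h2 (by positivity)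
    have h9 : c * θ * M ^ 2 * v1 ^ 2 ≤ ε / 2 * v1 ^ 2 :=
      mul_le_mul_of_nonneg_right hcθ (sq_nonneg _)
    nlinarith
  refine le_trans ?_ h7
  have h10 : min (c * θ * N ^ 2 / 2) (ε / 2) * v1 ^ 2 ≤ ε / 2 * v1 ^ 2 :=
    mul_le_mul_of_nonneg_right (min_le_right _ _) (sq_nonneg _)
  have h11 : min (c * θ * N ^ 2 / 2) (ε / 2) * v2 ^ 2 ≤ c * θ * N ^ 2 / 2 * v2 ^ 2 :=
    mul_le_mul_of_nonneg_right (min_le_left _ _) (sq_nonneg _)
  linarith

theorem rpow_32 {x : ℝ} (hx : 0 ≤ x) : x ^ ((3 : ℝ) / 2) = x * √x := by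
  rw [LK.rpow_three_half hx]
  have h := Real.mul_self_sqrt hx
  calc √x ^ 3 = (√x * √x) * √x := by ring
    _ = x * √x := by rw [h]

/-! ### The average -/

section avg

variable {n : ℕ} {G : E n → ℝ} (hG : BS G) (x v p : E n)

/-- the one-direction average of `G` -/
noncomputable def av (G : E n → ℝ) (p : E n) (x : E n) : ℝ :=
  SC2.TT (gaussianReal 0 1) (fun g : ℝ => g • p) G x

theorem aes (p : E n) : AEStronglyMeasurable (fun g : ℝ => g • p) (gaussianReal 0 1) :=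
  (by fun_prop : Continuous fun g : ℝ => g • p).aestronglyMeasurable

theorem av_eq (G : E n → ℝ) (v : E n) (i : ℕ) :
    av ((dd v)^[i] G) p x = P (jf G x v p i 0) 1 0 := by
  unfold av SC2.TT P jf
  simp

include hG in
theorem dd_av (v : E n) : dd v (av G p) = av (dd v G) p := TT_dd (aes p) hG v

include hG in
theorem av_pos (hp : ∀ y, 0 < G y) : 0 < av G p x := by
  unfold av SC2.TT
  rw [integral_pos_iff_support_of_nonneg (fun g => (hp _).le) (TT_int (aes p) hG x)]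
  have : (Function.support fun g : ℝ => G (x + g • p)) = Set.univ := by
    ext g
    simp only [Function.mem_support, Set.mem_univ, iff_true]
    exact (hp _).ne'
  rw [this, measure_univ]
  exact one_pos

include hG in
/-- the cumulants of the average, in terms of the regularised jet at `s = 1`, `z = 0` -/
theorem av_cum (hp : ∀ y, 0 < G y) (ε c0 : ℝ) :
    iteratedDeriv 2 (fun t : ℝ => -Real.log (av G p (x + t • v)) + c0) 0 + ε
      = A0 (jh ε G x v p) 1 0 ∧
    iteratedDeriv 3 (fun t : ℝ => -Real.log (av G p (x + t • v)) + c0) 0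
      = B0 (jh ε G x v p) 1 0 := by
  have hA : BS (av G p) := hG.TT (aes p)
  have hc := cum_bs hA (fun y => av_pos hG y p hp) x v c0
  have e1 : dd v (av G p) = av (dd v G) p := dd_av hG p v
  have e2 : dd v (dd v (av G p)) = av (dd v (dd v G)) p := by
    rw [e1]; exact dd_av (hG.dd v) p v
  have e3 : dd v (dd v (dd v (av G p))) = av (dd v (dd v (dd v G))) p := by
    rw [e2]; exact dd_av ((hG.dd v).dd v) p v
  rw [hc.1, hc.2, e3, e2, e1]
  have f0 : av G p x = P (jf G x v p 0 0) 1 0 := av_eq x p G v 0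
  have f1 : av (dd v G) p x = P (jf G x v p 1 0) 1 0 := av_eq x p G v 1
  have f2 : av (dd v (dd v G)) p x = P (jf G x v p 2 0) 1 0 := by
    have := av_eq x p G v 2
    simpa only [Function.iterate_succ_apply', Function.iterate_zero, id_eq] using this
  have f3 : av (dd v (dd v (dd v G))) p x = P (jf G x v p 3 0) 1 0 := by
    have := av_eq x p G v 3
    simpa only [Function.iterate_succ_apply', Function.iterate_zero, id_eq] using this
  have hpos : 0 < P (jf G x v p 0 0) 1 0 := by rw [← f0]; exact av_pos hG x p hp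
  have ij : ∀ i, Integrable (fun g => jf G x v p i 0 (0 + √1 * g)) (gaussianReal 0 1) := fun i => by
    obtain ⟨C, hC⟩ := jf_bd hG x v p i 0
    exact P_integrable (jf_cont hG x v p i 0) hC 1 0
  have g0 : P (jh ε G x v p 0 0) 1 0 = P (jf G x v p 0 0) 1 0 := rfl
  have g1 : P (jh ε G x v p 1 0) 1 0 = P (jf G x v p 1 0) 1 0 := rfl
  have g2 : P (jh ε G x v p 2 0) 1 0
      = P (jf G x v p 2 0) 1 0 - ε * P (jf G x v p 0 0) 1 0 := by
    unfold P
    rw [← integral_const_mul, ← integral_sub (ij 2) ((ij 0).const_mul ε)]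
    rfl
  have g3 : P (jh ε G x v p 3 0) 1 0
      = P (jf G x v p 3 0) 1 0 - 3 * ε * P (jf G x v p 1 0) 1 0 := by
    unfold P
    rw [← integral_const_mul, ← integral_sub (ij 3) ((ij 1).const_mul (3 * ε))]
    rfl
  have hne := hpos.ne'
  constructor
  · simp only [A0, pA0, u, g0, g1, g2, f0, f1, f2]
    field_simp
    ring
  · simp only [B0, pB0, u, g0, g1, g2, g3, f0, f1, f2, f3]
    field_simp
    ring

end avg

/-! ### The theorem -/

theorem heat1_eq_av {n : ℕ} {W : E n → ℝ} {c C : ℝ} (hR : Reg W c C) (p : E n) :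
    heat1 W p = fun x => -Real.log (av (fun y => Real.exp (-W y)) p x)
      + (-Real.log (√(2 * Real.pi))) := by
  funext x
  have h2 : (0 : ℝ) < √(2 * Real.pi) := by positivity
  have e : av (fun y => Real.exp (-W y)) p x
      = (√(2 * Real.pi))⁻¹ * ∫ g : ℝ, Real.exp (-W (x + g • p) - g ^ 2 / 2) := by
    have h := P_eq_lebesgue (fun g : ℝ => Real.exp (-W (x + g • p))) 1 0
    unfold P at h
    unfold av SC2.TT
    simp only [Real.sqrt_one, one_mul, zero_add] at h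
    rw [h]
    congr 1
    refine integral_congr_ae (Eventually.of_forall fun g => ?_)
    simp only
    rw [← Real.exp_add]
    congr 1
  unfold heat1
  rw [e]
  have hpos := av_pos (bs_exp hR) x p (fun y => Real.exp_pos _)
  rw [e] at hpos
  have h0 : (∫ g : ℝ, Real.exp (-W (x + g • p) - g ^ 2 / 2)) ≠ 0 := fun h => by
    rw [h, mul_zero] at hpos
    exact lt_irrefl _ hpos
  rw [Real.log_mul (inv_ne_zero h2.ne') h0, Real.log_inv]
  ring

/-- **`StmtH1D`** -/
theorem stmtH1D : StmtH1D := by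
  intro n W c C κ hR hκ0 hκ1 hsc p x v
  set G : E n → ℝ := fun y => Real.exp (-W y) with hGdef
  have hG : BS G := bs_exp hR
  have hGp : ∀ y, 0 < G y := fun y => Real.exp_pos _
  have hlogG : ∀ y, -Real.log (G y) = W y := fun y => by
    rw [hGdef]; simp
  have hW2 : ContDiff ℝ (⊤ : ℕ∞) W := hR.smooth
  -- `D²W`, `D³W` on lines
  have hW : ∀ y ξ : E n, iteratedDeriv 2 (fun t : ℝ => -Real.log (G (y + t • ξ)) + 0) 0
      = qf (hess W y) ξ := fun y ξ => by
    simp only [hlogG, add_zero]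
    exact LK.iteratedDeriv_two_line hW2 y ξ
  have hW3 : ∀ y ξ : E n, |iteratedDeriv 3 (fun t : ℝ => -Real.log (G (y + t • ξ)) + 0) 0|
      ≤ 2 * κ * (qf (hess W y) ξ * √(qf (hess W y) ξ)) := fun y ξ => by
    have h1 := hsc y ξ
    rw [LK.iteratedDeriv_two_line hW2] at h1
    have h2 : 0 ≤ qf (hess W y) ξ := le_trans (mul_nonneg hR.c_pos.le (sq_nonneg _)) (hR.lower y ξ)
    rw [rpow_32 h2] at h1
    simpa only [hlogG, add_zero] using h1
  rw [heat1_eq_av hR p]
  set c0 := -Real.log (√(2 * Real.pi)) with hc0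
  by_cases hp : p = 0
  · -- trivial average
    subst hp
    have e : ∀ y, av G 0 y = G y := fun y => by
      unfold av SC2.TT
      simp
    have ee : (fun t : ℝ => -Real.log (av G 0 (x + t • v)) + c0) = fun t => W (x + t • v) + c0 := by
      funext t
      rw [e, hlogG]
    change |iteratedDeriv 3 (fun t : ℝ => -Real.log (av G 0 (x + t • v)) + c0) 0|
      ≤ 2 * κ * iteratedDeriv 2 (fun t : ℝ => -Real.log (av G 0 (x + t • v)) + c0) 0 ^ ((3 : ℝ) / 2)
    rw [ee]
    have h1 := cum_bs hG hGp x v c0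
    have h2 := cum_bs hG hGp x v 0
    simp only [hlogG] at h1 h2
    rw [h1.1, h1.2, ← h2.1, ← h2.2]
    have h3 := hsc x v
    simpa only [add_zero] using h3
  · -- main case
    have hcC : c ≤ C := by
      have h1 := (hR.lower 0 p).trans (hR.upper 0 p)
      have h2 : 0 < ‖p‖ ^ 2 := by have := norm_pos_iff.2 hp; positivity
      exact le_of_mul_le_mul_right h1 h2
    have hC0 : 0 < C := hR.c_pos.trans_le hcC
    set a := iteratedDeriv 2 (fun t : ℝ => -Real.log (av G p (x + t • v)) + c0) 0 with ha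
    set b := iteratedDeriv 3 (fun t : ℝ => -Real.log (av G p (x + t • v)) + c0) 0 with hb
    have key : ∀ ε : ℝ, 0 < ε → 0 ≤ a + ε ∧ |b| ≤ 2 * κ * ((a + ε) * √(a + ε)) := by
      intro ε hε
      obtain ⟨lam, hlam, hpin⟩ := pinch v p hp hR.c_pos hε
      have hJ := jh_jet hG x v p hGp ε
      set Lam := 2 * C * (‖v‖ ^ 2 + ‖p‖ ^ 2) + ε with hLam
      have hup : ∀ v1 v2 : ℝ, C * ‖v1 • v + v2 • p‖ ^ 2 + ε * v1 ^ 2
          ≤ Lam * (v1 ^ 2 + v2 ^ 2) := fun v1 v2 => by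
        have h1 : ‖v1 • v + v2 • p‖ ≤ |v1| * ‖v‖ + |v2| * ‖p‖ := by
          refine (norm_add_le _ _).trans ?_
          rw [norm_smul, norm_smul, Real.norm_eq_abs, Real.norm_eq_abs]
        have h2 : ‖v1 • v + v2 • p‖ ^ 2 ≤ (|v1| * ‖v‖ + |v2| * ‖p‖) ^ 2 :=
          pow_le_pow_left₀ (norm_nonneg _) h1 2
        have h3 : (|v1| * ‖v‖ + |v2| * ‖p‖) ^ 2 ≤ 2 * (v1 ^ 2 * ‖v‖ ^ 2 + v2 ^ 2 * ‖p‖ ^ 2) := by
          have := sq_nonneg (|v1| * ‖v‖ - |v2| * ‖p‖)
          have e1 : (|v1| * ‖v‖) ^ 2 = v1 ^ 2 * ‖v‖ ^ 2 := by rw [mul_pow, sq_abs]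
          have e2 : (|v2| * ‖p‖) ^ 2 = v2 ^ 2 * ‖p‖ ^ 2 := by rw [mul_pow, sq_abs]
          nlinarith
        have h4 : v1 ^ 2 * ‖v‖ ^ 2 + v2 ^ 2 * ‖p‖ ^ 2
            ≤ (‖v‖ ^ 2 + ‖p‖ ^ 2) * (v1 ^ 2 + v2 ^ 2) := by
          have := mul_nonneg (sq_nonneg v1) (sq_nonneg ‖p‖)
          have := mul_nonneg (sq_nonneg v2) (sq_nonneg ‖v‖)
          nlinarith
        have h5 : C * ‖v1 • v + v2 • p‖ ^ 2
            ≤ C * (2 * ((‖v‖ ^ 2 + ‖p‖ ^ 2) * (v1 ^ 2 + v2 ^ 2))) :=
          mul_le_mul_of_nonneg_left (by linarith) hC0.le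
        have h6 : 0 ≤ ε * v2 ^ 2 := by positivity
        rw [hLam]
        nlinarith
      have hlow0 : ∀ z v1 v2, lam * (v1 ^ 2 + v2 ^ 2) ≤ Q (jh ε G x v p) 0 z v1 v2 :=
        fun z v1 v2 => by
          rw [(jh_zero hG x v p hGp ε z v1 v2).1, hW]
          have h1 := hR.lower (x + z • p) (v1 • v + v2 • p)
          have h2 := hpin v1 v2
          linarith
      have hup0 : ∀ z v1 v2, Q (jh ε G x v p) 0 z v1 v2 ≤ Lam * (v1 ^ 2 + v2 ^ 2) :=
        fun z v1 v2 => by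
          rw [(jh_zero hG x v p hGp ε z v1 v2).1, hW]
          have h1 := hR.upper (x + z • p) (v1 • v + v2 • p)
          have h2 := hup v1 v2
          linarith
      have hsc0 : ∀ z v1 v2, |R (jh ε G x v p) 0 z v1 v2|
          ≤ 2 * κ * (Q (jh ε G x v p) 0 z v1 v2 * √(Q (jh ε G x v p) 0 z v1 v2)) :=
        fun z v1 v2 => by
          rw [(jh_zero hG x v p hGp ε z v1 v2).2, (jh_zero hG x v p hGp ε z v1 v2).1]
          refine (hW3 _ _).trans ?_
          rw [hW]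
          have h0 : 0 ≤ qf (hess W (x + z • p)) (v1 • v + v2 • p) :=
            le_trans (mul_nonneg hR.c_pos.le (sq_nonneg _)) (hR.lower _ _)
          have h1 : qf (hess W (x + z • p)) (v1 • v + v2 • p)
              ≤ qf (hess W (x + z • p)) (v1 • v + v2 • p) + ε * v1 ^ 2 := by
            have : 0 ≤ ε * v1 ^ 2 := by positivity
            linarith
          have h2 := Real.sqrt_le_sqrt h1
          have h3 := mul_le_mul h1 h2 (Real.sqrt_nonneg _) (h0.trans h1)
          exact mul_le_mul_of_nonneg_left h3 (by positivity)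
      have hr := r2 hJ hlam hκ0 hκ1 hlow0 hup0 hsc0 (S := 1) zero_le_one 1 0 1 0 zero_le_one le_rfl
      have hcum := av_cum hG x v p hGp ε c0
      rw [← ha] at hcum
      rw [← hb] at hcum
      have e1 : qa (A0 (jh ε G x v p) 1 0) (A1 (jh ε G x v p) 1 0) (A2 (jh ε G x v p) 1 0) 1 0
          = a + ε := by
        rw [hcum.1]; unfold qa; ring
      have e2 : qb (B0 (jh ε G x v p) 1 0) (B1 (jh ε G x v p) 1 0) (B2 (jh ε G x v p) 1 0)
          (B3 (jh ε G x v p) 1 0) 1 0 = b := by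
        rw [hcum.2]; unfold qb; ring
      rw [e1, e2] at hr
      have hLam0 : 0 < Lam := by positivity
      refine ⟨le_trans ?_ hr.1, hr.2.2⟩
      positivity
    have ha0 : 0 ≤ a := by
      refine le_of_forall_pos_le_add fun ε hε => ?_
      exact (key ε hε).1
    have hlim : Tendsto (fun ε : ℝ => 2 * κ * ((a + ε) * √(a + ε))) (𝓝[>] 0)
        (𝓝 (2 * κ * ((a + 0) * √(a + 0)))) := by
      have : Continuous fun ε : ℝ => 2 * κ * ((a + ε) * √(a + ε)) := by fun_prop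
      exact (this.tendsto 0).mono_left nhdsWithin_le_nhds
    rw [add_zero] at hlim
    rw [rpow_32 ha0]
    refine ge_of_tendsto hlim ?_
    filter_upwards [self_mem_nhdsWithin] with ε hε
    exact (key ε hε).2

end Vale.Agent.P227.M.SC2.H1
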