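import Vale.Agent.P227.M.SC2.R2
import Vale.Agent.P227.M.SC2.Heat1Def
import Vale.Agent.P227.M.SC2.ExpCls
import Vale.Agent.P227.M.LK.Line

/-! # `StmtH1D` (the one-direction Gaussian average keeps the self-concordance constant) from the
two-dimensional lemma `r2`. The jet of `exp (-W (x + t v + z p) - μ t² / 2)`, `μ > 0`, is used, and
`μ → 0` at the end; so nothing is asked about the position of `v` and `p`. -/

open MeasureTheory ProbabilityTheory Set Filter Topology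
open Vale.P227M.SC2 (qa qb)

namespace Vale.Agent.P227.M.SC2.H1D801

variable {n : ℕ}

/-- directional derivative -/
noncomputable def D (v : E n) (f : E n → ℝ) (y : E n) : ℝ := fderiv ℝ f y v

theorem sm_D {f : E n → ℝ} (hf : ContDiff ℝ (⊤ : ℕ∞) f) (v : E n) : ContDiff ℝ (⊤ : ℕ∞) (D v f) :=
  (hf.fderiv_right (by simp)).clm_apply contDiff_const

theorem sm_iter {f : E n → ℝ} (hf : ContDiff ℝ (⊤ : ℕ∞) f) (v : E n) (i : ℕ) :
    ContDiff ℝ (⊤ : ℕ∞) ((D v)^[i] f) := by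
  induction i with
  | zero => exact hf
  | succ i ih => rw [Function.iterate_succ_apply']; exact sm_D ih v

theorem D_D {f : E n → ℝ} (hf : ContDiff ℝ (⊤ : ℕ∞) f) (v p y : E n) :
    D v (D p f) y = fderiv ℝ (fderiv ℝ f) y v p := by
  unfold D
  have h1 : DifferentiableAt ℝ (fderiv ℝ f) y :=
    ((hf.fderiv_right (m := (⊤ : ℕ∞)) (by simp)).differentiable (by simp)) y
  rw [fderiv_clm_apply h1 (differentiableAt_const p)]
  simp

theorem D_comm {f : E n → ℝ} (hf : ContDiff ℝ (⊤ : ℕ∞) f) (v p : E n) :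
    D v (D p f) = D p (D v f) := by
  funext y
  rw [D_D hf, D_D hf]
  have h2 : ContDiff ℝ 2 f := by simpa using contDiff_infty.1 hf 2
  exact (h2.contDiffAt.isSymmSndFDerivAt (by simp)) v p

theorem D_iter {f : E n → ℝ} (hf : ContDiff ℝ (⊤ : ℕ∞) f) (v p : E n) (i : ℕ) :
    D p ((D v)^[i] f) = (D v)^[i] (D p f) := by
  induction i generalizing f with
  | zero => rfl
  | succ i ih =>
      rw [Function.iterate_succ_apply, Function.iterate_succ_apply, ih (sm_D hf v), D_comm hf]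

theorem hd_line {f : E n → ℝ} (hf : ContDiff ℝ (⊤ : ℕ∞) f) (y v : E n) (t : ℝ) :
    HasDerivAt (fun t : ℝ => f (y + t • v)) (D v f (y + t • v)) t := by
  have h1 : HasFDerivAt f (fderiv ℝ f (y + t • v)) (y + t • v) :=
    ((hf.differentiable (by simp)) (y + t • v)).hasFDerivAt
  have h2 : HasDerivAt (fun t : ℝ => y + t • v) v t := by
    simpa using ((hasDerivAt_id t).smul_const v).const_add y
  exact h1.comp_hasDerivAt t h2

theorem iteratedDeriv_hd_line {f : E n → ℝ} (hf : ContDiff ℝ (⊤ : ℕ∞) f) (y v : E n) (k : ℕ) :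
    iteratedDeriv k (fun t : ℝ => f (y + t • v)) = fun t : ℝ => ((D v)^[k] f) (y + t • v) := by
  induction k generalizing f with
  | zero => simp
  | succ k ih =>
      rw [iteratedDeriv_succ', Function.iterate_succ_apply]
      have h1 : deriv (fun t : ℝ => f (y + t • v)) = fun t : ℝ => D v f (y + t • v) := by
        funext t
        exact (hd_line hf y v t).deriv
      rw [h1, ih (sm_D hf v)]

/-- `exp (-W)` -/
noncomputable def G (W : E n → ℝ) (y : E n) : ℝ := Real.exp (-W y)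

/-- mixed derivatives of `exp (-W)` -/
noncomputable def g (W : E n → ℝ) (v p : E n) (i j : ℕ) : E n → ℝ := (D v)^[i] ((D p)^[j] (G W))

section
variable {W : E n → ℝ} {c C : ℝ}

theorem sm_G (hR : Reg W c C) : ContDiff ℝ (⊤ : ℕ∞) (G W) := Real.contDiff_exp.comp hR.smooth.neg

theorem sm_g (hR : Reg W c C) (v p : E n) (i j : ℕ) : ContDiff ℝ (⊤ : ℕ∞) (g W v p i j) :=
  sm_iter (sm_iter (sm_G hR) p j) v i

theorem D_v_g (W : E n → ℝ) (v p : E n) (i j : ℕ) : D v (g W v p i j) = g W v p (i + 1) j := by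
  unfold g; rw [Function.iterate_succ_apply']

theorem D_p_g (hR : Reg W c C) (v p : E n) (i j : ℕ) : D p (g W v p i j) = g W v p i (j + 1) := by
  unfold g
  rw [D_iter (sm_iter (sm_G hR) p j), Function.iterate_succ_apply']

theorem ce_D (hW : W.HasTemperateGrowth) {f : E n → ℝ} (h : HN.CE W f) (v : E n) :
    HN.CE W (D v f) := by
  obtain ⟨G', hG, hF⟩ := h.fderiv hW
  refine ⟨fun x => G' x v, ?_, fun x => ?_⟩
  · exact (ContinuousLinearMap.apply ℝ ℝ v).hasTemperateGrowth.comp hG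
  · unfold D
    rw [hF x]
    simp

theorem ce_iter (hW : W.HasTemperateGrowth) {f : E n → ℝ} (h : HN.CE W f) (v : E n) (i : ℕ) :
    HN.CE W ((D v)^[i] f) := by
  induction i with
  | zero => exact h
  | succ i ih => rw [Function.iterate_succ_apply']; exact ce_D hW ih v

theorem g_bdd (hR : Reg W c C) (v p : E n) (i j : ℕ) : ∃ B, ∀ y, |g W v p i j y| ≤ B := by
  have hW := HN.tg_W hR
  exact (ce_iter hW (ce_iter hW (HN.CE.exp (W := W)) p j) v i).bdd hR

/-- the jet at the base point `x` -/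
noncomputable def jet (W : E n → ℝ) (v p x : E n) (i j : ℕ) (z : ℝ) : ℝ := g W v p i j (x + z • p)

theorem jet_isJet (hR : Reg W c C) (v p x : E n) : Jet (jet W v p x) where
  d i j _ z := by
    have h1 := hd_line (sm_g hR v p i j) x p z
    rw [D_p_g hR] at h1
    exact h1
  c i j _ := (sm_g hR v p i j).continuous.comp (by fun_prop)
  b i j _ := by
    obtain ⟨B, hB⟩ := g_bdd hR v p i j
    exact ⟨B, fun z => hB _⟩
  pos z := by
    change 0 < G W (x + z • p)
    exact Real.exp_pos _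

/-! ### derivatives in `t` -/

theorem P_dt (hR : Reg W c C) (v p x : E n) (i j : ℕ) (s z t : ℝ) :
    HasDerivAt (fun t : ℝ => P (jet W v p (x + t • v) i j) s z)
      (P (jet W v p (x + t • v) (i + 1) j) s z) t := by
  obtain ⟨B0, hB0⟩ := g_bdd hR v p i j
  obtain ⟨B, hB⟩ := g_bdd hR v p (i + 1) j
  have hc0 : Continuous (g W v p i j) := (sm_g hR v p i j).continuous
  have hc1 : Continuous (g W v p (i + 1) j) := (sm_g hR v p (i + 1) j).continuous
  have := hasDerivAt_integral_of_dominated_loc_of_deriv_le (μ := gaussianReal 0 1)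
    (F := fun t a => jet W v p (x + t • v) i j (z + √s * a))
    (F' := fun t a => jet W v p (x + t • v) (i + 1) j (z + √s * a)) (x₀ := t)
    (bound := fun _ => B) (s := Set.univ) Filter.univ_mem
    (Eventually.of_forall fun y => (hc0.comp (by fun_prop)).aestronglyMeasurable)
    (Integrable.mono' (integrable_const B0) (hc0.comp (by fun_prop)).aestronglyMeasurable
      (Eventually.of_forall fun a => hB0 _))
    (hc1.comp (by fun_prop)).aestronglyMeasurable
    (Eventually.of_forall fun a y _ => hB _) (integrable_const _)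
    (Eventually.of_forall fun a y _ => by
      have h1 := hd_line (sm_g hR v p i j) (x + (z + √s * a) • p) v y
      rw [D_v_g] at h1
      have e : ∀ y : ℝ, x + y • v + (z + √s * a) • p = x + (z + √s * a) • p + y • v :=
        fun y => add_right_comm _ _ _
      simp only [jet, e]
      exact h1)
  exact this.2

theorem u_dt (hR : Reg W c C) (v p x : E n) (i j : ℕ) (s z t : ℝ) :
    HasDerivAt (fun t : ℝ => u (jet W v p (x + t • v)) i j s z)
      (Ut (fun i j => u (jet W v p (x + t • v)) i j s z) i j) t := by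
  have h1 := P_dt hR v p x i j s z t
  have h2 := P_dt hR v p x 0 0 s z t
  have h0 := ((jet_isJet hR v p (x + t • v)).P00_pos s z).ne'
  refine (h1.fun_div h2 h0).congr_deriv ?_
  unfold Ut u
  simp only [zero_add]
  field_simp

theorem log_dt (hR : Reg W c C) (v p x : E n) (s z t : ℝ) :
    HasDerivAt (fun t : ℝ => -Real.log (P (jet W v p (x + t • v) 0 0) s z))
      (-u (jet W v p (x + t • v)) 1 0 s z) t := by
  have h2 := P_dt hR v p x 0 0 s z t
  exact (h2.log ((jet_isJet hR v p (x + t • v)).P00_pos s z).ne').fun_neg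

theorem u10_dt (hR : Reg W c C) (v p x : E n) (s z t : ℝ) :
    HasDerivAt (fun t : ℝ => -u (jet W v p (x + t • v)) 1 0 s z)
      (A0 (jet W v p (x + t • v)) s z) t := by
  refine (u_dt hR v p x 1 0 s z t).fun_neg.congr_deriv ?_
  unfold Ut A0 pA0
  ring

theorem A0_dt (hR : Reg W c C) (v p x : E n) (s z t : ℝ) :
    HasDerivAt (fun t : ℝ => A0 (jet W v p (x + t • v)) s z)
      (B0 (jet W v p (x + t • v)) s z) t :=
  (hd_A0 (V := fun i j t => u (jet W v p (x + t • v)) i j s z)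
    fun i j _ => u_dt hR v p x i j s z t).congr_deriv (id_t_A0 _)

theorem heat1_eq (hR : Reg W c C) (v p x : E n) (t : ℝ) :
    heat1 W p (x + t • v) =
      -Real.log (P (jet W v p (x + t • v) 0 0) 1 0) - Real.log (√(2 * Real.pi)) := by
  have hpos := (jet_isJet hR v p (x + t • v)).P00_pos 1 0
  have h1 := P_eq_lebesgue (jet W v p (x + t • v) 0 0) 1 0
  have h2 : (∫ a : ℝ, Real.exp (-W (x + t • v + a • p) - a ^ 2 / 2))
      = √(2 * Real.pi) * P (jet W v p (x + t • v) 0 0) 1 0 := by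
    rw [h1, ← mul_assoc, mul_inv_cancel₀ (by positivity), one_mul]
    refine integral_congr_ae (Eventually.of_forall fun a => ?_)
    simp only [Real.sqrt_one, one_mul, zero_add]
    change _ = G W (x + t • v + a • p) * _
    unfold G
    rw [← Real.exp_add]
    congr 1
  unfold heat1
  rw [h2, Real.log_mul (by positivity) hpos.ne']
  ring

theorem iter_heat1 (hR : Reg W c C) (v p x : E n) :
    iteratedDeriv 2 (fun t : ℝ => heat1 W p (x + t • v)) 0 = A0 (jet W v p x) 1 0 ∧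
    iteratedDeriv 3 (fun t : ℝ => heat1 W p (x + t • v)) 0 = B0 (jet W v p x) 1 0 := by
  have e0 : (fun t : ℝ => heat1 W p (x + t • v)) = fun t : ℝ =>
      -Real.log (P (jet W v p (x + t • v) 0 0) 1 0) - Real.log (√(2 * Real.pi)) :=
    funext fun t => heat1_eq hR v p x t
  have e1 : deriv (fun t : ℝ => heat1 W p (x + t • v)) =
      fun t : ℝ => -u (jet W v p (x + t • v)) 1 0 1 0 := by
    rw [e0]
    funext t
    exact ((log_dt hR v p x 1 0 t).sub_const _).deriv
  have e2 : deriv (fun t : ℝ => -u (jet W v p (x + t • v)) 1 0 1 0) =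
      fun t : ℝ => A0 (jet W v p (x + t • v)) 1 0 := by
    funext t
    exact (u10_dt hR v p x 1 0 t).deriv
  have e3 : deriv (fun t : ℝ => A0 (jet W v p (x + t • v)) 1 0) =
      fun t : ℝ => B0 (jet W v p (x + t • v)) 1 0 := by
    funext t
    exact (A0_dt hR v p x 1 0 t).deriv
  have h2 : iteratedDeriv 2 (fun t : ℝ => heat1 W p (x + t • v)) =
      fun t : ℝ => A0 (jet W v p (x + t • v)) 1 0 := by
    rw [iteratedDeriv_succ, iteratedDeriv_one, e1, e2]
  have h3 : iteratedDeriv 3 (fun t : ℝ => heat1 W p (x + t • v)) =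
      fun t : ℝ => B0 (jet W v p (x + t • v)) 1 0 := by
    rw [iteratedDeriv_succ, h2, e3]
  rw [h2, h3]
  simp

/-! ### the quadratic and cubic form at time `0` -/

theorem D_lin (f : E n → ℝ) (v p : E n) (a b : ℝ) (y : E n) :
    D (a • v + b • p) f y = a * D v f y + b * D p f y := by
  simp [D]

theorem D_add {f g : E n → ℝ} (hf : ContDiff ℝ (⊤ : ℕ∞) f) (hg : ContDiff ℝ (⊤ : ℕ∞) g)
    (a b : ℝ) (v y : E n) :
    D v (fun y => a * f y + b * g y) y = a * D v f y + b * D v g y := by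
  unfold D
  have h1 := ((hf.differentiable (by simp)) y).hasFDerivAt.const_mul a
  have h2 := ((hg.differentiable (by simp)) y).hasFDerivAt.const_mul b
  rw [(h1.fun_add h2).fderiv]
  simp

theorem D1_G (W : E n → ℝ) (v p y : E n) (a b : ℝ) :
    D (a • v + b • p) (G W) y = a * g W v p 1 0 y + b * g W v p 0 1 y := by
  rw [D_lin]; rfl

theorem D2_G (hR : Reg W c C) (v p y : E n) (a b : ℝ) :
    D (a • v + b • p) (D (a • v + b • p) (G W)) y =
      a ^ 2 * g W v p 2 0 y + 2 * a * b * g W v p 1 1 y + b ^ 2 * g W v p 0 2 y := by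
  have e : D (a • v + b • p) (G W) = fun y => a * g W v p 1 0 y + b * g W v p 0 1 y :=
    funext fun y => D1_G W v p y a b
  rw [e, D_lin, D_add (sm_g hR v p 1 0) (sm_g hR v p 0 1), D_add (sm_g hR v p 1 0) (sm_g hR v p 0 1),
    D_v_g, D_v_g, D_p_g hR, D_p_g hR]
  ring

theorem D3_G (hR : Reg W c C) (v p y : E n) (a b : ℝ) :
    D (a • v + b • p) (D (a • v + b • p) (D (a • v + b • p) (G W))) y =
      a ^ 3 * g W v p 3 0 y + 3 * a ^ 2 * b * g W v p 2 1 y + 3 * a * b ^ 2 * g W v p 1 2 y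
        + b ^ 3 * g W v p 0 3 y := by
  have e : D (a • v + b • p) (D (a • v + b • p) (G W)) = fun y =>
      1 * (a ^ 2 * g W v p 2 0 y + (2 * a * b) * g W v p 1 1 y) + b ^ 2 * g W v p 0 2 y :=
    funext fun y => by rw [D2_G hR v p y a b]; ring
  have hs : ContDiff ℝ (⊤ : ℕ∞) (fun y => a ^ 2 * g W v p 2 0 y + (2 * a * b) * g W v p 1 1 y) :=
    (contDiff_const.mul (sm_g hR v p 2 0)).add (contDiff_const.mul (sm_g hR v p 1 1))
  rw [e, D_lin, D_add hs (sm_g hR v p 0 2), D_add hs (sm_g hR v p 0 2),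
    D_add (sm_g hR v p 2 0) (sm_g hR v p 1 1), D_add (sm_g hR v p 2 0) (sm_g hR v p 1 1),
    D_v_g, D_v_g, D_v_g, D_p_g hR, D_p_g hR, D_p_g hR]
  ring

theorem DG (hR : Reg W c C) (w y : E n) : D w (G W) y = -(D w W y) * G W y := by
  unfold D G
  have h1 := ((hR.smooth.differentiable (by simp)) y).hasFDerivAt
  rw [(h1.fun_neg.exp).fderiv]
  simp
  ring

theorem D_mul {f g : E n → ℝ} (hf : ContDiff ℝ (⊤ : ℕ∞) f) (hg : ContDiff ℝ (⊤ : ℕ∞) g)
    (v y : E n) : D v (fun y => f y * g y) y = D v f y * g y + f y * D v g y := by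
  unfold D
  have h1 := ((hf.differentiable (by simp)) y).hasFDerivAt
  have h2 := ((hg.differentiable (by simp)) y).hasFDerivAt
  rw [(h1.fun_mul h2).fderiv]
  simp
  ring

theorem D_neg (f : E n → ℝ) (v y : E n) : D v (fun y => -f y) y = -D v f y := by
  unfold D
  rw [fderiv_fun_neg]
  simp

theorem DDG (hR : Reg W c C) (w y : E n) :
    D w (D w (G W)) y = ((D w W y) ^ 2 - D w (D w W) y) * G W y := by
  have e : D w (G W) = fun y => (fun y => -(D w W y)) y * G W y := funext fun y => DG hR w y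
  rw [e, D_mul (sm_D hR.smooth w).neg (sm_G hR), D_neg, DG hR]
  ring

theorem DDDG (hR : Reg W c C) (w y : E n) :
    D w (D w (D w (G W))) y =
      (-(D w W y) ^ 3 + 3 * (D w W y * D w (D w W) y) - D w (D w (D w W)) y) * G W y := by
  have hW1 := sm_D hR.smooth w
  have hW2 := sm_D hW1 w
  have e : D w (D w (G W)) = fun y =>
      (fun y => 1 * (D w W y * D w W y) + (-1) * D w (D w W) y) y * G W y :=
    funext fun y => by rw [DDG hR w y]; ring
  have hs : ContDiff ℝ (⊤ : ℕ∞) (fun y => D w W y * D w W y) := hW1.mul hW1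
  rw [e, D_mul ((contDiff_const.mul hs).add (contDiff_const.mul hW2)) (sm_G hR), D_add hs hW2,
    D_mul hW1 hW1, DG hR]
  ring

theorem Q_zero (hR : Reg W c C) (v p x : E n) (z a b : ℝ) :
    Q (jet W v p x) 0 z a b = D (a • v + b • p) (D (a • v + b • p) W) (x + z • p) := by
  have hG : (0 : ℝ) < G W (x + z • p) := Real.exp_pos _
  have hu : ∀ i j, u (jet W v p x) i j 0 z = g W v p i j (x + z • p) / G W (x + z • p) := by
    intro i j
    unfold u
    rw [P_zero, P_zero]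
    rfl
  have h1 := (DG hR (a • v + b • p) (x + z • p)).symm.trans (D1_G W v p (x + z • p) a b)
  have h2 := (DDG hR (a • v + b • p) (x + z • p)).symm.trans (D2_G hR v p (x + z • p) a b)
  rw [Q_eq]
  simp only [hu]
  set X := D (a • v + b • p) W (x + z • p)
  set Y := D (a • v + b • p) (D (a • v + b • p) W) (x + z • p)
  set K := G W (x + z • p)
  have e1 : a * (g W v p 1 0 (x + z • p) / K) + b * (g W v p 0 1 (x + z • p) / K) = -X := by
    have : (a * g W v p 1 0 (x + z • p) + b * g W v p 0 1 (x + z • p)) / K = -X := by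
      rw [← h1]; field_simp
    rw [← this]; ring
  have e2 : a ^ 2 * (g W v p 2 0 (x + z • p) / K) + 2 * a * b * (g W v p 1 1 (x + z • p) / K)
      + b ^ 2 * (g W v p 0 2 (x + z • p) / K) = X ^ 2 - Y := by
    have : (a ^ 2 * g W v p 2 0 (x + z • p) + 2 * a * b * g W v p 1 1 (x + z • p)
        + b ^ 2 * g W v p 0 2 (x + z • p)) / K = X ^ 2 - Y := by
      rw [← h2]; field_simp
    rw [← this]; ring
  rw [e1, e2]
  ring

theorem R_zero (hR : Reg W c C) (v p x : E n) (z a b : ℝ) :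
    R (jet W v p x) 0 z a b =
      D (a • v + b • p) (D (a • v + b • p) (D (a • v + b • p) W)) (x + z • p) := by
  have hG : (0 : ℝ) < G W (x + z • p) := Real.exp_pos _
  have hu : ∀ i j, u (jet W v p x) i j 0 z = g W v p i j (x + z • p) / G W (x + z • p) := by
    intro i j
    unfold u
    rw [P_zero, P_zero]
    rfl
  have h1 := (DG hR (a • v + b • p) (x + z • p)).symm.trans (D1_G W v p (x + z • p) a b)
  have h2 := (DDG hR (a • v + b • p) (x + z • p)).symm.trans (D2_G hR v p (x + z • p) a b)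
  have h3 := (DDDG hR (a • v + b • p) (x + z • p)).symm.trans (D3_G hR v p (x + z • p) a b)
  rw [R_eq]
  simp only [hu]
  set X := D (a • v + b • p) W (x + z • p)
  set Y := D (a • v + b • p) (D (a • v + b • p) W) (x + z • p)
  set Z := D (a • v + b • p) (D (a • v + b • p) (D (a • v + b • p) W)) (x + z • p)
  set K := G W (x + z • p)
  have e1 : a * (g W v p 1 0 (x + z • p) / K) + b * (g W v p 0 1 (x + z • p) / K) = -X := by
    have : (a * g W v p 1 0 (x + z • p) + b * g W v p 0 1 (x + z • p)) / K = -X := by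
      rw [← h1]; field_simp
    rw [← this]; ring
  have e2 : a ^ 2 * (g W v p 2 0 (x + z • p) / K) + 2 * a * b * (g W v p 1 1 (x + z • p) / K)
      + b ^ 2 * (g W v p 0 2 (x + z • p) / K) = X ^ 2 - Y := by
    have : (a ^ 2 * g W v p 2 0 (x + z • p) + 2 * a * b * g W v p 1 1 (x + z • p)
        + b ^ 2 * g W v p 0 2 (x + z • p)) / K = X ^ 2 - Y := by
      rw [← h2]; field_simp
    rw [← this]; ring
  have e3 : a ^ 3 * (g W v p 3 0 (x + z • p) / K) + 3 * a ^ 2 * b * (g W v p 2 1 (x + z • p) / K)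
      + 3 * a * b ^ 2 * (g W v p 1 2 (x + z • p) / K) + b ^ 3 * (g W v p 0 3 (x + z • p) / K)
      = -X ^ 3 + 3 * (X * Y) - Z := by
    have : (a ^ 3 * g W v p 3 0 (x + z • p) + 3 * a ^ 2 * b * g W v p 2 1 (x + z • p)
        + 3 * a * b ^ 2 * g W v p 1 2 (x + z • p) + b ^ 3 * g W v p 0 3 (x + z • p)) / K
        = -X ^ 3 + 3 * (X * Y) - Z := by
      rw [← h3]; field_simp
    rw [← this]; ring
  rw [e1, e2, e3]
  ring

theorem DD_qf (hR : Reg W c C) (w y : E n) : D w (D w W) y = qf (hess W y) w := by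
  have h1 := congrFun (iteratedDeriv_hd_line hR.smooth y w 2) 0
  rw [LK.iteratedDeriv_two_line hR.smooth] at h1
  rw [h1]
  simp [Function.iterate_succ_apply']

theorem DDD_sc (hR : Reg W c C) {κ : ℝ} (hs : SelfConc κ W) (w y : E n) :
    |D w (D w (D w W)) y| ≤ 2 * κ * (D w (D w W) y * √(D w (D w W) y)) := by
  have h0 : 0 ≤ D w (D w W) y := by
    rw [DD_qf hR]
    exact LK.qf_nonneg_of_reg hR y w
  have h2 := congrFun (iteratedDeriv_hd_line hR.smooth y w 2) 0
  have h3 := congrFun (iteratedDeriv_hd_line hR.smooth y w 3) 0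
  have h4 := hs y w
  rw [h2, h3] at h4
  simp only [Function.iterate_succ_apply', Function.iterate_zero_apply, zero_smul, add_zero] at h4
  rw [LK.rpow_three_half h0] at h4
  refine h4.trans (le_of_eq ?_)
  have h5 : √(D w (D w W) y) ^ 3 = D w (D w W) y * √(D w (D w W) y) := by
    rw [pow_succ, Real.sq_sqrt h0]
  rw [h5]

end

/-! ### adding `μ t² / 2` to the potential -/

section
variable {h : ℕ → ℕ → ℝ → ℝ}

/-- the jet of `exp (-W - μ t² / 2)` at `t = 0` -/
noncomputable def jm (μ : ℝ) (h : ℕ → ℕ → ℝ → ℝ) (i j : ℕ) (z : ℝ) : ℝ :=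
  h i j z - (if i = 2 then μ * h 0 j z else if i = 3 then 3 * μ * h 1 j z else 0)

theorem jm_two (μ : ℝ) (j : ℕ) (z : ℝ) : jm μ h 2 j z = h 2 j z - μ * h 0 j z := by
  unfold jm; simp

theorem jm_three (μ : ℝ) (j : ℕ) (z : ℝ) : jm μ h 3 j z = h 3 j z - 3 * μ * h 1 j z := by
  unfold jm; simp

theorem jm_ne (μ : ℝ) {i : ℕ} (h2 : i ≠ 2) (h3 : i ≠ 3) (j : ℕ) : jm μ h i j = h i j := by
  funext z
  unfold jm; simp [h2, h3]

theorem jm_isJet (H : Jet h) (μ : ℝ) : Jet (jm μ h) where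
  d i j hij z := by
    by_cases h2 : i = 2
    · subst h2
      have e : jm μ h 2 j = fun z => h 2 j z - μ * h 0 j z := funext fun z => jm_two μ j z
      rw [e, jm_two]
      exact (H.d 2 j hij z).fun_sub ((H.d 0 j (by omega) z).const_mul μ)
    · by_cases h3 : i = 3
      · subst h3
        have e : jm μ h 3 j = fun z => h 3 j z - 3 * μ * h 1 j z := funext fun z => jm_three μ j z
        rw [e, jm_three]
        exact (H.d 3 j hij z).fun_sub ((H.d 1 j (by omega) z).const_mul (3 * μ))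
      · rw [jm_ne μ h2 h3, jm_ne μ h2 h3]
        exact H.d i j hij z
  c i j hij := by
    by_cases h2 : i = 2
    · subst h2
      have e : jm μ h 2 j = fun z => h 2 j z - μ * h 0 j z := funext fun z => jm_two μ j z
      rw [e]
      exact (H.c 2 j hij).sub ((H.c 0 j (by omega)).const_mul μ)
    · by_cases h3 : i = 3
      · subst h3
        have e : jm μ h 3 j = fun z => h 3 j z - 3 * μ * h 1 j z := funext fun z => jm_three μ j z
        rw [e]
        exact (H.c 3 j hij).sub ((H.c 1 j (by omega)).const_mul (3 * μ))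
      · rw [jm_ne μ h2 h3]
        exact H.c i j hij
  b i j hij := by
    by_cases h2 : i = 2
    · subst h2
      obtain ⟨B1, hB1⟩ := H.b 2 j hij
      obtain ⟨B2, hB2⟩ := H.b 0 j (by omega)
      refine ⟨B1 + |μ| * B2, fun z => ?_⟩
      rw [jm_two]
      refine (abs_sub _ _).trans (add_le_add (hB1 z) ?_)
      rw [abs_mul]
      exact mul_le_mul_of_nonneg_left (hB2 z) (abs_nonneg _)
    · by_cases h3 : i = 3
      · subst h3
        obtain ⟨B1, hB1⟩ := H.b 3 j hij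
        obtain ⟨B2, hB2⟩ := H.b 1 j (by omega)
        refine ⟨B1 + |3 * μ| * B2, fun z => ?_⟩
        rw [jm_three]
        refine (abs_sub _ _).trans (add_le_add (hB1 z) ?_)
        rw [abs_mul]
        exact mul_le_mul_of_nonneg_left (hB2 z) (abs_nonneg _)
      · rw [jm_ne μ h2 h3]
        exact H.b i j hij
  pos z := by
    rw [jm_ne μ (by norm_num) (by norm_num)]
    exact H.pos z

theorem P_sub {f k : ℝ → ℝ} (hf : Continuous f) (hk : Continuous k) {B B' : ℝ}
    (hB : ∀ z, |f z| ≤ B) (hB' : ∀ z, |k z| ≤ B') (μ s z : ℝ) :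
    P (fun z => f z - μ * k z) s z = P f s z - μ * P k s z := by
  unfold P
  rw [integral_sub (P_integrable hf hB s z) ((P_integrable hk hB' s z).const_mul μ),
    integral_const_mul]

theorem u_jm_lt (μ : ℝ) {i : ℕ} (hi : i < 2) (j : ℕ) (s z : ℝ) : u (jm μ h) i j s z = u h i j s z := by
  unfold u
  rw [jm_ne μ (by omega) (by omega), jm_ne μ (by omega) (by omega)]

theorem u_jm_two (H : Jet h) (μ : ℝ) {j : ℕ} (hj : j ≤ 3) (s z : ℝ) :
    u (jm μ h) 2 j s z = u h 2 j s z - μ * u h 0 j s z := by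
  obtain ⟨B1, hB1⟩ := H.b 2 j (by omega)
  obtain ⟨B2, hB2⟩ := H.b 0 j (by omega)
  have e : jm μ h 2 j = fun z => h 2 j z - μ * h 0 j z := funext fun z => jm_two μ j z
  unfold u
  rw [e, jm_ne μ (by omega) (by omega),
    P_sub (H.c 2 j (by omega)) (H.c 0 j (by omega)) hB1 hB2]
  ring

theorem u_jm_three (H : Jet h) (μ : ℝ) {j : ℕ} (hj : j ≤ 2) (s z : ℝ) :
    u (jm μ h) 3 j s z = u h 3 j s z - 3 * μ * u h 1 j s z := by
  obtain ⟨B1, hB1⟩ := H.b 3 j (by omega)
  obtain ⟨B2, hB2⟩ := H.b 1 j (by omega)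
  have e : jm μ h 3 j = fun z => h 3 j z - 3 * μ * h 1 j z := funext fun z => jm_three μ j z
  unfold u
  rw [e, jm_ne μ (by omega) (by omega),
    P_sub (H.c 3 j (by omega)) (H.c 1 j (by omega)) hB1 hB2]
  ring

theorem u_zero (H : Jet h) (s z : ℝ) : u h 0 0 s z = 1 := by
  unfold u
  exact div_self (H.P00_pos s z).ne'

theorem Q_jm (H : Jet h) (μ s z a b : ℝ) : Q (jm μ h) s z a b = Q h s z a b + μ * a ^ 2 := by
  have hl : ∀ i j, i < 2 → u (jm μ h) i j s z = u h i j s z := fun i j hi => u_jm_lt μ hi j s z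
  rw [Q_eq, Q_eq, hl 1 1 (by norm_num), hl 0 2 (by norm_num), hl 1 0 (by norm_num),
    hl 0 1 (by norm_num), u_jm_two H μ (j := 0) (by norm_num), u_zero H]
  ring

theorem R_jm (H : Jet h) (μ s z a b : ℝ) : R (jm μ h) s z a b = R h s z a b := by
  have hl : ∀ i j, i < 2 → u (jm μ h) i j s z = u h i j s z := fun i j hi => u_jm_lt μ hi j s z
  rw [R_eq, R_eq, hl 1 1 (by norm_num), hl 0 2 (by norm_num), hl 1 0 (by norm_num),
    hl 0 1 (by norm_num), hl 1 2 (by norm_num), hl 0 3 (by norm_num),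
    u_jm_two H μ (j := 0) (by norm_num), u_jm_two H μ (j := 1) (by norm_num),
    u_jm_three H μ (j := 0) (by norm_num), u_zero H]
  ring

end

section
variable {W : E n → ℝ} {c C : ℝ}

theorem norm_comb_le (v p : E n) (a b : ℝ) :
    ‖a • v + b • p‖ ^ 2 ≤ 2 * (‖v‖ ^ 2 + ‖p‖ ^ 2) * (a ^ 2 + b ^ 2) := by
  have h1 : ‖a • v + b • p‖ ≤ |a| * ‖v‖ + |b| * ‖p‖ := by
    refine (norm_add_le _ _).trans (le_of_eq ?_)
    rw [norm_smul, norm_smul, Real.norm_eq_abs, Real.norm_eq_abs]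
  have h2 : ‖a • v + b • p‖ ^ 2 ≤ (|a| * ‖v‖ + |b| * ‖p‖) ^ 2 :=
    pow_le_pow_left₀ (norm_nonneg _) h1 2
  have h3 : (|a| * ‖v‖ + |b| * ‖p‖) ^ 2 ≤ 2 * (a ^ 2 * ‖v‖ ^ 2) + 2 * (b ^ 2 * ‖p‖ ^ 2) := by
    have := sq_nonneg (|a| * ‖v‖ - |b| * ‖p‖)
    rw [← sq_abs a, ← sq_abs b]
    nlinarith
  nlinarith [sq_nonneg a, sq_nonneg b, sq_nonneg ‖v‖, sq_nonneg ‖p‖,
    mul_nonneg (sq_nonneg a) (sq_nonneg ‖p‖), mul_nonneg (sq_nonneg b) (sq_nonneg ‖v‖)]

theorem norm_comb_ge (v p : E n) (a b : ℝ) :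
    b ^ 2 * ‖p‖ ^ 2 ≤ 2 * ‖a • v + b • p‖ ^ 2 + 2 * (a ^ 2 * ‖v‖ ^ 2) := by
  have h1 : |b| * ‖p‖ ≤ ‖a • v + b • p‖ + |a| * ‖v‖ := by
    have e : b • p = (a • v + b • p) - a • v := by abel
    have h2 : ‖b • p‖ ≤ ‖a • v + b • p‖ + ‖a • v‖ := by
      conv_lhs => rw [e]
      exact norm_sub_le _ _
    rwa [norm_smul, norm_smul, Real.norm_eq_abs, Real.norm_eq_abs] at h2
  have h2 : (|b| * ‖p‖) ^ 2 ≤ (‖a • v + b • p‖ + |a| * ‖v‖) ^ 2 :=
    pow_le_pow_left₀ (by positivity) h1 2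
  have h3 := sq_nonneg (‖a • v + b • p‖ - |a| * ‖v‖)
  have h4 : (|b| * ‖p‖) ^ 2 = b ^ 2 * ‖p‖ ^ 2 := by rw [mul_pow, sq_abs]
  have h5 : (|a| * ‖v‖) ^ 2 = a ^ 2 * ‖v‖ ^ 2 := by rw [mul_pow, sq_abs]
  nlinarith

theorem key (hR : Reg W c C) {κ : ℝ} (hκ0 : 0 ≤ κ) (hκ1 : κ ≤ 1) (hs : SelfConc κ W)
    (v p x : E n) (hp : p ≠ 0) {μ : ℝ} (hμ : 0 < μ) :
    0 ≤ A0 (jet W v p x) 1 0 + μ ∧
    |B0 (jet W v p x) 1 0| ≤
      2 * κ * ((A0 (jet W v p x) 1 0 + μ) * √(A0 (jet W v p x) 1 0 + μ)) := by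
  have H := jet_isJet hR v p x
  have Hm := jm_isJet H μ
  have hc := hR.c_pos
  have hpn : 0 < ‖p‖ := norm_pos_iff.2 hp
  have hC : 0 < C := by
    have h1 := (hR.lower 0 p).trans (hR.upper 0 p)
    have h2 : 0 < ‖p‖ ^ 2 := by positivity
    have h3 : c ≤ C := le_of_mul_le_mul_right h1 h2
    linarith
  -- the lower constant
  obtain ⟨lam, hlam, hlow⟩ : ∃ lam : ℝ, 0 < lam ∧ ∀ a b : ℝ,
      lam * (a ^ 2 + b ^ 2) ≤ c * ‖a • v + b • p‖ ^ 2 + μ * a ^ 2 := by
    refine ⟨min (μ / 2) (min (c * ‖p‖ ^ 2 / 2) (μ * ‖p‖ ^ 2 / (4 * (‖v‖ ^ 2 + 1)))),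
      by positivity, fun a b => ?_⟩
    set lam := min (μ / 2) (min (c * ‖p‖ ^ 2 / 2) (μ * ‖p‖ ^ 2 / (4 * (‖v‖ ^ 2 + 1)))) with hl
    have hl0 : 0 < lam := by positivity
    have h1 : lam ≤ μ / 2 := min_le_left _ _
    have h2 : lam ≤ c * ‖p‖ ^ 2 / 2 := (min_le_right _ _).trans (min_le_left _ _)
    have h3 : lam ≤ μ * ‖p‖ ^ 2 / (4 * (‖v‖ ^ 2 + 1)) :=
      (min_le_right _ _).trans (min_le_right _ _)
    have h4 := norm_comb_ge v p a b
    set X := ‖a • v + b • p‖ ^ 2 with hX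
    have hX0 : 0 ≤ X := by positivity
    have hp2 : 0 < ‖p‖ ^ 2 := by positivity
    -- lam * b^2 ≤ c X + μ/2 a^2
    have h5 : lam * b ^ 2 * ‖p‖ ^ 2 ≤ (c * X + μ / 2 * a ^ 2) * ‖p‖ ^ 2 := by
      have e1 : lam * (2 * X) ≤ c * ‖p‖ ^ 2 * X := by nlinarith
      have e2 : lam * (2 * (a ^ 2 * ‖v‖ ^ 2)) ≤ μ / 2 * a ^ 2 * ‖p‖ ^ 2 := by
        rw [le_div_iff₀ (by positivity)] at h3
        have e3 : lam * (4 * ‖v‖ ^ 2) ≤ μ * ‖p‖ ^ 2 := by nlinarith
        nlinarith [mul_le_mul_of_nonneg_left e3 (sq_nonneg a)]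
      calc lam * b ^ 2 * ‖p‖ ^ 2 = lam * (b ^ 2 * ‖p‖ ^ 2) := by ring
        _ ≤ lam * (2 * X + 2 * (a ^ 2 * ‖v‖ ^ 2)) := mul_le_mul_of_nonneg_left h4 hl0.le
        _ = lam * (2 * X) + lam * (2 * (a ^ 2 * ‖v‖ ^ 2)) := by ring
        _ ≤ c * ‖p‖ ^ 2 * X + μ / 2 * a ^ 2 * ‖p‖ ^ 2 := add_le_add e1 e2
        _ = _ := by ring
    have h6 : lam * b ^ 2 ≤ c * X + μ / 2 * a ^ 2 := le_of_mul_le_mul_right h5 hp2
    have h7 : lam * a ^ 2 ≤ μ / 2 * a ^ 2 := mul_le_mul_of_nonneg_right h1 (sq_nonneg a)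
    linarith
  have hQ : ∀ z a b, Q (jm μ (jet W v p x)) 0 z a b =
      qf (hess W (x + z • p)) (a • v + b • p) + μ * a ^ 2 := by
    intro z a b
    rw [Q_jm H, Q_zero hR, DD_qf hR]
  have low0 : ∀ z v1 v2, lam * (v1 ^ 2 + v2 ^ 2) ≤ Q (jm μ (jet W v p x)) 0 z v1 v2 := by
    intro z a b
    rw [hQ]
    linarith [hlow a b, hR.lower (x + z • p) (a • v + b • p)]
  have up0 : ∀ z v1 v2, Q (jm μ (jet W v p x)) 0 z v1 v2 ≤
      (C * (2 * (‖v‖ ^ 2 + ‖p‖ ^ 2)) + μ) * (v1 ^ 2 + v2 ^ 2) := by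
    intro z a b
    rw [hQ]
    have h1 := hR.upper (x + z • p) (a • v + b • p)
    have h2 := mul_le_mul_of_nonneg_left (norm_comb_le v p a b) hC.le
    nlinarith [sq_nonneg b]
  have sc0 : ∀ z v1 v2, |R (jm μ (jet W v p x)) 0 z v1 v2| ≤
      2 * κ * (Q (jm μ (jet W v p x)) 0 z v1 v2 * √(Q (jm μ (jet W v p x)) 0 z v1 v2)) := by
    intro z a b
    rw [R_jm H, R_zero hR, hQ]
    have h1 := DDD_sc hR hs (a • v + b • p) (x + z • p)
    rw [DD_qf hR] at h1
    have h0 := LK.qf_nonneg_of_reg hR (x + z • p) (a • v + b • p)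
    refine h1.trans (mul_le_mul_of_nonneg_left ?_ (by positivity))
    have h2 : qf (hess W (x + z • p)) (a • v + b • p) ≤
        qf (hess W (x + z • p)) (a • v + b • p) + μ * a ^ 2 := by
      have : 0 ≤ μ * a ^ 2 := by positivity
      linarith
    exact mul_le_mul h2 (Real.sqrt_le_sqrt h2) (Real.sqrt_nonneg _) (h0.trans h2)
  have h := r2 Hm hlam hκ0 hκ1 low0 up0 sc0 (S := 1) zero_le_one 1 0 1 0 zero_le_one le_rfl
  have eQ : qa (A0 (jm μ (jet W v p x)) 1 0) (A1 (jm μ (jet W v p x)) 1 0)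
      (A2 (jm μ (jet W v p x)) 1 0) 1 0 = A0 (jet W v p x) 1 0 + μ := by
    have e1 := Q_jm H μ 1 0 1 0
    unfold Q at e1
    rw [e1]
    unfold qa
    ring
  have eR : qb (B0 (jm μ (jet W v p x)) 1 0) (B1 (jm μ (jet W v p x)) 1 0)
      (B2 (jm μ (jet W v p x)) 1 0) (B3 (jm μ (jet W v p x)) 1 0) 1 0 = B0 (jet W v p x) 1 0 := by
    have e1 := R_jm H μ 1 0 1 0
    unfold R at e1
    rw [e1]
    unfold qb
    ring
  rw [eQ, eR] at h
  refine ⟨le_trans ?_ h.1, h.2.2⟩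
  positivity

theorem sc_heat1 (hR : Reg W c C) {κ : ℝ} (hκ0 : 0 ≤ κ) (hκ1 : κ ≤ 1) (hs : SelfConc κ W)
    (p : E n) (hp : p ≠ 0) : SelfConc κ (heat1 W p) := by
  intro x v
  obtain ⟨e2, e3⟩ := iter_heat1 hR v p x
  rw [e2, e3]
  set A := A0 (jet W v p x) 1 0 with hA
  have hA0 : 0 ≤ A := by
    refine le_of_forall_pos_le_add fun μ hμ => ?_
    exact (key hR hκ0 hκ1 hs v p x hp hμ).1
  rw [LK.rpow_three_half hA0]
  have h5 : √A ^ 3 = A * √A := by rw [pow_succ, Real.sq_sqrt hA0]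
  rw [h5]
  have hcont : Tendsto (fun μ : ℝ => 2 * κ * ((A + μ) * √(A + μ))) (𝓝[>] 0)
      (𝓝 (2 * κ * (A * √A))) := by
    have h1 : Continuous fun μ : ℝ => 2 * κ * ((A + μ) * √(A + μ)) := by fun_prop
    have h2 := (h1.tendsto 0).mono_left (nhdsWithin_le_nhds (s := Set.Ioi (0 : ℝ)))
    simpa using h2
  refine ge_of_tendsto hcont ?_
  filter_upwards [self_mem_nhdsWithin] with μ hμ
  exact (key hR hκ0 hκ1 hs v p x hp hμ).2

theorem heat1_zero (W : E n → ℝ) (x : E n) :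
    heat1 W 0 x = W x - Real.log (∫ g : ℝ, Real.exp (-(g ^ 2 / 2))) := by
  unfold heat1
  have h1 : (∫ g : ℝ, Real.exp (-W (x + g • (0 : E n)) - g ^ 2 / 2)) =
      Real.exp (-W x) * ∫ g : ℝ, Real.exp (-(g ^ 2 / 2)) := by
    rw [← integral_const_mul]
    refine integral_congr_ae (Eventually.of_forall fun g => ?_)
    simp only [smul_zero, add_zero]
    rw [← Real.exp_add]
    congr 1
  have h2 : (0 : ℝ) < ∫ g : ℝ, Real.exp (-(g ^ 2 / 2)) := by
    have h3 : (fun g : ℝ => Real.exp (-(g ^ 2 / 2))) = fun g : ℝ => Real.exp (-(1 / 2) * g ^ 2) := by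
      funext g; congr 1; ring
    rw [h3, integral_gaussian]
    positivity
  rw [h1, Real.log_mul (Real.exp_pos _).ne' h2.ne', Real.log_exp]
  ring

/-- **the one-direction Gaussian average keeps the self-concordance constant** -/
theorem stmtH1D : StmtH1D := by
  intro n W c C κ hR hκ0 hκ1 hs p
  by_cases hp : p = 0
  · subst hp
    intro x v
    have e : (fun t : ℝ => heat1 W 0 (x + t • v)) = fun t : ℝ =>
        W (x + t • v) - Real.log (∫ g : ℝ, Real.exp (-(g ^ 2 / 2))) :=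
      funext fun t => heat1_zero W _
    have hd : deriv (fun t : ℝ => heat1 W 0 (x + t • v)) = deriv fun t : ℝ => W (x + t • v) := by
      rw [e]
      funext t
      exact deriv_sub_const _
    have e2 : iteratedDeriv 2 (fun t : ℝ => heat1 W 0 (x + t • v)) =
        iteratedDeriv 2 (fun t : ℝ => W (x + t • v)) := by
      rw [iteratedDeriv_succ', hd, ← iteratedDeriv_succ']
    have e3 : iteratedDeriv 3 (fun t : ℝ => heat1 W 0 (x + t • v)) =
        iteratedDeriv 3 (fun t : ℝ => W (x + t • v)) := by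
      rw [iteratedDeriv_succ', hd, ← iteratedDeriv_succ']
    rw [e2, e3]
    exact hs x v
  · exact sc_heat1 hR hκ0 hκ1 hs p hp

end

end Vale.Agent.P227.M.SC2.H1D801
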