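import Mathlib

/-!
P227/M, block SC-2, (H1): the algebra of the cumulants `D^2 w`, `D^3 w` of `w = - log P` for a
solution `P` of the heat equation, in terms of the quotients `U i j = P_ij / P_00`.
-/

namespace Vale.Agent.P227.M.SC2

/-- The `z` derivative of the quotients. -/
def Uz (U : ℕ → ℕ → ℝ) (i j : ℕ) : ℝ := U i (j + 1) - U i j * U 0 1

/-- The `s` derivative of the quotients. -/
noncomputable def Us (U : ℕ → ℕ → ℝ) (i j : ℕ) : ℝ := 1 / 2 * (U i (j + 2) - U i j * U 0 2)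

/-- The `t` derivative of the quotients. -/
def Ut (U : ℕ → ℕ → ℝ) (i j : ℕ) : ℝ := U (i + 1) j - U i j * U 1 0

/-- A cumulant. -/
def pA0 (U : ℕ → ℕ → ℝ) : ℝ :=
  -(U 2 0) + U 1 0 * U 1 0

/-- A cumulant. -/
def pA1 (U : ℕ → ℕ → ℝ) : ℝ :=
  -(U 1 1) + U 0 1 * U 1 0

/-- A cumulant. -/
def pA2 (U : ℕ → ℕ → ℝ) : ℝ :=
  -(U 0 2) + U 0 1 * U 0 1

/-- A cumulant. -/
def pB0 (U : ℕ → ℕ → ℝ) : ℝ :=
  -(U 3 0) + 3 * (U 1 0 * U 2 0) - 2 * (U 1 0 * U 1 0 * U 1 0)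

/-- A cumulant. -/
def pB1 (U : ℕ → ℕ → ℝ) : ℝ :=
  -(U 2 1) + U 0 1 * U 2 0 + 2 * (U 1 0 * U 1 1) - 2 * (U 0 1 * U 1 0 * U 1 0)

/-- A cumulant. -/
def pB2 (U : ℕ → ℕ → ℝ) : ℝ :=
  -(U 1 2) + 2 * (U 0 1 * U 1 1) + U 0 2 * U 1 0 - 2 * (U 0 1 * U 0 1 * U 1 0)

/-- A cumulant. -/
def pB3 (U : ℕ → ℕ → ℝ) : ℝ :=
  -(U 0 3) + 3 * (U 0 1 * U 0 2) - 2 * (U 0 1 * U 0 1 * U 0 1)

/-- A cumulant. -/
def pC1 (U : ℕ → ℕ → ℝ) : ℝ :=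
  -(U 3 1) + U 0 1 * U 3 0 + 3 * (U 1 0 * U 2 1) + 3 * (U 1 1 * U 2 0)
     - 6 * (U 0 1 * U 1 0 * U 2 0) - 6 * (U 1 0 * U 1 0 * U 1 1)
     + 6 * (U 0 1 * U 1 0 * U 1 0 * U 1 0)

/-- A cumulant. -/
def pC2 (U : ℕ → ℕ → ℝ) : ℝ :=
  -(U 2 2) + 2 * (U 0 1 * U 2 1) + U 0 2 * U 2 0 + 2 * (U 1 0 * U 1 2) + 2 * (U 1 1 * U 1 1)
     - 2 * (U 0 1 * U 0 1 * U 2 0) - 8 * (U 0 1 * U 1 0 * U 1 1) - 2 * (U 0 2 * U 1 0 * U 1 0)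
     + 6 * (U 0 1 * U 0 1 * U 1 0 * U 1 0)

/-- A cumulant. -/
def pC3 (U : ℕ → ℕ → ℝ) : ℝ :=
  -(U 1 3) + 3 * (U 0 1 * U 1 2) + 3 * (U 0 2 * U 1 1) + U 0 3 * U 1 0
     - 6 * (U 0 1 * U 0 1 * U 1 1) - 6 * (U 0 1 * U 0 2 * U 1 0)
     + 6 * (U 0 1 * U 0 1 * U 0 1 * U 1 0)

/-- A cumulant. -/
def pC4 (U : ℕ → ℕ → ℝ) : ℝ :=
  -(U 0 4) + 4 * (U 0 1 * U 0 3) + 3 * (U 0 2 * U 0 2) - 12 * (U 0 1 * U 0 1 * U 0 2)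
     + 6 * (U 0 1 * U 0 1 * U 0 1 * U 0 1)

/-- A cumulant. -/
def pE1 (U : ℕ → ℕ → ℝ) : ℝ :=
  -(U 3 2) + 2 * (U 0 1 * U 3 1) + U 0 2 * U 3 0 + 3 * (U 1 0 * U 2 2) + 6 * (U 1 1 * U 2 1)
     + 3 * (U 1 2 * U 2 0) - 2 * (U 0 1 * U 0 1 * U 3 0) - 12 * (U 0 1 * U 1 0 * U 2 1)
     - 12 * (U 0 1 * U 1 1 * U 2 0) - 6 * (U 0 2 * U 1 0 * U 2 0) - 6 * (U 1 0 * U 1 0 * U 1 2)
     - 12 * (U 1 0 * U 1 1 * U 1 1) + 18 * (U 0 1 * U 0 1 * U 1 0 * U 2 0)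
     + 36 * (U 0 1 * U 1 0 * U 1 0 * U 1 1) + 6 * (U 0 2 * U 1 0 * U 1 0 * U 1 0)
     - 24 * (U 0 1 * U 0 1 * U 1 0 * U 1 0 * U 1 0)

/-- A cumulant. -/
def pE2 (U : ℕ → ℕ → ℝ) : ℝ :=
  -(U 2 3) + 3 * (U 0 1 * U 2 2) + 3 * (U 0 2 * U 2 1) + U 0 3 * U 2 0 + 2 * (U 1 0 * U 1 3)
     + 6 * (U 1 1 * U 1 2) - 6 * (U 0 1 * U 0 1 * U 2 1) - 6 * (U 0 1 * U 0 2 * U 2 0)
     - 12 * (U 0 1 * U 1 0 * U 1 2) - 12 * (U 0 1 * U 1 1 * U 1 1)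
     - 12 * (U 0 2 * U 1 0 * U 1 1) - 2 * (U 0 3 * U 1 0 * U 1 0)
     + 6 * (U 0 1 * U 0 1 * U 0 1 * U 2 0) + 36 * (U 0 1 * U 0 1 * U 1 0 * U 1 1)
     + 18 * (U 0 1 * U 0 2 * U 1 0 * U 1 0) - 24 * (U 0 1 * U 0 1 * U 0 1 * U 1 0 * U 1 0)

/-- A cumulant. -/
def pE3 (U : ℕ → ℕ → ℝ) : ℝ :=
  -(U 1 4) + 4 * (U 0 1 * U 1 3) + 6 * (U 0 2 * U 1 2) + 4 * (U 0 3 * U 1 1) + U 0 4 * U 1 0
     - 12 * (U 0 1 * U 0 1 * U 1 2) - 24 * (U 0 1 * U 0 2 * U 1 1) - 8 * (U 0 1 * U 0 3 * U 1 0)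
     - 6 * (U 0 2 * U 0 2 * U 1 0) + 24 * (U 0 1 * U 0 1 * U 0 1 * U 1 1)
     + 36 * (U 0 1 * U 0 1 * U 0 2 * U 1 0) - 24 * (U 0 1 * U 0 1 * U 0 1 * U 0 1 * U 1 0)

/-- A cumulant. -/
def pE4 (U : ℕ → ℕ → ℝ) : ℝ :=
  -(U 0 5) + 5 * (U 0 1 * U 0 4) + 10 * (U 0 2 * U 0 3) - 20 * (U 0 1 * U 0 1 * U 0 3)
     - 30 * (U 0 1 * U 0 2 * U 0 2) + 60 * (U 0 1 * U 0 1 * U 0 1 * U 0 2)
     - 24 * (U 0 1 * U 0 1 * U 0 1 * U 0 1 * U 0 1)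

/-- The differential of `pA0`. -/
def dA0 (U D : ℕ → ℕ → ℝ) : ℝ :=
  -(D 2 0) + ((D 1 0) * U 1 0 + (U 1 0) * D 1 0)

/-- The differential of `pA1`. -/
def dA1 (U D : ℕ → ℕ → ℝ) : ℝ :=
  -(D 1 1) + ((D 0 1) * U 1 0 + (U 0 1) * D 1 0)

/-- The differential of `pA2`. -/
def dA2 (U D : ℕ → ℕ → ℝ) : ℝ :=
  -(D 0 2) + ((D 0 1) * U 0 1 + (U 0 1) * D 0 1)

/-- The differential of `pB0`. -/
def dB0 (U D : ℕ → ℕ → ℝ) : ℝ :=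
  -(D 3 0) + 3 * (((D 1 0) * U 2 0 + (U 1 0) * D 2 0))
     - 2 * (((((D 1 0) * U 1 0 + (U 1 0) * D 1 0)) * U 1 0 + (U 1 0 * U 1 0) * D 1 0))

/-- The differential of `pB1`. -/
def dB1 (U D : ℕ → ℕ → ℝ) : ℝ :=
  -(D 2 1) + ((D 0 1) * U 2 0 + (U 0 1) * D 2 0) + 2 * (((D 1 0) * U 1 1 + (U 1 0) * D 1 1))
     - 2 * (((((D 0 1) * U 1 0 + (U 0 1) * D 1 0)) * U 1 0 + (U 0 1 * U 1 0) * D 1 0))

/-- The differential of `pB2`. -/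
def dB2 (U D : ℕ → ℕ → ℝ) : ℝ :=
  -(D 1 2) + 2 * (((D 0 1) * U 1 1 + (U 0 1) * D 1 1)) + ((D 0 2) * U 1 0 + (U 0 2) * D 1 0)
     - 2 * (((((D 0 1) * U 0 1 + (U 0 1) * D 0 1)) * U 1 0 + (U 0 1 * U 0 1) * D 1 0))

/-- The differential of `pB3`. -/
def dB3 (U D : ℕ → ℕ → ℝ) : ℝ :=
  -(D 0 3) + 3 * (((D 0 1) * U 0 2 + (U 0 1) * D 0 2))
     - 2 * (((((D 0 1) * U 0 1 + (U 0 1) * D 0 1)) * U 0 1 + (U 0 1 * U 0 1) * D 0 1))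

/-- The differential of `pC1`. -/
def dC1 (U D : ℕ → ℕ → ℝ) : ℝ :=
  -(D 3 1) + ((D 0 1) * U 3 0 + (U 0 1) * D 3 0) + 3 * (((D 1 0) * U 2 1 + (U 1 0) * D 2 1))
     + 3 * (((D 1 1) * U 2 0 + (U 1 1) * D 2 0))
     - 6 * (((((D 0 1) * U 1 0 + (U 0 1) * D 1 0)) * U 2 0 + (U 0 1 * U 1 0) * D 2 0))
     - 6 * (((((D 1 0) * U 1 0 + (U 1 0) * D 1 0)) * U 1 1 + (U 1 0 * U 1 0) * D 1 1))
     + 6 * (((((((D 0 1) * U 1 0 + (U 0 1) * D 1 0)) * U 1 0 + (U 0 1 * U 1 0) * D 1 0)) * U 1 0 + (U 0 1 * U 1 0 * U 1 0) * D 1 0))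

/-- The differential of `pC2`. -/
def dC2 (U D : ℕ → ℕ → ℝ) : ℝ :=
  -(D 2 2) + 2 * (((D 0 1) * U 2 1 + (U 0 1) * D 2 1)) + ((D 0 2) * U 2 0 + (U 0 2) * D 2 0)
     + 2 * (((D 1 0) * U 1 2 + (U 1 0) * D 1 2)) + 2 * (((D 1 1) * U 1 1 + (U 1 1) * D 1 1))
     - 2 * (((((D 0 1) * U 0 1 + (U 0 1) * D 0 1)) * U 2 0 + (U 0 1 * U 0 1) * D 2 0))
     - 8 * (((((D 0 1) * U 1 0 + (U 0 1) * D 1 0)) * U 1 1 + (U 0 1 * U 1 0) * D 1 1))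
     - 2 * (((((D 0 2) * U 1 0 + (U 0 2) * D 1 0)) * U 1 0 + (U 0 2 * U 1 0) * D 1 0))
     + 6 * (((((((D 0 1) * U 0 1 + (U 0 1) * D 0 1)) * U 1 0 + (U 0 1 * U 0 1) * D 1 0)) * U 1 0 + (U 0 1 * U 0 1 * U 1 0) * D 1 0))

/-- The differential of `pC3`. -/
def dC3 (U D : ℕ → ℕ → ℝ) : ℝ :=
  -(D 1 3) + 3 * (((D 0 1) * U 1 2 + (U 0 1) * D 1 2))
     + 3 * (((D 0 2) * U 1 1 + (U 0 2) * D 1 1)) + ((D 0 3) * U 1 0 + (U 0 3) * D 1 0)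
     - 6 * (((((D 0 1) * U 0 1 + (U 0 1) * D 0 1)) * U 1 1 + (U 0 1 * U 0 1) * D 1 1))
     - 6 * (((((D 0 1) * U 0 2 + (U 0 1) * D 0 2)) * U 1 0 + (U 0 1 * U 0 2) * D 1 0))
     + 6 * (((((((D 0 1) * U 0 1 + (U 0 1) * D 0 1)) * U 0 1 + (U 0 1 * U 0 1) * D 0 1)) * U 1 0 + (U 0 1 * U 0 1 * U 0 1) * D 1 0))

/-- The differential of `pC4`. -/
def dC4 (U D : ℕ → ℕ → ℝ) : ℝ :=
  -(D 0 4) + 4 * (((D 0 1) * U 0 3 + (U 0 1) * D 0 3))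
     + 3 * (((D 0 2) * U 0 2 + (U 0 2) * D 0 2))
     - 12 * (((((D 0 1) * U 0 1 + (U 0 1) * D 0 1)) * U 0 2 + (U 0 1 * U 0 1) * D 0 2))
     + 6 * (((((((D 0 1) * U 0 1 + (U 0 1) * D 0 1)) * U 0 1 + (U 0 1 * U 0 1) * D 0 1)) * U 0 1 + (U 0 1 * U 0 1 * U 0 1) * D 0 1))

theorem hd_A0 {V : ℕ → ℕ → ℝ → ℝ} {D : ℕ → ℕ → ℝ} {x : ℝ}
    (hV : ∀ i j, i + j ≤ 3 → HasDerivAt (V i j) (D i j) x) :
    HasDerivAt (fun y => pA0 fun i j => V i j y) (dA0 (fun i j => V i j x) D) x := by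
  unfold pA0 dA0
  exact ((hV 2 0 (by norm_num)).fun_neg).fun_add ((hV 1 0 (by norm_num)).fun_mul (hV 1 0 (by norm_num)))

theorem hd_A1 {V : ℕ → ℕ → ℝ → ℝ} {D : ℕ → ℕ → ℝ} {x : ℝ}
    (hV : ∀ i j, i + j ≤ 3 → HasDerivAt (V i j) (D i j) x) :
    HasDerivAt (fun y => pA1 fun i j => V i j y) (dA1 (fun i j => V i j x) D) x := by
  unfold pA1 dA1
  exact ((hV 1 1 (by norm_num)).fun_neg).fun_add ((hV 0 1 (by norm_num)).fun_mul (hV 1 0 (by norm_num)))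

theorem hd_A2 {V : ℕ → ℕ → ℝ → ℝ} {D : ℕ → ℕ → ℝ} {x : ℝ}
    (hV : ∀ i j, i + j ≤ 3 → HasDerivAt (V i j) (D i j) x) :
    HasDerivAt (fun y => pA2 fun i j => V i j y) (dA2 (fun i j => V i j x) D) x := by
  unfold pA2 dA2
  exact ((hV 0 2 (by norm_num)).fun_neg).fun_add ((hV 0 1 (by norm_num)).fun_mul (hV 0 1 (by norm_num)))

theorem hd_B0 {V : ℕ → ℕ → ℝ → ℝ} {D : ℕ → ℕ → ℝ} {x : ℝ}
    (hV : ∀ i j, i + j ≤ 3 → HasDerivAt (V i j) (D i j) x) :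
    HasDerivAt (fun y => pB0 fun i j => V i j y) (dB0 (fun i j => V i j x) D) x := by
  unfold pB0 dB0
  exact (((hV 3 0 (by norm_num)).fun_neg).fun_add (((hV 1 0 (by norm_num)).fun_mul (hV 2 0 (by norm_num))).const_mul 3)).fun_sub ((((hV 1 0 (by norm_num)).fun_mul (hV 1 0 (by norm_num))).fun_mul (hV 1 0 (by norm_num))).const_mul 2)

theorem hd_B1 {V : ℕ → ℕ → ℝ → ℝ} {D : ℕ → ℕ → ℝ} {x : ℝ}
    (hV : ∀ i j, i + j ≤ 3 → HasDerivAt (V i j) (D i j) x) :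
    HasDerivAt (fun y => pB1 fun i j => V i j y) (dB1 (fun i j => V i j x) D) x := by
  unfold pB1 dB1
  exact ((((hV 2 1 (by norm_num)).fun_neg).fun_add ((hV 0 1 (by norm_num)).fun_mul (hV 2 0 (by norm_num)))).fun_add (((hV 1 0 (by norm_num)).fun_mul (hV 1 1 (by norm_num))).const_mul 2)).fun_sub ((((hV 0 1 (by norm_num)).fun_mul (hV 1 0 (by norm_num))).fun_mul (hV 1 0 (by norm_num))).const_mul 2)

theorem hd_B2 {V : ℕ → ℕ → ℝ → ℝ} {D : ℕ → ℕ → ℝ} {x : ℝ}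
    (hV : ∀ i j, i + j ≤ 3 → HasDerivAt (V i j) (D i j) x) :
    HasDerivAt (fun y => pB2 fun i j => V i j y) (dB2 (fun i j => V i j x) D) x := by
  unfold pB2 dB2
  exact ((((hV 1 2 (by norm_num)).fun_neg).fun_add (((hV 0 1 (by norm_num)).fun_mul (hV 1 1 (by norm_num))).const_mul 2)).fun_add ((hV 0 2 (by norm_num)).fun_mul (hV 1 0 (by norm_num)))).fun_sub ((((hV 0 1 (by norm_num)).fun_mul (hV 0 1 (by norm_num))).fun_mul (hV 1 0 (by norm_num))).const_mul 2)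

theorem hd_B3 {V : ℕ → ℕ → ℝ → ℝ} {D : ℕ → ℕ → ℝ} {x : ℝ}
    (hV : ∀ i j, i + j ≤ 3 → HasDerivAt (V i j) (D i j) x) :
    HasDerivAt (fun y => pB3 fun i j => V i j y) (dB3 (fun i j => V i j x) D) x := by
  unfold pB3 dB3
  exact (((hV 0 3 (by norm_num)).fun_neg).fun_add (((hV 0 1 (by norm_num)).fun_mul (hV 0 2 (by norm_num))).const_mul 3)).fun_sub ((((hV 0 1 (by norm_num)).fun_mul (hV 0 1 (by norm_num))).fun_mul (hV 0 1 (by norm_num))).const_mul 2)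

theorem hd_C1 {V : ℕ → ℕ → ℝ → ℝ} {D : ℕ → ℕ → ℝ} {x : ℝ}
    (hV : ∀ i j, i + j ≤ 4 → HasDerivAt (V i j) (D i j) x) :
    HasDerivAt (fun y => pC1 fun i j => V i j y) (dC1 (fun i j => V i j x) D) x := by
  unfold pC1 dC1
  exact (((((((hV 3 1 (by norm_num)).fun_neg).fun_add ((hV 0 1 (by norm_num)).fun_mul (hV 3 0 (by norm_num)))).fun_add (((hV 1 0 (by norm_num)).fun_mul (hV 2 1 (by norm_num))).const_mul 3)).fun_add (((hV 1 1 (by norm_num)).fun_mul (hV 2 0 (by norm_num))).const_mul 3)).fun_sub ((((hV 0 1 (by norm_num)).fun_mul (hV 1 0 (by norm_num))).fun_mul (hV 2 0 (by norm_num))).const_mul 6)).fun_sub ((((hV 1 0 (by norm_num)).fun_mul (hV 1 0 (by norm_num))).fun_mul (hV 1 1 (by norm_num))).const_mul 6)).fun_add (((((hV 0 1 (by norm_num)).fun_mul (hV 1 0 (by norm_num))).fun_mul (hV 1 0 (by norm_num))).fun_mul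 (hV 1 0 (by norm_num))).const_mul 6)

theorem hd_C2 {V : ℕ → ℕ → ℝ → ℝ} {D : ℕ → ℕ → ℝ} {x : ℝ}
    (hV : ∀ i j, i + j ≤ 4 → HasDerivAt (V i j) (D i j) x) :
    HasDerivAt (fun y => pC2 fun i j => V i j y) (dC2 (fun i j => V i j x) D) x := by
  unfold pC2 dC2
  exact (((((((((hV 2 2 (by norm_num)).fun_neg).fun_add (((hV 0 1 (by norm_num)).fun_mul (hV 2 1 (by norm_num))).const_mul 2)).fun_add ((hV 0 2 (by norm_num)).fun_mul (hV 2 0 (by norm_num)))).fun_add (((hV 1 0 (by norm_num)).fun_mul (hV 1 2 (by norm_num))).const_mul 2)).fun_add (((hV 1 1 (by norm_num)).fun_mul (hV 1 1 (by norm_num))).const_mul 2)).fun_sub ((((hV 0 1 (by norm_num)).fun_mul (hV 0 1 (by norm_num))).fun_mul (hV 2 0 (by norm_num))).const_mul 2)).fun_sub ((((hV 0 1 (by norm_num)).fun_mul (hV 1 0 (by norm_num))).fun_mul (hV 1 1 (by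 norm_num))).const_mul 8)).fun_sub ((((hV 0 2 (by norm_num)).fun_mul (hV 1 0 (by norm_num))).fun_mul (hV 1 0 (by norm_num))).const_mul 2)).fun_add (((((hV 0 1 (by norm_num)).fun_mul (hV 0 1 (by norm_num))).fun_mul (hV 1 0 (by norm_num))).fun_mul (hV 1 0 (by norm_num))).const_mul 6)

theorem hd_C3 {V : ℕ → ℕ → ℝ → ℝ} {D : ℕ → ℕ → ℝ} {x : ℝ}
    (hV : ∀ i j, i + j ≤ 4 → HasDerivAt (V i j) (D i j) x) :
    HasDerivAt (fun y => pC3 fun i j => V i j y) (dC3 (fun i j => V i j x) D) x := by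
  unfold pC3 dC3
  exact (((((((hV 1 3 (by norm_num)).fun_neg).fun_add (((hV 0 1 (by norm_num)).fun_mul (hV 1 2 (by norm_num))).const_mul 3)).fun_add (((hV 0 2 (by norm_num)).fun_mul (hV 1 1 (by norm_num))).const_mul 3)).fun_add ((hV 0 3 (by norm_num)).fun_mul (hV 1 0 (by norm_num)))).fun_sub ((((hV 0 1 (by norm_num)).fun_mul (hV 0 1 (by norm_num))).fun_mul (hV 1 1 (by norm_num))).const_mul 6)).fun_sub ((((hV 0 1 (by norm_num)).fun_mul (hV 0 2 (by norm_num))).fun_mul (hV 1 0 (by norm_num))).const_mul 6)).fun_add (((((hV 0 1 (by norm_num)).fun_mul (hV 0 1 (by norm_num))).fun_mul (hV 0 1 (by norm_num))).fun_mul (hV 1 0 (by norm_num))).const_mul 6)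

theorem hd_C4 {V : ℕ → ℕ → ℝ → ℝ} {D : ℕ → ℕ → ℝ} {x : ℝ}
    (hV : ∀ i j, i + j ≤ 4 → HasDerivAt (V i j) (D i j) x) :
    HasDerivAt (fun y => pC4 fun i j => V i j y) (dC4 (fun i j => V i j x) D) x := by
  unfold pC4 dC4
  exact (((((hV 0 4 (by norm_num)).fun_neg).fun_add (((hV 0 1 (by norm_num)).fun_mul (hV 0 3 (by norm_num))).const_mul 4)).fun_add (((hV 0 2 (by norm_num)).fun_mul (hV 0 2 (by norm_num))).const_mul 3)).fun_sub ((((hV 0 1 (by norm_num)).fun_mul (hV 0 1 (by norm_num))).fun_mul (hV 0 2 (by norm_num))).const_mul 12)).fun_add (((((hV 0 1 (by norm_num)).fun_mul (hV 0 1 (by norm_num))).fun_mul (hV 0 1 (by norm_num))).fun_mul (hV 0 1 (by norm_num))).const_mul 6)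

theorem id_z_A0 (U : ℕ → ℕ → ℝ) : dA0 U (Uz U) = pB1 U := by
  unfold dA0 pB1 Uz
  ring

theorem id_z_A1 (U : ℕ → ℕ → ℝ) : dA1 U (Uz U) = pB2 U := by
  unfold dA1 pB2 Uz
  ring

theorem id_z_A2 (U : ℕ → ℕ → ℝ) : dA2 U (Uz U) = pB3 U := by
  unfold dA2 pB3 Uz
  ring

theorem id_z_B0 (U : ℕ → ℕ → ℝ) : dB0 U (Uz U) = pC1 U := by
  unfold dB0 pC1 Uz
  ring

theorem id_z_B1 (U : ℕ → ℕ → ℝ) : dB1 U (Uz U) = pC2 U := by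
  unfold dB1 pC2 Uz
  ring

theorem id_z_B2 (U : ℕ → ℕ → ℝ) : dB2 U (Uz U) = pC3 U := by
  unfold dB2 pC3 Uz
  ring

theorem id_z_B3 (U : ℕ → ℕ → ℝ) : dB3 U (Uz U) = pC4 U := by
  unfold dB3 pC4 Uz
  ring

theorem id_z_C1 (U : ℕ → ℕ → ℝ) : dC1 U (Uz U) = pE1 U := by
  unfold dC1 pE1 Uz
  ring

theorem id_z_C2 (U : ℕ → ℕ → ℝ) : dC2 U (Uz U) = pE2 U := by
  unfold dC2 pE2 Uz
  ring

theorem id_z_C3 (U : ℕ → ℕ → ℝ) : dC3 U (Uz U) = pE3 U := by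
  unfold dC3 pE3 Uz
  ring

theorem id_z_C4 (U : ℕ → ℕ → ℝ) : dC4 U (Uz U) = pE4 U := by
  unfold dC4 pE4 Uz
  ring

theorem id_s_A0 (U : ℕ → ℕ → ℝ) :
    dA0 U (Us U) = 1 / 2 * pC2 U + U 0 1 * pB1 U - pA1 U ^ 2 := by
  unfold dA0 pA1 pB1 pC2 Us
  ring

theorem id_s_A1 (U : ℕ → ℕ → ℝ) :
    dA1 U (Us U) = 1 / 2 * pC3 U + U 0 1 * pB2 U - pA1 U * pA2 U := by
  unfold dA1 pA1 pA2 pB2 pC3 Us
  ring

theorem id_s_A2 (U : ℕ → ℕ → ℝ) :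
    dA2 U (Us U) = 1 / 2 * pC4 U + U 0 1 * pB3 U - pA2 U ^ 2 := by
  unfold dA2 pA2 pB3 pC4 Us
  ring

theorem id_s_B0 (U : ℕ → ℕ → ℝ) :
    dB0 U (Us U) = 1 / 2 * pE1 U + U 0 1 * pC1 U - 3 * (pA1 U * pB1 U) := by
  unfold dB0 pA1 pB1 pC1 pE1 Us
  ring

theorem id_s_B1 (U : ℕ → ℕ → ℝ) :
    dB1 U (Us U) = 1 / 2 * pE2 U + U 0 1 * pC2 U - (pA2 U * pB1 U + 2 * (pA1 U * pB2 U)) := by
  unfold dB1 pA1 pA2 pB1 pB2 pC2 pE2 Us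
  ring

theorem id_s_B2 (U : ℕ → ℕ → ℝ) :
    dB2 U (Us U) = 1 / 2 * pE3 U + U 0 1 * pC3 U - (2 * (pA2 U * pB2 U) + pA1 U * pB3 U) := by
  unfold dB2 pA1 pA2 pB2 pB3 pC3 pE3 Us
  ring

theorem id_s_B3 (U : ℕ → ℕ → ℝ) :
    dB3 U (Us U) = 1 / 2 * pE4 U + U 0 1 * pC4 U - 3 * (pA2 U * pB3 U) := by
  unfold dB3 pA2 pB3 pC4 pE4 Us
  ring

theorem id_t_A0 (U : ℕ → ℕ → ℝ) : dA0 U (Ut U) = pB0 U := by
  unfold dA0 pB0 Ut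
  ring


end Vale.Agent.P227.M.SC2
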