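import Vale.Agent.P227.M.SC2.HeatJet

/-!
P227/M, block SC-2, (H1): the equations of the derivatives of order two and three of
`w(s, t, z) = - log E exp (- W (t, z + √s g))`: with `D = ∂_s - (1/2) ∂_z ^ 2 + w_z ∂_z`,
`D A0 = - A1 ^ 2`, ..., `D B3 = - 3 A2 B3`.
-/

namespace Vale.Agent.P227.M.SC2

open MeasureTheory ProbabilityTheory Filter Topology

variable {h : ℕ → ℕ → ℝ → ℝ}

/-! ### The derivatives of `w` -/

/-- `w_z`. -/
noncomputable def wz (h : ℕ → ℕ → ℝ → ℝ) (s z : ℝ) : ℝ := -u h 0 1 s z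

/-- `w_t`. -/
noncomputable def wt (h : ℕ → ℕ → ℝ → ℝ) (s z : ℝ) : ℝ := -u h 1 0 s z

/-- `w_tt`. -/
noncomputable def A0 (h : ℕ → ℕ → ℝ → ℝ) (s z : ℝ) : ℝ := pA0 fun i j => u h i j s z

/-- `w_tz`. -/
noncomputable def A1 (h : ℕ → ℕ → ℝ → ℝ) (s z : ℝ) : ℝ := pA1 fun i j => u h i j s z

/-- `w_zz`. -/
noncomputable def A2 (h : ℕ → ℕ → ℝ → ℝ) (s z : ℝ) : ℝ := pA2 fun i j => u h i j s z

/-- `w_ttt`. -/
noncomputable def B0 (h : ℕ → ℕ → ℝ → ℝ) (s z : ℝ) : ℝ := pB0 fun i j => u h i j s z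

/-- `w_ttz`. -/
noncomputable def B1 (h : ℕ → ℕ → ℝ → ℝ) (s z : ℝ) : ℝ := pB1 fun i j => u h i j s z

/-- `w_tzz`. -/
noncomputable def B2 (h : ℕ → ℕ → ℝ → ℝ) (s z : ℝ) : ℝ := pB2 fun i j => u h i j s z

/-- `w_zzz`. -/
noncomputable def B3 (h : ℕ → ℕ → ℝ → ℝ) (s z : ℝ) : ℝ := pB3 fun i j => u h i j s z

/-- `w_tttz`. -/
noncomputable def C1 (h : ℕ → ℕ → ℝ → ℝ) (s z : ℝ) : ℝ := pC1 fun i j => u h i j s z

/-- `w_ttzz`. -/
noncomputable def C2 (h : ℕ → ℕ → ℝ → ℝ) (s z : ℝ) : ℝ := pC2 fun i j => u h i j s z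

/-- `w_tzzz`. -/
noncomputable def C3 (h : ℕ → ℕ → ℝ → ℝ) (s z : ℝ) : ℝ := pC3 fun i j => u h i j s z

/-- `w_zzzz`. -/
noncomputable def C4 (h : ℕ → ℕ → ℝ → ℝ) (s z : ℝ) : ℝ := pC4 fun i j => u h i j s z

/-- `w_tttzz`. -/
noncomputable def E1 (h : ℕ → ℕ → ℝ → ℝ) (s z : ℝ) : ℝ := pE1 fun i j => u h i j s z

/-- `w_ttzzz`. -/
noncomputable def E2 (h : ℕ → ℕ → ℝ → ℝ) (s z : ℝ) : ℝ := pE2 fun i j => u h i j s z

/-- `w_tzzzz`. -/
noncomputable def E3 (h : ℕ → ℕ → ℝ → ℝ) (s z : ℝ) : ℝ := pE3 fun i j => u h i j s z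

/-- `w_zzzzz`. -/
noncomputable def E4 (h : ℕ → ℕ → ℝ → ℝ) (s z : ℝ) : ℝ := pE4 fun i j => u h i j s z

theorem Jet.dz_w (H : Jet h) (s z : ℝ) :
    HasDerivAt (fun z => -Real.log (P (h 0 0) s z)) (wz h s z) z := by
  obtain ⟨C, hC⟩ := H.b 0 0 (by norm_num)
  obtain ⟨C1, hC1⟩ := H.b 0 1 (by norm_num)
  have h2 := P_dz (H.d 0 0 (by norm_num)) (H.c 0 1 (by norm_num)) hC hC1 s z
  exact (h2.log (H.P00_pos s z).ne').fun_neg

theorem Jet.dz_wz (H : Jet h) (s z : ℝ) : HasDerivAt (fun z => wz h s z) (A2 h s z) z := by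
  refine (H.u_dz (i := 0) (j := 1) (by norm_num) s z).fun_neg.congr_deriv ?_
  unfold Uz A2 pA2
  ring

theorem Jet.dz_A0 (H : Jet h) (s z : ℝ) : HasDerivAt (fun z => A0 h s z) (B1 h s z) z :=
  (hd_A0 (V := fun i j z => u h i j s z) fun i j hij => H.u_dz (by omega) s z).congr_deriv
    (id_z_A0 _)

theorem Jet.dz_A1 (H : Jet h) (s z : ℝ) : HasDerivAt (fun z => A1 h s z) (B2 h s z) z :=
  (hd_A1 (V := fun i j z => u h i j s z) fun i j hij => H.u_dz (by omega) s z).congr_deriv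
    (id_z_A1 _)

theorem Jet.dz_A2 (H : Jet h) (s z : ℝ) : HasDerivAt (fun z => A2 h s z) (B3 h s z) z :=
  (hd_A2 (V := fun i j z => u h i j s z) fun i j hij => H.u_dz (by omega) s z).congr_deriv
    (id_z_A2 _)

theorem Jet.dz_B0 (H : Jet h) (s z : ℝ) : HasDerivAt (fun z => B0 h s z) (C1 h s z) z :=
  (hd_B0 (V := fun i j z => u h i j s z) fun i j hij => H.u_dz (by omega) s z).congr_deriv
    (id_z_B0 _)

theorem Jet.dz_B1 (H : Jet h) (s z : ℝ) : HasDerivAt (fun z => B1 h s z) (C2 h s z) z :=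
  (hd_B1 (V := fun i j z => u h i j s z) fun i j hij => H.u_dz (by omega) s z).congr_deriv
    (id_z_B1 _)

theorem Jet.dz_B2 (H : Jet h) (s z : ℝ) : HasDerivAt (fun z => B2 h s z) (C3 h s z) z :=
  (hd_B2 (V := fun i j z => u h i j s z) fun i j hij => H.u_dz (by omega) s z).congr_deriv
    (id_z_B2 _)

theorem Jet.dz_B3 (H : Jet h) (s z : ℝ) : HasDerivAt (fun z => B3 h s z) (C4 h s z) z :=
  (hd_B3 (V := fun i j z => u h i j s z) fun i j hij => H.u_dz (by omega) s z).congr_deriv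
    (id_z_B3 _)

theorem Jet.dz_C1 (H : Jet h) (s z : ℝ) : HasDerivAt (fun z => C1 h s z) (E1 h s z) z :=
  (hd_C1 (V := fun i j z => u h i j s z) fun i j hij => H.u_dz (by omega) s z).congr_deriv
    (id_z_C1 _)

theorem Jet.dz_C2 (H : Jet h) (s z : ℝ) : HasDerivAt (fun z => C2 h s z) (E2 h s z) z :=
  (hd_C2 (V := fun i j z => u h i j s z) fun i j hij => H.u_dz (by omega) s z).congr_deriv
    (id_z_C2 _)

theorem Jet.dz_C3 (H : Jet h) (s z : ℝ) : HasDerivAt (fun z => C3 h s z) (E3 h s z) z :=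
  (hd_C3 (V := fun i j z => u h i j s z) fun i j hij => H.u_dz (by omega) s z).congr_deriv
    (id_z_C3 _)

theorem Jet.dz_C4 (H : Jet h) (s z : ℝ) : HasDerivAt (fun z => C4 h s z) (E4 h s z) z :=
  (hd_C4 (V := fun i j z => u h i j s z) fun i j hij => H.u_dz (by omega) s z).congr_deriv
    (id_z_C4 _)

theorem Jet.ds_A0 (H : Jet h) {s : ℝ} (hs : 0 < s) (z : ℝ) : HasDerivAt (fun s => A0 h s z)
    (1 / 2 * C2 h s z - wz h s z * B1 h s z - A1 h s z ^ 2) s := by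
  refine (hd_A0 (V := fun i j s => u h i j s z) fun i j hij => H.u_ds hij hs z).congr_deriv ?_
  rw [id_s_A0]
  unfold wz
  simp only [A1, B1, C2]
  ring

theorem Jet.ds_A1 (H : Jet h) {s : ℝ} (hs : 0 < s) (z : ℝ) : HasDerivAt (fun s => A1 h s z)
    (1 / 2 * C3 h s z - wz h s z * B2 h s z - A1 h s z * A2 h s z) s := by
  refine (hd_A1 (V := fun i j s => u h i j s z) fun i j hij => H.u_ds hij hs z).congr_deriv ?_
  rw [id_s_A1]
  unfold wz
  simp only [A1, A2, B2, C3]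
  ring

theorem Jet.ds_A2 (H : Jet h) {s : ℝ} (hs : 0 < s) (z : ℝ) : HasDerivAt (fun s => A2 h s z)
    (1 / 2 * C4 h s z - wz h s z * B3 h s z - A2 h s z ^ 2) s := by
  refine (hd_A2 (V := fun i j s => u h i j s z) fun i j hij => H.u_ds hij hs z).congr_deriv ?_
  rw [id_s_A2]
  unfold wz
  simp only [A2, B3, C4]
  ring

theorem Jet.ds_B0 (H : Jet h) {s : ℝ} (hs : 0 < s) (z : ℝ) : HasDerivAt (fun s => B0 h s z)
    (1 / 2 * E1 h s z - wz h s z * C1 h s z - 3 * (A1 h s z * B1 h s z)) s := by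
  refine (hd_B0 (V := fun i j s => u h i j s z) fun i j hij => H.u_ds hij hs z).congr_deriv ?_
  rw [id_s_B0]
  unfold wz
  simp only [A1, B1, C1, E1]
  ring

theorem Jet.ds_B1 (H : Jet h) {s : ℝ} (hs : 0 < s) (z : ℝ) : HasDerivAt (fun s => B1 h s z)
    (1 / 2 * E2 h s z - wz h s z * C2 h s z - (A2 h s z * B1 h s z + 2 * (A1 h s z * B2 h s z))) s := by
  refine (hd_B1 (V := fun i j s => u h i j s z) fun i j hij => H.u_ds hij hs z).congr_deriv ?_
  rw [id_s_B1]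
  unfold wz
  simp only [A1, A2, B1, B2, C2, E2]
  ring

theorem Jet.ds_B2 (H : Jet h) {s : ℝ} (hs : 0 < s) (z : ℝ) : HasDerivAt (fun s => B2 h s z)
    (1 / 2 * E3 h s z - wz h s z * C3 h s z - (2 * (A2 h s z * B2 h s z) + A1 h s z * B3 h s z)) s := by
  refine (hd_B2 (V := fun i j s => u h i j s z) fun i j hij => H.u_ds hij hs z).congr_deriv ?_
  rw [id_s_B2]
  unfold wz
  simp only [A1, A2, B2, B3, C3, E3]
  ring

theorem Jet.ds_B3 (H : Jet h) {s : ℝ} (hs : 0 < s) (z : ℝ) : HasDerivAt (fun s => B3 h s z)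
    (1 / 2 * E4 h s z - wz h s z * C4 h s z - 3 * (A2 h s z * B3 h s z)) s := by
  refine (hd_B3 (V := fun i j s => u h i j s z) fun i j hij => H.u_ds hij hs z).congr_deriv ?_
  rw [id_s_B3]
  unfold wz
  simp only [A2, B3, C4, E4]
  ring

theorem Jet.c_A0 (H : Jet h) : Continuous fun p : ℝ × ℝ => A0 h p.1 p.2 := by
  unfold A0 pA0
  have hu : ∀ i j, i + j ≤ 5 → Continuous fun p : ℝ × ℝ => u h i j p.1 p.2 :=
    fun i j hij => H.u_cont hij
  have h10 := hu 1 0 (by norm_num)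
  have h20 := hu 2 0 (by norm_num)
  fun_prop

theorem Jet.c_A1 (H : Jet h) : Continuous fun p : ℝ × ℝ => A1 h p.1 p.2 := by
  unfold A1 pA1
  have hu : ∀ i j, i + j ≤ 5 → Continuous fun p : ℝ × ℝ => u h i j p.1 p.2 :=
    fun i j hij => H.u_cont hij
  have h01 := hu 0 1 (by norm_num)
  have h10 := hu 1 0 (by norm_num)
  have h11 := hu 1 1 (by norm_num)
  fun_prop

theorem Jet.c_A2 (H : Jet h) : Continuous fun p : ℝ × ℝ => A2 h p.1 p.2 := by
  unfold A2 pA2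
  have hu : ∀ i j, i + j ≤ 5 → Continuous fun p : ℝ × ℝ => u h i j p.1 p.2 :=
    fun i j hij => H.u_cont hij
  have h01 := hu 0 1 (by norm_num)
  have h02 := hu 0 2 (by norm_num)
  fun_prop

theorem Jet.c_B0 (H : Jet h) : Continuous fun p : ℝ × ℝ => B0 h p.1 p.2 := by
  unfold B0 pB0
  have hu : ∀ i j, i + j ≤ 5 → Continuous fun p : ℝ × ℝ => u h i j p.1 p.2 :=
    fun i j hij => H.u_cont hij
  have h10 := hu 1 0 (by norm_num)
  have h20 := hu 2 0 (by norm_num)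
  have h30 := hu 3 0 (by norm_num)
  fun_prop

theorem Jet.c_B1 (H : Jet h) : Continuous fun p : ℝ × ℝ => B1 h p.1 p.2 := by
  unfold B1 pB1
  have hu : ∀ i j, i + j ≤ 5 → Continuous fun p : ℝ × ℝ => u h i j p.1 p.2 :=
    fun i j hij => H.u_cont hij
  have h01 := hu 0 1 (by norm_num)
  have h10 := hu 1 0 (by norm_num)
  have h11 := hu 1 1 (by norm_num)
  have h20 := hu 2 0 (by norm_num)
  have h21 := hu 2 1 (by norm_num)
  fun_prop

theorem Jet.c_B2 (H : Jet h) : Continuous fun p : ℝ × ℝ => B2 h p.1 p.2 := by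
  unfold B2 pB2
  have hu : ∀ i j, i + j ≤ 5 → Continuous fun p : ℝ × ℝ => u h i j p.1 p.2 :=
    fun i j hij => H.u_cont hij
  have h01 := hu 0 1 (by norm_num)
  have h02 := hu 0 2 (by norm_num)
  have h10 := hu 1 0 (by norm_num)
  have h11 := hu 1 1 (by norm_num)
  have h12 := hu 1 2 (by norm_num)
  fun_prop

theorem Jet.c_B3 (H : Jet h) : Continuous fun p : ℝ × ℝ => B3 h p.1 p.2 := by
  unfold B3 pB3
  have hu : ∀ i j, i + j ≤ 5 → Continuous fun p : ℝ × ℝ => u h i j p.1 p.2 :=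
    fun i j hij => H.u_cont hij
  have h01 := hu 0 1 (by norm_num)
  have h02 := hu 0 2 (by norm_num)
  have h03 := hu 0 3 (by norm_num)
  fun_prop

theorem Jet.c_C1 (H : Jet h) : Continuous fun p : ℝ × ℝ => C1 h p.1 p.2 := by
  unfold C1 pC1
  have hu : ∀ i j, i + j ≤ 5 → Continuous fun p : ℝ × ℝ => u h i j p.1 p.2 :=
    fun i j hij => H.u_cont hij
  have h01 := hu 0 1 (by norm_num)
  have h10 := hu 1 0 (by norm_num)
  have h11 := hu 1 1 (by norm_num)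
  have h20 := hu 2 0 (by norm_num)
  have h21 := hu 2 1 (by norm_num)
  have h30 := hu 3 0 (by norm_num)
  have h31 := hu 3 1 (by norm_num)
  fun_prop

theorem Jet.c_C2 (H : Jet h) : Continuous fun p : ℝ × ℝ => C2 h p.1 p.2 := by
  unfold C2 pC2
  have hu : ∀ i j, i + j ≤ 5 → Continuous fun p : ℝ × ℝ => u h i j p.1 p.2 :=
    fun i j hij => H.u_cont hij
  have h01 := hu 0 1 (by norm_num)
  have h02 := hu 0 2 (by norm_num)
  have h10 := hu 1 0 (by norm_num)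
  have h11 := hu 1 1 (by norm_num)
  have h12 := hu 1 2 (by norm_num)
  have h20 := hu 2 0 (by norm_num)
  have h21 := hu 2 1 (by norm_num)
  have h22 := hu 2 2 (by norm_num)
  fun_prop

theorem Jet.c_C3 (H : Jet h) : Continuous fun p : ℝ × ℝ => C3 h p.1 p.2 := by
  unfold C3 pC3
  have hu : ∀ i j, i + j ≤ 5 → Continuous fun p : ℝ × ℝ => u h i j p.1 p.2 :=
    fun i j hij => H.u_cont hij
  have h01 := hu 0 1 (by norm_num)
  have h02 := hu 0 2 (by norm_num)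
  have h03 := hu 0 3 (by norm_num)
  have h10 := hu 1 0 (by norm_num)
  have h11 := hu 1 1 (by norm_num)
  have h12 := hu 1 2 (by norm_num)
  have h13 := hu 1 3 (by norm_num)
  fun_prop

theorem Jet.c_C4 (H : Jet h) : Continuous fun p : ℝ × ℝ => C4 h p.1 p.2 := by
  unfold C4 pC4
  have hu : ∀ i j, i + j ≤ 5 → Continuous fun p : ℝ × ℝ => u h i j p.1 p.2 :=
    fun i j hij => H.u_cont hij
  have h01 := hu 0 1 (by norm_num)
  have h02 := hu 0 2 (by norm_num)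
  have h03 := hu 0 3 (by norm_num)
  have h04 := hu 0 4 (by norm_num)
  fun_prop

theorem Jet.c_E1 (H : Jet h) : Continuous fun p : ℝ × ℝ => E1 h p.1 p.2 := by
  unfold E1 pE1
  have hu : ∀ i j, i + j ≤ 5 → Continuous fun p : ℝ × ℝ => u h i j p.1 p.2 :=
    fun i j hij => H.u_cont hij
  have h01 := hu 0 1 (by norm_num)
  have h02 := hu 0 2 (by norm_num)
  have h10 := hu 1 0 (by norm_num)
  have h11 := hu 1 1 (by norm_num)
  have h12 := hu 1 2 (by norm_num)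
  have h20 := hu 2 0 (by norm_num)
  have h21 := hu 2 1 (by norm_num)
  have h22 := hu 2 2 (by norm_num)
  have h30 := hu 3 0 (by norm_num)
  have h31 := hu 3 1 (by norm_num)
  have h32 := hu 3 2 (by norm_num)
  fun_prop

theorem Jet.c_E2 (H : Jet h) : Continuous fun p : ℝ × ℝ => E2 h p.1 p.2 := by
  unfold E2 pE2
  have hu : ∀ i j, i + j ≤ 5 → Continuous fun p : ℝ × ℝ => u h i j p.1 p.2 :=
    fun i j hij => H.u_cont hij
  have h01 := hu 0 1 (by norm_num)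
  have h02 := hu 0 2 (by norm_num)
  have h03 := hu 0 3 (by norm_num)
  have h10 := hu 1 0 (by norm_num)
  have h11 := hu 1 1 (by norm_num)
  have h12 := hu 1 2 (by norm_num)
  have h13 := hu 1 3 (by norm_num)
  have h20 := hu 2 0 (by norm_num)
  have h21 := hu 2 1 (by norm_num)
  have h22 := hu 2 2 (by norm_num)
  have h23 := hu 2 3 (by norm_num)
  fun_prop

theorem Jet.c_E3 (H : Jet h) : Continuous fun p : ℝ × ℝ => E3 h p.1 p.2 := by
  unfold E3 pE3
  have hu : ∀ i j, i + j ≤ 5 → Continuous fun p : ℝ × ℝ => u h i j p.1 p.2 :=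
    fun i j hij => H.u_cont hij
  have h01 := hu 0 1 (by norm_num)
  have h02 := hu 0 2 (by norm_num)
  have h03 := hu 0 3 (by norm_num)
  have h04 := hu 0 4 (by norm_num)
  have h10 := hu 1 0 (by norm_num)
  have h11 := hu 1 1 (by norm_num)
  have h12 := hu 1 2 (by norm_num)
  have h13 := hu 1 3 (by norm_num)
  have h14 := hu 1 4 (by norm_num)
  fun_prop

theorem Jet.c_E4 (H : Jet h) : Continuous fun p : ℝ × ℝ => E4 h p.1 p.2 := by
  unfold E4 pE4
  have hu : ∀ i j, i + j ≤ 5 → Continuous fun p : ℝ × ℝ => u h i j p.1 p.2 :=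
    fun i j hij => H.u_cont hij
  have h01 := hu 0 1 (by norm_num)
  have h02 := hu 0 2 (by norm_num)
  have h03 := hu 0 3 (by norm_num)
  have h04 := hu 0 4 (by norm_num)
  have h05 := hu 0 5 (by norm_num)
  fun_prop

/-! ### Derivatives in `t` -/

/-- The derivative of a quotient in `t`. -/
theorem u_dt {k : ℝ → ℕ → ℕ → ℝ → ℝ} {s z t : ℝ} {i j : ℕ} (h0 : P (k t 0 0) s z ≠ 0)
    (h1 : HasDerivAt (fun t => P (k t i j) s z) (P (k t (i + 1) j) s z) t)
    (h2 : HasDerivAt (fun t => P (k t 0 0) s z) (P (k t 1 0) s z) t) :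
    HasDerivAt (fun t => u (k t) i j s z) (Ut (fun i j => u (k t) i j s z) i j) t := by
  refine (h1.fun_div h2 h0).congr_deriv ?_
  unfold Ut u
  field_simp

/-- The derivatives of `w`, `w_t`, `w_tt` in `t`. -/
theorem dt_all {k : ℝ → ℕ → ℕ → ℝ → ℝ} {s z t : ℝ} (h0 : P (k t 0 0) s z ≠ 0)
    (hP : ∀ i, i ≤ 2 → HasDerivAt (fun t => P (k t i 0) s z) (P (k t (i + 1) 0) s z) t) :
    HasDerivAt (fun t => -Real.log (P (k t 0 0) s z)) (wt (k t) s z) t ∧
    HasDerivAt (fun t => wt (k t) s z) (A0 (k t) s z) t ∧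
    HasDerivAt (fun t => A0 (k t) s z) (B0 (k t) s z) t := by
  have h2 := hP 0 (by norm_num)
  have hu : ∀ i, i ≤ 2 → HasDerivAt (fun t => u (k t) i 0 s z)
      (Ut (fun i j => u (k t) i j s z) i 0) t := fun i hi => u_dt h0 (hP i hi) h2
  refine ⟨(h2.log h0).fun_neg, ?_, ?_⟩
  · refine (hu 1 (by norm_num)).fun_neg.congr_deriv ?_
    unfold Ut A0 pA0
    ring
  · have h3 := (hu 2 (by norm_num)).fun_neg.fun_add
      ((hu 1 (by norm_num)).fun_mul (hu 1 (by norm_num)))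
    refine h3.congr_deriv ?_
    unfold Ut B0 pB0
    ring

/-- The quotients at `s = 0`. -/
theorem u_zero (h : ℕ → ℕ → ℝ → ℝ) (i j : ℕ) (z : ℝ) : u h i j 0 z = h i j z / h 0 0 z := by
  unfold u
  rw [P_zero, P_zero]

end Vale.Agent.P227.M.SC2
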