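import Vale.Agent.P227.M.SC2.HeatAlg

/-!
P227/M, block SC-2, (H1): the heat semigroup, and the equations of the derivatives of order two and
three of `w = - log P`.
-/

namespace Vale.Agent.P227.M.SC2

open MeasureTheory ProbabilityTheory Filter Topology

/-! ### The heat semigroup -/

/-- The heat semigroup. -/
noncomputable def P (h : ℝ → ℝ) (s z : ℝ) : ℝ := ∫ g, h (z + √s * g) ∂(gaussianReal 0 1)

theorem P_cont {h : ℝ → ℝ} (hc : Continuous h) {C : ℝ} (hC : ∀ x, |h x| ≤ C) :
    Continuous fun p : ℝ × ℝ => P h p.1 p.2 := by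
  unfold P
  refine continuous_of_dominated (bound := fun _ => C) ?_ ?_ (integrable_const C) ?_
  · intro p
    exact (hc.comp (by fun_prop)).aestronglyMeasurable
  · intro p
    exact Eventually.of_forall fun z => hC _
  · refine Eventually.of_forall fun z => hc.comp ?_
    exact continuous_snd.add ((Real.continuous_sqrt.comp continuous_fst).mul continuous_const)

theorem P_abs_le {h : ℝ → ℝ} {C : ℝ} (hC : ∀ x, |h x| ≤ C) (s z : ℝ) : |P h s z| ≤ C := by
  unfold P
  rw [← Real.norm_eq_abs]
  refine (norm_integral_le_of_norm_le_const (C := C) (Eventually.of_forall fun z => ?_)).trans ?_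
  · rw [Real.norm_eq_abs]; exact hC _
  · simp

theorem P_integrable {h : ℝ → ℝ} (hc : Continuous h) {C : ℝ} (hC : ∀ x, |h x| ≤ C) (s z : ℝ) :
    Integrable (fun g => h (z + √s * g)) (gaussianReal 0 1) := by
  refine Integrable.mono' (integrable_const C) (hc.comp (by fun_prop)).aestronglyMeasurable
    (Eventually.of_forall fun z => ?_)
  rw [Real.norm_eq_abs]; exact hC _

theorem P_zero (h : ℝ → ℝ) (z : ℝ) : P h 0 z = h z := by
  unfold P
  simp

theorem P_pos {h : ℝ → ℝ} (hc : Continuous h) {C : ℝ} (hC : ∀ x, |h x| ≤ C) (h0 : ∀ x, 0 < h x)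
    (s z : ℝ) : 0 < P h s z := by
  unfold P
  rw [integral_pos_iff_support_of_nonneg (fun g => (h0 _).le) (P_integrable hc hC s z)]
  have : (Function.support fun g => h (z + √s * g)) = Set.univ := by
    ext g
    simp only [Function.mem_support, Set.mem_univ, iff_true]
    exact (h0 _).ne'
  rw [this, measure_univ]
  exact one_pos

theorem P_dz {h h' : ℝ → ℝ} (hd : ∀ x, HasDerivAt h (h' x) x) (hc' : Continuous h')
    {C C' : ℝ} (hC : ∀ x, |h x| ≤ C) (hC' : ∀ x, |h' x| ≤ C') (s z : ℝ) :
    HasDerivAt (fun z => P h s z) (P h' s z) z := by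
  have hgc : Continuous h := continuous_iff_continuousAt.mpr fun x => (hd x).continuousAt
  have := hasDerivAt_integral_of_dominated_loc_of_deriv_le (μ := gaussianReal 0 1)
    (F := fun x g => h (x + √s * g)) (F' := fun x g => h' (x + √s * g)) (x₀ := z)
    (bound := fun _ => C') (s := Set.univ) Filter.univ_mem
    (Eventually.of_forall fun y => (hgc.comp (by fun_prop)).aestronglyMeasurable)
    (P_integrable hgc hC s z) (hc'.comp (by fun_prop)).aestronglyMeasurable
    (Eventually.of_forall fun g y _ => hC' _) (integrable_const _)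
    (Eventually.of_forall fun g y _ => by
      have h1 := (hd (y + √s * g)).comp y ((hasDerivAt_id y).add_const (√s * g))
      simpa [Function.comp_def] using h1)
  exact this.2

/-! ### Gaussian integration by parts -/

theorem integrable_gaussian_iff (g : ℝ → ℝ) :
    Integrable g (gaussianReal 0 1) ↔ Integrable (fun x => gaussianPDFReal 0 1 x * g x) := by
  rw [gaussianReal_of_var_ne_zero _ one_ne_zero,
    integrable_withDensity_iff_integrable_smul' (measurable_gaussianPDF 0 1)
      (Eventually.of_forall fun x => gaussianPDF_lt_top)]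
  simp only [smul_eq_mul, gaussianPDF, ENNReal.toReal_ofReal (gaussianPDFReal_nonneg 0 1 _)]

/-- One-dimensional Gaussian integration by parts. -/
theorem stein (g g' : ℝ → ℝ) (hd : ∀ x, HasDerivAt g (g' x) x)
    (h0 : Integrable g (gaussianReal 0 1)) (h1 : Integrable (fun x => x * g x) (gaussianReal 0 1))
    (h2 : Integrable g' (gaussianReal 0 1)) :
    ∫ x, x * g x ∂(gaussianReal 0 1) = ∫ x, g' x ∂(gaussianReal 0 1) := by
  set φ : ℝ → ℝ := gaussianPDFReal 0 1 with hφ
  have hφd : ∀ x, HasDerivAt φ (-(x * φ x)) x := by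
    intro x
    have h1 : HasDerivAt (fun y : ℝ => -(y - 0) ^ 2 / (2 * ((1 : NNReal) : ℝ))) (-x) x := by
      have h2 : HasDerivAt (fun y : ℝ => -(y ^ 2) / 2) (-(2 * x) / 2) x := by
        have h0 := ((hasDerivAt_pow 2 x).neg).div_const (2 : ℝ)
        simpa using h0
      have h2' : (fun y : ℝ => -(y - 0) ^ 2 / (2 * ((1 : NNReal) : ℝ))) = fun y => -(y ^ 2) / 2 := by
        funext y
        simp
      rw [h2']
      have h2'' : -x = -(2 * x) / 2 := by ring
      rw [h2'']
      exact h2
    have h3 := (h1.exp).const_mul ((Real.sqrt (2 * Real.pi * ((1 : NNReal) : ℝ)))⁻¹)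
    have h4 : φ = fun y => (Real.sqrt (2 * Real.pi * ((1 : NNReal) : ℝ)))⁻¹
        * Real.exp (-(y - 0) ^ 2 / (2 * ((1 : NNReal) : ℝ))) := by
      funext y
      rw [hφ, gaussianPDFReal_def]
    have h5 : -(x * φ x) = (Real.sqrt (2 * Real.pi * ((1 : NNReal) : ℝ)))⁻¹
        * (Real.exp (-(x - 0) ^ 2 / (2 * ((1 : NNReal) : ℝ))) * -x) := by
      rw [h4]
      ring
    rw [h5, h4]
    exact h3
  have e1 : ∫ x, x * g x ∂(gaussianReal 0 1) = ∫ x, φ x * (x * g x) := by
    rw [integral_gaussianReal_eq_integral_smul one_ne_zero]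
    rfl
  have e2 : ∫ x, g' x ∂(gaussianReal 0 1) = ∫ x, φ x * g' x := by
    rw [integral_gaussianReal_eq_integral_smul one_ne_zero]
    rfl
  rw [integrable_gaussian_iff] at h0 h1 h2
  have i1 : Integrable (g * fun x => -(x * φ x)) := by
    refine h1.neg.congr (Eventually.of_forall fun x => ?_)
    simp only [Pi.neg_apply, Pi.mul_apply]
    ring
  have i2 : Integrable (g' * φ) := by
    refine h2.congr (Eventually.of_forall fun x => ?_)
    simp only [Pi.mul_apply]
    ring
  have i3 : Integrable (g * φ) := by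
    refine h0.congr (Eventually.of_forall fun x => ?_)
    simp only [Pi.mul_apply]
    ring
  have key := integral_mul_deriv_eq_deriv_mul_of_integrable (u := g) (v := φ) (u' := g')
    (v' := fun x => -(x * φ x)) (fun x _ => hd x) (fun x _ => hφd x) i1 i2 i3
  rw [e1, e2]
  have h5 : ∫ x, φ x * (x * g x) = - ∫ x, g x * -(x * φ x) := by
    rw [← integral_neg]
    congr 1
    funext x
    ring
  rw [h5, key, neg_neg]
  congr 1
  funext x
  ring

theorem P_ds {h h' h'' : ℝ → ℝ} (hd : ∀ x, HasDerivAt h (h' x) x)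
    (hd' : ∀ x, HasDerivAt h' (h'' x) x) (hc'' : Continuous h'') {C C' C'' : ℝ}
    (hC : ∀ x, |h x| ≤ C) (hC' : ∀ x, |h' x| ≤ C') (hC'' : ∀ x, |h'' x| ≤ C'') {s : ℝ} (hs : 0 < s)
    (z : ℝ) : HasDerivAt (fun s => P h s z) (1 / 2 * P h'' s z) s := by
  have hc : Continuous h := continuous_iff_continuousAt.mpr fun x => (hd x).continuousAt
  have hc' : Continuous h' := continuous_iff_continuousAt.mpr fun x => (hd' x).continuousAt
  have hC1 : 0 ≤ C' := (abs_nonneg _).trans (hC' 0)
  have hzint : Integrable (fun g : ℝ => g) (gaussianReal 0 1) :=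
    (memLp_id_gaussianReal 1).integrable le_rfl
  have hs2 : 0 < s / 2 := by linarith
  set B : ℝ := 1 / (2 * √(s / 2)) with hB
  have hB0 : 0 ≤ B := by positivity
  have key := hasDerivAt_integral_of_dominated_loc_of_deriv_le (μ := gaussianReal 0 1)
    (F := fun r g => h (z + √r * g)) (F' := fun r g => h' (z + √r * g) * (1 / (2 * √r) * g))
    (x₀ := s) (bound := fun g => C' * (B * |g|)) (s := Set.Ioi (s / 2))
    (Ioi_mem_nhds (by linarith))
    (Eventually.of_forall fun r => (hc.comp (by fun_prop)).aestronglyMeasurable)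
    (P_integrable hc hC s z)
    ((hc'.comp (by fun_prop)).mul (by fun_prop)).aestronglyMeasurable
    (Eventually.of_forall fun g r hr => by
      have hr' : s / 2 < r := hr
      have h1 : √(s / 2) ≤ √r := Real.sqrt_le_sqrt hr'.le
      have h2 : 0 < √(s / 2) := Real.sqrt_pos.2 hs2
      rw [Real.norm_eq_abs, abs_mul, abs_mul]
      refine mul_le_mul (hC' _) ?_ (by positivity) hC1
      refine mul_le_mul_of_nonneg_right ?_ (abs_nonneg g)
      rw [abs_of_nonneg (by positivity), hB]
      exact div_le_div_of_nonneg_left (by norm_num) (by positivity) (by linarith))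
    ((hzint.abs.const_mul B).const_mul C')
    (Eventually.of_forall fun g r hr => by
      have hr' : s / 2 < r := hr
      have hr0 : r ≠ 0 := by linarith
      have h1 := ((Real.hasDerivAt_sqrt hr0).mul_const g).const_add z
      exact (hd (z + √r * g)).comp r h1)
  have hsq : 0 < √s := Real.sqrt_pos.2 hs
  have i1 : Integrable (fun g => h' (z + √s * g)) (gaussianReal 0 1) := P_integrable hc' hC' s z
  have i2 : Integrable (fun g => g * h' (z + √s * g)) (gaussianReal 0 1) := by
    refine hzint.mul_bdd (c := C') (hc'.comp (by fun_prop)).aestronglyMeasurable ?_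
    exact Eventually.of_forall fun g => by
      rw [Real.norm_eq_abs]; exact hC' _
  have i3 : Integrable (fun g => h'' (z + √s * g) * √s) (gaussianReal 0 1) :=
    (P_integrable hc'' hC'' s z).mul_const _
  have hst := stein (fun g => h' (z + √s * g)) (fun g => h'' (z + √s * g) * √s) (fun g => by
      have := (hd' (z + √s * g)).comp g (((hasDerivAt_id g).const_mul (√s)).const_add z)
      simpa [Function.comp_def] using this) i1 i2 i3
  refine key.2.congr_deriv ?_
  have e1 : ∀ g, h' (z + √s * g) * (1 / (2 * √s) * g) = 1 / (2 * √s) * (g * h' (z + √s * g)) := by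
    intro g; ring
  simp only [e1]
  rw [integral_const_mul, hst, integral_mul_const]
  unfold P
  field_simp

/-! ### The quotients -/

/-- `h i j` are the derivatives of order `(i, j)` in `(t, z)` of a positive function, at a fixed `t`. -/
structure Jet (h : ℕ → ℕ → ℝ → ℝ) : Prop where
  d : ∀ i j, i + j ≤ 4 → ∀ z, HasDerivAt (h i j) (h i (j + 1) z) z
  c : ∀ i j, i + j ≤ 5 → Continuous (h i j)
  b : ∀ i j, i + j ≤ 5 → ∃ C, ∀ z, |h i j z| ≤ C
  pos : ∀ z, 0 < h 0 0 z

/-- The quotients. -/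
noncomputable def u (h : ℕ → ℕ → ℝ → ℝ) (i j : ℕ) (s z : ℝ) : ℝ := P (h i j) s z / P (h 0 0) s z

variable {h : ℕ → ℕ → ℝ → ℝ}

theorem Jet.P00_pos (H : Jet h) (s z : ℝ) : 0 < P (h 0 0) s z := by
  obtain ⟨C, hC⟩ := H.b 0 0 (by norm_num)
  exact P_pos (H.c 0 0 (by norm_num)) hC H.pos s z

theorem Jet.u_cont (H : Jet h) {i j : ℕ} (hij : i + j ≤ 5) :
    Continuous fun p : ℝ × ℝ => u h i j p.1 p.2 := by
  obtain ⟨C, hC⟩ := H.b 0 0 (by norm_num)
  obtain ⟨C', hC'⟩ := H.b i j hij
  exact (P_cont (H.c i j hij) hC').div (P_cont (H.c 0 0 (by norm_num)) hC)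
    fun p => (H.P00_pos p.1 p.2).ne'

theorem Jet.u_dz (H : Jet h) {i j : ℕ} (hij : i + j ≤ 4) (s z : ℝ) :
    HasDerivAt (fun z => u h i j s z) (Uz (fun i j => u h i j s z) i j) z := by
  obtain ⟨C, hC⟩ := H.b 0 0 (by norm_num)
  obtain ⟨C1, hC1⟩ := H.b 0 1 (by norm_num)
  obtain ⟨C', hC'⟩ := H.b i j (by omega)
  obtain ⟨C1', hC1'⟩ := H.b i (j + 1) (by omega)
  have h1 := P_dz (H.d i j hij) (H.c i (j + 1) (by omega)) hC' hC1' s z
  have h2 := P_dz (H.d 0 0 (by norm_num)) (H.c 0 1 (by norm_num)) hC hC1 s z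
  have h0 := (H.P00_pos s z).ne'
  refine (h1.fun_div h2 h0).congr_deriv ?_
  unfold Uz u
  simp only [zero_add]
  field_simp

theorem Jet.u_ds (H : Jet h) {i j : ℕ} (hij : i + j ≤ 3) {s : ℝ} (hs : 0 < s) (z : ℝ) :
    HasDerivAt (fun s => u h i j s z) (Us (fun i j => u h i j s z) i j) s := by
  obtain ⟨C, hC⟩ := H.b 0 0 (by norm_num)
  obtain ⟨C1, hC1⟩ := H.b 0 1 (by norm_num)
  obtain ⟨C2, hC2⟩ := H.b 0 2 (by norm_num)
  obtain ⟨C', hC'⟩ := H.b i j (by omega)
  obtain ⟨C1', hC1'⟩ := H.b i (j + 1) (by omega)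
  obtain ⟨C2', hC2'⟩ := H.b i (j + 2) (by omega)
  have h1 := P_ds (H.d i j (by omega)) (H.d i (j + 1) (by omega)) (H.c i (j + 2) (by omega))
    hC' hC1' hC2' hs z
  have h2 := P_ds (H.d 0 0 (by norm_num)) (H.d 0 1 (by norm_num)) (H.c 0 2 (by norm_num))
    hC hC1 hC2 hs z
  have h0 := (H.P00_pos s z).ne'
  refine (h1.fun_div h2 h0).congr_deriv ?_
  unfold Us u
  simp only [zero_add]
  field_simp

end Vale.Agent.P227.M.SC2
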