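import Vale.Agent.P227.M.SC2.Bs
import Vale.Agent.P227.M.SC2.HeatEq
import Vale.Agent.P227.M.SC2.Alg

/-!
P227/M, block SC-2: the jets of a bounded smooth function on planes, and the second and third
derivatives of `- log f` in all directions.
-/

namespace Vale.Agent.P227.M.SC2

open MeasureTheory ProbabilityTheory Filter Topology
open scoped ContDiff
open Vale.P227M.SC2 (qa qb)

variable {V : Type} [NormedAddCommGroup V] [NormedSpace ℝ V] {f : V → ℝ}

theorem dd_lin {f g : V → ℝ} (hf : Differentiable ℝ f) (hg : Differentiable ℝ g) (a b : ℝ) (v : V) :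
    dd v (fun x => a * f x + b * g x) = fun x => a * dd v f x + b * dd v g x := by
  funext x
  unfold dd
  have h := ((hf x).hasFDerivAt.const_mul a).fun_add ((hg x).hasFDerivAt.const_mul b)
  rw [h.fderiv]
  simp

theorem dd_comb (f : V → ℝ) (a b : ℝ) (ξ p : V) (x : V) :
    dd (a • ξ + b • p) f x = a * dd ξ f x + b * dd p f x := by
  unfold dd
  simp

/-- The mixed directional derivatives. -/
noncomputable def hh (f : V → ℝ) (ξ p : V) (i j : ℕ) : V → ℝ := (dd p)^[j] ((dd ξ)^[i] f)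

theorem BS.iter (hf : BS f) (v : V) (j : ℕ) : BS ((SC2.dd v)^[j] f) := by
  induction j with
  | zero => exact hf
  | succ j ih => rw [Function.iterate_succ_apply']; exact ih.dd v

theorem BS.hh (hf : BS f) (ξ p : V) (i j : ℕ) : BS (SC2.hh f ξ p i j) := (hf.iter ξ i).iter p j

theorem hh_right (f : V → ℝ) (ξ p : V) (i j : ℕ) : hh f ξ p i (j + 1) = dd p (hh f ξ p i j) :=
  Function.iterate_succ_apply' _ _ _

theorem iter_comm (hf : BS f) (ξ p : V) (j : ℕ) : (dd p)^[j] (dd ξ f) = dd ξ ((dd p)^[j] f) := by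
  induction j with
  | zero => rfl
  | succ j ih =>
    rw [Function.iterate_succ_apply', ih, Function.iterate_succ_apply', (hf.iter p j).dd_comm]

theorem hh_left (hf : BS f) (ξ p : V) (i j : ℕ) : hh f ξ p (i + 1) j = dd ξ (hh f ξ p i j) := by
  unfold hh
  rw [Function.iterate_succ_apply', iter_comm (hf.iter ξ i)]

theorem dd_hh (hf : BS f) (ξ p : V) (i j : ℕ) (a b : ℝ) :
    dd (a • ξ + b • p) (hh f ξ p i j) =
      fun x => a * hh f ξ p (i + 1) j x + b * hh f ξ p i (j + 1) x := by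
  funext x
  rw [dd_comb, hh_left hf, hh_right]

/-- The second derivative of `- log f`. -/
noncomputable def aa (f : V → ℝ) (x v : V) : ℝ :=
  -(dd v (dd v f) x / f x) + (dd v f x / f x) * (dd v f x / f x)

/-- The third derivative of `- log f`. -/
noncomputable def bb (f : V → ℝ) (x v : V) : ℝ :=
  -(dd v (dd v (dd v f)) x / f x) + 3 * ((dd v f x / f x) * (dd v (dd v f) x / f x))
    - 2 * ((dd v f x / f x) * (dd v f x / f x) * (dd v f x / f x))

/-- The quotients. -/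
noncomputable def UU (f : V → ℝ) (ξ p x : V) (i j : ℕ) : ℝ := hh f ξ p i j x / f x

theorem dd1_eq (f : V → ℝ) (ξ p : V) (a b : ℝ) : dd (a • ξ + b • p) f =
    fun x => a * hh f ξ p 1 0 x + b * hh f ξ p 0 1 x := by
  funext x
  exact dd_comb f a b ξ p x

theorem dd2_eq (hf : BS f) (ξ p : V) (a b : ℝ) : dd (a • ξ + b • p) (dd (a • ξ + b • p) f) =
    fun x => a * (a * hh f ξ p 2 0 x + b * hh f ξ p 1 1 x)
      + b * (a * hh f ξ p 1 1 x + b * hh f ξ p 0 2 x) := by
  rw [dd1_eq f ξ p a b, dd_lin (hf.hh ξ p 1 0).diff (hf.hh ξ p 0 1).diff, dd_hh hf, dd_hh hf]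

theorem dd3_eq (hf : BS f) (ξ p : V) (a b : ℝ) :
    dd (a • ξ + b • p) (dd (a • ξ + b • p) (dd (a • ξ + b • p) f)) =
    fun x => a * (a * (a * hh f ξ p 3 0 x + b * hh f ξ p 2 1 x)
          + b * (a * hh f ξ p 2 1 x + b * hh f ξ p 1 2 x))
      + b * (a * (a * hh f ξ p 2 1 x + b * hh f ξ p 1 2 x)
          + b * (a * hh f ξ p 1 2 x + b * hh f ξ p 0 3 x)) := by
  have d20 := (hf.hh ξ p 2 0).diff
  have d11 := (hf.hh ξ p 1 1).diff
  have d02 := (hf.hh ξ p 0 2).diff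
  rw [dd2_eq hf ξ p a b,
    dd_lin ((d20.const_mul a).fun_add (d11.const_mul b))
      ((d11.const_mul a).fun_add (d02.const_mul b)),
    dd_lin d20 d11, dd_lin d11 d02, dd_hh hf, dd_hh hf, dd_hh hf]

theorem aa_eq (hf : BS f) (x ξ p : V) (a b : ℝ) : aa f x (a • ξ + b • p) =
    qa (pA0 (UU f ξ p x)) (pA1 (UU f ξ p x)) (pA2 (UU f ξ p x)) a b := by
  unfold aa
  rw [dd2_eq hf, dd1_eq]
  unfold qa pA0 pA1 pA2 UU
  ring

theorem bb_eq (hf : BS f) (x ξ p : V) (a b : ℝ) : bb f x (a • ξ + b • p) =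
    qb (pB0 (UU f ξ p x)) (pB1 (UU f ξ p x)) (pB2 (UU f ξ p x)) (pB3 (UU f ξ p x)) a b := by
  unfold bb
  rw [dd3_eq hf, dd2_eq hf, dd1_eq]
  unfold qb pB0 pB1 pB2 pB3 UU
  ring

/-! ### The jets -/

/-- The jet along a line. -/
noncomputable def jet (f : V → ℝ) (x ξ p : V) (i j : ℕ) (z : ℝ) : ℝ := hh f ξ p i j (x + z • p)

theorem jet_jet (hf : BS f) (h0 : ∀ x, 0 < f x) (x ξ p : V) : Jet (jet f x ξ p) where
  d i j _ z := by
    unfold jet
    rw [hh_right]
    exact (hf.hh ξ p i j).hasDerivAt x p z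
  c i j _ := (hf.hh ξ p i j).cont.comp (by fun_prop)
  b i j _ := by
    obtain ⟨C, hC⟩ := (hf.hh ξ p i j).bd
    exact ⟨C, fun z => hC _⟩
  pos z := h0 _

/-- The heat flow in the direction `p`. -/
noncomputable def Fs (f : V → ℝ) (p : V) (s : ℝ) : V → ℝ :=
  TT (gaussianReal 0 1) (fun g : ℝ => (√s * g) • p) f

theorem meas_Y (p : V) (s : ℝ) :
    AEStronglyMeasurable (fun g : ℝ => (√s * g) • p) (gaussianReal 0 1) :=
  (Continuous.aestronglyMeasurable (by fun_prop))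

theorem Fs_zero (f : V → ℝ) (p : V) : Fs f p 0 = f := by
  funext x
  simp [Fs, TT]

theorem iter_TT {Ω : Type} [MeasurableSpace Ω] {μ : Measure Ω} [IsFiniteMeasure μ] {Y : Ω → V}
    (hY : AEStronglyMeasurable Y μ) (hf : BS f) (v : V) (j : ℕ) :
    (dd v)^[j] (TT μ Y f) = TT μ Y ((dd v)^[j] f) := by
  induction j with
  | zero => rfl
  | succ j ih => rw [Function.iterate_succ_apply', ih, Function.iterate_succ_apply',
      TT_dd hY (hf.iter v j)]

theorem hh_TT {Ω : Type} [MeasurableSpace Ω] {μ : Measure Ω} [IsFiniteMeasure μ] {Y : Ω → V}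
    (hY : AEStronglyMeasurable Y μ) (hf : BS f) (ξ p : V) (i j : ℕ) :
    hh (TT μ Y f) ξ p i j = TT μ Y (hh f ξ p i j) := by
  unfold hh
  rw [iter_TT hY hf, iter_TT hY (hf.iter ξ i)]

theorem P_line (F : V → ℝ) (x p : V) (s z : ℝ) :
    P (fun z => F (x + z • p)) s z = Fs F p s (x + z • p) := by
  unfold P Fs TT
  congr 1
  funext g
  simp only [add_smul, add_assoc]

theorem P_jet (hf : BS f) (x ξ p : V) (i j : ℕ) (s z : ℝ) :
    P (jet f x ξ p i j) s z = hh (Fs f p s) ξ p i j (x + z • p) := by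
  have h1 := P_line (hh f ξ p i j) x p s z
  unfold Fs at h1 ⊢
  rw [hh_TT (meas_Y p s) hf]
  exact h1

theorem u_jet (hf : BS f) (x ξ p : V) (s z : ℝ) :
    (fun i j => u (jet f x ξ p) i j s z) = UU (Fs f p s) ξ p (x + z • p) := by
  funext i j
  unfold u UU
  rw [P_jet hf, P_jet hf]
  rfl

theorem BS.Fs (hf : BS f) (p : V) (s : ℝ) : BS (SC2.Fs f p s) := hf.TT (meas_Y p s)

theorem qa_jet (hf : BS f) (x ξ p : V) (s z a b : ℝ) :
    qa (A0 (jet f x ξ p) s z) (A1 (jet f x ξ p) s z) (A2 (jet f x ξ p) s z) a b =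
      aa (Fs f p s) (x + z • p) (a • ξ + b • p) := by
  rw [aa_eq (hf.Fs p s), ← u_jet hf]
  rfl

theorem qb_jet (hf : BS f) (x ξ p : V) (s z a b : ℝ) :
    qb (B0 (jet f x ξ p) s z) (B1 (jet f x ξ p) s z) (B2 (jet f x ξ p) s z)
      (B3 (jet f x ξ p) s z) a b = bb (Fs f p s) (x + z • p) (a • ξ + b • p) := by
  rw [bb_eq (hf.Fs p s), ← u_jet hf]
  rfl

end Vale.Agent.P227.M.SC2
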