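import Vale.Agent.P227.M.SC2.IterA

/-!
P227/M, block SC-2: the class of functions `f` with `- log f` pinched and self-concordant is closed
under the Gaussian average in one direction (from the lemma on `ℝ²`).
-/

namespace Vale.Agent.P227.M.SC2

open MeasureTheory ProbabilityTheory Filter Topology
open scoped ContDiff
open Vale.P227M.SC2 (qa qb)

/-- The lemma on `ℝ²` for one jet. -/
def R2Stmt : Prop := ∀ (h : ℕ → ℕ → ℝ → ℝ), Jet h → ∀ lam Lam c S : ℝ, 0 < lam → 0 ≤ c → c ≤ 1 →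
  (∀ z v1 v2, lam * (v1 ^ 2 + v2 ^ 2) ≤ qa (A0 h 0 z) (A1 h 0 z) (A2 h 0 z) v1 v2) →
  (∀ z v1 v2, qa (A0 h 0 z) (A1 h 0 z) (A2 h 0 z) v1 v2 ≤ Lam * (v1 ^ 2 + v2 ^ 2)) →
  (∀ z v1 v2, |qb (B0 h 0 z) (B1 h 0 z) (B2 h 0 z) (B3 h 0 z) v1 v2| ≤
    2 * c * (qa (A0 h 0 z) (A1 h 0 z) (A2 h 0 z) v1 v2 *
      √(qa (A0 h 0 z) (A1 h 0 z) (A2 h 0 z) v1 v2))) →
  0 < S → ∀ s z v1 v2, 0 ≤ s → s ≤ S →
    lam / (1 + S * Lam) * (v1 ^ 2 + v2 ^ 2) ≤ qa (A0 h s z) (A1 h s z) (A2 h s z) v1 v2 ∧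
    qa (A0 h s z) (A1 h s z) (A2 h s z) v1 v2 ≤ Lam * (v1 ^ 2 + v2 ^ 2) ∧
    |qb (B0 h s z) (B1 h s z) (B2 h s z) (B3 h s z) v1 v2| ≤
      2 * c * (qa (A0 h s z) (A1 h s z) (A2 h s z) v1 v2 *
        √(qa (A0 h s z) (A1 h s z) (A2 h s z) v1 v2))

section normed

variable {V : Type} [NormedAddCommGroup V] [NormedSpace ℝ V] {f : V → ℝ}

theorem TT_pos {Ω : Type} [MeasurableSpace Ω] {μ : Measure Ω} [IsProbabilityMeasure μ] {Y : Ω → V}
    (hY : AEStronglyMeasurable Y μ) (hf : BS f) (h0 : ∀ x, 0 < f x) (x : V) : 0 < TT μ Y f x := by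
  unfold TT
  rw [integral_pos_iff_support_of_nonneg (fun g => (h0 _).le) (TT_int hY hf x)]
  have : (Function.support fun g => f (x + Y g)) = Set.univ := by
    ext g
    simp only [Function.mem_support, Set.mem_univ, iff_true]
    exact (h0 _).ne'
  rw [this, measure_univ]
  exact one_pos

theorem aa_smul (hf : BS f) (x p : V) (b : ℝ) : aa f x (b • p) = b ^ 2 * aa f x p := by
  have h1 := aa_eq hf x 0 p 0 b
  have h2 := aa_eq hf x 0 p 0 1
  simp only [smul_zero, zero_add, one_smul] at h1 h2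
  rw [h1, h2]
  unfold qa
  ring

theorem bb_smul (hf : BS f) (x p : V) (b : ℝ) : bb f x (b • p) = b ^ 3 * bb f x p := by
  have h1 := bb_eq hf x 0 p 0 b
  have h2 := bb_eq hf x 0 p 0 1
  simp only [smul_zero, zero_add, one_smul] at h1 h2
  rw [h1, h2]
  unfold qb
  ring

/-- The coefficients of the degenerate jet. -/
noncomputable def gg (lam : ℝ) (i : ℕ) : ℝ := if i = 0 then 1 else if i = 2 then -lam else 0

/-- The degenerate jet. -/
noncomputable def jet0 (lam : ℝ) (f : V → ℝ) (x p : V) (i j : ℕ) (z : ℝ) : ℝ :=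
  gg lam i * (dd p)^[j] f (x + z • p)

theorem jet0_jet (lam : ℝ) (hf : BS f) (h0 : ∀ x, 0 < f x) (x p : V) : Jet (jet0 lam f x p) where
  d i j _ z := by
    unfold jet0
    rw [Function.iterate_succ_apply']
    exact ((hf.iter p j).hasDerivAt x p z).const_mul (gg lam i)
  c i j _ := ((hf.iter p j).cont.comp (by fun_prop)).const_mul (gg lam i) |> fun h => h
  b i j _ := by
    obtain ⟨C, hC⟩ := (hf.iter p j).bd
    refine ⟨|gg lam i| * C, fun z => ?_⟩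
    unfold jet0
    rw [abs_mul]
    exact mul_le_mul_of_nonneg_left (hC _) (abs_nonneg _)
  pos z := by
    have : gg lam 0 = 1 := by simp [gg]
    simp only [jet0, this, one_mul, Function.iterate_zero, id_eq]
    exact h0 _

theorem u_jet0 (lam : ℝ) (hf : BS f) (x p : V) (s z : ℝ) (i j : ℕ) :
    u (jet0 lam f x p) i j s z =
      gg lam i * ((dd p)^[j] (Fs f p s) (x + z • p) / Fs f p s (x + z • p)) := by
  have e : ∀ i j, P (jet0 lam f x p i j) s z = gg lam i * (dd p)^[j] (Fs f p s) (x + z • p) := by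
    intro i j
    have h1 := P_line ((dd p)^[j] f) x p s z
    have h2 : Fs ((dd p)^[j] f) p s = (dd p)^[j] (Fs f p s) := (iter_TT (meas_Y p s) hf p j).symm
    rw [← h2, ← h1]
    unfold P jet0
    rw [integral_const_mul]
  have h3 : gg lam 0 = 1 := by simp [gg]
  unfold u
  rw [e, e, h3, one_mul, mul_div_assoc]
  rfl

theorem jet0_vals (lam : ℝ) (hf : BS f) (h0 : ∀ x, 0 < f x) (x p : V) (s z : ℝ) :
    A0 (jet0 lam f x p) s z = lam ∧ A1 (jet0 lam f x p) s z = 0 ∧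
    A2 (jet0 lam f x p) s z = aa (Fs f p s) (x + z • p) p ∧
    B0 (jet0 lam f x p) s z = 0 ∧ B1 (jet0 lam f x p) s z = 0 ∧ B2 (jet0 lam f x p) s z = 0 ∧
    B3 (jet0 lam f x p) s z = bb (Fs f p s) (x + z • p) p := by
  have hp : Fs f p s (x + z • p) ≠ 0 := (TT_pos (meas_Y p s) hf h0 _).ne'
  have g0 : gg lam 0 = 1 := by simp [gg]
  have g1 : gg lam 1 = 0 := by simp [gg]
  have g2 : gg lam 2 = -lam := by simp [gg]
  have g3 : gg lam 3 = 0 := by simp [gg]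
  simp only [A0, A1, A2, B0, B1, B2, B3, pA0, pA1, pA2, pB0, pB1, pB2, pB3, u_jet0 lam hf,
    g0, g1, g2, g3, aa, bb, Function.iterate_zero, Function.iterate_succ, Function.comp_apply,
    id_eq, div_self hp]
  refine ⟨?_, ?_, ?_, ?_, ?_, ?_, ?_⟩ <;> ring

end normed

/-! ### The class -/

variable {V : Type} [NormedAddCommGroup V] [InnerProductSpace ℝ V] {f : V → ℝ}

/-- `- log f` is pinched and self-concordant. -/
structure Cl (κ lam Lam : ℝ) (f : V → ℝ) : Prop where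
  bs : BS f
  pos : ∀ x, 0 < f x
  low : ∀ x v, lam * ‖v‖ ^ 2 ≤ aa f x v
  up : ∀ x v, aa f x v ≤ Lam * ‖v‖ ^ 2
  sc : ∀ x v, |bb f x v| ≤ 2 * κ * (aa f x v * √(aa f x v))

theorem norm_comb {ξ p : V} (h1 : ‖ξ‖ = 1) (h2 : ‖p‖ = 1) (h3 : inner ℝ ξ p = 0) (a b : ℝ) :
    ‖a • ξ + b • p‖ ^ 2 = a ^ 2 + b ^ 2 := by
  rw [norm_add_sq_real, norm_smul, norm_smul, inner_smul_left, inner_smul_right, h1, h2, h3]
  simp

theorem Cl.plane (hR : R2Stmt) {κ lam Lam : ℝ} (hf : Cl κ lam Lam f) (hlam : 0 < lam)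
    (h0 : 0 ≤ κ) (h1 : κ ≤ 1) {ξ p : V} (n1 : ‖ξ‖ = 1) (n2 : ‖p‖ = 1) (n3 : inner ℝ ξ p = 0)
    {s : ℝ} (hs : 0 < s) (x : V) (a b : ℝ) :
    lam / (1 + s * Lam) * (a ^ 2 + b ^ 2) ≤ aa (Fs f p s) x (a • ξ + b • p) ∧
    aa (Fs f p s) x (a • ξ + b • p) ≤ Lam * (a ^ 2 + b ^ 2) ∧
    |bb (Fs f p s) x (a • ξ + b • p)| ≤ 2 * κ * (aa (Fs f p s) x (a • ξ + b • p) *
      √(aa (Fs f p s) x (a • ξ + b • p))) := by
  have key := hR (jet f x ξ p) (jet_jet hf.bs hf.pos x ξ p) lam Lam κ s hlam h0 h1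
    (fun z v1 v2 => by
      rw [qa_jet hf.bs, Fs_zero, ← norm_comb n1 n2 n3]
      exact hf.low _ _)
    (fun z v1 v2 => by
      rw [qa_jet hf.bs, Fs_zero, ← norm_comb n1 n2 n3]
      exact hf.up _ _)
    (fun z v1 v2 => by
      rw [qa_jet hf.bs, qb_jet hf.bs, Fs_zero]
      exact hf.sc _ _) hs s 0 a b hs.le le_rfl
  rw [qa_jet hf.bs, qb_jet hf.bs] at key
  simpa only [zero_smul, add_zero] using key

theorem Cl.line (hR : R2Stmt) {κ lam Lam : ℝ} (hf : Cl κ lam Lam f) (hlam : 0 < lam)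
    (h0 : 0 ≤ κ) (h1 : κ ≤ 1) {p : V} (n2 : ‖p‖ = 1)
    {s : ℝ} (hs : 0 < s) (x : V) (b : ℝ) :
    lam / (1 + s * Lam) * b ^ 2 ≤ aa (Fs f p s) x (b • p) ∧
    aa (Fs f p s) x (b • p) ≤ Lam * b ^ 2 ∧
    |bb (Fs f p s) x (b • p)| ≤ 2 * κ * (aa (Fs f p s) x (b • p) *
      √(aa (Fs f p s) x (b • p))) := by
  have hlow : ∀ x, lam ≤ aa f x p := fun x => by
    have := hf.low x p
    rwa [n2, one_pow, mul_one] at this
  have hup : ∀ x, aa f x p ≤ Lam := fun x => by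
    have := hf.up x p
    rwa [n2, one_pow, mul_one] at this
  have hlL : lam ≤ Lam := (hlow 0).trans (hup 0)
  have hsc : ∀ x, |bb f x p| ≤ 2 * κ * (aa f x p * √(aa f x p)) := fun x => hf.sc x p
  have key := hR (jet0 lam f x p) (jet0_jet lam hf.bs hf.pos x p) lam Lam κ s hlam h0 h1
    (fun z v1 v2 => by
      obtain ⟨e0, e1, e2, -⟩ := jet0_vals lam hf.bs hf.pos x p 0 z
      rw [e0, e1, e2, Fs_zero]
      unfold qa
      nlinarith [hlow (x + z • p), sq_nonneg v2])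
    (fun z v1 v2 => by
      obtain ⟨e0, e1, e2, -⟩ := jet0_vals lam hf.bs hf.pos x p 0 z
      rw [e0, e1, e2, Fs_zero]
      unfold qa
      nlinarith [hup (x + z • p), sq_nonneg v2, sq_nonneg v1])
    (fun z v1 v2 => by
      obtain ⟨e0, e1, e2, e3, e4, e5, e6⟩ := jet0_vals lam hf.bs hf.pos x p 0 z
      rw [e0, e1, e2, e3, e4, e5, e6, Fs_zero]
      have k1 := hsc (x + z • p)
      have k2 := hlow (x + z • p)
      set A := aa f (x + z • p) p with hA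
      set B := bb f (x + z • p) p with hB
      have q1 : qb 0 0 0 B v1 v2 = B * v2 ^ 3 := by unfold qb; ring
      have q2 : A * v2 ^ 2 ≤ qa lam 0 A v1 v2 := by
        unfold qa
        nlinarith [sq_nonneg v1]
      have hA0 : 0 ≤ A := hlam.le.trans k2
      have q3 : 0 ≤ A * v2 ^ 2 := by positivity
      rw [q1, abs_mul, abs_pow]
      have q4 : √(A * v2 ^ 2) = √A * |v2| := by
        rw [Real.sqrt_mul hA0, Real.sqrt_sq_eq_abs]
      calc |B| * |v2| ^ 3 ≤ (2 * κ * (A * √A)) * |v2| ^ 3 :=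
            mul_le_mul_of_nonneg_right k1 (by positivity)
        _ = 2 * κ * ((A * v2 ^ 2) * √(A * v2 ^ 2)) := by
            rw [q4, ← sq_abs v2]
            ring
        _ ≤ _ := by
            refine mul_le_mul_of_nonneg_left ?_ (by positivity)
            exact mul_le_mul q2 (Real.sqrt_le_sqrt q2) (Real.sqrt_nonneg _) (q3.trans q2))
    hs s 0 0 b hs.le le_rfl
  obtain ⟨e0, e1, e2, e3, e4, e5, e6⟩ := jet0_vals lam hf.bs hf.pos x p s 0
  rw [e0, e1, e2, e3, e4, e5, e6] at key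
  simp only [zero_smul, add_zero] at key
  have q1 : qb 0 0 0 (bb (Fs f p s) x p) 0 b = bb (Fs f p s) x (b • p) := by
    rw [bb_smul (hf.bs.Fs p s)]; unfold qb; ring
  have q2 : qa lam 0 (aa (Fs f p s) x p) 0 b = aa (Fs f p s) x (b • p) := by
    rw [aa_smul (hf.bs.Fs p s)]; unfold qa; ring
  rw [q1, q2] at key
  simpa using key

theorem Cl.step (hR : R2Stmt) {κ lam Lam : ℝ} (hf : Cl κ lam Lam f) (hlam : 0 < lam)
    (h0 : 0 ≤ κ) (h1 : κ ≤ 1) (q : V) :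
    Cl κ (lam / (1 + ‖q‖ ^ 2 * Lam)) Lam (TT (gaussianReal 0 1) (fun g : ℝ => g • q) f) := by
  have hY : AEStronglyMeasurable (fun g : ℝ => g • q) (gaussianReal 0 1) :=
    Continuous.aestronglyMeasurable (by fun_prop)
  by_cases hq : q = 0
  · have e : TT (gaussianReal 0 1) (fun g : ℝ => g • q) f = f := by
      funext x
      simp [TT, hq]
    rw [e, hq]
    simpa using hf
  have hq0 : 0 < ‖q‖ := norm_pos_iff.2 hq
  set p : V := ‖q‖⁻¹ • q with hp
  have n2 : ‖p‖ = 1 := by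
    rw [hp, norm_smul, norm_inv, norm_norm, inv_mul_cancel₀ hq0.ne']
  have e : TT (gaussianReal 0 1) (fun g : ℝ => g • q) f = Fs f p (‖q‖ ^ 2) := by
    unfold Fs
    congr 1
    funext g
    rw [Real.sqrt_sq hq0.le, hp, smul_smul]
    congr 1
    field_simp
  have hs : 0 < ‖q‖ ^ 2 := by positivity
  rw [e]
  have main : ∀ x v, lam / (1 + ‖q‖ ^ 2 * Lam) * ‖v‖ ^ 2 ≤ aa (Fs f p (‖q‖ ^ 2)) x v ∧
      aa (Fs f p (‖q‖ ^ 2)) x v ≤ Lam * ‖v‖ ^ 2 ∧
      |bb (Fs f p (‖q‖ ^ 2)) x v| ≤ 2 * κ * (aa (Fs f p (‖q‖ ^ 2)) x v *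
        √(aa (Fs f p (‖q‖ ^ 2)) x v)) := by
    intro x v
    set b : ℝ := inner ℝ p v with hb
    set w : V := v - b • p with hw
    have hpw : inner ℝ p w = 0 := by
      rw [hw, inner_sub_right, inner_smul_right, real_inner_self_eq_norm_sq, n2, ← hb]
      ring
    by_cases hw0 : w = 0
    · have hv : v = b • p := by rw [← sub_eq_zero]; exact hw0
      have hn : ‖v‖ ^ 2 = b ^ 2 := by rw [hv, norm_smul, n2]; simp
      rw [hn, hv]
      exact hf.line hR hlam h0 h1 n2 hs x b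
    · have hw1 : 0 < ‖w‖ := norm_pos_iff.2 hw0
      set ξ : V := ‖w‖⁻¹ • w with hξ
      have n1 : ‖ξ‖ = 1 := by
        rw [hξ, norm_smul, norm_inv, norm_norm, inv_mul_cancel₀ hw1.ne']
      have n3 : inner ℝ ξ p = 0 := by
        rw [hξ, inner_smul_left, real_inner_comm, hpw]
        simp
      have hv : v = ‖w‖ • ξ + b • p := by
        rw [hξ, smul_smul, mul_inv_cancel₀ hw1.ne', one_smul, hw]
        abel
      have hn : ‖v‖ ^ 2 = ‖w‖ ^ 2 + b ^ 2 := by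
        rw [hv, norm_comb n1 n2 n3]
      rw [hn, hv]
      exact hf.plane hR hlam h0 h1 n1 n2 n3 hs x ‖w‖ b
  exact ⟨hf.bs.Fs p _, TT_pos (meas_Y p _) hf.bs hf.pos, fun x v => (main x v).1,
    fun x v => (main x v).2.1, fun x v => (main x v).2.2⟩

end Vale.Agent.P227.M.SC2
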