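import Vale.Agent.P227.M.SC2.HeatEq
import Vale.Agent.P227.M.SC2.Alg
import Vale.Agent.P227.M.SC2.Bd

/-!
P227, block SC-2 (H2) (helper241): the two-dimensional lemma in jet form. For a jet `h`
(`h i j = ∂_t^i ∂_z^j e^{-W}` at fixed `t`) with `lam |v|² ≤ D²W ≤ Lam |v|²` and
`|D³W[v,v,v]| ≤ 2 c (D²W[v,v])^{3/2}`, the same holds for the heat flow in the variable `z`
(with `lam / (1 + S Lam)` instead of `lam`) for all times `s ∈ [0, S]`.
-/

open MeasureTheory ProbabilityTheory Set Real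
open Vale.P227M.SC2 (qa qb sc_flow)

namespace Vale.Agent.P227.M.SC2

variable {h : ℕ → ℕ → ℝ → ℝ}

/-- the tilted potential -/
noncomputable def tU (h : ℕ → ℕ → ℝ → ℝ) (s z g : ℝ) : ℝ := -Real.log (h 0 0 (z + √s * g)) + g ^ 2 / 2

theorem exp_neg_tU (H : Jet h) (s z g : ℝ) :
    exp (-tU h s z g) = h 0 0 (z + √s * g) * exp (-(g ^ 2 / 2)) := by
  unfold tU
  rw [neg_add, neg_neg, exp_add, exp_log (H.pos _)]

theorem P_eq_lebesgue (f : ℝ → ℝ) (s z : ℝ) :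
    P f s z = (√(2 * π))⁻¹ * ∫ g, f (z + √s * g) * exp (-(g ^ 2 / 2)) := by
  unfold P
  rw [integral_gaussianReal_eq_integral_smul one_ne_zero, ← integral_const_mul]
  refine integral_congr_ae (Filter.Eventually.of_forall fun g => ?_)
  simp only [gaussianPDFReal, NNReal.coe_one, mul_one, sub_zero, smul_eq_mul]
  have e : -g ^ 2 / 2 = -(g ^ 2 / 2) := by ring
  rw [e]
  ring

theorem u_eq_nu (H : Jet h) (i j : ℕ) (s z : ℝ) :
    u h i j s z = ∫ g, h i j (z + √s * g) / h 0 0 (z + √s * g) ∂(Pot.nu (tU h s z)) := by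
  unfold u
  rw [P_eq_lebesgue, P_eq_lebesgue, Pot.nu_integral]
  have hc : (√(2 * π))⁻¹ ≠ 0 := by positivity
  rw [mul_div_mul_left _ _ hc]
  congr 1
  · refine integral_congr_ae (Filter.Eventually.of_forall fun g => ?_)
    simp only
    rw [exp_neg_tU H]
    have := (H.pos (z + √s * g)).ne'
    field_simp
  · refine integral_congr_ae (Filter.Eventually.of_forall fun g => ?_)
    simp only
    rw [exp_neg_tU H]

/-- `X = D_v W` -/
noncomputable def fX (h : ℕ → ℕ → ℝ → ℝ) (v1 v2 z : ℝ) : ℝ := v1 * wt h 0 z + v2 * wz h 0 z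

/-- `X' = ∂_z D_v W` -/
noncomputable def fX1 (h : ℕ → ℕ → ℝ → ℝ) (v1 v2 z : ℝ) : ℝ := v1 * A1 h 0 z + v2 * A2 h 0 z

/-- the quadratic form of the flow -/
noncomputable def Q (h : ℕ → ℕ → ℝ → ℝ) (s z v1 v2 : ℝ) : ℝ :=
  qa (A0 h s z) (A1 h s z) (A2 h s z) v1 v2

/-- the cubic form of the flow -/
noncomputable def R (h : ℕ → ℕ → ℝ → ℝ) (s z v1 v2 : ℝ) : ℝ :=
  qb (B0 h s z) (B1 h s z) (B2 h s z) (B3 h s z) v1 v2

theorem Jet.dz_wt (H : Jet h) (s z : ℝ) : HasDerivAt (fun z => wt h s z) (A1 h s z) z := by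
  refine (H.u_dz (i := 1) (j := 0) (by norm_num) s z).fun_neg.congr_deriv ?_
  unfold Uz A1 pA1
  ring

theorem fX_deriv (H : Jet h) (v1 v2 z : ℝ) : HasDerivAt (fX h v1 v2) (fX1 h v1 v2 z) z :=
  ((H.dz_wt 0 z).const_mul v1).fun_add ((H.dz_wz 0 z).const_mul v2)

theorem cont0 {f : ℝ → ℝ → ℝ} (hf : Continuous fun p : ℝ × ℝ => f p.1 p.2) (s : ℝ) :
    Continuous (f s) := hf.comp (by fun_prop : Continuous fun z : ℝ => ((s, z) : ℝ × ℝ))

theorem fX1_cont (H : Jet h) (v1 v2 : ℝ) : Continuous (fX1 h v1 v2) :=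
  ((cont0 H.c_A1 0).const_mul v1).add ((cont0 H.c_A2 0).const_mul v2)

theorem Q_cont (H : Jet h) (s v1 v2 : ℝ) : Continuous (fun z => Q h s z v1 v2) := by
  unfold Q qa
  have h0 := cont0 H.c_A0 s
  have h1 := cont0 H.c_A1 s
  have h2 := cont0 H.c_A2 s
  fun_prop

theorem R_cont (H : Jet h) (s v1 v2 : ℝ) : Continuous (fun z => R h s z v1 v2) := by
  unfold R qb
  have h0 := cont0 H.c_B0 s
  have h1 := cont0 H.c_B1 s
  have h2 := cont0 H.c_B2 s
  have h3 := cont0 H.c_B3 s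
  fun_prop

/-- polynomial identities -/
theorem Q_eq (h : ℕ → ℕ → ℝ → ℝ) (s z v1 v2 : ℝ) :
    Q h s z v1 v2 = -(v1 ^ 2 * u h 2 0 s z + 2 * v1 * v2 * u h 1 1 s z + v2 ^ 2 * u h 0 2 s z)
      + (v1 * u h 1 0 s z + v2 * u h 0 1 s z) ^ 2 := by
  unfold Q qa A0 A1 A2 pA0 pA1 pA2
  ring

theorem R_eq (h : ℕ → ℕ → ℝ → ℝ) (s z v1 v2 : ℝ) :
    R h s z v1 v2 =
      -(v1 ^ 3 * u h 3 0 s z + 3 * v1 ^ 2 * v2 * u h 2 1 s z + 3 * v1 * v2 ^ 2 * u h 1 2 s z
        + v2 ^ 3 * u h 0 3 s z)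
      + 3 * ((v1 * u h 1 0 s z + v2 * u h 0 1 s z)
        * (v1 ^ 2 * u h 2 0 s z + 2 * v1 * v2 * u h 1 1 s z + v2 ^ 2 * u h 0 2 s z))
      - 2 * (v1 * u h 1 0 s z + v2 * u h 0 1 s z) ^ 3 := by
  unfold R qb B0 B1 B2 B3 pB0 pB1 pB2 pB3
  ring

section flow

variable (H : Jet h) {lam Lam c S : ℝ} (hlam : 0 < lam) (hc0 : 0 ≤ c) (hc1 : c ≤ 1)
  (low0 : ∀ z v1 v2, lam * (v1 ^ 2 + v2 ^ 2) ≤ Q h 0 z v1 v2)
  (up0 : ∀ z v1 v2, Q h 0 z v1 v2 ≤ Lam * (v1 ^ 2 + v2 ^ 2))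
  (sc0 : ∀ z v1 v2, |R h 0 z v1 v2| ≤ 2 * c * (Q h 0 z v1 v2 * √(Q h 0 z v1 v2)))

include low0 up0 in
theorem A2_bds (z : ℝ) : lam ≤ A2 h 0 z ∧ A2 h 0 z ≤ Lam := by
  have h1 := low0 z 0 1
  have h2 := up0 z 0 1
  unfold Q qa at h1 h2
  constructor <;> linarith

include hlam low0 up0 in
theorem A1_bd (z : ℝ) : |A1 h 0 z| ≤ Lam := by
  have h1 := low0 z 1 1
  have h2 := up0 z 1 1
  have h3 := low0 z 1 (-1)
  have h4 := up0 z 1 (-1)
  unfold Q qa at h1 h2 h3 h4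
  rw [abs_le]
  constructor <;> linarith

include H hlam low0 up0 in
theorem tPot {s : ℝ} (hs : 0 ≤ s) (hsS : s ≤ S) (z : ℝ) :
    Pot (tU h s z) (fun g => wz h 0 (z + √s * g) * √s + g)
      (fun g => A2 h 0 (z + √s * g) * √s * √s + 1) (1 + S * Lam) := by
  have hLam : 0 < Lam := lt_of_lt_of_le hlam ((A2_bds low0 up0 0).1.trans (A2_bds low0 up0 0).2)
  have haff : ∀ g : ℝ, HasDerivAt (fun g => z + √s * g) (√s) g := fun g =>
    (((hasDerivAt_id g).const_mul (√s)).const_add z).congr_deriv (mul_one _)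
  have hss : √s * √s = s := mul_self_sqrt hs
  refine ⟨fun g => ?_, fun g => ?_, fun g => ?_, fun g => ?_, ?_⟩
  · have h1 : HasDerivAt (fun x => -Real.log (h 0 0 x)) (wz h 0 (z + √s * g)) (z + √s * g) := by
      have := H.dz_w 0 (z + √s * g)
      simpa only [P_zero] using this
    have h2 := h1.comp g (haff g)
    have h3 : HasDerivAt (fun g : ℝ => g ^ 2 / 2) g g := by
      have := ((hasDerivAt_id g).pow 2).div_const 2
      simpa using this
    exact h2.add h3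
  · have h1 := (((H.dz_wz 0 (z + √s * g)).comp g (haff g)).mul_const (√s)).add (hasDerivAt_id g)
    exact h1
  · have h0 : 0 ≤ A2 h 0 (z + √s * g) := hlam.le.trans (A2_bds low0 up0 (z + √s * g)).1
    have : 0 ≤ A2 h 0 (z + √s * g) * √s * √s := by positivity
    linarith
  · have h1 := (A2_bds low0 up0 (z + √s * g)).2
    rw [mul_assoc, hss]
    have h2 : A2 h 0 (z + √s * g) * s ≤ Lam * S := by
      calc A2 h 0 (z + √s * g) * s ≤ Lam * s := mul_le_mul_of_nonneg_right h1 hs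
        _ ≤ Lam * S := mul_le_mul_of_nonneg_left hsS hLam.le
    linarith
  · have h2 := cont0 H.c_A2 0
    exact (((h2.comp (by fun_prop : Continuous fun g : ℝ => z + √s * g)).mul_const _).mul_const _).add_const 1

include H hlam hc0 hc1 low0 up0 sc0 in
/-- the bounds for the flow -/
theorem flow_bds {s : ℝ} (hs : 0 ≤ s) (hsS : s ≤ S) (z v1 v2 : ℝ) :
    lam / (1 + S * Lam) * (v1 ^ 2 + v2 ^ 2) ≤ Q h s z v1 v2 ∧
    Q h s z v1 v2 ≤ Lam * (v1 ^ 2 + v2 ^ 2) ∧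
    |R h s z v1 v2| ≤ 7 * (√S * (Lam * (|v1| + |v2|))) ^ 3
      + 6 * ((√S * (Lam * (|v1| + |v2|))) * (Lam * (v1 ^ 2 + v2 ^ 2)))
      + 2 * (Lam * (v1 ^ 2 + v2 ^ 2) * √(Lam * (v1 ^ 2 + v2 ^ 2))) := by
  have hLam : 0 < Lam := lt_of_lt_of_le hlam ((A2_bds low0 up0 0).1.trans (A2_bds low0 up0 0).2)
  have hS : 0 ≤ S := hs.trans hsS
  have hss : √s * √s = s := mul_self_sqrt hs
  have hr : 0 ≤ v1 ^ 2 + v2 ^ 2 := by positivity
  have HP := tPot H hlam low0 up0 hs hsS z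
  have haff : ∀ g : ℝ, HasDerivAt (fun g => z + √s * g) (√s) g := fun g =>
    (((hasDerivAt_id g).const_mul (√s)).const_add z).congr_deriv (mul_one _)
  have caff : Continuous fun g : ℝ => z + √s * g := by fun_prop
  have hX1b : ∀ x, |fX1 h v1 v2 x| ≤ Lam * (|v1| + |v2|) := fun x => by
    have h1 := A1_bd hlam low0 up0 x
    have h2 := A2_bds low0 up0 x
    have h2' : |A2 h 0 x| ≤ Lam := by rw [abs_of_nonneg (by linarith)]; exact h2.2
    unfold fX1
    calc |v1 * A1 h 0 x + v2 * A2 h 0 x| ≤ |v1 * A1 h 0 x| + |v2 * A2 h 0 x| := abs_add_le _ _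
      _ = |v1| * |A1 h 0 x| + |v2| * |A2 h 0 x| := by rw [abs_mul, abs_mul]
      _ ≤ |v1| * Lam + |v2| * Lam := by gcongr
      _ = _ := by ring
  have HO : Obs (fun g => fX h v1 v2 (z + √s * g)) (fun g => fX1 h v1 v2 (z + √s * g) * √s)
      (√S * (Lam * (|v1| + |v2|))) := by
    refine ⟨fun g => HasDerivAt.comp (h₂ := fX h v1 v2) (h := fun g => z + √s * g) g
      (fX_deriv H v1 v2 (z + √s * g)) (haff g), fun g => ?_, ?_⟩
    · rw [abs_mul, abs_of_nonneg (sqrt_nonneg s), mul_comm]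
      exact mul_le_mul (sqrt_le_sqrt hsS) (hX1b _) (abs_nonneg _) (sqrt_nonneg _)
    · exact ((fX1_cont H v1 v2).comp caff).mul_const _
  have hQ0 : ∀ x, 0 ≤ Q h 0 x v1 v2 := fun x => le_trans (by positivity) (low0 x v1 v2)
  have hcum := HP.cumulants HO (Y := fun g => Q h 0 (z + √s * g) v1 v2)
    (T := fun g => R h 0 (z + √s * g) v1 v2) (LY := Lam * (v1 ^ 2 + v2 ^ 2))
    (M := 2 * (Lam * (v1 ^ 2 + v2 ^ 2) * √(Lam * (v1 ^ 2 + v2 ^ 2))))
    (kap := lam / (1 + S * Lam) * (v1 ^ 2 + v2 ^ 2)) (LY' := Lam * (v1 ^ 2 + v2 ^ 2))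
    ((Q_cont H 0 v1 v2).comp caff) (fun g => by
      rw [abs_of_nonneg (hQ0 _)]; exact up0 _ _ _) (fun g => up0 _ _ _)
    ((R_cont H 0 v1 v2).comp caff) (fun g => by
      refine (sc0 (z + √s * g) v1 v2).trans ?_
      have h1 := up0 (z + √s * g) v1 v2
      have h2 := hQ0 (z + √s * g)
      have h3 : Q h 0 (z + √s * g) v1 v2 * √(Q h 0 (z + √s * g) v1 v2)
          ≤ Lam * (v1 ^ 2 + v2 ^ 2) * √(Lam * (v1 ^ 2 + v2 ^ 2)) :=
        mul_le_mul h1 (sqrt_le_sqrt h1) (sqrt_nonneg _) (by positivity)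
      have h4 : 0 ≤ Q h 0 (z + √s * g) v1 v2 * √(Q h 0 (z + √s * g) v1 v2) := by positivity
      nlinarith)
    (fun g => by
      set x := z + √s * g with hx
      have h1 := A2_bds low0 up0 x
      have hA2 : 0 < A2 h 0 x := lt_of_lt_of_le hlam h1.1
      have hdet : 0 ≤ A0 h 0 x * A2 h 0 x - A1 h 0 x ^ 2 := by
        have h2 : 0 ≤ Q h 0 x (A2 h 0 x) (-A1 h 0 x) := le_trans (by positivity) (low0 x _ _)
        have h3 : Q h 0 x (A2 h 0 x) (-A1 h 0 x)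
            = A2 h 0 x * (A0 h 0 x * A2 h 0 x - A1 h 0 x ^ 2) := by
          unfold Q qa; ring
        rw [h3] at h2
        exact nonneg_of_mul_nonneg_right h2 hA2
      have hCS : (fX1 h v1 v2 x) ^ 2 ≤ Q h 0 x v1 v2 * A2 h 0 x := by
        have h3 : Q h 0 x v1 v2 * A2 h 0 x - (fX1 h v1 v2 x) ^ 2
            = v1 ^ 2 * (A0 h 0 x * A2 h 0 x - A1 h 0 x ^ 2) := by
          unfold Q qa fX1; ring
        have : 0 ≤ v1 ^ 2 * (A0 h 0 x * A2 h 0 x - A1 h 0 x ^ 2) := by positivity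
        linarith
      have e1 : A2 h 0 x * √s * √s + 1 = 1 + s * A2 h 0 x := by
        rw [mul_assoc, hss]; ring
      have e2 : (fX1 h v1 v2 x * √s) ^ 2 = s * (fX1 h v1 v2 x) ^ 2 := by
        rw [mul_pow, sq_sqrt hs]; ring
      simp only [e1, e2]
      have hD : 0 < 1 + s * A2 h 0 x := by positivity
      have h5 : Q h 0 x v1 v2 / (1 + s * A2 h 0 x)
          ≤ Q h 0 x v1 v2 - s * (fX1 h v1 v2 x) ^ 2 / (1 + s * A2 h 0 x) := by
        rw [div_le_iff₀ hD, sub_mul, div_mul_cancel₀ _ hD.ne']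
        nlinarith [mul_le_mul_of_nonneg_left hCS hs]
      refine le_trans ?_ h5
      rw [div_mul_eq_mul_div]
      refine div_le_div₀ (hQ0 x) (low0 x v1 v2) hD ?_
      have : s * A2 h 0 x ≤ S * Lam := mul_le_mul hsS h1.2 hA2.le hS
      linarith)
  have hprob := HP.nu_prob
  -- integrability of the quotients
  have iu : ∀ i j, i + j ≤ 5 → Integrable (fun g => h i j (z + √s * g) / h 0 0 (z + √s * g))
      (Pot.nu (tU h s z)) := fun i j hij => by
    refine HP.nu_integrable ?_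
    obtain ⟨C, hC⟩ := H.b i j hij
    have hg : Integrable (fun g : ℝ => C * exp (-(g ^ 2 / 2))) := by
      have := (integrable_pow_gauss 0).const_mul C
      simpa using this
    have cij := (H.c i j hij).comp caff
    have e : ∀ g : ℝ, h i j (z + √s * g) / h 0 0 (z + √s * g) * exp (-tU h s z g)
        = h i j (z + √s * g) * exp (-(g ^ 2 / 2)) := fun g => by
      rw [exp_neg_tU H]
      have := (H.pos (z + √s * g)).ne'
      field_simp
    simp only [e]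
    refine hg.mono' (cij.mul (by fun_prop)).aestronglyMeasurable
      (Filter.Eventually.of_forall fun g => ?_)
    rw [Real.norm_eq_abs, abs_mul, abs_of_pos (exp_pos _)]
    exact mul_le_mul_of_nonneg_right (hC _) (exp_pos _).le
  have i10 := iu 1 0 (by norm_num)
  have i01 := iu 0 1 (by norm_num)
  have i20 := iu 2 0 (by norm_num)
  have i11 := iu 1 1 (by norm_num)
  have i02 := iu 0 2 (by norm_num)
  have i30 := iu 3 0 (by norm_num)
  have i21 := iu 2 1 (by norm_num)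
  have i12 := iu 1 2 (by norm_num)
  have i03 := iu 0 3 (by norm_num)
  have p1 : ∫ g, fX h v1 v2 (z + √s * g) ∂(Pot.nu (tU h s z))
      = -(v1 * u h 1 0 s z + v2 * u h 0 1 s z) := by
    rw [u_eq_nu H 1 0, u_eq_nu H 0 1, ← integral_const_mul, ← integral_const_mul,
      ← integral_add (i10.const_mul v1) (i01.const_mul v2), ← integral_neg]
    refine integral_congr_ae (Filter.Eventually.of_forall fun g => ?_)
    simp only [fX, wt, wz, u_zero]
    ring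
  have p2 : ∫ g, ((fX h v1 v2 (z + √s * g)) ^ 2 - Q h 0 (z + √s * g) v1 v2) ∂(Pot.nu (tU h s z))
      = v1 ^ 2 * u h 2 0 s z + 2 * v1 * v2 * u h 1 1 s z + v2 ^ 2 * u h 0 2 s z := by
    have j1 := i20.const_mul (v1 ^ 2)
    have j2 := i11.const_mul (2 * v1 * v2)
    have j3 := i02.const_mul (v2 ^ 2)
    have j12 : Integrable (fun g => v1 ^ 2 * (h 2 0 (z + √s * g) / h 0 0 (z + √s * g))
        + 2 * v1 * v2 * (h 1 1 (z + √s * g) / h 0 0 (z + √s * g))) (Pot.nu (tU h s z)) := j1.add j2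
    rw [u_eq_nu H 2 0, u_eq_nu H 1 1, u_eq_nu H 0 2, ← integral_const_mul, ← integral_const_mul,
      ← integral_const_mul, ← integral_add j1 j2, ← integral_add j12 j3]
    refine integral_congr_ae (Filter.Eventually.of_forall fun g => ?_)
    simp only [fX, wt, wz, Q_eq, u_zero]
    ring
  have p3 : ∫ g, (-(fX h v1 v2 (z + √s * g)) ^ 3
        + 3 * (fX h v1 v2 (z + √s * g) * Q h 0 (z + √s * g) v1 v2) - R h 0 (z + √s * g) v1 v2)
        ∂(Pot.nu (tU h s z))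
      = v1 ^ 3 * u h 3 0 s z + 3 * v1 ^ 2 * v2 * u h 2 1 s z + 3 * v1 * v2 ^ 2 * u h 1 2 s z
        + v2 ^ 3 * u h 0 3 s z := by
    have j1 := i30.const_mul (v1 ^ 3)
    have j2 := i21.const_mul (3 * v1 ^ 2 * v2)
    have j3 := i12.const_mul (3 * v1 * v2 ^ 2)
    have j4 := i03.const_mul (v2 ^ 3)
    have j12 : Integrable (fun g => v1 ^ 3 * (h 3 0 (z + √s * g) / h 0 0 (z + √s * g))
        + 3 * v1 ^ 2 * v2 * (h 2 1 (z + √s * g) / h 0 0 (z + √s * g)))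
        (Pot.nu (tU h s z)) := j1.add j2
    have j123 : Integrable (fun g => (v1 ^ 3 * (h 3 0 (z + √s * g) / h 0 0 (z + √s * g))
        + 3 * v1 ^ 2 * v2 * (h 2 1 (z + √s * g) / h 0 0 (z + √s * g)))
        + 3 * v1 * v2 ^ 2 * (h 1 2 (z + √s * g) / h 0 0 (z + √s * g)))
        (Pot.nu (tU h s z)) := j12.add j3
    rw [u_eq_nu H 3 0, u_eq_nu H 2 1, u_eq_nu H 1 2, u_eq_nu H 0 3, ← integral_const_mul,
      ← integral_const_mul, ← integral_const_mul, ← integral_const_mul, ← integral_add j1 j2,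
      ← integral_add j12 j3, ← integral_add j123 j4]
    refine integral_congr_ae (Filter.Eventually.of_forall fun g => ?_)
    simp only [fX, wt, wz, Q_eq, R_eq, u_zero]
    ring
  obtain ⟨c1, c2, c3⟩ := hcum
  rw [p1, p2, p3] at c3
  rw [p1, p2] at c1 c2
  have eQ : Q h s z v1 v2 = -(v1 ^ 2 * u h 2 0 s z + 2 * v1 * v2 * u h 1 1 s z
      + v2 ^ 2 * u h 0 2 s z) + (-(v1 * u h 1 0 s z + v2 * u h 0 1 s z)) ^ 2 := by
    rw [Q_eq]; ring
  refine ⟨?_, ?_, ?_⟩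
  · rw [eQ]; exact c1
  · rw [eQ]; exact c2
  · rw [R_eq]
    convert c3 using 2
    ring

include H hlam hc0 hc1 low0 up0 sc0 in
/-- **the two-dimensional lemma, jet form** -/
theorem r2 (hS : 0 ≤ S) : ∀ s z v1 v2, 0 ≤ s → s ≤ S →
    lam / (1 + S * Lam) * (v1 ^ 2 + v2 ^ 2) ≤ qa (A0 h s z) (A1 h s z) (A2 h s z) v1 v2 ∧
    qa (A0 h s z) (A1 h s z) (A2 h s z) v1 v2 ≤ Lam * (v1 ^ 2 + v2 ^ 2) ∧
    |qb (B0 h s z) (B1 h s z) (B2 h s z) (B3 h s z) v1 v2| ≤
      2 * c * (qa (A0 h s z) (A1 h s z) (A2 h s z) v1 v2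
        * √(qa (A0 h s z) (A1 h s z) (A2 h s z) v1 v2)) := by
  have hLam : 0 < Lam := lt_of_lt_of_le hlam ((A2_bds low0 up0 0).1.trans (A2_bds low0 up0 0).2)
  have hD : 0 < 1 + S * Lam := by positivity
  -- uniform constant
  set CB : ℝ := 7 * (√S * (Lam * 2)) ^ 3 + 6 * ((√S * (Lam * 2)) * (Lam * 2))
      + 2 * (Lam * 2 * √(Lam * 2)) with hCB
  have hCB0 : 0 ≤ CB := by positivity
  have hb : ∀ s z v1 v2, 0 ≤ s → s ≤ S → |v1| ≤ 1 → |v2| ≤ 1 → |R h s z v1 v2| ≤ CB := by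
    intro s z v1 v2 h0 h1 hv1 hv2
    refine (flow_bds H hlam hc0 hc1 low0 up0 sc0 h0 h1 z v1 v2).2.2.trans ?_
    have e1 : |v1| + |v2| ≤ 2 := by linarith
    have e2 : v1 ^ 2 + v2 ^ 2 ≤ 2 := by
      have a1 : v1 ^ 2 ≤ 1 := (sq_le_one_iff_abs_le_one v1).2 hv1
      have a2 : v2 ^ 2 ≤ 1 := (sq_le_one_iff_abs_le_one v2).2 hv2
      linarith
    have e3 : √(Lam * (v1 ^ 2 + v2 ^ 2)) ≤ √(Lam * 2) := sqrt_le_sqrt (by gcongr)
    rw [hCB]
    gcongr
  have hbd := fun s z (h0 : 0 ≤ s) (h1 : s ≤ S) v1 v2 =>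
    flow_bds H hlam hc0 hc1 low0 up0 sc0 h0 h1 z v1 v2
  have hlam' : 0 < lam / (1 + S * Lam) := by positivity
  -- bound of `w_z`
  have hA2 : ∀ s z, 0 ≤ s → s ≤ S → 0 ≤ A2 h s z ∧ A2 h s z ≤ Lam := fun s z h0 h1 => by
    have h2 := (hbd s z h0 h1 0 1).1
    have h3 := (hbd s z h0 h1 0 1).2.1
    unfold Q qa at h2 h3
    constructor <;> linarith
  have hcw : Continuous fun s => wz h s 0 := by
    unfold wz
    exact ((H.u_cont (i := 0) (j := 1) (by norm_num)).comp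
      (by fun_prop : Continuous fun s : ℝ => ((s, 0) : ℝ × ℝ))).neg
  obtain ⟨Cw, hCw⟩ := (isCompact_Icc (a := (0 : ℝ)) (b := S)).exists_bound_of_continuousOn
    hcw.continuousOn
  have hCw0 : 0 ≤ Cw := (norm_nonneg _).trans (hCw 0 ⟨le_rfl, hS⟩)
  have hwz : ∀ s z, 0 ≤ s → s ≤ S → |wz h s z| ≤ (Cw + Lam) * (1 + |z|) := fun s z h0 h1 => by
    have hO : Obs (fun z => wz h s z) (fun z => A2 h s z) Lam :=
      ⟨fun z => H.dz_wz s z, fun z => by
        rw [abs_of_nonneg (hA2 s z h0 h1).1]; exact (hA2 s z h0 h1).2, cont0 H.c_A2 s⟩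
    have h2 := hO.lip z 0
    have h3 := hCw s ⟨h0, h1⟩
    rw [Real.norm_eq_abs] at h3
    rw [sub_zero] at h2
    have h4 : |wz h s z| ≤ |wz h s z - wz h s 0| + |wz h s 0| := by
      have := abs_add_le (wz h s z - wz h s 0) (wz h s 0)
      simpa using this
    have h5 := abs_nonneg z
    nlinarith
  set C : ℝ := CB + Lam + Cw with hC
  have hC0 : 0 ≤ C := by positivity
  have key := sc_flow S C (lam / (1 + S * Lam)) c hC0 hlam' hc0 hc1
    (wz h) (A0 h) (A1 h) (A2 h) (B0 h) (B1 h) (B2 h) (B3 h)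
    (fun s z => 1 / 2 * C2 h s z - wz h s z * B1 h s z - A1 h s z ^ 2)
    (fun s z => 1 / 2 * C3 h s z - wz h s z * B2 h s z - A1 h s z * A2 h s z)
    (fun s z => 1 / 2 * C4 h s z - wz h s z * B3 h s z - A2 h s z ^ 2)
    (fun s z => 1 / 2 * E1 h s z - wz h s z * C1 h s z - 3 * (A1 h s z * B1 h s z))
    (fun s z => 1 / 2 * E2 h s z - wz h s z * C2 h s z
      - (A2 h s z * B1 h s z + 2 * (A1 h s z * B2 h s z)))
    (fun s z => 1 / 2 * E3 h s z - wz h s z * C3 h s z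
      - (2 * (A2 h s z * B2 h s z) + A1 h s z * B3 h s z))
    (fun s z => 1 / 2 * E4 h s z - wz h s z * C4 h s z - 3 * (A2 h s z * B3 h s z))
    (C1 h) (C2 h) (C3 h) (C4 h) (E1 h) (E2 h) (E3 h) (E4 h)
    H.c_A0.continuousOn H.c_A1.continuousOn H.c_A2.continuousOn H.c_B0.continuousOn
    H.c_B1.continuousOn H.c_B2.continuousOn H.c_B3.continuousOn
    (fun s z hs _ => H.ds_A0 hs z) (fun s z hs _ => H.ds_A1 hs z) (fun s z hs _ => H.ds_A2 hs z)
    (fun s z hs _ => H.ds_B0 hs z) (fun s z hs _ => H.ds_B1 hs z) (fun s z hs _ => H.ds_B2 hs z)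
    (fun s z hs _ => H.ds_B3 hs z)
    (fun s z _ _ => H.dz_A0 s z) (fun s z _ _ => H.dz_A1 s z) (fun s z _ _ => H.dz_A2 s z)
    (fun s z _ _ => H.dz_B0 s z) (fun s z _ _ => H.dz_B1 s z) (fun s z _ _ => H.dz_B2 s z)
    (fun s z _ _ => H.dz_B3 s z)
    (fun s z _ _ => H.dz_C1 s z) (fun s z _ _ => H.dz_C2 s z) (fun s z _ _ => H.dz_C3 s z)
    (fun s z _ _ => H.dz_C4 s z)
    (fun s z _ _ => by ring) (fun s z _ _ => by ring) (fun s z _ _ => by ring)
    (fun s z _ _ => by ring) (fun s z _ _ => by ring) (fun s z _ _ => by ring)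
    (fun s z _ _ => by ring)
    (fun s z h0 h1 => by
      have a1 := (hbd s z h0 h1 1 1).1
      have a2 := (hbd s z h0 h1 1 1).2.1
      have a3 := (hbd s z h0 h1 1 (-1)).1
      have a4 := (hbd s z h0 h1 1 (-1)).2.1
      unfold Q qa at a1 a2 a3 a4
      rw [abs_le]
      constructor <;> linarith)
    (fun s z h0 h1 => by
      rw [abs_of_nonneg (hA2 s z h0 h1).1]
      linarith [(hA2 s z h0 h1).2])
    (fun s z h0 h1 => by
      have := hb s z 1 0 h0 h1 (by simp) (by simp)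
      unfold R qb at this
      rw [abs_le] at *
      constructor <;> linarith [this.1, this.2])
    (fun s z h0 h1 => by
      have a1 := hb s z 1 1 h0 h1 (by simp) (by simp)
      have a2 := hb s z 1 (-1) h0 h1 (by simp) (by simp)
      have a3 := hb s z 0 1 h0 h1 (by simp) (by simp)
      unfold R qb at a1 a2 a3
      rw [abs_le] at *
      constructor <;> linarith [a1.1, a1.2, a2.1, a2.2, a3.1, a3.2])
    (fun s z h0 h1 => by
      have a1 := hb s z 1 1 h0 h1 (by simp) (by simp)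
      have a2 := hb s z 1 (-1) h0 h1 (by simp) (by simp)
      have a3 := hb s z 1 0 h0 h1 (by simp) (by simp)
      unfold R qb at a1 a2 a3
      rw [abs_le] at *
      constructor <;> linarith [a1.1, a1.2, a2.1, a2.2, a3.1, a3.2])
    (fun s z h0 h1 => by
      have := hb s z 0 1 h0 h1 (by simp) (by simp)
      unfold R qb at this
      rw [abs_le] at *
      constructor <;> linarith [this.1, this.2])
    (fun s z h0 h1 => by
      refine (hwz s z h0.le h1).trans ?_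
      have : 0 ≤ 1 + |z| := by positivity
      exact mul_le_mul_of_nonneg_right (by linarith) this)
    (fun s z v1 v2 h0 h1 => (hbd s z h0 h1 v1 v2).1)
    (fun z v1 v2 => (le_abs_self _).trans (sc0 z v1 v2))
  intro s z v1 v2 h0 h1
  exact ⟨(hbd s z h0 h1 v1 v2).1, (hbd s z h0 h1 v1 v2).2.1, key s z v1 v2 h0 h1⟩

end flow

end Vale.Agent.P227.M.SC2
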