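import Vale.Agent.P227.M.SC2.IterB
import Vale.Agent.P227.M.SC2.ExpCls
import Vale.Agent.P227.M.SC2.Fub
import Vale.Agent.P227.M.LK.Line
import Vale.Agent.P227.M.SC2.R2

/-!
P227/M, block SC-2: `StmtHeat` from the lemma on `ℝ²` (`R2Stmt`), by iteration over the directions
`P e_i`.
-/

namespace Vale.Agent.P227.M.SC2

open MeasureTheory ProbabilityTheory Filter Topology
open scoped ContDiff

section line

variable {V : Type} [NormedAddCommGroup V] [NormedSpace ℝ V] {f : V → ℝ}

theorem line1 (hf : BS f) (h0 : ∀ x, 0 < f x) {K : ℝ} (hK : 0 < K) (x v : V) (t : ℝ) :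
    HasDerivAt (fun t : ℝ => -Real.log (K * f (x + t • v)))
      (-(dd v f (x + t • v) / f (x + t • v))) t := by
  have h1 := (hf.hasDerivAt x v t).const_mul K
  have h2 := (h1.log (mul_pos hK (h0 _)).ne').fun_neg
  refine h2.congr_deriv ?_
  have := (h0 (x + t • v)).ne'
  field_simp

theorem line2 (hf : BS f) (h0 : ∀ x, 0 < f x) (x v : V) (t : ℝ) :
    HasDerivAt (fun t : ℝ => -(dd v f (x + t • v) / f (x + t • v))) (aa f (x + t • v) v) t := by
  have h1 := hf.hasDerivAt x v t
  have h2 := (hf.dd v).hasDerivAt x v t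
  have h3 := (h2.fun_div h1 (h0 _).ne').fun_neg
  refine h3.congr_deriv ?_
  have := (h0 (x + t • v)).ne'
  unfold aa
  field_simp
  ring

theorem line3 (hf : BS f) (h0 : ∀ x, 0 < f x) (x v : V) (t : ℝ) :
    HasDerivAt (fun t : ℝ => aa f (x + t • v) v) (bb f (x + t • v) v) t := by
  have h1 := hf.hasDerivAt x v t
  have h2 := (hf.dd v).hasDerivAt x v t
  have h3 := ((hf.dd v).dd v).hasDerivAt x v t
  have hne := (h0 (x + t • v)).ne'
  have q1 := h2.fun_div h1 hne
  have q2 := h3.fun_div h1 hne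
  unfold aa
  refine (q2.fun_neg.fun_add (q1.fun_mul q1)).congr_deriv ?_
  unfold bb
  field_simp
  ring

theorem iter2 (hf : BS f) (h0 : ∀ x, 0 < f x) {K : ℝ} (hK : 0 < K) (x v : V) :
    iteratedDeriv 2 (fun t : ℝ => -Real.log (K * f (x + t • v))) = fun t => aa f (x + t • v) v := by
  rw [iteratedDeriv_succ, iteratedDeriv_one]
  have e1 : deriv (fun t : ℝ => -Real.log (K * f (x + t • v))) =
      fun t => -(dd v f (x + t • v) / f (x + t • v)) :=
    funext fun t => (line1 hf h0 hK x v t).deriv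
  rw [e1]
  exact funext fun t => (line2 hf h0 x v t).deriv

theorem iter3 (hf : BS f) (h0 : ∀ x, 0 < f x) {K : ℝ} (hK : 0 < K) (x v : V) :
    iteratedDeriv 3 (fun t : ℝ => -Real.log (K * f (x + t • v))) = fun t => bb f (x + t • v) v := by
  rw [iteratedDeriv_succ, iter2 hf h0 hK]
  exact funext fun t => (line3 hf h0 x v t).deriv

end line

variable {n : ℕ}

theorem rpow_32 {x : ℝ} (hx : 0 ≤ x) : x ^ ((3 : ℝ) / 2) = x * √x := by
  rw [LK.rpow_three_half hx]
  have := Real.sq_sqrt hx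
  calc √x ^ 3 = √x ^ 2 * √x := by ring
    _ = x * √x := by rw [this]

/-- From the class to self-concordance. -/
theorem Cl.selfConc {κ lam Lam K : ℝ} {F : E n → ℝ} (hF : Cl κ lam Lam F) (hlam : 0 < lam)
    (hK : 0 < K) {W : E n → ℝ} (hW : ∀ x, W x = -Real.log (K * F x)) : SelfConc κ W := by
  intro x v
  have e : (fun t : ℝ => W (x + t • v)) = fun t : ℝ => -Real.log (K * F (x + t • v)) :=
    funext fun t => hW _
  rw [e, iter2 hF.bs hF.pos hK, iter3 hF.bs hF.pos hK]
  simp only [zero_smul, add_zero]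
  have h0 : 0 ≤ aa F x v := le_trans (by positivity) (hF.low x v)
  rw [rpow_32 h0]
  exact hF.sc x v

theorem bs_of_ce {W : E n → ℝ} {c C : ℝ} (h : Reg W c C) (k : ℕ) : ∀ {F0 : Type}
    [NormedAddCommGroup F0] [NormedSpace ℝ F0] {F : E n → F0}, HN.CE W F →
    ∃ C, ∀ x, ‖iteratedFDeriv ℝ k F x‖ ≤ C := by
  induction k with
  | zero =>
    intro F0 _ _ F hF
    obtain ⟨B, hB⟩ := hF.bdd h
    exact ⟨B, fun x => by rw [norm_iteratedFDeriv_zero]; exact hB x⟩
  | succ k ih =>
    intro F0 _ _ F hF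
    obtain ⟨B, hB⟩ := ih (hF.fderiv (HN.tg_W h))
    exact ⟨B, fun x => by rw [← norm_iteratedFDeriv_fderiv]; exact hB x⟩

theorem bs_exp {W : E n → ℝ} {c C : ℝ} (h : Reg W c C) : BS (fun x => Real.exp (-W x)) :=
  ⟨(HN.CE.exp (W := W)).contDiff (HN.tg_W h), fun k => bs_of_ce h k HN.CE.exp⟩

/-- The start of the iteration. -/
theorem Cl.of_reg {W : E n → ℝ} {c C κ : ℝ} (h : Reg W c C) (hs : SelfConc κ W) :
    Cl κ c C (fun x => Real.exp (-W x)) := by
  have hb := bs_exp h
  have hp : ∀ x, 0 < Real.exp (-W x) := fun x => Real.exp_pos _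
  have e : ∀ x v : E n, (fun t : ℝ => W (x + t • v)) =
      fun t : ℝ => -Real.log (1 * Real.exp (-W (x + t • v))) := fun x v => by
    funext t
    rw [one_mul, Real.log_exp, neg_neg]
  have h2 : ∀ x v, aa (fun x => Real.exp (-W x)) x v = qf (hess W x) v := by
    intro x v
    rw [← LK.iteratedDeriv_two_line h.smooth, e x v,
      iter2 (f := fun x => Real.exp (-W x)) hb hp one_pos]
    simp only [zero_smul, add_zero]
  refine ⟨hb, hp, fun x v => by rw [h2]; exact h.lower x v,
    fun x v => by rw [h2]; exact h.upper x v, fun x v => ?_⟩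
  have h3 := hs x v
  rw [e x v, iter2 (f := fun x => Real.exp (-W x)) hb hp one_pos,
    iter3 (f := fun x => Real.exp (-W x)) hb hp one_pos] at h3
  simp only [zero_smul, add_zero] at h3
  have h0 : 0 ≤ aa (fun x => Real.exp (-W x)) x v := by
    rw [h2]
    exact le_trans (by have := h.c_pos; positivity) (h.lower x v)
  rwa [rpow_32 h0] at h3

/-- The Gaussian average as an integral against the Gaussian measure. -/
theorem gauss_int {F : E n → ℝ} (p x : E n) :
    ∫ g : ℝ, F (x + g • p) * Real.exp (-g ^ 2 / 2) =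
      √(2 * Real.pi) * TT (gaussianReal 0 1) (fun g : ℝ => g • p) F x := by
  unfold TT
  rw [integral_gaussianReal_eq_integral_smul one_ne_zero, ← integral_const_mul]
  congr 1
  funext g
  have h0 : √(2 * Real.pi) ≠ 0 := by positivity
  simp only [gaussianPDFReal, NNReal.coe_one, mul_one, sub_zero, smul_eq_mul]
  field_simp

theorem Cl.iter (hR : R2Stmt) {W : E n → ℝ} {c C κ : ℝ} (h : Reg W c C) (h0 : 0 ≤ κ) (h1 : κ ≤ 1)
    (hs : SelfConc κ W) : ∀ (m : ℕ) (p : Fin m → E n), ∃ lam K : ℝ, ∃ F : E n → ℝ,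
      0 < lam ∧ 0 < K ∧ Cl κ lam C F ∧ ∀ x, Fub.heatm W m p x = -Real.log (K * F x)
  | 0, p => by
      refine ⟨c, 1, fun x => Real.exp (-W x), h.c_pos, one_pos, Cl.of_reg h hs, fun x => ?_⟩
      rw [Fub.heatm_zero, one_mul, Real.log_exp, neg_neg]
  | m + 1, p => by
      obtain ⟨lam, K, F, hlam, hK, hF, hx⟩ := Cl.iter hR h h0 h1 hs m (fun i => p i.succ)
      have hC : 0 ≤ ‖p 0‖ ^ 2 * C := by
        by_cases hp : p 0 = 0
        · rw [hp]; simp
        · have h2 := (hF.low 0 (p 0)).trans (hF.up 0 (p 0))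
          have h3 : 0 ≤ lam * ‖p 0‖ ^ 2 := by positivity
          rw [mul_comm]
          exact h3.trans h2
      refine ⟨lam / (1 + ‖p 0‖ ^ 2 * C), K * √(2 * Real.pi), _, by positivity, by positivity,
        hF.step hR hlam h0 h1 (p 0), fun x => ?_⟩
      rw [Fub.heatm_succ h, Fub.heat1, mul_assoc, ← gauss_int, ← integral_const_mul]
      congr 2
      refine integral_congr_ae (Eventually.of_forall fun g => ?_)
      simp only
      rw [sub_eq_add_neg, Real.exp_add, hx, neg_neg, Real.exp_log (mul_pos hK (hF.pos _)),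
        neg_div, mul_assoc]

theorem r2Stmt : R2Stmt := by
  intro h H lam Lam c S hlam h0 h1 hlow hup hsc hS
  exact r2 H hlam h0 h1 hlow hup hsc hS.le

theorem stmtHeat_of_R2 (hR : R2Stmt) : StmtHeat := by
  intro n W c C κ hW h0 h1 hs P
  obtain ⟨lam, K, F, hlam, hK, hF, hx⟩ := Cl.iter hR hW h0 h1 hs n (fun i => P (ei i))
  exact hF.selfConc hlam hK fun x => by rw [Fub.heat_eq]; exact hx x

/-- The Gaussian averages keep the constant of self-concordance. -/
theorem stmtHeat : StmtHeat := stmtHeat_of_R2 r2Stmt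

end Vale.Agent.P227.M.SC2
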