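import Vale.Agent.P227.M.SC2.HeatLine
import Vale.Agent.P227.M.LL.RegLine
import Vale.Agent.P227.M.LK.LogConvE

/-! # P227/M/SC2: uniform lower bound of the Hessian of `heat W P` (helper234). -/

open MeasureTheory Filter Topology

namespace Vale.Agent.P227.M.Low234

variable {n : ℕ}

theorem alg {c R : ℝ} (hc : 0 < c) (x p z : E n) (hp : ‖p‖ ≤ R * ‖z‖) :
    c / (1 + c * R ^ 2) * ‖x‖ ^ 2 ≤ c * ‖x + p‖ ^ 2 + ‖z‖ ^ 2 := by
  have h1 : ‖x‖ ≤ ‖x + p‖ + R * ‖z‖ := by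
    calc ‖x‖ = ‖(x + p) - p‖ := by rw [add_sub_cancel_right]
      _ ≤ ‖x + p‖ + ‖p‖ := norm_sub_le _ _
      _ ≤ _ := by linarith
  have hx := norm_nonneg x
  have hd : 0 < 1 + c * R ^ 2 := by positivity
  rw [div_mul_eq_mul_div, div_le_iff₀ hd]
  have h2 : ‖x‖ ^ 2 ≤ (‖x + p‖ + R * ‖z‖) ^ 2 := by
    apply pow_le_pow_left₀ hx h1
  have h3 : c * (‖x + p‖ + R * ‖z‖) ^ 2 ≤ (c * ‖x + p‖ ^ 2 + ‖z‖ ^ 2) * (1 + c * R ^ 2) := by
    nlinarith [sq_nonneg (c * R * ‖x + p‖ - ‖z‖)]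
  calc c * ‖x‖ ^ 2 ≤ c * (‖x + p‖ + R * ‖z‖) ^ 2 := mul_le_mul_of_nonneg_left h2 hc.le
    _ ≤ _ := h3

theorem sq_comb {s t : ℝ} (hst : s + t = 1) (a b : E n) :
    ‖s • a + t • b‖ ^ 2 = s * ‖a‖ ^ 2 + t * ‖b‖ ^ 2 - s * t * ‖a - b‖ ^ 2 := by
  have ht : t = 1 - s := by linarith
  subst ht
  rw [norm_add_sq_real, norm_sub_sq_real, norm_smul, norm_smul, real_inner_smul_left,
    real_inner_smul_right, mul_pow, mul_pow, Real.norm_eq_abs, Real.norm_eq_abs, sq_abs, sq_abs]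
  ring

/-- joint convexity -/
theorem joint {W : E n → ℝ} {c C : ℝ} (h : Reg W c C) {R : ℝ} (P : E n →L[ℝ] E n)
    (hP : ‖P‖ ≤ R) (y0 y1 x0 x1 : E n) (s t : ℝ) (hs : 0 < s) (ht : 0 < t) (hst : s + t = 1) :
    (W ((s • y0 + t • y1) + P (s • x0 + t • x1)) + ‖s • x0 + t • x1‖ ^ 2 / 2
        - c / (1 + c * R ^ 2) / 2 * ‖s • y0 + t • y1‖ ^ 2) ≤
      s * (W (y0 + P x0) + ‖x0‖ ^ 2 / 2 - c / (1 + c * R ^ 2) / 2 * ‖y0‖ ^ 2)
        + t * (W (y1 + P x1) + ‖x1‖ ^ 2 / 2 - c / (1 + c * R ^ 2) / 2 * ‖y1‖ ^ 2) := by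
  have hs2 : ContDiff ℝ 2 W := by exact_mod_cast contDiff_infty.1 h.smooth 2
  have h1 := RegLap.rl_convex_lower hs2 h.lower
  have h2 := h1.2 (Set.mem_univ (y0 + P x0)) (Set.mem_univ (y1 + P x1)) hs.le ht.le hst
  have e1 : (s • y0 + t • y1) + P (s • x0 + t • x1) = s • (y0 + P x0) + t • (y1 + P x1) := by
    rw [map_add, map_smul, map_smul]
    module
  rw [e1]
  simp only [smul_eq_mul] at h2
  rw [sq_comb hst, sq_comb hst] at *
  have h3 := alg h.c_pos (R := R) (y0 - y1) (P (x0 - x1)) (x0 - x1)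
    ((P.le_opNorm _).trans (mul_le_mul_of_nonneg_right hP (norm_nonneg _)))
  have e2 : y0 + P x0 - (y1 + P x1) = (y0 - y1) + P (x0 - x1) := by
    rw [map_sub]; abel
  rw [e2] at h2
  have hst' : 0 < s * t := mul_pos hs ht
  have h4 := mul_le_mul_of_nonneg_left h3 hst'.le
  nlinarith [h2, h4]

theorem convex_heat {W : E n → ℝ} {c C : ℝ} (h : Reg W c C) {R : ℝ} (P : E n →L[ℝ] E n)
    (hP : ‖P‖ ≤ R) :
    ConvexOn ℝ Set.univ (fun x => heat W P x - c / (1 + c * R ^ 2) / 2 * ‖x‖ ^ 2) := by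
  set lam := c / (1 + c * R ^ 2) / 2 with hlam
  have hi0 : ∀ x : E n, Integrable (fun z : E n => Real.exp (-W (x + P z) - ‖z‖ ^ 2 / 2)) := by
    intro x
    refine (HL.integrable_H h 0 P 0 x).congr (Eventually.of_forall fun z => ?_)
    simp only [HL.f, HL.q_zero, one_mul]
    rw [← Real.exp_add]
    congr 1
    ring
  have he : ∀ x z : E n, Real.exp (-(W (x + P z) + ‖z‖ ^ 2 / 2 - lam * ‖x‖ ^ 2)) =
      Real.exp (-W (x + P z) - ‖z‖ ^ 2 / 2) * Real.exp (lam * ‖x‖ ^ 2) := by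
    intro x z
    rw [← Real.exp_add]
    congr 1
    ring
  have hWc : Continuous W := h.smooth.continuous
  have key := LKE.convexOn_neg_log_integral_exp_neg
    (F := fun (x z : E n) => W (x + P z) + ‖z‖ ^ 2 / 2 - lam * ‖x‖ ^ 2)
    (fun y0 y1 x0 x1 s t hs ht hst => joint h P hP y0 y1 x0 x1 s t hs ht hst)
    (fun y => by
      have : Continuous (fun z : E n => W (y + P z) + ‖z‖ ^ 2 / 2 - lam * ‖y‖ ^ 2) := by fun_prop
      exact this.measurable)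
    (fun y => by
      simp only [he]
      exact (hi0 y).mul_const _)
  refine key.congr fun x _ => ?_
  simp only [he]
  rw [integral_mul_const, Real.log_mul, Real.log_exp]
  · unfold heat
    ring
  · rw [HL.exp_neg_heat W 0 P x]
    exact (HL.H_zero_pos h 0 P x).ne'
  · exact (Real.exp_pos _).ne'

/-- uniform lower bound of the second derivative of `heat` -/
theorem low {W : E n → ℝ} {c C : ℝ} (h : Reg W c C) {R : ℝ} (P : E n →L[ℝ] E n)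
    (hP : ‖P‖ ≤ R) (x v : E n) :
    c / (1 + c * R ^ 2) * ‖v‖ ^ 2 ≤ HL.w2 W v P x := by
  have h0 := RegLap.rl_conv1'
    (g1 := fun t => HL.w1 W v P (x + t • v) - c / (1 + c * R ^ 2) / 2 * (2 * inner ℝ (x + t • v) v))
    (g2 := fun t => HL.w2 W v P (x + t • v) - c / (1 + c * R ^ 2) / 2 * (2 * ‖v‖ ^ 2))
    (fun t => (HL.hasDerivAt_heat h v P x t).sub ((RegLap.rl_sq_d1 x v t).const_mul _))
    (fun t => (HL.hasDerivAt_w1 h v P x t).sub ((RegLap.rl_sq_d2 x v t).const_mul _))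
    (RegLap.rl_line_convex (convex_heat h P hP) x v) 0
  simp only [zero_smul, add_zero] at h0
  linarith

/-- uniform lower bound for `√s P`, `0 ≤ s ≤ S` -/
theorem low_s {W : E n → ℝ} {c C : ℝ} (h : Reg W c C) (P : E n →L[ℝ] E n) (S : ℝ) :
    ∃ lam : ℝ, 0 < lam ∧ ∀ s : ℝ, 0 ≤ s → s ≤ S → ∀ x v : E n,
      lam * ‖v‖ ^ 2 ≤ HL.w2 W v (Real.sqrt s • P) x := by
  refine ⟨c / (1 + c * (Real.sqrt S * ‖P‖) ^ 2), by have := h.c_pos; positivity,
    fun s hs hsS x v => low h _ ?_ x v⟩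
  rw [norm_smul, Real.norm_eq_abs, abs_of_nonneg (Real.sqrt_nonneg s)]
  exact mul_le_mul_of_nonneg_right (Real.sqrt_le_sqrt hsS) (norm_nonneg _)

end Vale.Agent.P227.M.Low234
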