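import Mathlib

/-! Parabolic maximum principle used for the marginal half of the self-concordance lemma. -/

namespace Vale.P227M.SC2

open Set Filter Topology

/-- second derivative at a local minimum is nonnegative -/
theorem second_deriv_nonneg {f f' : ℝ → ℝ} {x f'' : ℝ} (hf : ∀ y, HasDerivAt f (f' y) y)
    (hf' : HasDerivAt f' f'' x) (hmin : IsLocalMin f x) : 0 ≤ f'' := by
  by_contra hneg
  push Not at hneg
  have h0 : f' x = 0 := hmin.hasDerivAt_eq_zero (hf x)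
  -- f' y < 0 for y slightly larger than x
  have hslope := hasDerivAt_iff_tendsto_slope.mp hf'
  have hev : ∀ᶠ y in 𝓝[≠] x, slope f' x y < 0 := hslope.eventually (gt_mem_nhds hneg)
  have hev2 : ∀ᶠ y in 𝓝[>] x, f' y < 0 := by
    have h1 : ∀ᶠ y in 𝓝[>] x, slope f' x y < 0 :=
      hev.filter_mono (nhdsWithin_mono x (fun y hy => ne_of_gt hy))
    filter_upwards [h1, self_mem_nhdsWithin] with y hy hxy
    have hxy' : (0:ℝ) < y - x := sub_pos.mpr hxy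
    rw [slope_def_field, h0, sub_zero] at hy
    by_contra hc
    push Not at hc
    exact absurd hy (not_lt.mpr (div_nonneg hc hxy'.le))
  have hmin' : ∀ᶠ y in 𝓝[>] x, f x ≤ f y := hmin.filter_mono nhdsWithin_le_nhds
  obtain ⟨u, hu, hu1⟩ := mem_nhdsGT_iff_exists_Ioo_subset.mp hev2
  obtain ⟨w, hw, hw1⟩ := mem_nhdsGT_iff_exists_Ioo_subset.mp hmin'
  have hxu : x < u := hu
  have hxw : x < w := hw
  obtain ⟨y, hy1, hy2⟩ := exists_between (lt_min hxu hxw)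
  have hyu : y < u := lt_of_lt_of_le hy2 (min_le_left _ _)
  have hyw : y < w := lt_of_lt_of_le hy2 (min_le_right _ _)
  have hfy : f x ≤ f y := hw1 ⟨hy1, hyw⟩
  obtain ⟨c, hc, hc'⟩ := exists_hasDerivAt_eq_slope f f' hy1
    (fun z _ => (hf z).continuousAt.continuousWithinAt) (fun z _ => hf z)
  have hcneg : f' c < 0 := hu1 ⟨hc.1, hc.2.trans hyu⟩
  rw [hc'] at hcneg
  have : 0 ≤ (f y - f x) / (y - x) := div_nonneg (by linarith) (by linarith)
  linarith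

/-- derivative at a point where the function is `≥` to the left is `≤ 0` -/
theorem deriv_nonpos_of_left {f : ℝ → ℝ} {x f' a : ℝ} (hax : a < x) (hf : HasDerivAt f f' x)
    (hmin : ∀ y, a ≤ y → y ≤ x → f x ≤ f y) : f' ≤ 0 := by
  by_contra hpos
  push Not at hpos
  have hslope := hasDerivAt_iff_tendsto_slope.mp hf
  have hev : ∀ᶠ y in 𝓝[≠] x, 0 < slope f x y := hslope.eventually (lt_mem_nhds hpos)
  have h1 : ∀ᶠ y in 𝓝[<] x, 0 < slope f x y :=
    hev.filter_mono (nhdsWithin_mono x (fun y hy => ne_of_lt hy))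
  have h2 : ∀ᶠ y in 𝓝[<] x, a < y := by
    filter_upwards [Ioo_mem_nhdsLT hax] with y hy using hy.1
  obtain ⟨y, hy1, hy2, hy3⟩ := (h1.and (h2.and self_mem_nhdsWithin)).exists
  have hyx : y < x := hy3
  rw [slope_def_field] at hy1
  have hfy := hmin y hy2.le hyx.le
  have : (f y - f x) / (y - x) ≤ 0 := div_nonpos_of_nonneg_of_nonpos (by linarith) (by linarith)
  linarith

/-- derivative of `log (1+y^2)` -/
theorem log_hasDerivAt (y : ℝ) : HasDerivAt (fun y => Real.log (1 + y ^ 2)) (2 * y / (1 + y ^ 2)) y := by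
  have h1 : HasDerivAt (fun y : ℝ => 1 + y ^ 2) (2 * y) y := by
    simpa using (hasDerivAt_pow 2 y).const_add 1
  exact h1.log (by positivity)

theorem log_hasDerivAt2 (y : ℝ) : HasDerivAt (fun y : ℝ => 2 * y / (1 + y ^ 2))
      ((2 * (1 + y ^ 2) - 2 * y * (2 * y)) / (1 + y ^ 2) ^ 2) y := by
  have h1 : HasDerivAt (fun y : ℝ => 1 + y ^ 2) (2 * y) y := by
    simpa using (hasDerivAt_pow 2 y).const_add 1
  have h2 : HasDerivAt (fun y : ℝ => 2 * y) 2 y := by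
    simpa using (hasDerivAt_id y).const_mul (2:ℝ)
  exact h2.div h1 (by positivity)

/-- bound of the barrier -/
theorem barrier_bound (C z b : ℝ) (hC : 0 ≤ C) (hb : |b| ≤ C * (1 + |z|)) :
    -(1 + 3 * C) ≤ b * (2 * z / (1 + z ^ 2)) -
      1 / 2 * ((2 * (1 + z ^ 2) - 2 * z * (2 * z)) / (1 + z ^ 2) ^ 2) := by
  have hq1 : 0 < 1 + z ^ 2 := by positivity
  have e1 : |b * (2 * z / (1 + z ^ 2))| ≤ 3 * C := by
    rw [abs_mul, abs_div, abs_mul, abs_of_pos hq1, abs_two]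
    have e2 : |b| * (2 * |z| / (1 + z ^ 2)) ≤ (C * (1 + |z|)) * (2 * |z| / (1 + z ^ 2)) :=
      mul_le_mul_of_nonneg_right hb (by positivity)
    have e3 : (C * (1 + |z|)) * (2 * |z| / (1 + z ^ 2)) ≤ 3 * C := by
      rw [← mul_div_assoc, div_le_iff₀ hq1]
      have hz2 : z ^ 2 = |z| ^ 2 := (sq_abs z).symm
      rw [hz2]
      nlinarith [mul_nonneg hC (sq_nonneg (|z| - 1)), mul_nonneg hC (sq_nonneg |z|)]
    linarith
  have e4 : (2 * (1 + z ^ 2) - 2 * z * (2 * z)) / (1 + z ^ 2) ^ 2 ≤ 2 := by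
    rw [div_le_iff₀ (by positivity)]
    nlinarith [sq_nonneg z, sq_nonneg (z ^ 2)]
  have e5 := (abs_le.mp e1).1
  linarith

/-- final contradiction, pure algebra -/
theorem mp_algebra {E C K ε g gs gz gzz b k L1 L2 : ℝ} (hE : 0 < E) (hε : 0 < ε)
    (hK : K = 2 + 3 * C) (hg : g < 0) (hk : k ≤ C)
    (hz0 : E * gz + ε * L1 = 0) (hzz0 : 0 ≤ E * gzz + ε * L2)
    (hs' : E * (-C) * g + E * gs + ε * (0 + K) ≤ 0)
    (hmain : k * g ≤ gs - 1 / 2 * gzz + b * gz)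
    (hbar : -(1 + 3 * C) ≤ b * L1 - 1 / 2 * L2) : False := by
  have h1 : b * (E * gz + ε * L1) = 0 := by rw [hz0, mul_zero]
  have h2 : E * ((gs - 1 / 2 * gzz + b * gz) - C * g) + ε * (K + (b * L1 - 1 / 2 * L2)) ≤ 0 := by
    have e : E * ((gs - 1 / 2 * gzz + b * gz) - C * g) + ε * (K + (b * L1 - 1 / 2 * L2)) =
      (E * (-C) * g + E * gs + ε * (0 + K)) - 1 / 2 * (E * gzz + ε * L2) +
        b * (E * gz + ε * L1) := by ring
    rw [e, h1]; linarith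
  have h3 : 0 ≤ E * ((gs - 1 / 2 * gzz + b * gz) - C * g) := by
    refine mul_nonneg hE.le ?_
    have : 0 ≤ (k - C) * g := mul_nonneg_of_nonpos_of_nonpos (by linarith) hg.le
    nlinarith
  have h4 : 0 < ε * (K + (b * L1 - 1 / 2 * L2)) := by
    refine mul_pos hε ?_
    rw [hK]; linarith
  linarith

/-- the compact set -/
theorem compact_K (S R : ℝ) : IsCompact {p : ℝ × ℝ × ℝ × ℝ | 0 ≤ p.1 ∧ p.1 ≤ S ∧ |p.2.1| ≤ R ∧
    p.2.2.1 ^ 2 + p.2.2.2 ^ 2 = 1} := by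
  have hclosed : IsClosed {p : ℝ × ℝ × ℝ × ℝ | 0 ≤ p.1 ∧ p.1 ≤ S ∧ |p.2.1| ≤ R ∧
      p.2.2.1 ^ 2 + p.2.2.2 ^ 2 = 1} := by
    have c1 : IsClosed {p : ℝ × ℝ × ℝ × ℝ | 0 ≤ p.1} := isClosed_le continuous_const (by fun_prop)
    have c2 : IsClosed {p : ℝ × ℝ × ℝ × ℝ | p.1 ≤ S} := isClosed_le (by fun_prop) continuous_const
    have c3 : IsClosed {p : ℝ × ℝ × ℝ × ℝ | |p.2.1| ≤ R} :=
      isClosed_le (by fun_prop) continuous_const
    have c4 : IsClosed {p : ℝ × ℝ × ℝ × ℝ | p.2.2.1 ^ 2 + p.2.2.2 ^ 2 = 1} :=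
      isClosed_eq (by fun_prop) continuous_const
    exact c1.inter (c2.inter (c3.inter c4))
  have hsub : {p : ℝ × ℝ × ℝ × ℝ | 0 ≤ p.1 ∧ p.1 ≤ S ∧ |p.2.1| ≤ R ∧
      p.2.2.1 ^ 2 + p.2.2.2 ^ 2 = 1} ⊆
      (Icc 0 S) ×ˢ ((Icc (-R) R) ×ˢ ((Icc (-1) 1) ×ˢ (Icc (-1) 1))) := by
    rintro ⟨a, b, c, d⟩ ⟨h1, h2, h3, h4⟩
    simp only at h1 h2 h3 h4
    have hc := abs_le.mp (abs_le_one_iff_mul_self_le_one.mpr (by nlinarith [sq_nonneg d] : c * c ≤ 1))
    have hd := abs_le.mp (abs_le_one_iff_mul_self_le_one.mpr (by nlinarith [sq_nonneg c] : d * d ≤ 1))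
    exact ⟨⟨h1, h2⟩, ⟨abs_le.mp h3, ⟨hc, hd⟩⟩⟩
  exact IsCompact.of_isClosed_subset
    (isCompact_Icc.prod (isCompact_Icc.prod (isCompact_Icc.prod isCompact_Icc))) hclosed hsub

/-- Parabolic maximum principle on `[0,S] × ℝ × circle`. -/
theorem mp (S M C : ℝ) (hC : 0 ≤ C) (G Gs Gz Gzz Gv r ka : ℝ → ℝ → ℝ → ℝ → ℝ)
    (be : ℝ → ℝ → ℝ)
    (hcont : ContinuousOn (fun p : ℝ × ℝ × ℝ × ℝ => G p.1 p.2.1 p.2.2.1 p.2.2.2)
      {p | 0 ≤ p.1 ∧ p.1 ≤ S ∧ p.2.2.1 ^ 2 + p.2.2.2 ^ 2 = 1})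
    (hhom : ∀ s z v1 v2 l, 0 < l → G s z (l * v1) (l * v2) = G s z v1 v2)
    (hbd : ∀ s z v1 v2, 0 ≤ s → s ≤ S → v1 ^ 2 + v2 ^ 2 = 1 → -M ≤ G s z v1 v2)
    (h0 : ∀ z v1 v2, v1 ^ 2 + v2 ^ 2 = 1 → 0 ≤ G 0 z v1 v2)
    (hs : ∀ s z v1 v2, 0 < s → s ≤ S → v1 ^ 2 + v2 ^ 2 = 1 →
      HasDerivAt (fun s' => G s' z v1 v2) (Gs s z v1 v2) s)
    (hz : ∀ s z v1 v2, 0 < s → s ≤ S → v1 ^ 2 + v2 ^ 2 = 1 →
      HasDerivAt (fun z' => G s z' v1 v2) (Gz s z v1 v2) z)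
    (hzz : ∀ s z v1 v2, 0 < s → s ≤ S → v1 ^ 2 + v2 ^ 2 = 1 →
      HasDerivAt (fun z' => Gz s z' v1 v2) (Gzz s z v1 v2) z)
    (hv : ∀ s z v1 v2, 0 < s → s ≤ S → v1 ^ 2 + v2 ^ 2 = 1 →
      HasDerivAt (fun x => G s z v1 x) (Gv s z v1 v2) v2)
    (hbe : ∀ s z, 0 < s → s ≤ S → |be s z| ≤ C * (1 + |z|))
    (hka : ∀ s z v1 v2, 0 < s → s ≤ S → v1 ^ 2 + v2 ^ 2 = 1 → ka s z v1 v2 ≤ C)
    (hineq : ∀ s z v1 v2, 0 < s → s ≤ S → v1 ^ 2 + v2 ^ 2 = 1 →
      r s z v1 v2 * Gv s z v1 v2 + ka s z v1 v2 * G s z v1 v2 ≤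
        Gs s z v1 v2 - 1 / 2 * Gzz s z v1 v2 + be s z * Gz s z v1 v2) :
    ∀ s z v1 v2, 0 ≤ s → s ≤ S → v1 ^ 2 + v2 ^ 2 = 1 → 0 ≤ G s z v1 v2 := by
  intro s1 z1 p1 p2 hs1 hs1S hp
  by_contra hneg
  push Not at hneg
  -- epsilon
  set K : ℝ := 2 + 3 * C with hK
  have hKpos : 0 < K := by rw [hK]; linarith
  set g1 : ℝ := Real.exp (-C * s1) * G s1 z1 p1 p2 with hg1
  have hg1neg : g1 < 0 := mul_neg_of_pos_of_neg (Real.exp_pos _) hneg
  set bb : ℝ := Real.log (1 + z1 ^ 2) + K * s1 with hbb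
  have hlognn : ∀ z : ℝ, 0 ≤ Real.log (1 + z ^ 2) := fun z =>
    Real.log_nonneg (by nlinarith [sq_nonneg z])
  have hbbnn : 0 ≤ bb := add_nonneg (hlognn z1) (mul_nonneg hKpos.le hs1)
  set ε : ℝ := -g1 / (2 * (bb + 1)) with hε
  have hεpos : 0 < ε := div_pos (by linarith) (by linarith)
  have hεbb : g1 + ε * bb < 0 := by
    have h1 : ε * (2 * (bb + 1)) = -g1 := by
      rw [hε]; field_simp
    have h2 : ε * bb = (-g1 - 2 * ε) / 2 := by linarith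
    rw [h2]; linarith
  -- radius
  set R : ℝ := |z1| + 1 + Real.exp (M / ε) with hR
  have hRpos : 0 < R := by rw [hR]; positivity
  have hR1 : 1 ≤ R := by
    rw [hR]; have := abs_nonneg z1; have := Real.exp_pos (M / ε); linarith
  set Ψ : ℝ × ℝ × ℝ × ℝ → ℝ := fun p =>
    Real.exp (-C * p.1) * G p.1 p.2.1 p.2.2.1 p.2.2.2 +
      ε * (Real.log (1 + p.2.1 ^ 2) + K * p.1) with hΨ
  set Kset : Set (ℝ × ℝ × ℝ × ℝ) := {p | 0 ≤ p.1 ∧ p.1 ≤ S ∧ |p.2.1| ≤ R ∧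
    p.2.2.1 ^ 2 + p.2.2.2 ^ 2 = 1} with hKset
  have hcompact : IsCompact Kset := compact_K S R
  have hΨcont : ContinuousOn Ψ Kset := by
    have h1 : ContinuousOn (fun p : ℝ × ℝ × ℝ × ℝ => G p.1 p.2.1 p.2.2.1 p.2.2.2) Kset :=
      hcont.mono (fun p hp => ⟨hp.1, hp.2.1, hp.2.2.2⟩)
    have h2 : Continuous (fun p : ℝ × ℝ × ℝ × ℝ => Real.exp (-C * p.1)) := by fun_prop
    have h3 : Continuous (fun p : ℝ × ℝ × ℝ × ℝ =>
        ε * (Real.log (1 + p.2.1 ^ 2) + K * p.1)) := by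
      refine continuous_const.mul (Continuous.add ?_ (by fun_prop))
      refine Continuous.log (by fun_prop) (fun p => ?_)
      positivity
    exact (h2.continuousOn.mul h1).add h3.continuousOn
  have hmem : ((s1, z1, p1, p2) : ℝ × ℝ × ℝ × ℝ) ∈ Kset := by
    refine ⟨hs1, hs1S, ?_, hp⟩
    show |z1| ≤ R
    rw [hR]; have := Real.exp_pos (M / ε); linarith
  obtain ⟨⟨s, z, v1, v2⟩, hmemx, hminx⟩ := hcompact.exists_isMinOn ⟨_, hmem⟩ hΨcont
  obtain ⟨hs0, hsS, hzR, hvv⟩ := hmemx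
  simp only at hs0 hsS hzR hvv
  have hval : Ψ (s, z, v1, v2) < 0 := by
    have h1 : Ψ (s, z, v1, v2) ≤ Ψ (s1, z1, p1, p2) := hminx hmem
    have h2 : Ψ (s1, z1, p1, p2) = g1 + ε * bb := by simp [hΨ, hg1, hbb]
    linarith
  have hval' : Real.exp (-C * s) * G s z v1 v2 + ε * (Real.log (1 + z ^ 2) + K * s) < 0 := hval
  have hGneg : G s z v1 v2 < 0 := by
    by_contra hc
    push Not at hc
    have h1 : 0 ≤ Real.exp (-C * s) * G s z v1 v2 := mul_nonneg (Real.exp_pos _).le hc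
    have h2 : 0 ≤ ε * (Real.log (1 + z ^ 2) + K * s) :=
      mul_nonneg hεpos.le (add_nonneg (hlognn z) (mul_nonneg hKpos.le hs0))
    linarith
  -- s > 0
  have hspos : 0 < s := by
    rcases hs0.lt_or_eq with h | h
    · exact h
    · exfalso
      rw [← h] at hGneg
      exact absurd (h0 z v1 v2 hvv) (not_le.mpr hGneg)
  -- |z| < R
  have hzlt : |z| < R := by
    by_contra hc
    push Not at hc
    have h1 : -M ≤ Real.exp (-C * s) * G s z v1 v2 := by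
      have e1 : Real.exp (-C * s) ≤ 1 := Real.exp_le_one_iff.mpr (by nlinarith)
      have e2 := hbd s z v1 v2 hs0 hsS hvv
      have e3 := Real.exp_pos (-C * s)
      nlinarith
    have h2 : M < ε * Real.log (1 + z ^ 2) := by
      have e1 : Real.exp (M / ε) < 1 + z ^ 2 := by
        have : Real.exp (M / ε) < R := by
          rw [hR]; have := abs_nonneg z1; linarith
        have hz1 : R ≤ |z| := hc
        have hz2 : z ^ 2 = |z| ^ 2 := (sq_abs z).symm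
        rw [hz2]
        nlinarith
      have e2 : M / ε < Real.log (1 + z ^ 2) :=
        (Real.lt_log_iff_exp_lt (by positivity)).mpr e1
      rw [div_lt_iff₀ hεpos] at e2
      linarith
    have h3 : 0 ≤ ε * (K * s) := mul_nonneg hεpos.le (mul_nonneg hKpos.le hs0)
    nlinarith
  -- first and second derivative in z
  have hfz : ∀ y, HasDerivAt (fun z' => Ψ (s, z', v1, v2))
      (Real.exp (-C * s) * Gz s y v1 v2 + ε * (2 * y / (1 + y ^ 2))) y := by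
    intro y
    have h1 := (hz s y v1 v2 hspos hsS hvv).const_mul (Real.exp (-C * s))
    have h2 := ((log_hasDerivAt y).add_const (K * s)).const_mul ε
    exact h1.add h2
  have hfzz : HasDerivAt (fun z' => Real.exp (-C * s) * Gz s z' v1 v2 + ε * (2 * z' / (1 + z' ^ 2)))
      (Real.exp (-C * s) * Gzz s z v1 v2 +
        ε * ((2 * (1 + z ^ 2) - 2 * z * (2 * z)) / (1 + z ^ 2) ^ 2)) z := by
    exact ((hzz s z v1 v2 hspos hsS hvv).const_mul _).add ((log_hasDerivAt2 z).const_mul ε)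
  have hlocz : IsLocalMin (fun z' => Ψ (s, z', v1, v2)) z := by
    have hnb : {y : ℝ | |y| < R} ∈ 𝓝 z := (isOpen_lt (by fun_prop) continuous_const).mem_nhds hzlt
    filter_upwards [hnb] with y hy
    exact hminx ⟨hs0, hsS, (le_of_lt hy), hvv⟩
  have hz0 : Real.exp (-C * s) * Gz s z v1 v2 + ε * (2 * z / (1 + z ^ 2)) = 0 :=
    hlocz.hasDerivAt_eq_zero (hfz z)
  have hzz0 : 0 ≤ Real.exp (-C * s) * Gzz s z v1 v2 +
        ε * ((2 * (1 + z ^ 2) - 2 * z * (2 * z)) / (1 + z ^ 2) ^ 2) :=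
    second_deriv_nonneg hfz hfzz hlocz
  -- derivative in s
  have hexpd : HasDerivAt (fun s' : ℝ => Real.exp (-C * s')) (Real.exp (-C * s) * (-C)) s := by
    have h1 : HasDerivAt (fun s' : ℝ => -C * s') (-C) s := by
      simpa using (hasDerivAt_id s).const_mul (-C)
    exact h1.exp
  have hfs : HasDerivAt (fun s' => Ψ (s', z, v1, v2))
      (Real.exp (-C * s) * (-C) * G s z v1 v2 + Real.exp (-C * s) * Gs s z v1 v2 +
        ε * (0 + K)) s := by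
    have h1 := hexpd.mul (hs s z v1 v2 hspos hsS hvv)
    have h2 : HasDerivAt (fun s' : ℝ => K * s') K s := by
      simpa using (hasDerivAt_id s).const_mul K
    have h3 := ((hasDerivAt_const s (Real.log (1 + z ^ 2))).add h2).const_mul ε
    exact h1.add h3
  have hs' : Real.exp (-C * s) * (-C) * G s z v1 v2 + Real.exp (-C * s) * Gs s z v1 v2 +
        ε * (0 + K) ≤ 0 := by
    refine deriv_nonpos_of_left hspos hfs (fun y hy hys => ?_)
    exact hminx ⟨hy, hys.trans hsS, hzR, hvv⟩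
  -- derivative in v2
  have hv0 : Gv s z v1 v2 = 0 := by
    have hlocv : IsLocalMin (fun x => G s z v1 x) v2 := by
      have hopen : {x : ℝ | v1 ^ 2 + x ^ 2 ≠ 0} ∈ 𝓝 v2 := by
        refine (isOpen_ne_fun (by fun_prop) continuous_const).mem_nhds ?_
        show v1 ^ 2 + v2 ^ 2 ≠ 0
        rw [hvv]; norm_num
      filter_upwards [hopen] with x hx
      have hxpos : 0 < v1 ^ 2 + x ^ 2 := lt_of_le_of_ne (by positivity) (Ne.symm hx)
      set l : ℝ := (Real.sqrt (v1 ^ 2 + x ^ 2))⁻¹ with hl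
      have hlpos : 0 < l := inv_pos.mpr (Real.sqrt_pos.mpr hxpos)
      have hunit : (l * v1) ^ 2 + (l * x) ^ 2 = 1 := by
        have : (l * v1) ^ 2 + (l * x) ^ 2 = l ^ 2 * (v1 ^ 2 + x ^ 2) := by ring
        rw [this, hl, inv_pow, Real.sq_sqrt hxpos.le]
        exact inv_mul_cancel₀ hxpos.ne'
      have h1 := hminx (show (s, z, l * v1, l * x) ∈ Kset from ⟨hs0, hsS, hzR, hunit⟩)
      have h2 : Real.exp (-C * s) * G s z v1 v2 + ε * (Real.log (1 + z ^ 2) + K * s) ≤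
          Real.exp (-C * s) * G s z (l * v1) (l * x) +
            ε * (Real.log (1 + z ^ 2) + K * s) := h1
      rw [hhom s z v1 x l hlpos] at h2
      have h3 : Real.exp (-C * s) * G s z v1 v2 ≤ Real.exp (-C * s) * G s z v1 x := by linarith
      exact le_of_mul_le_mul_left h3 (Real.exp_pos _)
    exact hlocv.hasDerivAt_eq_zero (hv s z v1 v2 hspos hsS hvv)
  -- final contradiction
  have hmain := hineq s z v1 v2 hspos hsS hvv
  rw [hv0, mul_zero, zero_add] at hmain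
  have hkaC := hka s z v1 v2 hspos hsS hvv
  have hbeC := hbe s z hspos hsS
  exact mp_algebra (Real.exp_pos _) hεpos hK hGneg hkaC hz0 hzz0 hs' hmain
    (barrier_bound C z (be s z) hC hbeC)

end Vale.P227M.SC2
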