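import Mathlib

/-!
P227, block SC-2: the `N`-dimensional parabolic maximum principle for self-concordance under
marginals (hedge, helper629).
-/

namespace Vale.Agent.P227.M.SC2.MPN

open Finset Set

/-- second derivative test, necessary direction -/
lemma second_nonneg {f g : ℝ → ℝ} {x₀ d : ℝ} (hf : ∀ x, HasDerivAt f (g x) x)
    (hg : HasDerivAt g d x₀) (h0 : g x₀ = 0) (hmin : ∀ x, f x₀ ≤ f x) : 0 ≤ d := by
  by_contra hd
  push Not at hd
  have h1 : ∀ᶠ x in nhdsWithin x₀ (Ioi x₀), slope g x₀ x < 0 :=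
    (hasDerivAt_iff_tendsto_slope.1 hg |>.mono_left
      (nhdsWithin_mono _ (fun x hx => ne_of_gt hx))).eventually (gt_mem_nhds hd)
  obtain ⟨u, hu, hu2⟩ := mem_nhdsGT_iff_exists_Ioo_subset.1 h1
  have hu' : x₀ < u := hu
  set y := (x₀ + u) / 2 with hy
  have hy1 : x₀ < y := by rw [hy]; linarith
  have hy2 : y < u := by rw [hy]; linarith
  obtain ⟨w, hw, hw2⟩ := exists_hasDerivAt_eq_slope f g hy1
    (fun x _ => (hf x).continuousAt.continuousWithinAt) (fun x _ => hf x)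
  have h3 : slope g x₀ w < 0 := hu2 ⟨hw.1, hw.2.trans hy2⟩
  have h4 : g w < 0 := by
    rw [slope_def_field, h0, sub_zero] at h3
    have h5 : 0 < w - x₀ := sub_pos.2 hw.1
    by_contra h6
    push Not at h6
    exact absurd h3 (not_lt.2 (div_nonneg h6 h5.le))
  have h5 : g w * (y - x₀) = f y - f x₀ := by
    rw [hw2, div_mul_cancel₀ _ (sub_pos.2 hy1).ne']
  have h6 : f y - f x₀ < 0 := by
    rw [← h5]; exact mul_neg_of_neg_of_pos h4 (sub_pos.2 hy1)
  linarith [hmin y]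

/-- left derivative test -/
lemma left_nonpos {f : ℝ → ℝ} {x₀ d : ℝ} (hf : HasDerivAt f d x₀) {l : ℝ} (hl : l < x₀)
    (h0 : ∀ x, l < x → x < x₀ → f x₀ ≤ f x) : d ≤ 0 := by
  by_contra hd
  push Not at hd
  have h1 : ∀ᶠ x in nhdsWithin x₀ (Iio x₀), 0 < slope f x₀ x :=
    (hasDerivAt_iff_tendsto_slope.1 hf |>.mono_left
      (nhdsWithin_mono _ (fun x hx => ne_of_lt hx))).eventually (lt_mem_nhds hd)
  have h2 : ∀ᶠ x in nhdsWithin x₀ (Iio x₀), l < x :=
    mem_nhdsWithin_of_mem_nhds (lt_mem_nhds hl)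
  have h3 : ∀ᶠ x in nhdsWithin x₀ (Iio x₀), x < x₀ := self_mem_nhdsWithin
  obtain ⟨x, hx1, hx2, hx3⟩ := (h1.and (h2.and h3)).exists
  rw [slope_def_field] at hx1
  have h4 := h0 x hx2 hx3
  have h5 : x - x₀ < 0 := sub_neg.2 hx3
  have h6 : (f x - f x₀) / (x - x₀) ≤ 0 := div_nonpos_of_nonneg_of_nonpos (by linarith) h5.le
  linarith

lemma hasDerivAt_mul_sqrt {f : ℝ → ℝ} {f' x : ℝ} (hf : HasDerivAt f f' x) (hx : 0 < f x) :
    HasDerivAt (fun y => f y * Real.sqrt (f y)) (3 / 2 * Real.sqrt (f x) * f') x := by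
  have h1 := hf.mul (hf.sqrt hx.ne')
  refine h1.congr_deriv ?_
  have h2 : Real.sqrt (f x) ≠ 0 := (Real.sqrt_pos.2 hx).ne'
  have h3 : Real.sqrt (f x) ^ 2 = f x := Real.sq_sqrt hx.le
  field_simp
  rw [h3]
  ring

variable {N : ℕ}

/-- `1 + |z|²` -/
def T (z : Fin N → ℝ) : ℝ := 1 + ∑ i, z i ^ 2

lemma T_ge (z : Fin N → ℝ) : 1 ≤ T z := by
  have := Finset.sum_nonneg (s := Finset.univ) (fun (i : Fin N) _ => sq_nonneg (z i))
  unfold T; linarith

lemma T_le_coord (z : Fin N → ℝ) (i : Fin N) : z i ^ 2 ≤ T z := by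
  have := Finset.single_le_sum (f := fun i => z i ^ 2) (fun (i : Fin N) _ => sq_nonneg (z i))
    (Finset.mem_univ i)
  have h2 : z i ^ 2 ≤ ∑ i, z i ^ 2 := this
  unfold T; linarith

lemma T_update (z : Fin N → ℝ) (i : Fin N) (x : ℝ) :
    T (Function.update z i x) = T z - z i ^ 2 + x ^ 2 := by
  unfold T
  have h1 : (fun j => (Function.update z i x j) ^ 2) =
      Function.update (fun j => z j ^ 2) i (x ^ 2) := by
    funext j
    by_cases h : j = i
    · subst h; simp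
    · simp [h]
  have h2 : ∑ j, (Function.update z i x j) ^ 2 = x ^ 2 + ∑ j ∈ univ \ {i}, z j ^ 2 := by
    rw [h1, Finset.sum_update_of_mem (Finset.mem_univ i)]
  have h3 : ∑ j, z j ^ 2 = z i ^ 2 + ∑ j ∈ univ \ {i}, z j ^ 2 := by
    rw [← Finset.sum_sdiff (Finset.subset_univ {i}), Finset.sum_singleton]; ring
  rw [h2, h3]; ring

lemma hasDerivAt_T (z : Fin N → ℝ) (i : Fin N) (y : ℝ) :
    HasDerivAt (fun x => T (Function.update z i x)) (2 * y) y := by
  have h : (fun x => T (Function.update z i x)) = fun x => T z - z i ^ 2 + x ^ 2 := by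
    funext x; exact T_update z i x
  rw [h]
  have := (hasDerivAt_pow 2 y).const_add (T z - z i ^ 2)
  simpa using this

lemma alg (c ε A m q qz bz bzz w E z θ T2 : ℝ) (hA : A ≠ 0) (hε : ε ^ 2 = 1) :
    3 * c * A * (1 / 2 * qz - w * q - m ^ 2) - ε * (1 / 2 * bzz - w * bz - 3 * (m * q))
      - 1 / 2 * (3 * c * (q ^ 2 / (2 * A) + A * qz) - ε * bzz + 2 * E)
      + w * (3 * c * A * q - ε * bz + 2 * E * z)
      - ((-1 + c ^ 2 / 2) * m + ε * (c / 4) * (q / A)) *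
        (6 * c * A * m - 3 * ε * q + 6 * E * T2 * θ)
    = 3 * c * (1 - c ^ 2) * A * m ^ 2 - E + 2 * E * (w * z)
      - 6 * E * T2 * (((-1 + c ^ 2 / 2) * m + ε * (c / 4) * (q / A)) * θ) := by
  have h1 : ε * ε = 1 := by rw [← sq]; exact hε
  field_simp
  ring_nf
  rw [hε]
  ring

lemma r_bound {c ε A a₀ C τ m q θ : ℝ} (hc : 0 ≤ c) (hc1 : c ≤ 1) (hε : |ε| = 1) (hC : 0 ≤ C)
    (ha₀ : 0 < a₀) (hτ : 1 ≤ τ) (hA : Real.sqrt a₀ * Real.sqrt τ ≤ A)
    (hm : |m| ≤ C * Real.sqrt τ) (hq : |q| ≤ C * τ) (hθ : θ ^ 2 ≤ τ) :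
    |((-1 + c ^ 2 / 2) * m + ε * (c / 4) * (q / A)) * θ| ≤ (C + C / Real.sqrt a₀) * τ := by
  set sa := Real.sqrt a₀ with hsa
  have hsa0 : 0 < sa := Real.sqrt_pos.2 ha₀
  have hT0 : 0 ≤ τ := by linarith
  have h10 : 0 < Real.sqrt τ := Real.sqrt_pos.2 (by linarith)
  have hA0 : 0 < A := lt_of_lt_of_le (by positivity) hA
  have h2 : |(-1 + c ^ 2 / 2) * m| ≤ C * Real.sqrt τ := by
    rw [abs_mul]
    have h3 : |(-1 + c ^ 2 / 2)| ≤ 1 := by
      rw [abs_le]; constructor <;> nlinarith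
    calc |(-1 + c ^ 2 / 2)| * |m| ≤ 1 * (C * Real.sqrt τ) :=
          mul_le_mul h3 hm (abs_nonneg _) (by norm_num)
      _ = _ := one_mul _
  have h5 : |ε * (c / 4) * (q / A)| ≤ C / sa * Real.sqrt τ := by
    rw [abs_mul, abs_mul, hε, one_mul, abs_div q A, abs_of_pos hA0]
    have h6 : |c / 4| ≤ 1 := by
      rw [abs_le]; constructor <;> linarith
    have h7 : |q| / A ≤ C / sa * Real.sqrt τ := by
      rw [div_le_iff₀ hA0]
      calc |q| ≤ C * τ := hq
        _ = C / sa * Real.sqrt τ * (sa * Real.sqrt τ) := by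
          have h11 := Real.mul_self_sqrt hT0
          have h12 : C / sa * Real.sqrt τ * (sa * Real.sqrt τ) =
              C / sa * sa * (Real.sqrt τ * Real.sqrt τ) := by ring
          rw [h12, h11, div_mul_cancel₀ _ hsa0.ne']
        _ ≤ C / sa * Real.sqrt τ * A := mul_le_mul_of_nonneg_left hA (by positivity)
    calc |c / 4| * (|q| / A) ≤ 1 * (C / sa * Real.sqrt τ) :=
          mul_le_mul h6 h7 (by positivity) (by norm_num)
      _ = _ := one_mul _
  have h1 : |(-1 + c ^ 2 / 2) * m + ε * (c / 4) * (q / A)| ≤ (C + C / sa) * Real.sqrt τ := by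
    calc _ ≤ _ := abs_add_le _ _
      _ ≤ C * Real.sqrt τ + C / sa * Real.sqrt τ := add_le_add h2 h5
      _ = _ := by ring
  have h3 : |θ| ≤ Real.sqrt τ := Real.abs_le_sqrt hθ
  rw [abs_mul]
  calc _ ≤ (C + C / sa) * Real.sqrt τ * Real.sqrt τ :=
        mul_le_mul h1 h3 (abs_nonneg _) (by positivity)
    _ = _ := by rw [mul_assoc, Real.mul_self_sqrt hT0]

lemma final_contra {c ε A E R C Tz Tθ : ℝ} (m q qz bz bzz w z θ : Fin N → ℝ)
    (hc : 0 ≤ c) (hc1 : c ≤ 1) (hε : ε ^ 2 = 1) (hA : 0 < A) (hE : 0 < E) (hR : 0 ≤ R)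
    (hC : 0 ≤ C) (hTz : 1 ≤ Tz) (hTθ : 1 ≤ Tθ)
    (hz : ∀ i, 3 * c * A * q i - ε * bz i + 2 * E * z i = 0)
    (hzz : ∀ i, 0 ≤ 3 * c * (q i ^ 2 / (2 * A) + A * qz i) - ε * bzz i + 2 * E)
    (hθ : ∀ i, 6 * c * A * m i - 3 * ε * q i + 6 * E * Tθ ^ 2 * θ i = 0)
    (hw : -(C * Tz) ≤ ∑ i, w i * z i)
    (hr : ∀ i, |((-1 + c ^ 2 / 2) * m i + ε * (c / 4) * (q i / A)) * θ i| ≤ R * Tθ)
    (hs : 3 * c * A * (1 / 2 * ∑ i, qz i - ∑ i, w i * q i - ∑ i, m i ^ 2)
          - ε * (1 / 2 * ∑ i, bzz i - ∑ i, w i * bz i - 3 * ∑ i, m i * q i)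
          + (N + 2 * C + 6 * N * R + 1) * E * (Tz + Tθ ^ 3) ≤ 0) : False := by
  have hsum : (3 * c * A * (1 / 2 * ∑ i, qz i - ∑ i, w i * q i - ∑ i, m i ^ 2)
        - ε * (1 / 2 * ∑ i, bzz i - ∑ i, w i * bz i - 3 * ∑ i, m i * q i))
      = ∑ i, (3 * c * A * (1 / 2 * qz i - w i * q i - m i ^ 2)
        - ε * (1 / 2 * bzz i - w i * bz i - 3 * (m i * q i))) := by
    simp only [Finset.sum_sub_distrib, ← Finset.mul_sum]
  have hterm : ∀ i, 3 * c * (1 - c ^ 2) * A * m i ^ 2 - E + 2 * E * (w i * z i)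
      - 6 * E * Tθ ^ 2 * (((-1 + c ^ 2 / 2) * m i + ε * (c / 4) * (q i / A)) * θ i) ≤
      3 * c * A * (1 / 2 * qz i - w i * q i - m i ^ 2)
        - ε * (1 / 2 * bzz i - w i * bz i - 3 * (m i * q i)) := by
    intro i
    have h1 := alg c ε A (m i) (q i) (qz i) (bz i) (bzz i) (w i) E (z i) (θ i) (Tθ ^ 2) hA.ne' hε
    have h2 := hzz i
    rw [hz i, hθ i, mul_zero, mul_zero, add_zero, sub_zero] at h1
    rw [← h1]
    linarith
  have hlast := Finset.sum_le_sum (s := Finset.univ) (fun (i : Fin N) _ => hterm i)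
  rw [← hsum] at hlast
  have h1 : ∑ i, (3 * c * (1 - c ^ 2) * A * m i ^ 2 - E + 2 * E * (w i * z i)
      - 6 * E * Tθ ^ 2 * (((-1 + c ^ 2 / 2) * m i + ε * (c / 4) * (q i / A)) * θ i)) =
      3 * c * (1 - c ^ 2) * A * ∑ i, m i ^ 2 - N * E
      + 2 * E * ∑ i, w i * z i - 6 * E * Tθ ^ 2 *
        ∑ i, ((-1 + c ^ 2 / 2) * m i + ε * (c / 4) * (q i / A)) * θ i := by
    simp only [Finset.sum_sub_distrib, Finset.sum_add_distrib, ← Finset.mul_sum,
      Finset.sum_const, Finset.card_univ, Fintype.card_fin, nsmul_eq_mul]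
  rw [h1] at hlast
  have h2 : 0 ≤ 3 * c * (1 - c ^ 2) * A * ∑ i, m i ^ 2 := by
    have h3 : 0 ≤ 1 - c ^ 2 := by nlinarith
    have h4 : 0 ≤ ∑ i, m i ^ 2 := Finset.sum_nonneg fun i _ => sq_nonneg _
    positivity
  have h4 : ∑ i, ((-1 + c ^ 2 / 2) * m i + ε * (c / 4) * (q i / A)) * θ i ≤
      N * (R * Tθ) := by
    calc _ ≤ ∑ _i : Fin N, R * Tθ := Finset.sum_le_sum fun i _ => (le_abs_self _).trans (hr i)
      _ = N * (R * Tθ) := by simp
  have h5 : 6 * E * Tθ ^ 2 * ∑ i, ((-1 + c ^ 2 / 2) * m i + ε * (c / 4) * (q i / A)) * θ i ≤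
      6 * E * Tθ ^ 2 * (N * (R * Tθ)) := mul_le_mul_of_nonneg_left h4 (by positivity)
  have h6 : 2 * E * -(C * Tz) ≤ 2 * E * ∑ i, w i * z i :=
    mul_le_mul_of_nonneg_left hw (by positivity)
  have h7 : 1 ≤ Tθ ^ 3 := one_le_pow₀ hTθ
  have h8 : (N + 2 * C + 6 * N * R + 1) * E * (Tz + Tθ ^ 3) =
      N * E + 2 * E * (C * Tz) + 6 * E * Tθ ^ 2 * (N * (R * Tθ)) +
      E * ((N : ℝ) * (Tz - 1) + N * Tθ ^ 3
            + 2 * C * Tθ ^ 3 + 6 * N * R * Tz + (Tz + Tθ ^ 3)) := by ring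
  have h9 : 0 < E * ((N : ℝ) * (Tz - 1) + N * Tθ ^ 3
            + 2 * C * Tθ ^ 3 + 6 * N * R * Tz + (Tz + Tθ ^ 3)) := by
    have h4 : 0 ≤ (N : ℝ) * (Tz - 1) := mul_nonneg (Nat.cast_nonneg _) (by linarith)
    have h5 : 0 < Tz := by linarith
    have h6 : 0 < Tθ ^ 3 := by linarith
    positivity
  rw [h8] at hs
  linarith

/-- The core: first touching point. `F = G + B`. -/
theorem core (S c ε : ℝ) (hc : 0 ≤ c) (hc1 : c ≤ 1) (hε : ε ^ 2 = 1)
    (a b : ℝ → (Fin N → ℝ) → (Fin N → ℝ) → ℝ)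
    (m q qz bz bzz : Fin N → ℝ → (Fin N → ℝ) → (Fin N → ℝ) → ℝ)
    (wz : Fin N → ℝ → (Fin N → ℝ) → ℝ)
    (a₀ C : ℝ) (ha₀ : 0 < a₀) (hC : 0 ≤ C)
    (ca : ContinuousOn (fun p : ℝ × (Fin N → ℝ) × (Fin N → ℝ) => a p.1 p.2.1 p.2.2)
      {p | p.1 ∈ Icc 0 S})
    (cb : ContinuousOn (fun p : ℝ × (Fin N → ℝ) × (Fin N → ℝ) => b p.1 p.2.1 p.2.2)
      {p | p.1 ∈ Icc 0 S})
    (hlow : ∀ s ∈ Icc 0 S, ∀ z θ, a₀ * T θ ≤ a s z θ)
    (hb : ∀ s ∈ Icc 0 S, ∀ z θ, |b s z θ| ≤ C * T θ ^ 2)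
    (hm : ∀ s, 0 < s → s ≤ S → ∀ i z θ, |m i s z θ| ≤ C * Real.sqrt (T θ))
    (hq : ∀ s, 0 < s → s ≤ S → ∀ i z θ, |q i s z θ| ≤ C * T θ)
    (hw : ∀ s, 0 < s → s ≤ S → ∀ z, -(C * T z) ≤ ∑ i, wz i s z * z i)
    (haθ : ∀ s, 0 < s → s ≤ S → ∀ i z θ,
      HasDerivAt (fun x => a s z (Function.update θ i x)) (2 * m i s z θ) (θ i))
    (hbθ : ∀ s, 0 < s → s ≤ S → ∀ i z θ,
      HasDerivAt (fun x => b s z (Function.update θ i x)) (3 * q i s z θ) (θ i))
    (haz : ∀ s, 0 < s → s ≤ S → ∀ i z θ,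
      HasDerivAt (fun x => a s (Function.update z i x) θ) (q i s z θ) (z i))
    (hqz : ∀ s, 0 < s → s ≤ S → ∀ i z θ,
      HasDerivAt (fun x => q i s (Function.update z i x) θ) (qz i s z θ) (z i))
    (hbz : ∀ s, 0 < s → s ≤ S → ∀ i z θ,
      HasDerivAt (fun x => b s (Function.update z i x) θ) (bz i s z θ) (z i))
    (hbzz : ∀ s, 0 < s → s ≤ S → ∀ i z θ,
      HasDerivAt (fun x => bz i s (Function.update z i x) θ) (bzz i s z θ) (z i))
    (has : ∀ s, 0 < s → s ≤ S → ∀ z θ, HasDerivAt (fun s => a s z θ)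
      (1 / 2 * ∑ i, qz i s z θ - ∑ i, wz i s z * q i s z θ - ∑ i, m i s z θ ^ 2) s)
    (hbs : ∀ s, 0 < s → s ≤ S → ∀ z θ, HasDerivAt (fun s => b s z θ)
      (1 / 2 * ∑ i, bzz i s z θ - ∑ i, wz i s z * bz i s z θ
        - 3 * ∑ i, m i s z θ * q i s z θ) s)
    (h0 : ∀ z θ, ε * b 0 z θ ≤ 2 * c * (a 0 z θ * Real.sqrt (a 0 z θ))) :
    ∀ s ∈ Icc 0 S, ∀ z θ, ε * b s z θ ≤ 2 * c * (a s z θ * Real.sqrt (a s z θ)) := by
  classical
  have hTθ := fun θ : Fin N → ℝ => T_ge θ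
  set R : ℝ := C + C / Real.sqrt a₀ with hR
  have hR0 : 0 ≤ R := by rw [hR]; positivity
  set K : ℝ := N + 2 * C + 6 * N * R + 1 with hK
  have apos : ∀ s ∈ Icc 0 S, ∀ z θ, 0 < a s z θ := fun s hs z θ =>
    lt_of_lt_of_le (by have := hTθ θ; positivity) (hlow s hs z θ)
  set G : ℝ → (Fin N → ℝ) → (Fin N → ℝ) → ℝ := fun s z θ =>
    2 * c * (a s z θ * Real.sqrt (a s z θ)) - ε * b s z θ with hG
  have hεabs : |ε| = 1 := by
    have : |ε| ^ 2 = 1 := by rw [sq_abs]; exact hε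
    have h2 : 0 ≤ |ε| := abs_nonneg _
    nlinarith
  -- lower bound of G
  have hGlow : ∀ s ∈ Icc 0 S, ∀ z θ, -(C * T θ ^ 2) ≤ G s z θ := by
    intro s hs z θ
    have h1 : 0 ≤ 2 * c * (a s z θ * Real.sqrt (a s z θ)) := by
      have := (apos s hs z θ).le
      positivity
    have h2 : ε * b s z θ ≤ C * T θ ^ 2 := by
      refine (le_abs_self _).trans ?_
      rw [abs_mul, hεabs, one_mul]
      exact hb s hs z θ
    simp only [hG]
    linarith
  have main : ∀ δ : ℝ, 0 < δ → ∀ s ∈ Icc 0 S, ∀ z θ,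
      0 < G s z θ + δ * Real.exp (K * s) * (T z + T θ ^ 3) := by
    intro δ hδ
    by_contra hcon
    push Not at hcon
    obtain ⟨s₀, hs₀, z₀, θ₀, hF₀⟩ := hcon
    set F : ℝ × (Fin N → ℝ) × (Fin N → ℝ) → ℝ := fun p =>
      G p.1 p.2.1 p.2.2 + δ * Real.exp (K * p.1) * (T p.2.1 + T p.2.2 ^ 3) with hF
    have cT : Continuous (fun z : Fin N → ℝ => T z) := by
      unfold T; fun_prop
    have cF : ContinuousOn F {p | p.1 ∈ Icc 0 S} := by
      have c1 : ContinuousOn (fun p : ℝ × (Fin N → ℝ) × (Fin N → ℝ) =>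
          2 * c * (a p.1 p.2.1 p.2.2 * Real.sqrt (a p.1 p.2.1 p.2.2)) - ε * b p.1 p.2.1 p.2.2)
          {p | p.1 ∈ Icc 0 S} :=
        (continuousOn_const.mul (ca.mul (Real.continuous_sqrt.comp_continuousOn ca))).sub
          (continuousOn_const.mul cb)
      have c2 : Continuous (fun p : ℝ × (Fin N → ℝ) × (Fin N → ℝ) =>
          δ * Real.exp (K * p.1) * (T p.2.1 + T p.2.2 ^ 3)) := by
        have h1 : Continuous (fun p : ℝ × (Fin N → ℝ) × (Fin N → ℝ) => T p.2.1) :=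
          cT.comp (continuous_fst.comp continuous_snd)
        have h2 : Continuous (fun p : ℝ × (Fin N → ℝ) × (Fin N → ℝ) => T p.2.2) :=
          cT.comp (continuous_snd.comp continuous_snd)
        fun_prop
      exact c1.add c2.continuousOn
    have hclosedS : IsClosed {p : ℝ × (Fin N → ℝ) × (Fin N → ℝ) | p.1 ∈ Icc 0 S} :=
      isClosed_Icc.preimage continuous_fst
    set Z : Set (ℝ × (Fin N → ℝ) × (Fin N → ℝ)) := {p | p.1 ∈ Icc 0 S} ∩ F ⁻¹' Iic 0 with hZ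
    have hZc : IsClosed Z := cF.preimage_isClosed_of_isClosed hclosedS isClosed_Iic
    -- bounds on Z
    have hE1 : ∀ s ∈ Icc 0 S, 1 ≤ Real.exp (K * s) := by
      intro s hs
      apply Real.one_le_exp
      have : 0 ≤ K := by rw [hK]; positivity
      exact mul_nonneg this hs.1
    have hbd : ∀ p ∈ Z, T p.2.2 ≤ C / δ ∧ T p.2.1 ≤ C * (C / δ) ^ 2 / δ := by
      rintro ⟨s, z, θ⟩ ⟨hs, hFle⟩
      have hs' : s ∈ Icc 0 S := hs
      have hFle' : G s z θ + δ * Real.exp (K * s) * (T z + T θ ^ 3) ≤ 0 := hFle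
      have h1 := hGlow s hs' z θ
      have h2 := hE1 s hs'
      have h3 := T_ge z
      have h4 := T_ge θ
      have h5 : δ * (T z + T θ ^ 3) ≤ δ * Real.exp (K * s) * (T z + T θ ^ 3) := by
        have : 0 ≤ T z + T θ ^ 3 := by positivity
        nlinarith [mul_le_mul_of_nonneg_left h2 (mul_nonneg hδ.le this)]
      have h6 : δ * (T z + T θ ^ 3) ≤ C * T θ ^ 2 := by linarith
      have h7 : T θ ≤ C / δ := by
        rw [le_div_iff₀ hδ]
        have h8 : δ * T θ ^ 3 ≤ C * T θ ^ 2 := by nlinarith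
        have h9 : (T θ * δ) * T θ ^ 2 ≤ C * T θ ^ 2 := by nlinarith
        exact le_of_mul_le_mul_right h9 (by positivity)
      refine ⟨h7, ?_⟩
      rw [le_div_iff₀ hδ]
      have h8 : T θ ^ 2 ≤ (C / δ) ^ 2 := by
        apply pow_le_pow_left₀ (by linarith) h7
      have h9 : 0 ≤ δ * T θ ^ 3 := by positivity
      change T z * δ ≤ C * (C / δ) ^ 2
      nlinarith [mul_le_mul_of_nonneg_left h8 hC]
    have hZcomp : IsCompact Z := by
      set M1 := C / δ with hM1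
      set M2 := C * (C / δ) ^ 2 / δ with hM2
      have hM1' : 0 ≤ M1 := by rw [hM1]; positivity
      have hM2' : 0 ≤ M2 := by rw [hM2]; positivity
      have hsub : Z ⊆ Icc 0 S ×ˢ ((Set.univ.pi fun _ => Icc (-Real.sqrt M2) (Real.sqrt M2)) ×ˢ
          (Set.univ.pi fun _ => Icc (-Real.sqrt M1) (Real.sqrt M1))) := by
        intro p hp
        obtain ⟨hb1, hb2⟩ := hbd p hp
        refine ⟨hp.1, ?_, ?_⟩
        · intro i _
          have h := (T_le_coord p.2.1 i).trans hb2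
          exact abs_le.1 (Real.abs_le_sqrt h)
        · intro i _
          have h := (T_le_coord p.2.2 i).trans hb1
          exact abs_le.1 (Real.abs_le_sqrt h)
      exact IsCompact.of_isClosed_subset (isCompact_Icc.prod
        ((isCompact_univ_pi fun _ => isCompact_Icc).prod (isCompact_univ_pi fun _ => isCompact_Icc)))
        hZc hsub
    obtain ⟨⟨s₁, z₁, θ₁⟩, hp1, hmin⟩ := hZcomp.exists_isMinOn ⟨(s₀, z₀, θ₀), hs₀, hF₀⟩
      (f := Prod.fst) continuous_fst.continuousOn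
    have hs1 : s₁ ∈ Icc 0 S := hp1.1
    have hF1 : F (s₁, z₁, θ₁) ≤ 0 := hp1.2
    have hbefore : ∀ s, 0 ≤ s → s < s₁ → ∀ z θ, 0 < F (s, z, θ) := by
      intro s h0s hss z θ
      by_contra h
      push Not at h
      have hmem : (s, z, θ) ∈ Z := ⟨⟨h0s, hss.le.trans hs1.2⟩, h⟩
      have := hmin hmem
      simp only [Set.mem_ofPred_eq] at this
      linarith
    have hs1pos : 0 < s₁ := by
      rcases hs1.1.lt_or_eq with h | h
      · exact h
      · exfalso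
        have h1 : 0 ≤ G s₁ z₁ θ₁ := by
          rw [← h]
          have := h0 z₁ θ₁
          simp only [hG]
          linarith
        have h2 := T_ge z₁
        have h3 := T_ge θ₁
        have h4 : 0 < δ * Real.exp (K * s₁) * (T z₁ + T θ₁ ^ 3) := by positivity
        have h5 : F (s₁, z₁, θ₁) = G s₁ z₁ θ₁ + δ * Real.exp (K * s₁) * (T z₁ + T θ₁ ^ 3) := rfl
        linarith
    have hs1S : s₁ ≤ S := hs1.2
    -- derivative in s
    have hFs : ∀ z θ, HasDerivAt (fun s => F (s, z, θ))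
        (3 * c * Real.sqrt (a s₁ z θ) *
          (1 / 2 * ∑ i, qz i s₁ z θ - ∑ i, wz i s₁ z * q i s₁ z θ - ∑ i, m i s₁ z θ ^ 2)
          - ε * (1 / 2 * ∑ i, bzz i s₁ z θ - ∑ i, wz i s₁ z * bz i s₁ z θ
            - 3 * ∑ i, m i s₁ z θ * q i s₁ z θ)
          + K * (δ * Real.exp (K * s₁)) * (T z + T θ ^ 3)) s₁ := by
      intro z θ
      have h1 := (hasDerivAt_mul_sqrt (has s₁ hs1pos hs1S z θ) (apos s₁ hs1 z θ)).const_mul (2 * c)
      have h2 := (hbs s₁ hs1pos hs1S z θ).const_mul ε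
      have h3 : HasDerivAt (fun s => δ * Real.exp (K * s) * (T z + T θ ^ 3))
          (δ * (Real.exp (K * s₁) * K) * (T z + T θ ^ 3)) s₁ := by
        have h4 : HasDerivAt (fun s : ℝ => K * s) K s₁ := by
          simpa using (hasDerivAt_id s₁).const_mul K
        exact (h4.exp.const_mul δ).mul_const _
      refine ((h1.sub h2).add h3).congr_deriv ?_
      ring
    have hge : ∀ z θ, 0 ≤ F (s₁, z, θ) := by
      intro z θ
      have h1 : Filter.Tendsto (fun s => F (s, z, θ)) (nhdsWithin s₁ (Iio s₁))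
          (nhds (F (s₁, z, θ))) := (hFs z θ).continuousAt.tendsto.mono_left nhdsWithin_le_nhds
      refine ge_of_tendsto h1 ?_
      have h2 : ∀ᶠ x in nhdsWithin s₁ (Iio s₁), 0 < x :=
        mem_nhdsWithin_of_mem_nhds (lt_mem_nhds hs1pos)
      have h3 : ∀ᶠ x in nhdsWithin s₁ (Iio s₁), x < s₁ := self_mem_nhdsWithin
      filter_upwards [h2, h3] with x hx1 hx2
      exact (hbefore x hx1.le hx2 z θ).le
    have hFeq : F (s₁, z₁, θ₁) = 0 := le_antisymm hF1 (hge z₁ θ₁)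
    set A := Real.sqrt (a s₁ z₁ θ₁) with hA
    have hA0 : 0 < A := Real.sqrt_pos.2 (apos s₁ hs1 z₁ θ₁)
    set E := δ * Real.exp (K * s₁) with hE
    have hE0 : 0 < E := by rw [hE]; positivity
    -- s-derivative nonpositive
    have hs_le := left_nonpos (hFs z₁ θ₁) (l := 0) hs1pos (fun x hx1 hx2 => by
      rw [hFeq]; exact (hbefore x hx1.le hx2 z₁ θ₁).le)
    -- z-derivatives
    have hFz : ∀ i z, HasDerivAt (fun x => F (s₁, Function.update z i x, θ₁))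
        (3 * c * Real.sqrt (a s₁ z θ₁) * q i s₁ z θ₁ - ε * bz i s₁ z θ₁ + 2 * E * z i) (z i) := by
      intro i z
      have ha' : 0 < a s₁ (Function.update z i (z i)) θ₁ := apos _ hs1 _ _
      have h1 := (hasDerivAt_mul_sqrt (haz s₁ hs1pos hs1S i z θ₁) ha').const_mul (2 * c)
      have h2 := (hbz s₁ hs1pos hs1S i z θ₁).const_mul ε
      have h3 := ((hasDerivAt_T z i (z i)).add_const (T θ₁ ^ 3)).const_mul E
      refine ((h1.sub h2).add h3).congr_deriv ?_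
      rw [Function.update_eq_self]
      ring
    have hzmin : ∀ i, 3 * c * A * q i s₁ z₁ θ₁ - ε * bz i s₁ z₁ θ₁ + 2 * E * z₁ i = 0 := by
      intro i
      refine IsLocalMin.hasDerivAt_eq_zero ?_ (hFz i z₁)
      refine Filter.Eventually.of_forall fun x => ?_
      change F (s₁, Function.update z₁ i (z₁ i), θ₁) ≤ F (s₁, Function.update z₁ i x, θ₁)
      rw [Function.update_eq_self, hFeq]
      exact hge _ _
    have hzz : ∀ i, 0 ≤ 3 * c * (q i s₁ z₁ θ₁ ^ 2 / (2 * A) + A * qz i s₁ z₁ θ₁)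
        - ε * bzz i s₁ z₁ θ₁ + 2 * E := by
      intro i
      have key : ∀ x, HasDerivAt (fun x => F (s₁, Function.update z₁ i x, θ₁))
          (3 * c * Real.sqrt (a s₁ (Function.update z₁ i x) θ₁) *
            q i s₁ (Function.update z₁ i x) θ₁ - ε * bz i s₁ (Function.update z₁ i x) θ₁
            + 2 * E * x) x := by
        intro x
        have h := hFz i (Function.update z₁ i x)
        simp only [Function.update_idem, Function.update_self] at h
        exact h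
      refine second_nonneg key (x₀ := z₁ i) ?_ ?_ ?_
      · have ha' : 0 < a s₁ (Function.update z₁ i (z₁ i)) θ₁ := apos _ hs1 _ _
        have h1 := (haz s₁ hs1pos hs1S i z₁ θ₁).sqrt ha'.ne'
        have h2 := ((h1.const_mul (3 * c)).mul (hqz s₁ hs1pos hs1S i z₁ θ₁))
        have h3 := (hbzz s₁ hs1pos hs1S i z₁ θ₁).const_mul ε
        have h4 := (hasDerivAt_id (z₁ i)).const_mul (2 * E)
        refine ((h2.sub h3).add h4).congr_deriv ?_
        simp only [Function.update_eq_self]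
        rw [← hA]
        field_simp
      · simp only [Function.update_eq_self]
        exact hzmin i
      · intro x
        simp only [Function.update_eq_self]
        rw [hFeq]
        exact hge _ _
    -- θ-derivatives
    have hθmin : ∀ i, 6 * c * A * m i s₁ z₁ θ₁ - 3 * ε * q i s₁ z₁ θ₁
        + 6 * E * T θ₁ ^ 2 * θ₁ i = 0 := by
      intro i
      have ha' : 0 < a s₁ z₁ (Function.update θ₁ i (θ₁ i)) := apos _ hs1 _ _
      have h1 := (hasDerivAt_mul_sqrt (haθ s₁ hs1pos hs1S i z₁ θ₁) ha').const_mul (2 * c)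
      have h2 := (hbθ s₁ hs1pos hs1S i z₁ θ₁).const_mul ε
      have h3 := (((hasDerivAt_T θ₁ i (θ₁ i)).pow 3).const_add (T z₁)).const_mul E
      have h5 : HasDerivAt (fun x => F (s₁, z₁, Function.update θ₁ i x))
          (6 * c * A * m i s₁ z₁ θ₁ - 3 * ε * q i s₁ z₁ θ₁ + 6 * E * T θ₁ ^ 2 * θ₁ i) (θ₁ i) := by
        refine ((h1.sub h2).add h3).congr_deriv ?_
        rw [Function.update_eq_self, ← hA]
        push_cast
        ring
      refine IsLocalMin.hasDerivAt_eq_zero ?_ h5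
      refine Filter.Eventually.of_forall fun x => ?_
      change F (s₁, z₁, Function.update θ₁ i (θ₁ i)) ≤ F (s₁, z₁, Function.update θ₁ i x)
      rw [Function.update_eq_self, hFeq]
      exact hge _ _
    -- the final inequality
    have hAlow : Real.sqrt a₀ * Real.sqrt (T θ₁) ≤ A := by
      rw [hA, ← Real.sqrt_mul ha₀.le]
      exact Real.sqrt_le_sqrt (hlow s₁ hs1 z₁ θ₁)
    exact final_contra (fun i => m i s₁ z₁ θ₁) (fun i => q i s₁ z₁ θ₁) (fun i => qz i s₁ z₁ θ₁)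
      (fun i => bz i s₁ z₁ θ₁) (fun i => bzz i s₁ z₁ θ₁) (fun i => wz i s₁ z₁) z₁ θ₁
      hc hc1 hε hA0 hE0 hR0 hC (T_ge z₁) (T_ge θ₁) hzmin hzz hθmin (hw s₁ hs1pos hs1S z₁)
      (fun i => r_bound hc hc1 hεabs hC ha₀ (T_ge θ₁) hAlow (hm s₁ hs1pos hs1S i z₁ θ₁)
        (hq s₁ hs1pos hs1S i z₁ θ₁) (T_le_coord θ₁ i)) hs_le
  -- let δ → 0
  intro s hs z θ
  by_contra hcon
  push Not at hcon
  set B := Real.exp (K * s) * (T z + T θ ^ 3) with hB
  have hB0 : 0 < B := by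
    have h1 := T_ge z
    have h2 := T_ge θ
    rw [hB]; positivity
  have h1 : G s z θ < 0 := by simp only [hG]; linarith
  have h2 := main (-(G s z θ) / B) (div_pos (neg_pos.2 h1) hB0) s hs z θ
  have h3 : -(G s z θ) / B * Real.exp (K * s) * (T z + T θ ^ 3) = -(G s z θ) := by
    rw [mul_assoc, ← hB, div_mul_cancel₀ _ hB0.ne']
  rw [h3] at h2
  linarith

end Vale.Agent.P227.M.SC2.MPN
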