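import Mathlib

/-!
P227, block SC-2: parabolic minimum principle in touching form on `[0,S] × E × sphere`
(statement of helper233, 20:50; typed by helper629). Hypotheses are only used at points of negative
value where the derivative in the sphere direction vanishes.
-/

namespace Vale.Agent.P227.M.SC2.MPT629

open Finset Set

/-- second derivative test, necessary direction -/
lemma second_nonneg {f g : ℝ → ℝ} {x₀ d : ℝ} (hf : ∀ x, HasDerivAt f (g x) x)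
    (hg : HasDerivAt g d x₀) (h0 : g x₀ = 0) (hmin : ∀ x, f x₀ ≤ f x) : 0 ≤ d := by
  by_contra hd
  push Not at hd
  have h1 : ∀ᶠ x in nhdsWithin x₀ (Ioi x₀), slope g x₀ x < 0 :=
    (hasDerivAt_iff_tendsto_slope.1 hg |>.mono_left
      (nhdsWithin_mono _ (fun x hx => ne_of_gt hx))).eventually (gt_mem_nhds hd)
  obtain ⟨u, hu, hu2⟩ := mem_nhdsGT_iff_exists_Ioo_subset.1 h1
  have hu' : x₀ < u := hu
  set y := (x₀ + u) / 2 with hy
  have hy1 : x₀ < y := by rw [hy]; linarith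
  have hy2 : y < u := by rw [hy]; linarith
  obtain ⟨w, hw, hw2⟩ := exists_hasDerivAt_eq_slope f g hy1
    (fun x _ => (hf x).continuousAt.continuousWithinAt) (fun x _ => hf x)
  have h3 : slope g x₀ w < 0 := hu2 ⟨hw.1, hw.2.trans hy2⟩
  have h4 : g w < 0 := by
    rw [slope_def_field, h0, sub_zero] at h3
    have h5 : 0 < w - x₀ := sub_pos.2 hw.1
    by_contra h6
    push Not at h6
    exact absurd h3 (not_lt.2 (div_nonneg h6 h5.le))
  have h5 : g w * (y - x₀) = f y - f x₀ := by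
    rw [hw2, div_mul_cancel₀ _ (sub_pos.2 hy1).ne']
  have h6 : f y - f x₀ < 0 := by
    rw [← h5]; exact mul_neg_of_neg_of_pos h4 (sub_pos.2 hy1)
  linarith [hmin y]

/-- left derivative test -/
lemma left_nonpos {f : ℝ → ℝ} {x₀ d : ℝ} (hf : HasDerivAt f d x₀) {l : ℝ} (hl : l < x₀)
    (h0 : ∀ x, l < x → x < x₀ → f x₀ ≤ f x) : d ≤ 0 := by
  by_contra hd
  push Not at hd
  have h1 : ∀ᶠ x in nhdsWithin x₀ (Iio x₀), 0 < slope f x₀ x :=
    (hasDerivAt_iff_tendsto_slope.1 hf |>.mono_left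
      (nhdsWithin_mono _ (fun x hx => ne_of_lt hx))).eventually (lt_mem_nhds hd)
  have h2 : ∀ᶠ x in nhdsWithin x₀ (Iio x₀), l < x :=
    mem_nhdsWithin_of_mem_nhds (lt_mem_nhds hl)
  have h3 : ∀ᶠ x in nhdsWithin x₀ (Iio x₀), x < x₀ := self_mem_nhdsWithin
  obtain ⟨x, hx1, hx2, hx3⟩ := (h1.and (h2.and h3)).exists
  rw [slope_def_field] at hx1
  have h4 := h0 x hx2 hx3
  have h5 : x - x₀ < 0 := sub_neg.2 hx3
  have h6 : (f x - f x₀) / (x - x₀) ≤ 0 := div_nonpos_of_nonneg_of_nonpos (by linarith) h5.le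
  linarith


variable {E : Type*} [NormedAddCommGroup E] [InnerProductSpace ℝ E]

lemma hasDerivAt_line_normSq (x p : E) (t : ℝ) :
    HasDerivAt (fun t : ℝ => ‖x + t • p‖ ^ 2) (2 * (inner ℝ x p + t * ‖p‖ ^ 2)) t := by
  have h : (fun t : ℝ => ‖x + t • p‖ ^ 2)
      = fun t : ℝ => ‖x‖ ^ 2 + 2 * (t * inner ℝ x p) + t ^ 2 * ‖p‖ ^ 2 := by
    funext t
    rw [norm_add_sq_real, inner_smul_right, norm_smul, mul_pow, Real.norm_eq_abs, sq_abs]
  rw [h]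
  have h1 : HasDerivAt (fun t : ℝ => ‖x‖ ^ 2 + 2 * (t * inner ℝ x p) + t ^ 2 * ‖p‖ ^ 2)
      (0 + 2 * (1 * inner ℝ x p) + (2 * t ^ (2 - 1) * 1) * ‖p‖ ^ 2) t := by
    refine ((hasDerivAt_const t (‖x‖ ^ 2)).add
      (((hasDerivAt_id t).mul_const (inner ℝ x p)).const_mul 2)).add
      (((hasDerivAt_id t).pow 2).mul_const (‖p‖ ^ 2)) |>.congr_deriv ?_
    simp
  refine h1.congr_deriv ?_
  simp
  ring

lemma hasDerivAt_line_cube (v p : E) (hv : ‖v‖ = 1) :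
    HasDerivAt (fun t : ℝ => ‖v + t • p‖ ^ 3) (3 * inner ℝ v p) 0 := by
  have h := hasDerivAt_line_normSq v p 0
  have h0 : ‖v + (0 : ℝ) • p‖ ^ 2 = 1 := by simp [hv]
  have h2 := h.sqrt (by rw [h0]; norm_num)
  have h3 := h.mul h2
  have e : (fun t : ℝ => ‖v + t • p‖ ^ 3)
      = (fun t : ℝ => ‖v + t • p‖ ^ 2) * fun t : ℝ => Real.sqrt (‖v + t • p‖ ^ 2) := by
    funext t
    simp only [Pi.mul_apply]
    rw [Real.sqrt_sq (norm_nonneg _)]
    ring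
  rw [e]
  refine h3.congr_deriv ?_
  simp only [h0, Real.sqrt_one]
  ring

lemma xpart (G Gx : E → ℝ) (Gxx e ε : ℝ) (x p : E)
    (hx : ∀ x, HasDerivAt (fun t : ℝ => G (x + t • p)) (Gx x) 0)
    (hxx : HasDerivAt (fun t : ℝ => Gx (x + t • p)) Gxx 0)
    (hmin : ∀ y, e * G x + ε * (1 + ‖x‖ ^ 2) ≤ e * G y + ε * (1 + ‖y‖ ^ 2)) :
    e * Gx x = -(ε * (2 * inner ℝ x p)) ∧ -(ε * (2 * ‖p‖ ^ 2)) ≤ e * Gxx := by
  set f : ℝ → ℝ := fun t => e * G (x + t • p) + ε * (1 + ‖x + t • p‖ ^ 2) with hf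
  set g : ℝ → ℝ := fun t => e * Gx (x + t • p) + ε * (2 * (inner ℝ x p + t * ‖p‖ ^ 2)) with hg
  have hfd : ∀ t, HasDerivAt f (g t) t := by
    intro t
    have h1 := hx (x + t • p)
    have h2 : HasDerivAt (fun t' : ℝ => G (x + t' • p)) (Gx (x + t • p)) t := by
      have h3 : HasDerivAt (fun t' : ℝ => G (x + t • p + t' • p)) (Gx (x + t • p)) (t - t) := by
        rw [sub_self]; exact h1
      have h4 := h3.comp_sub_const t t
      refine h4.congr_of_eventuallyEq (Filter.Eventually.of_forall fun t' => ?_)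
      show G (x + t' • p) = G (x + t • p + (t' - t) • p)
      congr 1
      rw [sub_smul]; abel
    exact (h2.const_mul _).add
      (((hasDerivAt_const t (1 : ℝ)).add (hasDerivAt_line_normSq x p t)).const_mul ε
        |>.congr_deriv (by simp))
  have hf0 : f 0 = e * G x + ε * (1 + ‖x‖ ^ 2) := by simp [hf]
  have hfmin : ∀ t, f 0 ≤ f t := by
    intro t
    rw [hf0]
    exact hmin (x + t • p)
  have hg0 : g 0 = 0 := by
    have h1 : IsLocalMin f 0 := Filter.Eventually.of_forall hfmin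
    exact h1.hasDerivAt_eq_zero (hfd 0)
  have hgd : HasDerivAt g (e * Gxx + ε * (2 * ‖p‖ ^ 2)) 0 := by
    have h1 := hxx.const_mul e
    have h2 : HasDerivAt (fun t : ℝ => ε * (2 * (inner ℝ x p + t * ‖p‖ ^ 2)))
        (ε * (2 * ‖p‖ ^ 2)) 0 := by
      have h3 := (((hasDerivAt_id (0 : ℝ)).mul_const (‖p‖ ^ 2)).const_add
        (inner ℝ x p)).const_mul 2 |>.const_mul ε
      refine h3.congr_deriv ?_
      ring
    exact h1.add h2
  have h2 := second_nonneg hfd hgd hg0 hfmin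
  constructor
  · have : g 0 = e * Gx x + ε * (2 * inner ℝ x p) := by
      simp [hg]
    linarith
  · linarith

lemma vpart (G : E → ℝ) (Gv : ℝ) (v p : E) (hvn : ‖v‖ = 1)
    (hom : ∀ u (t : ℝ), 0 < t → G (t • u) = t ^ 3 * G u)
    (hv : HasDerivAt (fun t : ℝ => G (v + t • p)) Gv 0)
    (hmin : ∀ u, ‖u‖ = 1 → G v ≤ G u) : Gv = 3 * G v * inner ℝ v p := by
  have hv0 : v ≠ 0 := by
    intro h; rw [h, norm_zero] at hvn; exact zero_ne_one hvn
  set f : ℝ → ℝ := fun t => G (v + t • p) + (-G v) * ‖v + t • p‖ ^ 3 with hf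
  have hfd : HasDerivAt f (Gv + (-G v) * (3 * inner ℝ v p)) 0 :=
    hv.add ((hasDerivAt_line_cube v p hvn).const_mul (-G v))
  have hf0 : f 0 = 0 := by
    simp only [hf, zero_smul, add_zero, hvn]
    ring
  have hfmin : IsLocalMin f 0 := by
    have hne : ∀ᶠ t : ℝ in nhds 0, v + t • p ≠ 0 := by
      have hc : ContinuousAt (fun t : ℝ => v + t • p) 0 := by fun_prop
      apply hc.eventually_ne
      simpa using hv0
    filter_upwards [hne] with t ht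
    rw [hf0]
    have hn2 : 0 < ‖v + t • p‖ := norm_pos_iff.2 ht
    set u : E := ‖v + t • p‖⁻¹ • (v + t • p) with hu
    have hun : ‖u‖ = 1 := by
      rw [hu, norm_smul, norm_inv, norm_norm, inv_mul_cancel₀ hn2.ne']
    have h1 := hmin u hun
    have h2 : G (v + t • p) = ‖v + t • p‖ ^ 3 * G u := by
      rw [← hom u _ hn2, hu, smul_smul, mul_inv_cancel₀ hn2.ne', one_smul]
    have h3 : 0 ≤ ‖v + t • p‖ ^ 3 * (G u - G v) :=
      mul_nonneg (by positivity) (sub_nonneg.2 h1)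
    have h4 : f t = ‖v + t • p‖ ^ 3 * (G u - G v) := by
      simp only [hf]
      rw [h2]; ring
    rw [h4]
    exact h3
  have h6 := hfmin.hasDerivAt_eq_zero hfd
  linarith

variable {ι : Type*} [Fintype ι]

lemma finpart (p : ι → E) (x : E) (K K0 C ε e G Gs : ℝ) (Gx Gxx w : ι → ℝ) (he : 0 < e)
    (hε : 0 < ε) (hGs : Gs ≤ K * G)
    (hX : ∀ i, e * Gx i = -(ε * (2 * inner ℝ x (p i))) ∧ -(ε * (2 * ‖p i‖ ^ 2)) ≤ e * Gxx i)
    (hT : K0 * G ≤ Gs - 1 / 2 * ∑ i, Gxx i + ∑ i, w i * Gx i)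
    (hw : ∀ i, |w i| ≤ C * (1 + ‖x‖))
    (hneg : e * G + ε * (1 + ‖x‖ ^ 2) < 0)
    (hK : ∑ i, ‖p i‖ ^ 2 + 4 * |C| * ∑ i, ‖p i‖ < K - K0) : False := by
  set s1 : ℝ := ∑ i, ‖p i‖ ^ 2 with hs1
  set s2 : ℝ := ∑ i, ‖p i‖ with hs2
  have s1n : 0 ≤ s1 := Finset.sum_nonneg fun i _ => by positivity
  have s2n : 0 ≤ s2 := Finset.sum_nonneg fun i _ => by positivity
  have h1 : e * (K0 * G) ≤ e * (K * G) - 1 / 2 * (e * ∑ i, Gxx i) + e * ∑ i, w i * Gx i := by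
    have h2 : K0 * G ≤ K * G - 1 / 2 * ∑ i, Gxx i + ∑ i, w i * Gx i := by linarith
    have h3 := mul_le_mul_of_nonneg_left h2 he.le
    refine h3.trans (le_of_eq ?_)
    ring
  have h2 : -(ε * (2 * s1)) ≤ e * ∑ i, Gxx i := by
    have : -(ε * (2 * s1)) = ∑ i, -(ε * (2 * ‖p i‖ ^ 2)) := by
      rw [Finset.sum_neg_distrib, hs1, Finset.mul_sum, Finset.mul_sum]
    rw [this, Finset.mul_sum]
    exact Finset.sum_le_sum fun i _ => (hX i).2
  have h3 : e * ∑ i, w i * Gx i ≤ ε * (4 * |C| * (1 + ‖x‖ ^ 2) * s2) := by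
    have : ε * (4 * |C| * (1 + ‖x‖ ^ 2) * s2)
        = ∑ i, ε * (4 * |C| * (1 + ‖x‖ ^ 2) * ‖p i‖) := by
      rw [hs2, Finset.mul_sum, Finset.mul_sum]
    rw [this, Finset.mul_sum]
    refine Finset.sum_le_sum fun i _ => ?_
    have h4 := hw i
    have h5 : |inner ℝ x (p i)| ≤ ‖x‖ * ‖p i‖ := abs_real_inner_le_norm x (p i)
    have h6 : e * (w i * Gx i) ≤ |w i| * (ε * (2 * |inner ℝ x (p i)|)) := by
      calc e * (w i * Gx i) = w i * (e * Gx i) := by ring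
        _ = w i * -(ε * (2 * inner ℝ x (p i))) := by rw [(hX i).1]
        _ ≤ |w i * -(ε * (2 * inner ℝ x (p i)))| := le_abs_self _
        _ = |w i| * (ε * (2 * |inner ℝ x (p i)|)) := by
          rw [abs_mul, abs_neg, abs_mul, abs_mul, abs_of_pos hε, abs_two]
    refine h6.trans ?_
    have h7 : |w i| ≤ |C| * (1 + ‖x‖) :=
      h4.trans (mul_le_mul_of_nonneg_right (le_abs_self C) (by positivity))
    calc |w i| * (ε * (2 * |inner ℝ x (p i)|))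
        ≤ (|C| * (1 + ‖x‖)) * (ε * (2 * (‖x‖ * ‖p i‖))) := by
          gcongr
      _ = ε * (|C| * (2 * ((1 + ‖x‖) * ‖x‖)) * ‖p i‖) := by ring
      _ ≤ ε * (|C| * (4 * (1 + ‖x‖ ^ 2)) * ‖p i‖) := by
          have h8 : 2 * ((1 + ‖x‖) * ‖x‖) ≤ 4 * (1 + ‖x‖ ^ 2) := by
            nlinarith [sq_nonneg (‖x‖ - 1)]
          gcongr
      _ = ε * (4 * |C| * (1 + ‖x‖ ^ 2) * ‖p i‖) := by ring
  have h5 : ε * s1 ≤ ε * ((1 + ‖x‖ ^ 2) * s1) :=
    mul_le_mul_of_nonneg_left (le_mul_of_one_le_left s1n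
      (le_add_of_nonneg_right (sq_nonneg ‖x‖))) hε.le
  have h6 : (K - K0) * -(e * G) ≤ ε * (1 + ‖x‖ ^ 2) * (s1 + 4 * |C| * s2) := by
    have e1 : (K - K0) * -(e * G) = e * (K0 * G) - e * (K * G) := by ring
    have e2 : ε * (1 + ‖x‖ ^ 2) * (s1 + 4 * |C| * s2)
        = ε * ((1 + ‖x‖ ^ 2) * s1) + ε * (4 * |C| * (1 + ‖x‖ ^ 2) * s2) := by ring
    rw [e1, e2]
    linarith
  have h7 : 0 < ε * (1 + ‖x‖ ^ 2) := by positivity
  have h8 : 0 < K - K0 := lt_of_le_of_lt (by positivity) hK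
  have h9 : (s1 + 4 * |C| * s2) * (ε * (1 + ‖x‖ ^ 2)) < (K - K0) * -(e * G) := by
    calc (s1 + 4 * |C| * s2) * (ε * (1 + ‖x‖ ^ 2)) ≤ (K - K0) * (ε * (1 + ‖x‖ ^ 2)) :=
          mul_le_mul_of_nonneg_right hK.le h7.le
      _ < _ := mul_lt_mul_of_pos_left (by linarith) h8
  linarith [mul_comm (s1 + 4 * |C| * s2) (ε * (1 + ‖x‖ ^ 2))]

variable [FiniteDimensional ℝ E]

/-- existence of the touching point -/
lemma touchpt (Gam : ℝ → E → E → ℝ) (S C K : ℝ) (hKpos : 0 < K)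
    (cont : ContinuousOn (fun q : ℝ × E × E => Gam q.1 q.2.1 q.2.2) {q | 0 ≤ q.1 ∧ q.1 ≤ S})
    (hlow : ∀ s x v, 0 ≤ s → s ≤ S → ‖v‖ = 1 → -C ≤ Gam s x v)
    (h0 : ∀ x v, 0 ≤ Gam 0 x v) (s₁ : ℝ) (x₁ v₁ : E) (hs₁ : 0 ≤ s₁) (hs₁S : s₁ ≤ S)
    (hv₁n : ‖v₁‖ = 1) (hneg₁ : Gam s₁ x₁ v₁ < 0) :
    ∃ (ε s : ℝ) (x v : E), 0 < ε ∧ 0 < s ∧ s ≤ S ∧ ‖v‖ = 1 ∧ Gam s x v < 0 ∧
      Real.exp (-(K * s)) * Gam s x v + ε * (1 + ‖x‖ ^ 2) < 0 ∧
      ∀ s' x' v', 0 ≤ s' → s' ≤ S → ‖v'‖ = 1 →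
        Real.exp (-(K * s)) * Gam s x v + ε * (1 + ‖x‖ ^ 2) ≤
          Real.exp (-(K * s')) * Gam s' x' v' + ε * (1 + ‖x'‖ ^ 2) := by
  set e0 : ℝ := -(Real.exp (-(K * s₁)) * Gam s₁ x₁ v₁) with he0
  have he0pos : 0 < e0 := by
    rw [he0]
    have := mul_neg_of_pos_of_neg (Real.exp_pos (-(K * s₁))) hneg₁
    linarith
  set ε : ℝ := e0 / (2 * (1 + ‖x₁‖ ^ 2)) with hε
  have hεpos : 0 < ε := by rw [hε]; positivity
  set Φ : ℝ × E × E → ℝ := fun q =>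
    Real.exp (-(K * q.1)) * Gam q.1 q.2.1 q.2.2 + ε * (1 + ‖q.2.1‖ ^ 2) with hΦ
  have hΦ1 : Φ (s₁, x₁, v₁) < 0 := by
    simp only [hΦ]
    have : ε * (1 + ‖x₁‖ ^ 2) = e0 / 2 := by
      rw [hε]
      have : (1 + ‖x₁‖ ^ 2) ≠ 0 := by positivity
      field_simp
    rw [this]
    have h2 : Real.exp (-(K * s₁)) * Gam s₁ x₁ v₁ = -e0 := by rw [he0]; ring
    rw [h2]
    linarith
  set R : ℝ := |C| / ε + ‖x₁‖ + 1 with hR
  have hCε : 0 ≤ |C| / ε := div_nonneg (abs_nonneg C) hεpos.le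
  have hx₁n := norm_nonneg x₁
  have hout : ∀ s x v, 0 ≤ s → s ≤ S → ‖v‖ = 1 → R < ‖x‖ → 0 < Φ (s, x, v) := by
    intro s x v h1 h2 h3 h4
    simp only [hΦ]
    have h5 := hlow s x v h1 h2 h3
    have h6 : Real.exp (-(K * s)) ≤ 1 := by
      rw [Real.exp_le_one_iff]
      have := mul_nonneg hKpos.le h1
      linarith
    have h7 : -|C| ≤ Real.exp (-(K * s)) * Gam s x v := by
      have h8 : -|C| ≤ Gam s x v := le_trans (neg_le_neg (le_abs_self C)) h5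
      have h9 := Real.exp_pos (-(K * s))
      nlinarith [abs_nonneg C]
    have h8 : 1 ≤ ‖x‖ := by linarith
    have h9 : |C| / ε < ‖x‖ := by linarith
    have h10 : |C| < ‖x‖ * ε := by rwa [div_lt_iff₀ hεpos] at h9
    have h11 : ‖x‖ ≤ ‖x‖ ^ 2 := by nlinarith
    have h12 : ε * ‖x‖ ≤ ε * ‖x‖ ^ 2 := mul_le_mul_of_nonneg_left h11 hεpos.le
    have h13 : ε * (1 + ‖x‖ ^ 2) = ε + ε * ‖x‖ ^ 2 := by ring
    rw [h13]
    linarith [mul_comm ε ‖x‖]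
  set B : Set (ℝ × E × E) := Icc 0 S ×ˢ (Metric.closedBall (0 : E) R ×ˢ Metric.sphere (0 : E) 1)
    with hB
  have hBc : IsCompact B :=
    isCompact_Icc.prod ((isCompact_closedBall _ _).prod (isCompact_sphere _ _))
  have hBsub : B ⊆ {q | 0 ≤ q.1 ∧ q.1 ≤ S} := fun q hq => ⟨hq.1.1, hq.1.2⟩
  have hΦc : ContinuousOn Φ B := by
    have h1 : Continuous (fun q : ℝ × E × E => Real.exp (-(K * q.1))) := by fun_prop
    have h2 : Continuous (fun q : ℝ × E × E => ε * (1 + ‖q.2.1‖ ^ 2)) := by fun_prop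
    exact (h1.continuousOn.mul (cont.mono hBsub)).add h2.continuousOn
  have hmem : (s₁, x₁, v₁) ∈ B := by
    refine ⟨⟨hs₁, hs₁S⟩, ?_, ?_⟩
    · rw [mem_closedBall_zero_iff]
      simp only
      linarith
    · rw [mem_sphere_zero_iff_norm]; exact hv₁n
  obtain ⟨⟨s, x, v⟩, hqB, hmin⟩ := hBc.exists_isMinOn ⟨_, hmem⟩ hΦc
  have hs0 : 0 ≤ s := hqB.1.1
  have hsS : s ≤ S := hqB.1.2
  have hvn : ‖v‖ = 1 := mem_sphere_zero_iff_norm.1 hqB.2.2
  have hm0 : Φ (s, x, v) < 0 := lt_of_le_of_lt (hmin hmem) hΦ1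
  have hmin' : ∀ s' x' v', 0 ≤ s' → s' ≤ S → ‖v'‖ = 1 → Φ (s, x, v) ≤ Φ (s', x', v') := by
    intro s' x' v' h1 h2 h3
    by_cases h4 : R < ‖x'‖
    · exact (hm0.trans (hout s' x' v' h1 h2 h3 h4)).le
    · exact hmin ⟨⟨h1, h2⟩, mem_closedBall_zero_iff.2 (not_lt.1 h4), mem_sphere_zero_iff_norm.2 h3⟩
  have hGneg : Gam s x v < 0 := by
    by_contra h
    push Not at h
    have h1 := mul_nonneg (Real.exp_pos (-(K * s))).le h
    have hpen : 0 < ε * (1 + ‖x‖ ^ 2) := by positivity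
    simp only [hΦ] at hm0
    linarith
  have hspos : 0 < s := by
    rcases hs0.lt_or_eq with h | h
    · exact h
    · exfalso
      rw [← h] at hGneg
      exact absurd (h0 x v) (not_le.2 hGneg)
  exact ⟨ε, s, x, v, hεpos, hspos, hsS, hvn, hGneg, hm0, hmin'⟩

/-- parabolic minimum principle in touching form, `Gam` homogeneous of degree three in `v` -/
theorem mpt (p : ι → E) (Gam Gs : ℝ → E → E → ℝ) (Gx Gxx Gv : ι → ℝ → E → E → ℝ)
    (w : ι → ℝ → E → ℝ) (S C K0 : ℝ)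
    (cont : ContinuousOn (fun q : ℝ × E × E => Gam q.1 q.2.1 q.2.2) {q | 0 ≤ q.1 ∧ q.1 ≤ S})
    (hom : ∀ s x v t, 0 < t → Gam s x (t • v) = t ^ 3 * Gam s x v)
    (hs : ∀ s x v, 0 < s → s ≤ S → HasDerivAt (fun s => Gam s x v) (Gs s x v) s)
    (hx : ∀ i s x v, 0 < s → s ≤ S →
      HasDerivAt (fun t : ℝ => Gam s (x + t • p i) v) (Gx i s x v) 0)
    (hxx : ∀ i s x v, 0 < s → s ≤ S →
      HasDerivAt (fun t : ℝ => Gx i s (x + t • p i) v) (Gxx i s x v) 0)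
    (hv : ∀ i s x v, 0 < s → s ≤ S → v ≠ 0 →
      HasDerivAt (fun t : ℝ => Gam s x (v + t • p i)) (Gv i s x v) 0)
    (touch : ∀ s x v, 0 < s → s ≤ S → ‖v‖ = 1 → Gam s x v < 0 →
      (∀ i, Gv i s x v = 3 * Gam s x v * inner ℝ v (p i)) →
      K0 * Gam s x v ≤ Gs s x v - 1 / 2 * ∑ i, Gxx i s x v + ∑ i, w i s x * Gx i s x v)
    (hw : ∀ i s x, 0 < s → s ≤ S → |w i s x| ≤ C * (1 + ‖x‖))
    (hlow : ∀ s x v, 0 ≤ s → s ≤ S → ‖v‖ = 1 → -C ≤ Gam s x v)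
    (h0 : ∀ x v, 0 ≤ Gam 0 x v) :
    ∀ s x v, 0 ≤ s → s ≤ S → 0 ≤ Gam s x v := by
  intro s₁ x₁ v₁' hs₁ hs₁S
  by_contra hneg
  push Not at hneg
  -- reduce to the sphere
  have hv₁ : v₁' ≠ 0 := by
    rintro rfl
    have h := hom s₁ x₁ 0 2 (by norm_num)
    rw [smul_zero] at h
    linarith
  have hn : 0 < ‖v₁'‖ := norm_pos_iff.2 hv₁
  obtain ⟨v₁, hv₁n, hneg₁⟩ : ∃ v₁ : E, ‖v₁‖ = 1 ∧ Gam s₁ x₁ v₁ < 0 := by
    refine ⟨‖v₁'‖⁻¹ • v₁', ?_, ?_⟩
    · rw [norm_smul, norm_inv, norm_norm, inv_mul_cancel₀ hn.ne']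
    · rw [hom _ _ _ _ (inv_pos.2 hn)]
      exact mul_neg_of_pos_of_neg (by positivity) hneg
  set C1 : ℝ := ∑ i, ‖p i‖ ^ 2 + 4 * |C| * ∑ i, ‖p i‖ with hC1
  have hC1n : 0 ≤ C1 := by
    have h1 : 0 ≤ ∑ i, ‖p i‖ ^ 2 := Finset.sum_nonneg fun i _ => by positivity
    have h2 : 0 ≤ ∑ i, ‖p i‖ := Finset.sum_nonneg fun i _ => by positivity
    positivity
  set K : ℝ := |K0| + C1 + 1 with hK
  have hKpos : 0 < K := by rw [hK]; positivity
  have hKK : C1 < K - K0 := by rw [hK]; linarith [le_abs_self K0]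
  obtain ⟨ε, s, x, v, hεpos, hspos, hsS, hvn, hGneg, hm0, hmin⟩ :=
    touchpt Gam S C K hKpos cont hlow h0 s₁ x₁ v₁ hs₁ hs₁S hv₁n hneg₁
  have hE := Real.exp_pos (-(K * s))
  -- s-derivative
  have hS1 : Gs s x v ≤ K * Gam s x v := by
    have h1 : HasDerivAt (fun s' => Real.exp (-(K * s')) * Gam s' x v + ε * (1 + ‖x‖ ^ 2))
        (Real.exp (-(K * s)) * (-(K * 1)) * Gam s x v + Real.exp (-(K * s)) * Gs s x v) s := by
      exact ((((hasDerivAt_id s).const_mul K).fun_neg.exp).mul (hs s x v hspos hsS)).add_const _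
    have h2 := left_nonpos h1 hspos (fun s' h3 h4 =>
      hmin s' x v h3.le (h4.le.trans hsS) hvn)
    have h3 : Real.exp (-(K * s)) * (Gs s x v - K * Gam s x v) ≤ 0 := by linarith
    have h4 : Gs s x v - K * Gam s x v ≤ 0 := by
      by_contra h
      push Not at h
      exact absurd h3 (not_le.2 (mul_pos hE h))
    linarith
  have hX : ∀ i, Real.exp (-(K * s)) * Gx i s x v = -(ε * (2 * inner ℝ x (p i))) ∧
      -(ε * (2 * ‖p i‖ ^ 2)) ≤ Real.exp (-(K * s)) * Gxx i s x v := fun i =>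
    xpart (fun y => Gam s y v) (fun y => Gx i s y v) (Gxx i s x v) _ ε x (p i)
      (fun y => hx i s y v hspos hsS) (hxx i s x v hspos hsS)
      (fun y => hmin s y v hspos.le hsS hvn)
  have hV : ∀ i, Gv i s x v = 3 * Gam s x v * inner ℝ v (p i) := by
    intro i
    have hv0 : v ≠ 0 := by
      intro h; rw [h, norm_zero] at hvn; exact zero_ne_one hvn
    refine vpart (fun u => Gam s x u) (Gv i s x v) v (p i) hvn (fun u t ht => hom s x u t ht)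
      (hv i s x v hspos hsS hv0) (fun u hu => ?_)
    have h := hmin s x u hspos.le hsS hu
    have h2 : Real.exp (-(K * s)) * Gam s x v ≤ Real.exp (-(K * s)) * Gam s x u := by linarith
    exact le_of_mul_le_mul_left h2 hE
  exact finpart p x K K0 C ε _ (Gam s x v) (Gs s x v) (fun i => Gx i s x v)
    (fun i => Gxx i s x v) (fun i => w i s x) hE hεpos hS1 hX
    (touch s x v hspos hsS hvn hGneg hV) (fun i => hw i s x hspos hsS) hm0 hKK

end Vale.Agent.P227.M.SC2.MPT629
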