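import Mathlib

/-! # P227/M/SC2: parabolic maximum principle in touching form on the sphere (helper950, form of helper233).

`Gam s x v` is `3`-homogeneous in `v`, satisfies a parabolic differential inequality at the points
`|v| = 1` where it is negative and critical on the sphere, and is nonnegative for `s = 0`.
Then it is nonnegative for all `0 ≤ s ≤ S`. Mathlib only. -/

open Set Filter Topology

namespace Vale.Agent.P227.M.SC2.MPT950

/-- second derivative at a local minimum is nonnegative -/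
theorem second_deriv_nonneg {f f' : ℝ → ℝ} {x f'' : ℝ} (hf : ∀ y, HasDerivAt f (f' y) y)
    (hf' : HasDerivAt f' f'' x) (hmin : IsLocalMin f x) : 0 ≤ f'' := by
  by_contra hneg
  push Not at hneg
  have h0 : f' x = 0 := hmin.hasDerivAt_eq_zero (hf x)
  have hslope := hasDerivAt_iff_tendsto_slope.mp hf'
  have hev : ∀ᶠ y in 𝓝[≠] x, slope f' x y < 0 := hslope.eventually (gt_mem_nhds hneg)
  have hev2 : ∀ᶠ y in 𝓝[>] x, f' y < 0 := by
    have h1 : ∀ᶠ y in 𝓝[>] x, slope f' x y < 0 :=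
      hev.filter_mono (nhdsWithin_mono x (fun y hy => ne_of_gt hy))
    filter_upwards [h1, self_mem_nhdsWithin] with y hy hxy
    have hxy' : (0:ℝ) < y - x := sub_pos.mpr hxy
    rw [slope_def_field, h0, sub_zero] at hy
    by_contra hc
    push Not at hc
    exact absurd hy (not_lt.mpr (div_nonneg hc hxy'.le))
  have hmin' : ∀ᶠ y in 𝓝[>] x, f x ≤ f y := hmin.filter_mono nhdsWithin_le_nhds
  obtain ⟨u, hu, hu1⟩ := mem_nhdsGT_iff_exists_Ioo_subset.mp hev2
  obtain ⟨w, hw, hw1⟩ := mem_nhdsGT_iff_exists_Ioo_subset.mp hmin'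
  have hxu : x < u := hu
  have hxw : x < w := hw
  obtain ⟨y, hy1, hy2⟩ := exists_between (lt_min hxu hxw)
  have hyu : y < u := lt_of_lt_of_le hy2 (min_le_left _ _)
  have hyw : y < w := lt_of_lt_of_le hy2 (min_le_right _ _)
  have hfy : f x ≤ f y := hw1 ⟨hy1, hyw⟩
  obtain ⟨c, hc, hc'⟩ := exists_hasDerivAt_eq_slope f f' hy1
    (fun z _ => (hf z).continuousAt.continuousWithinAt) (fun z _ => hf z)
  have hcneg : f' c < 0 := hu1 ⟨hc.1, hc.2.trans hyu⟩
  rw [hc'] at hcneg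
  have : 0 ≤ (f y - f x) / (y - x) := div_nonneg (by linarith) (by linarith)
  linarith

/-- derivative at a point where the function is `≥` to the left is `≤ 0` -/
theorem deriv_nonpos_of_left {f : ℝ → ℝ} {x f' a : ℝ} (hax : a < x) (hf : HasDerivAt f f' x)
    (hmin : ∀ y, a ≤ y → y ≤ x → f x ≤ f y) : f' ≤ 0 := by
  by_contra hpos
  push Not at hpos
  have hslope := hasDerivAt_iff_tendsto_slope.mp hf
  have hev : ∀ᶠ y in 𝓝[≠] x, 0 < slope f x y := hslope.eventually (lt_mem_nhds hpos)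
  have h1 : ∀ᶠ y in 𝓝[<] x, 0 < slope f x y :=
    hev.filter_mono (nhdsWithin_mono x (fun y hy => ne_of_lt hy))
  have h2 : ∀ᶠ y in 𝓝[<] x, a < y := by
    filter_upwards [Ioo_mem_nhdsLT hax] with y hy using hy.1
  obtain ⟨y, hy1, hy2, hy3⟩ := (h1.and (h2.and self_mem_nhdsWithin)).exists
  have hyx : y < x := hy3
  rw [slope_def_field] at hy1
  have hfy := hmin y hy2.le hyx.le
  have : (f y - f x) / (y - x) ≤ 0 := div_nonpos_of_nonneg_of_nonpos (by linarith) (by linarith)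
  linarith

section

variable {E : Type*} [NormedAddCommGroup E] [InnerProductSpace ℝ E]

/-- derivative along a line at an arbitrary point of the line -/
theorem line_deriv {G Gx : E → ℝ} {p : E} (h : ∀ x, HasDerivAt (fun t : ℝ => G (x + t • p)) (Gx x) 0)
    (x : E) (t : ℝ) : HasDerivAt (fun t : ℝ => G (x + t • p)) (Gx (x + t • p)) t := by
  have h1 := h (x + t • p)
  have h2 : HasDerivAt (fun r : ℝ => r - t) 1 t := (hasDerivAt_id t).sub_const t
  have h3 : HasDerivAt (fun r : ℝ => G ((x + t • p) + (r - t) • p)) (Gx (x + t • p) * 1) t := by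
    have h4 : HasDerivAt (fun r : ℝ => G ((x + t • p) + r • p)) (Gx (x + t • p)) ((fun r : ℝ => r - t) t) := by
      have h0 : (fun r : ℝ => r - t) t = 0 := sub_self t
      rw [h0]; exact h1
    exact HasDerivAt.comp (h := fun r : ℝ => r - t) t h4 h2
  have h5 : (fun r : ℝ => G ((x + t • p) + (r - t) • p)) = fun r : ℝ => G (x + r • p) := by
    funext r
    congr 1
    rw [add_assoc, ← add_smul]
    congr 2
    ring
  rw [h5, mul_one] at h3
  exact h3

/-- derivative of the squared norm along a line -/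
theorem norm_sq_line (x p : E) (t : ℝ) :
    HasDerivAt (fun t : ℝ => ‖x + t • p‖ ^ 2) (2 * inner ℝ (x + t • p) p) t := by
  have h1 : HasDerivAt (fun t : ℝ => x + t • p) p t := by
    have := ((hasDerivAt_id t).smul_const p).const_add x
    simpa using this
  exact h1.norm_sq

theorem inner_line (x p : E) (t : ℝ) :
    HasDerivAt (fun t : ℝ => 2 * inner ℝ (x + t • p) p) (2 * ‖p‖ ^ 2) t := by
  have h1 : (fun t : ℝ => 2 * inner ℝ (x + t • p) p) = fun t : ℝ => 2 * inner ℝ x p + t * (2 * ‖p‖ ^ 2) := by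
    funext r
    rw [inner_add_left, inner_smul_left, real_inner_self_eq_norm_sq]
    simp
    ring
  rw [h1]
  have := ((hasDerivAt_id t).mul_const (2 * ‖p‖ ^ 2)).const_add (2 * inner ℝ x p)
  simpa using this

/-- derivative of `|v + t p|^3` at a unit vector -/
theorem norm_cube_line {v : E} (p : E) (hv : ‖v‖ = 1) :
    HasDerivAt (fun t : ℝ => ‖v + t • p‖ ^ 3) (3 * inner ℝ v p) 0 := by
  have h1 := norm_sq_line v p 0
  have h2 : ‖v + (0:ℝ) • p‖ ^ 2 ≠ 0 := by
    rw [zero_smul, add_zero, hv]; norm_num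
  have h3 := (h1.sqrt h2).fun_pow 3
  have h4 : (fun t : ℝ => ‖v + t • p‖ ^ 3) = fun t : ℝ => (Real.sqrt (‖v + t • p‖ ^ 2)) ^ 3 := by
    funext t
    rw [Real.sqrt_sq (norm_nonneg _)]
  rw [h4]
  have h5 : (3 * inner ℝ v p : ℝ) = ((3 : ℕ) : ℝ) * Real.sqrt (‖v + (0:ℝ) • p‖ ^ 2) ^ (3 - 1) *
      (2 * inner ℝ (v + (0:ℝ) • p) p / (2 * Real.sqrt (‖v + (0:ℝ) • p‖ ^ 2))) := by
    rw [zero_smul, add_zero, hv]
    simp
  rw [h5]
  exact h3

end

section

variable {E : Type*} [NormedAddCommGroup E] [InnerProductSpace ℝ E] [FiniteDimensional ℝ E]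

omit [FiniteDimensional ℝ E] in
/-- the final algebra at the touching point -/
theorem final_alg {ι : Type*} [Fintype ι] (p : ι → E) (x : E) (g gs e ε K K0 A C1 : ℝ) (gx gxx ww : ι → ℝ)
    (hε0 : 0 < ε) (he : 0 < e) (hC1n : 0 ≤ C1)
    (hA : A = ∑ i, (‖p i‖ ^ 2 + 4 * C1 * ‖p i‖)) (hK : K = max K0 0 + A + 1)
    (hg : g < 0) (hval : e * g + ε * (1 + ‖x‖ ^ 2) < 0) (hds : gs - K * g ≤ 0)
    (hx1 : ∀ i, e * gx i + ε * (2 * inner ℝ x (p i)) = 0)
    (hx2 : ∀ i, 0 ≤ e * gxx i + ε * (2 * ‖p i‖ ^ 2))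
    (hw : ∀ i, |ww i| ≤ C1 * (1 + ‖x‖))
    (ht : K0 * g ≤ gs - 1 / 2 * ∑ i, gxx i + ∑ i, ww i * gx i) : False := by
  have hxx : ∀ i, -(2 * ε * ‖p i‖ ^ 2) ≤ e * gxx i := fun i => by
    have := hx2 i
    linarith
  have hwx : ∀ i, e * (ww i * gx i) ≤ 4 * C1 * ‖p i‖ * (ε * (1 + ‖x‖ ^ 2)) := by
    intro i
    have h1 : e * gx i = -(ε * (2 * inner ℝ x (p i))) := by
      have := hx1 i
      linarith
    have h2 : e * (ww i * gx i) = ww i * (-(ε * (2 * inner ℝ x (p i)))) := by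
      rw [← h1]; ring
    rw [h2]
    have h5 : |inner ℝ x (p i)| ≤ ‖x‖ * ‖p i‖ := abs_real_inner_le_norm x (p i)
    have h3 : |ww i * (-(ε * (2 * inner ℝ x (p i))))| ≤ (C1 * (1 + ‖x‖)) * (ε * (2 * (‖x‖ * ‖p i‖))) := by
      rw [abs_mul, abs_neg, abs_mul, abs_of_pos hε0, abs_mul, abs_two]
      have h6 : ε * (2 * |inner ℝ x (p i)|) ≤ ε * (2 * (‖x‖ * ‖p i‖)) := by
        have := mul_le_mul_of_nonneg_left h5 (by positivity : (0:ℝ) ≤ ε * 2)
        linarith
      exact mul_le_mul (hw i) h6 (by positivity) (by positivity)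
    refine (le_abs_self _).trans (h3.trans ?_)
    have h7 : (1 + ‖x‖) * ‖x‖ ≤ 2 * (1 + ‖x‖ ^ 2) := by
      nlinarith [sq_nonneg (‖x‖ - 1), norm_nonneg x]
    have h8 : (C1 * (1 + ‖x‖)) * (ε * (2 * (‖x‖ * ‖p i‖))) = 2 * C1 * ‖p i‖ * ε * ((1 + ‖x‖) * ‖x‖) := by ring
    rw [h8]
    have h9 := mul_le_mul_of_nonneg_left h7 (by positivity : (0:ℝ) ≤ 2 * C1 * ‖p i‖ * ε)
    linarith
  have hsum1 : -(∑ i, 2 * ε * ‖p i‖ ^ 2) ≤ e * ∑ i, gxx i := by
    rw [Finset.mul_sum, ← Finset.sum_neg_distrib]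
    exact Finset.sum_le_sum fun i _ => hxx i
  have hsum2 : e * ∑ i, ww i * gx i ≤ ∑ i, 4 * C1 * ‖p i‖ * (ε * (1 + ‖x‖ ^ 2)) := by
    rw [Finset.mul_sum]
    exact Finset.sum_le_sum fun i _ => hwx i
  have hKG : max K0 0 * g ≤ K0 * g := by
    have h1 : K0 ≤ max K0 0 := le_max_left _ _
    nlinarith
  have h1 := mul_le_mul_of_nonneg_left (hKG.trans ht) he.le
  have h2 : e * (gs - 1 / 2 * ∑ i, gxx i + ∑ i, ww i * gx i) =
      e * gs - 1 / 2 * (e * ∑ i, gxx i) + e * ∑ i, ww i * gx i := by ring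
  have h3 : e * gs ≤ e * (K * g) := mul_le_mul_of_nonneg_left (by linarith) he.le
  have h4 : ∑ i, 2 * ε * ‖p i‖ ^ 2 = 2 * ∑ i, ε * ‖p i‖ ^ 2 := by
    rw [Finset.mul_sum]
    exact Finset.sum_congr rfl fun i _ => by ring
  rw [h4] at hsum1
  have hAsum : ∑ i, ε * ‖p i‖ ^ 2 + ∑ i, 4 * C1 * ‖p i‖ * (ε * (1 + ‖x‖ ^ 2)) ≤ A * (ε * (1 + ‖x‖ ^ 2)) := by
    rw [hA, Finset.sum_mul, ← Finset.sum_add_distrib]
    refine Finset.sum_le_sum fun i _ => ?_
    have h5 : 0 ≤ ‖p i‖ ^ 2 * ε * ‖x‖ ^ 2 := by positivity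
    linarith
  have hA0 : 0 ≤ A := by
    rw [hA]
    exact Finset.sum_nonneg fun i _ => by positivity
  have hfin : e * (max K0 0 * g) - e * (K * g) = (A + 1) * (-(e * g)) := by
    rw [hK]; ring
  have hlast : (A + 1) * (-(e * g)) ≤ A * (ε * (1 + ‖x‖ ^ 2)) := by linarith
  have hY : 0 < ε * (1 + ‖x‖ ^ 2) := by positivity
  have hX : ε * (1 + ‖x‖ ^ 2) < -(e * g) := by linarith
  nlinarith

/-- parabolic maximum principle, touching form, on the sphere -/
theorem touching_mp {ι : Type*} [Fintype ι] (p : ι → E) (Gam Gs : ℝ → E → E → ℝ)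
    (Gx Gxx Gv : ι → ℝ → E → E → ℝ) (w : ι → ℝ → E → ℝ) (S C K0 : ℝ)
    (cont : ContinuousOn (fun q : ℝ × E × E => Gam q.1 q.2.1 q.2.2) {q | 0 ≤ q.1 ∧ q.1 ≤ S})
    (hom : ∀ s, 0 ≤ s → s ≤ S → ∀ x v, ∀ t : ℝ, 0 < t → Gam s x (t • v) = t ^ 3 * Gam s x v)
    (ds : ∀ s, 0 < s → s ≤ S → ∀ x v, ‖v‖ = 1 → HasDerivAt (fun s => Gam s x v) (Gs s x v) s)
    (dx : ∀ i s, 0 < s → s ≤ S → ∀ x v, ‖v‖ = 1 →
      HasDerivAt (fun t : ℝ => Gam s (x + t • p i) v) (Gx i s x v) 0)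
    (dxx : ∀ i s, 0 < s → s ≤ S → ∀ x v, ‖v‖ = 1 →
      HasDerivAt (fun t : ℝ => Gx i s (x + t • p i) v) (Gxx i s x v) 0)
    (dv : ∀ i s, 0 < s → s ≤ S → ∀ x v, ‖v‖ = 1 →
      HasDerivAt (fun t : ℝ => Gam s x (v + t • p i)) (Gv i s x v) 0)
    (touch : ∀ s, 0 < s → s ≤ S → ∀ x v, ‖v‖ = 1 → Gam s x v < 0 →
      (∀ i, Gv i s x v = 3 * Gam s x v * inner ℝ v (p i)) →
      K0 * Gam s x v ≤ Gs s x v - 1 / 2 * ∑ i, Gxx i s x v + ∑ i, w i s x * Gx i s x v)
    (hw : ∀ i s, 0 < s → s ≤ S → ∀ x, |w i s x| ≤ C * (1 + ‖x‖))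
    (low : ∀ s, 0 ≤ s → s ≤ S → ∀ x v, ‖v‖ = 1 → -C ≤ Gam s x v)
    (init : ∀ x v, ‖v‖ = 1 → 0 ≤ Gam 0 x v) :
    ∀ s, 0 ≤ s → s ≤ S → ∀ x v, 0 ≤ Gam s x v := by
  classical
  -- reduction to the unit sphere
  suffices H : ∀ s, 0 ≤ s → s ≤ S → ∀ x v, ‖v‖ = 1 → 0 ≤ Gam s x v by
    intro s hs0 hsS x v
    rcases eq_or_ne v 0 with hv | hv
    · have h2 := hom s hs0 hsS x v 2 (by norm_num)
      rw [hv, smul_zero] at h2
      rw [hv]
      linarith
    · have hn : 0 < ‖v‖ := norm_pos_iff.mpr hv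
      have h1 := H s hs0 hsS x ((‖v‖)⁻¹ • v) (by
        rw [norm_smul, norm_inv, norm_norm, inv_mul_cancel₀ hn.ne'])
      have h2 := hom s hs0 hsS x ((‖v‖)⁻¹ • v) ‖v‖ hn
      rw [smul_smul, mul_inv_cancel₀ hn.ne', one_smul] at h2
      rw [h2]
      positivity
  intro s1 hs10 hs1S x1 v1 hv1
  by_contra hneg
  push Not at hneg
  -- constants
  set C1 : ℝ := |C| with hC1
  have hC1n : 0 ≤ C1 := abs_nonneg C
  set A : ℝ := ∑ i, (‖p i‖ ^ 2 + 4 * C1 * ‖p i‖) with hA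
  have hA0 : 0 ≤ A := Finset.sum_nonneg fun i _ => by positivity
  set K : ℝ := max K0 0 + A + 1 with hK
  have hK0 : 0 ≤ K := add_nonneg (add_nonneg (le_max_right _ _) hA0) zero_le_one
  have hS0 : 0 ≤ S := hs10.trans hs1S
  have hg1 : 0 < 1 + ‖x1‖ ^ 2 := by positivity
  set ε : ℝ := (-(Real.exp (-K * s1) * Gam s1 x1 v1)) / (2 * (1 + ‖x1‖ ^ 2)) with hε
  have hnum : 0 < -(Real.exp (-K * s1) * Gam s1 x1 v1) := by
    have := mul_neg_of_pos_of_neg (Real.exp_pos (-K * s1)) hneg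
    linarith
  have hε0 : 0 < ε := div_pos hnum (by positivity)
  set R : ℝ := max ‖x1‖ ((C1 + 1) / ε + 1) with hR
  have hR1 : ‖x1‖ ≤ R := le_max_left _ _
  have hR2 : (C1 + 1) / ε + 1 ≤ R := le_max_right _ _
  have hRε : C1 + 1 ≤ ε * (1 + R ^ 2) := by
    have h1 : (C1 + 1) / ε ≤ R := by linarith
    have h0 : 0 ≤ (C1 + 1) / ε := by positivity
    have h2 : 1 ≤ R := by linarith
    have h3 : R ≤ 1 + R ^ 2 := by nlinarith
    have h4 : (C1 + 1) / ε ≤ 1 + R ^ 2 := h1.trans h3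
    have h5 := mul_le_mul_of_nonneg_left h4 hε0.le
    have h6 : ε * ((C1 + 1) / ε) = C1 + 1 := by field_simp
    linarith
  set Φ : ℝ × E × E → ℝ := fun q => Real.exp (-K * q.1) * Gam q.1 q.2.1 q.2.2 + ε * (1 + ‖q.2.1‖ ^ 2) with hΦ
  set D : Set (ℝ × E × E) := Set.Icc 0 S ×ˢ (Metric.closedBall (0 : E) R ×ˢ Metric.sphere (0 : E) 1) with hD
  have hDc : IsCompact D := isCompact_Icc.prod ((isCompact_closedBall _ _).prod (isCompact_sphere _ _))
  have hΦc : ContinuousOn Φ D := by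
    have h1 : ContinuousOn (fun q : ℝ × E × E => Gam q.1 q.2.1 q.2.2) D :=
      cont.mono fun q hq => ⟨hq.1.1, hq.1.2⟩
    have h2 : Continuous fun q : ℝ × E × E => Real.exp (-K * q.1) := by fun_prop
    have h3 : Continuous fun q : ℝ × E × E => ε * (1 + ‖q.2.1‖ ^ 2) := by fun_prop
    exact (h2.continuousOn.mul h1).add h3.continuousOn
  have hq1 : ((s1, x1, v1) : ℝ × E × E) ∈ D := by
    refine ⟨⟨hs10, hs1S⟩, ?_, ?_⟩
    · simpa using hR1
    · simpa using hv1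
  obtain ⟨⟨s, x, v⟩, hq, hmin⟩ := hDc.exists_isMinOn ⟨_, hq1⟩ hΦc
  obtain ⟨hs, hx, hv⟩ := hq
  simp only at hs hx hv
  have hs0 : 0 ≤ s := hs.1
  have hsS : s ≤ S := hs.2
  have hxR : ‖x‖ ≤ R := by simpa using hx
  have hv' : ‖v‖ = 1 := by simpa using hv
  -- the value is negative
  have hval1 : Φ (s1, x1, v1) < 0 := by
    simp only [hΦ]
    have h1 : ε * (1 + ‖x1‖ ^ 2) = -(Real.exp (-K * s1) * Gam s1 x1 v1) / 2 := by
      rw [hε]; field_simp
    rw [h1]; linarith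
  have hval : Φ (s, x, v) < 0 := lt_of_le_of_lt (hmin hq1) hval1
  have hval2 : Real.exp (-K * s) * Gam s x v + ε * (1 + ‖x‖ ^ 2) < 0 := hval
  have hexp : 0 < Real.exp (-K * s) := Real.exp_pos _
  have hGneg : Gam s x v < 0 := by
    by_contra hc
    push Not at hc
    have h1 := mul_nonneg hexp.le hc
    have h2 : 0 < ε * (1 + ‖x‖ ^ 2) := by positivity
    linarith
  -- `s > 0`
  have hspos : 0 < s := by
    rcases hs0.lt_or_eq with h | h
    · exact h
    · exfalso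
      rw [← h] at hGneg
      exact absurd (init x v hv') (not_le.mpr hGneg)
  -- `|x| < R`
  have hexp1 : Real.exp (-K * s) ≤ 1 := by
    rw [Real.exp_le_one_iff]
    nlinarith
  have hxlt : ‖x‖ < R := by
    rcases hxR.lt_or_eq with h | h
    · exact h
    · exfalso
      rw [h] at hval2
      have h1 := low s hs0 hsS x v hv'
      have h2 : -C1 ≤ Gam s x v := by
        have := le_abs_self C
        linarith
      have h3 : -C1 ≤ Real.exp (-K * s) * Gam s x v := by nlinarith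
      linarith
  -- `s` direction
  have hds : Gs s x v - K * Gam s x v ≤ 0 := by
    have h1 : HasDerivAt (fun r : ℝ => Real.exp (-K * r) * Gam r x v + ε * (1 + ‖x‖ ^ 2))
        (Real.exp (-K * s) * (-K) * Gam s x v + Real.exp (-K * s) * Gs s x v) s := by
      have h2 : HasDerivAt (fun r : ℝ => Real.exp (-K * r)) (Real.exp (-K * s) * (-K)) s := by
        have h3 : HasDerivAt (fun r : ℝ => -K * r) (-K) s := by
          simpa using (hasDerivAt_id s).const_mul (-K)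
        exact h3.exp
      exact (h2.mul (ds s hspos hsS x v hv')).add_const _
    have h4 := deriv_nonpos_of_left hspos h1 (fun y hy0 hys => by
      have hy : ((y, x, v) : ℝ × E × E) ∈ D := ⟨⟨hy0, hys.trans hsS⟩, hx, hv⟩
      exact hmin hy)
    have h5 : Real.exp (-K * s) * (Gs s x v - K * Gam s x v) ≤ 0 := by linarith
    by_contra hc
    push Not at hc
    have := mul_pos hexp hc
    linarith
  -- `x` directions
  have hxi : ∀ i, Real.exp (-K * s) * Gx i s x v + ε * (2 * inner ℝ x (p i)) = 0 ∧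
      0 ≤ Real.exp (-K * s) * Gxx i s x v + ε * (2 * ‖p i‖ ^ 2) := by
    intro i
    have hf : ∀ t : ℝ, HasDerivAt
        (fun t : ℝ => Real.exp (-K * s) * Gam s (x + t • p i) v + ε * (1 + ‖x + t • p i‖ ^ 2))
        (Real.exp (-K * s) * Gx i s (x + t • p i) v + ε * (2 * inner ℝ (x + t • p i) (p i))) t := by
      intro t
      have h1 := line_deriv (G := fun z => Gam s z v) (Gx := fun z => Gx i s z v)
        (fun z => dx i s hspos hsS z v hv') x t
      have h2 := (norm_sq_line x (p i) t).const_add 1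
      exact (h1.const_mul _).add (h2.const_mul ε)
    have hf' : HasDerivAt
        (fun t : ℝ => Real.exp (-K * s) * Gx i s (x + t • p i) v + ε * (2 * inner ℝ (x + t • p i) (p i)))
        (Real.exp (-K * s) * Gxx i s x v + ε * (2 * ‖p i‖ ^ 2)) 0 :=
      ((dxx i s hspos hsS x v hv').const_mul _).add ((inner_line x (p i) 0).const_mul ε)
    have hloc : IsLocalMin
        (fun t : ℝ => Real.exp (-K * s) * Gam s (x + t • p i) v + ε * (1 + ‖x + t • p i‖ ^ 2)) 0 := by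
      have hc : Continuous fun t : ℝ => ‖x + t • p i‖ := by fun_prop
      have hev : ∀ᶠ t : ℝ in 𝓝 0, ‖x + t • p i‖ < R := by
        have h0 : ‖x + (0:ℝ) • p i‖ < R := by simpa using hxlt
        exact hc.continuousAt.eventually (gt_mem_nhds h0)
      filter_upwards [hev] with t ht
      have hy : ((s, x + t • p i, v) : ℝ × E × E) ∈ D := by
        refine ⟨hs, ?_, hv⟩
        simpa using ht.le
      have := hmin hy
      simp only [zero_smul, add_zero]
      exact this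
    refine ⟨?_, second_deriv_nonneg hf hf' hloc⟩
    have h0 := hloc.hasDerivAt_eq_zero (hf 0)
    simpa using h0
  -- `v` directions
  have hsph : ∀ u : E, ‖u‖ = 1 → Gam s x v ≤ Gam s x u := by
    intro u hu
    have hy : ((s, x, u) : ℝ × E × E) ∈ D := ⟨hs, hx, by simpa using hu⟩
    have h1 : Φ (s, x, v) ≤ Φ (s, x, u) := hmin hy
    simp only [hΦ] at h1
    have h2 : Real.exp (-K * s) * Gam s x v ≤ Real.exp (-K * s) * Gam s x u := by linarith
    exact le_of_mul_le_mul_left h2 hexp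
  have hvi : ∀ i, Gv i s x v = 3 * Gam s x v * inner ℝ v (p i) := by
    intro i
    have h1 : HasDerivAt (fun t : ℝ => Gam s x (v + t • p i) - Gam s x v * ‖v + t • p i‖ ^ 3)
        (Gv i s x v - Gam s x v * (3 * inner ℝ v (p i))) 0 :=
      (dv i s hspos hsS x v hv').sub ((norm_cube_line (p i) hv').const_mul _)
    have hloc : IsLocalMin (fun t : ℝ => Gam s x (v + t • p i) - Gam s x v * ‖v + t • p i‖ ^ 3) 0 := by
      have hc : Continuous fun t : ℝ => ‖v + t • p i‖ := by fun_prop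
      have hev : ∀ᶠ t : ℝ in 𝓝 0, 0 < ‖v + t • p i‖ := by
        have h0 : 0 < ‖v + (0:ℝ) • p i‖ := by simp [hv']
        exact hc.continuousAt.eventually (lt_mem_nhds h0)
      filter_upwards [hev] with t ht
      simp only [zero_smul, add_zero, hv', one_pow, mul_one, sub_self]
      set u := v + t • p i with hu
      have h2 := hsph ((‖u‖)⁻¹ • u) (by
        rw [norm_smul, norm_inv, norm_norm, inv_mul_cancel₀ ht.ne'])
      have h3 := hom s hs0 hsS x ((‖u‖)⁻¹ • u) ‖u‖ ht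
      rw [smul_smul, mul_inv_cancel₀ ht.ne', one_smul] at h3
      rw [h3]
      have h4 : 0 < ‖u‖ ^ 3 := by positivity
      nlinarith
    have h0 := hloc.hasDerivAt_eq_zero h1
    linarith
  -- conclusion
  refine final_alg p x (Gam s x v) (Gs s x v) (Real.exp (-K * s)) ε K K0 A C1 (fun i => Gx i s x v)
    (fun i => Gxx i s x v) (fun i => w i s x) hε0 hexp hC1n hA hK hGneg hval2 hds (fun i => (hxi i).1)
    (fun i => (hxi i).2) (fun i => ?_) (touch s hspos hsS x v hv' hGneg hvi)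
  exact (hw i s hspos hsS x).trans (mul_le_mul_of_nonneg_right (le_abs_self C) (by positivity))

end

end Vale.Agent.P227.M.SC2.MPT950
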