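import Vale.Agent.P227.M.Defs

/-! # P227/M, block SC-2: parabolic minimum principle in touching form (for helper233's flow). -/

set_option linter.all false

open Filter Topology

namespace Vale.Agent.P227.M.SC2.MPT985

open Vale.Agent.P227.M

/-- at a minimum point over `(0, s]` the derivative is `≤ 0` -/
theorem deriv_le_of_left_min {f : ℝ → ℝ} {f' s : ℝ} (hs : 0 < s) (hf : HasDerivAt f f' s)
    (hmin : ∀ t, 0 < t → t ≤ s → f s ≤ f t) : f' ≤ 0 := by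
  have h1 : HasDerivWithinAt f f' (Set.Iio s) s := hf.hasDerivWithinAt
  have h2 := (hasDerivWithinAt_iff_tendsto_slope' (Set.self_notMem_Iio)).1 h1
  refine le_of_tendsto h2 ?_
  have h3 : Set.Ioo 0 s ∈ 𝓝[<] s := Ioo_mem_nhdsLT hs
  filter_upwards [h3] with t ht
  rw [slope_def_field]
  have h4 := hmin t ht.1 ht.2.le
  exact div_nonpos_of_nonneg_of_nonpos (by linarith) (by linarith [ht.2])

/-- second derivative test: at a global minimum the second derivative is `≥ 0` -/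
theorem second_deriv_nonneg {f g : ℝ → ℝ} {b : ℝ} (hf : ∀ t, HasDerivAt f (g t) t) (hg : HasDerivAt g b 0)
    (hmin : ∀ᶠ t in 𝓝 (0 : ℝ), f 0 ≤ f t) : g 0 = 0 ∧ 0 ≤ b := by
  have hl : IsLocalMin f 0 := hmin
  have h0 : g 0 = 0 := hl.hasDerivAt_eq_zero (hf 0)
  refine ⟨h0, ?_⟩
  by_contra hb
  push Not at hb
  -- `g t < 0` for small `t > 0`
  have h1 := (hasDerivAt_iff_tendsto_slope.1 hg).mono_left (nhdsWithin_mono (0 : ℝ) (fun t (ht : t ∈ Set.Ioi (0:ℝ)) => (ne_of_gt ht : t ≠ 0)))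
  have h2 : ∀ᶠ t in 𝓝[>] (0 : ℝ), slope g 0 t < 0 := h1.eventually_lt_const hb
  have h3 : ∀ᶠ t in 𝓝[>] (0 : ℝ), g t < 0 := by
    filter_upwards [h2, self_mem_nhdsWithin] with t ht htp
    rw [slope_def_field, h0, sub_zero, sub_zero] at ht
    have htp' : (0 : ℝ) < t := htp
    by_contra hc
    push Not at hc
    exact absurd (div_nonneg hc htp'.le) (not_le.2 ht)
  obtain ⟨δ, hδ, hδ2⟩ := mem_nhdsGT_iff_exists_Ioo_subset.1 h3
  have hm : ∀ᶠ t in 𝓝[>] (0 : ℝ), f 0 ≤ f t := hmin.filter_mono nhdsWithin_le_nhds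
  have h4 : Set.Ioo (0 : ℝ) δ ∈ 𝓝[>] (0 : ℝ) := Ioo_mem_nhdsGT hδ
  obtain ⟨t, ht1, ht2⟩ := (hm.and h4).exists
  have h5 : StrictAntiOn f (Set.Icc 0 t) := by
    refine strictAntiOn_of_deriv_neg (convex_Icc 0 t)
      (fun u _ => (hf u).continuousAt.continuousWithinAt) (fun u hu => ?_)
    rw [interior_Icc] at hu
    rw [(hf u).deriv]
    exact hδ2 ⟨hu.1, hu.2.trans ht2.2⟩
  have h6 := h5 (Set.left_mem_Icc.2 ht2.1.le) (Set.right_mem_Icc.2 ht2.1.le) ht2.1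
  linarith

variable {n : ℕ}

theorem hasDerivAt_normSq (x p : E n) (t : ℝ) :
    HasDerivAt (fun t : ℝ => ‖x + t • p‖ ^ 2) (2 * inner ℝ (x + t • p) p) t := by
  have h1 : HasDerivAt (fun t : ℝ => x + t • p) p t := by
    simpa using ((hasDerivAt_id t).smul_const p).const_add x
  have := h1.norm_sq
  simpa using this

/-- existence of a negative minimum point of the penalised function -/
theorem exists_min (Gam : ℝ → E n → E n → ℝ) (S C K ε : ℝ) (hεp : 0 < ε) (hC : 0 ≤ C) (hK : 0 < K)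
    (cont : ContinuousOn (fun q : ℝ × E n × E n => Gam q.1 q.2.1 q.2.2) {q | 0 ≤ q.1 ∧ q.1 ≤ S})
    (hlow : ∀ s x v, 0 ≤ s → s ≤ S → ‖v‖ = 1 → -C ≤ Gam s x v)
    (hini : ∀ x v, 0 ≤ Gam 0 x v) (s0 : ℝ) (x0 v0 : E n) (hs0 : 0 ≤ s0) (hs0S : s0 ≤ S) (hv0 : ‖v0‖ = 1)
    (hneg : Real.exp (-K * s0) * Gam s0 x0 v0 + ε * (1 + ‖x0‖ ^ 2) < 0) :
    ∃ (s1 : ℝ) (x1 v1 : E n), 0 < s1 ∧ s1 ≤ S ∧ ‖v1‖ = 1 ∧
      Real.exp (-K * s1) * Gam s1 x1 v1 + ε * (1 + ‖x1‖ ^ 2) < 0 ∧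
      ∀ s x v, 0 ≤ s → s ≤ S → ‖v‖ = 1 →
        Real.exp (-K * s1) * Gam s1 x1 v1 + ε * (1 + ‖x1‖ ^ 2) ≤ Real.exp (-K * s) * Gam s x v + ε * (1 + ‖x‖ ^ 2) := by
  obtain ⟨Φ, hΦ⟩ : ∃ Φ : ℝ × E n × E n → ℝ, Φ = fun q => Real.exp (-K * q.1) * Gam q.1 q.2.1 q.2.2 + ε * (1 + ‖q.2.1‖ ^ 2) := ⟨_, rfl⟩
  have hΦv : ∀ s x v, Φ (s, x, v) = Real.exp (-K * s) * Gam s x v + ε * (1 + ‖x‖ ^ 2) := by
    intro s x v; rw [hΦ]
  obtain ⟨R, hR⟩ : ∃ R : ℝ, R = ‖x0‖ + C / ε + 1 := ⟨_, rfl⟩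
  have hCε : 0 ≤ C / ε := by positivity
  have hRp : 0 < R := by rw [hR]; positivity
  obtain ⟨Q, hQ⟩ : ∃ Q : Set (ℝ × E n × E n), Q = Set.Icc 0 S ×ˢ (Metric.closedBall 0 R ×ˢ Metric.sphere 0 1) := ⟨_, rfl⟩
  have hQm : ∀ s x v, (s, x, v) ∈ Q ↔ (0 ≤ s ∧ s ≤ S) ∧ ‖x‖ ≤ R ∧ ‖v‖ = 1 := by
    intro s x v
    rw [hQ, Set.mem_prod, Set.mem_prod, Set.mem_Icc, mem_closedBall_zero_iff, mem_sphere_zero_iff_norm]
  have hQc : IsCompact Q := by
    rw [hQ]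
    exact isCompact_Icc.prod ((isCompact_closedBall 0 R).prod (isCompact_sphere 0 1))
  have hmem0 : (s0, x0, v0) ∈ Q := by
    rw [hQm]
    refine ⟨⟨hs0, hs0S⟩, ?_, hv0⟩
    rw [hR]; linarith
  have hΦc : ContinuousOn Φ Q := by
    rw [hΦ]
    refine ContinuousOn.add (ContinuousOn.mul ?_ (cont.mono ?_)) ?_
    · exact (by fun_prop : Continuous fun q : ℝ × E n × E n => Real.exp (-K * q.1)).continuousOn
    · rintro ⟨s, x, v⟩ hq
      exact ((hQm s x v).1 hq).1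
    · exact (by fun_prop : Continuous fun q : ℝ × E n × E n => ε * (1 + ‖q.2.1‖ ^ 2)).continuousOn
  obtain ⟨⟨s1, x1, v1⟩, hq1, hmin⟩ := hQc.exists_isMinOn ⟨_, hmem0⟩ hΦc
  have hmin2 : ∀ q ∈ Q, Φ (s1, x1, v1) ≤ Φ q := fun q hq => hmin hq
  have hΦ1 : Φ (s1, x1, v1) < 0 := lt_of_le_of_lt (hmin2 _ hmem0) (by rw [hΦv]; exact hneg)
  obtain ⟨hs1, hx1R, hv1⟩ := (hQm s1 x1 v1).1 hq1
  have hout : ∀ s x v, 0 ≤ s → s ≤ S → ‖v‖ = 1 → R ≤ ‖x‖ → 0 < Φ (s, x, v) := by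
    intro s x v h0 h1 h2 h3
    have h4 := hlow s x v h0 h1 h2
    have h5 : Real.exp (-K * s) ≤ 1 := by
      rw [Real.exp_le_one_iff]; nlinarith
    have h7 := Real.exp_pos (-K * s)
    have h6 : -C ≤ Real.exp (-K * s) * Gam s x v := by
      rcases le_total 0 (Gam s x v) with h | h
      · have := mul_nonneg h7.le h
        linarith
      · nlinarith
    have h8 : C < ε * (1 + ‖x‖ ^ 2) := by
      have h9 : C / ε < ‖x‖ := by
        have : C / ε + 1 ≤ R := by rw [hR]; linarith [norm_nonneg x0]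
        linarith
      have h11 : ‖x‖ ≤ 1 + ‖x‖ ^ 2 := by nlinarith [sq_nonneg (‖x‖ - 1)]
      have h12 : C < ‖x‖ * ε := by rwa [div_lt_iff₀ hεp] at h9
      nlinarith
    rw [hΦv]
    linarith
  refine ⟨s1, x1, v1, ?_, hs1.2, hv1, by rw [← hΦv]; exact hΦ1, ?_⟩
  · rcases eq_or_lt_of_le hs1.1 with h | h
    · exfalso
      rw [hΦv, ← h] at hΦ1
      have h3 : 0 ≤ Real.exp (-K * 0) * Gam 0 x1 v1 := mul_nonneg (Real.exp_pos _).le (hini x1 v1)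
      have h4 : 0 < ε * (1 + ‖x1‖ ^ 2) := by positivity
      linarith
    · exact h
  · intro s x v h0 h1 h2
    rw [← hΦv, ← hΦv]
    rcases le_total ‖x‖ R with h | h
    · exact hmin2 _ ((hQm s x v).2 ⟨⟨h0, h1⟩, h, h2⟩)
    · exact (hΦ1.trans (hout s x v h0 h1 h2 h)).le

/-- first order condition in `v` on the sphere, for a `3`-homogeneous function -/
theorem grad_v (G : E n → ℝ) (hom : ∀ v t, 0 < t → G (t • v) = t ^ 3 * G v) (v1 p : E n) (g : ℝ)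
    (hv1 : ‖v1‖ = 1) (hmin : ∀ v, ‖v‖ = 1 → G v1 ≤ G v)
    (hg : HasDerivAt (fun t : ℝ => G (v1 + t • p)) g 0) : g = 3 * G v1 * inner ℝ v1 p := by
  have hv1ne : v1 ≠ 0 := by
    intro h; rw [h, norm_zero] at hv1; exact absurd hv1 (by norm_num)
  have hsph : ∀ v, v ≠ 0 → ‖v‖ ^ 3 * G v1 ≤ G v := by
    intro v hvne
    have hn : 0 < ‖v‖ := norm_pos_iff.2 hvne
    have h2 := hom (‖v‖⁻¹ • v) ‖v‖ hn
    rw [smul_smul, mul_inv_cancel₀ hn.ne', one_smul] at h2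
    rw [h2]
    exact mul_le_mul_of_nonneg_left (hmin _ (by rw [norm_smul, norm_inv, norm_norm, inv_mul_cancel₀ hn.ne'])) (by positivity)
  have h2 : HasDerivAt (fun t : ℝ => ‖v1 + t • p‖ ^ 3) (3 * inner ℝ v1 p) 0 := by
    have h3 := hasDerivAt_normSq v1 p 0
    have h4 : HasDerivAt (fun t : ℝ => (‖v1 + t • p‖ ^ 2) ^ ((3 : ℝ) / 2))
        ((2 * inner ℝ (v1 + (0 : ℝ) • p) p) * ((3 : ℝ) / 2) * (‖v1 + (0 : ℝ) • p‖ ^ 2) ^ ((3 : ℝ) / 2 - 1)) 0 :=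
      h3.rpow_const (Or.inr (by norm_num))
    have h5 : (fun t : ℝ => (‖v1 + t • p‖ ^ 2) ^ ((3 : ℝ) / 2)) = fun t : ℝ => ‖v1 + t • p‖ ^ 3 := by
      funext t
      rw [← Real.rpow_natCast ‖v1 + t • p‖ 2, ← Real.rpow_mul (norm_nonneg _)]
      norm_num
    rw [h5] at h4
    refine h4.congr_deriv ?_
    simp only [zero_smul, add_zero, hv1]
    norm_num <;> ring
  have h6 : HasDerivAt (fun t : ℝ => G (v1 + t • p) - ‖v1 + t • p‖ ^ 3 * G v1)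
      (g - 3 * inner ℝ v1 p * G v1) 0 := hg.sub (h2.mul_const _)
  have h7 : IsLocalMin (fun t : ℝ => G (v1 + t • p) - ‖v1 + t • p‖ ^ 3 * G v1) 0 := by
    have h8 : ∀ᶠ t in 𝓝 (0 : ℝ), v1 + t • p ≠ 0 := by
      have hc : ContinuousAt (fun t : ℝ => v1 + t • p) 0 := by fun_prop
      exact hc.eventually_ne (by simpa using hv1ne)
    filter_upwards [h8] with t ht
    have h9 := hsph _ ht
    simp only [zero_smul, add_zero, hv1, one_pow, one_mul, sub_self]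
    linarith
  have h10 := h7.hasDerivAt_eq_zero h6
  linarith

/-- conditions in `x` -/
theorem cond_x (G : E n → ℝ) (Gx : E n → ℝ) (x1 p : E n) (gxx e ε : ℝ)
    (hx : ∀ x, HasDerivAt (fun t : ℝ => G (x + t • p)) (Gx x) 0)
    (hxx : HasDerivAt (fun t : ℝ => Gx (x1 + t • p)) gxx 0)
    (hmin : ∀ x, e * G x1 + ε * (1 + ‖x1‖ ^ 2) ≤ e * G x + ε * (1 + ‖x‖ ^ 2)) :
    e * Gx x1 + 2 * ε * inner ℝ x1 p = 0 ∧ 0 ≤ e * gxx + 2 * ε * ‖p‖ ^ 2 := by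
  have hf : ∀ t, HasDerivAt (fun t : ℝ => e * G (x1 + t • p) + ε * (1 + ‖x1 + t • p‖ ^ 2))
      (e * Gx (x1 + t • p) + ε * (2 * inner ℝ (x1 + t • p) p)) t := by
    intro t
    have h1 := hx (x1 + t • p)
    have h2 : HasDerivAt (fun r : ℝ => G (x1 + r • p)) (Gx (x1 + t • p)) t := by
      have h4 : HasDerivAt (fun r : ℝ => G (x1 + t • p + r • p)) (Gx (x1 + t • p)) (t - t) := by
        simpa using h1
      have h5 := HasDerivAt.comp_sub_const t t h4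
      refine h5.congr_of_eventuallyEq (Filter.Eventually.of_forall fun r => ?_)
      simp only
      congr 1
      rw [sub_smul]; abel
    exact (h2.const_mul e).add (((hasDerivAt_normSq x1 p t).const_add 1).const_mul ε)
  have hg : HasDerivAt (fun t : ℝ => e * Gx (x1 + t • p) + ε * (2 * inner ℝ (x1 + t • p) p))
      (e * gxx + ε * (2 * ‖p‖ ^ 2)) 0 := by
    have h2 : HasDerivAt (fun t : ℝ => (inner ℝ (x1 + t • p) p : ℝ)) (‖p‖ ^ 2) 0 := by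
      have h3 : (fun t : ℝ => (inner ℝ (x1 + t • p) p : ℝ)) =
          fun t : ℝ => inner ℝ x1 p + t * ‖p‖ ^ 2 := by
        funext t
        rw [inner_add_left, real_inner_smul_left, real_inner_self_eq_norm_sq]
      rw [h3]
      simpa using ((hasDerivAt_id (0 : ℝ)).mul_const (‖p‖ ^ 2)).const_add (inner ℝ x1 p : ℝ)
    exact (hxx.const_mul e).add ((h2.const_mul 2).const_mul ε)
  have hm : ∀ᶠ t in 𝓝 (0 : ℝ), (fun t : ℝ => e * G (x1 + t • p) + ε * (1 + ‖x1 + t • p‖ ^ 2)) 0 ≤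
      (fun t : ℝ => e * G (x1 + t • p) + ε * (1 + ‖x1 + t • p‖ ^ 2)) t := by
    refine Filter.Eventually.of_forall fun t => ?_
    have := hmin (x1 + t • p)
    simpa using this
  obtain ⟨a1, a2⟩ := second_deriv_nonneg hf hg hm
  constructor
  · have a3 : e * Gx (x1 + (0:ℝ) • p) + ε * (2 * inner ℝ (x1 + (0:ℝ) • p) p) = 0 := a1
    rw [zero_smul, add_zero] at a3
    linarith
  · linarith

theorem final_ineq {ι : Type*} [Fintype ι] (e ε C K0 K Λ P1 P2 G gs X : ℝ) (gx gxx w a q : ι → ℝ)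
    (hep : 0 < e) (hεp : 0 < ε) (hC : 0 ≤ C) (hX : 0 ≤ X) (hq : ∀ i, 0 ≤ q i)
    (hP1 : P1 = ∑ i, q i ^ 2) (hP2 : P2 = ∑ i, q i) (hΛ : Λ = P1 + 4 * C * P2) (hK : K = |K0| + Λ + 1)
    (hG : G < 0) (hval : e * G + ε * (1 + X ^ 2) < 0)
    (htouch : K0 * G ≤ gs - 1 / 2 * ∑ i, gxx i + ∑ i, w i * gx i)
    (hgs : gs ≤ K * G) (h1 : ∀ i, e * gx i + 2 * ε * a i = 0) (h2 : ∀ i, 0 ≤ e * gxx i + 2 * ε * q i ^ 2)
    (ha : ∀ i, |a i| ≤ X * q i) (hw : ∀ i, |w i| ≤ C * (1 + X)) : False := by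
  have hP1n : 0 ≤ P1 := by rw [hP1]; exact Finset.sum_nonneg fun i _ => by positivity
  have hP2n : 0 ≤ P2 := by rw [hP2]; exact Finset.sum_nonneg fun i _ => hq i
  have hΛn : 0 ≤ Λ := by rw [hΛ]; positivity
  have hsum1 : -(∑ i, gxx i) * e ≤ 2 * ε * P1 := by
    have h3 : ∑ i, (-(gxx i) * e) ≤ ∑ i, 2 * ε * q i ^ 2 :=
      Finset.sum_le_sum fun i _ => by linarith [h2 i]
    rw [← Finset.sum_mul, Finset.sum_neg_distrib, ← Finset.mul_sum, ← hP1] at h3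
    exact h3
  have hsum2 : (∑ i, w i * gx i) * e ≤ 2 * ε * (C * (1 + X) * X * P2) := by
    rw [Finset.sum_mul, hP2, Finset.mul_sum, Finset.mul_sum]
    refine Finset.sum_le_sum fun i _ => ?_
    have h4 : w i * gx i * e = w i * (-(2 * ε * a i)) := by
      have h5 : e * gx i = -(2 * ε * a i) := by linarith [h1 i]
      rw [← h5]; ring
    rw [h4]
    calc w i * (-(2 * ε * a i)) ≤ |w i * (-(2 * ε * a i))| := le_abs_self _
      _ = 2 * ε * (|w i| * |a i|) := by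
          rw [abs_mul, abs_neg, abs_mul, abs_of_pos (by positivity : 0 < 2 * ε)]; ring
      _ ≤ 2 * ε * ((C * (1 + X)) * (X * q i)) := by
          refine mul_le_mul_of_nonneg_left ?_ (by positivity)
          exact mul_le_mul (hw i) (ha i) (abs_nonneg _) (by positivity)
      _ = _ := by ring
  have h3 : 2 * ε * (C * (1 + X) * X * P2) ≤ 4 * C * P2 * (ε * (1 + X ^ 2)) := by
    have h4 : (1 + X) * X ≤ 2 * (1 + X ^ 2) := by nlinarith [sq_nonneg (X - 1)]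
    have h5 : 0 ≤ 2 * ε * C * P2 := by positivity
    calc 2 * ε * (C * (1 + X) * X * P2) = (2 * ε * C * P2) * ((1 + X) * X) := by ring
      _ ≤ (2 * ε * C * P2) * (2 * (1 + X ^ 2)) := mul_le_mul_of_nonneg_left h4 h5
      _ = _ := by ring
  have h6 : ε * P1 ≤ P1 * (ε * (1 + X ^ 2)) := by
    have : 0 ≤ P1 * ε * X ^ 2 := by positivity
    linarith [this, mul_comm ε P1, (by ring : P1 * (ε * (1 + X ^ 2)) = P1 * ε + P1 * ε * X ^ 2)]
  have h7 : e * (K0 * G) ≤ e * (K * G) + Λ * (ε * (1 + X ^ 2)) := by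
    have a1 := mul_le_mul_of_nonneg_left htouch hep.le
    have a2 := mul_le_mul_of_nonneg_left hgs hep.le
    have a3 : e * (gs - 1 / 2 * ∑ i, gxx i + ∑ i, w i * gx i) =
        e * gs + 1 / 2 * (-(∑ i, gxx i) * e) + (∑ i, w i * gx i) * e := by ring
    have a4 : Λ * (ε * (1 + X ^ 2)) = P1 * (ε * (1 + X ^ 2)) + 4 * C * P2 * (ε * (1 + X ^ 2)) := by
      rw [hΛ]; ring
    rw [a3] at a1
    rw [a4]
    linarith
  have h8 : Λ * (ε * (1 + X ^ 2)) ≤ Λ * (-(e * G)) := mul_le_mul_of_nonneg_left (by linarith) hΛn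
  have h9 : e * G * (K0 - K + Λ) ≤ 0 := by linarith [(by ring : e * G * (K0 - K + Λ) = e * (K0 * G) - e * (K * G) - Λ * (-(e * G)))]
  have h10 : K0 - K + Λ ≤ -1 := by rw [hK]; linarith [le_abs_self K0]
  have h11 : e * G < 0 := mul_neg_of_pos_of_neg hep hG
  have h12 : 0 < e * G * (K0 - K + Λ) := mul_pos_of_neg_of_neg h11 (by linarith)
  linarith

/-- parabolic minimum principle, touching form -/
theorem mpt (p : Fin n → E n) (Gam Gs : ℝ → E n → E n → ℝ) (Gx Gxx Gv : Fin n → ℝ → E n → E n → ℝ)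
    (w : Fin n → ℝ → E n → ℝ) (S C K0 : ℝ)
    (cont : ContinuousOn (fun q : ℝ × E n × E n => Gam q.1 q.2.1 q.2.2) {q | 0 ≤ q.1 ∧ q.1 ≤ S})
    (hom : ∀ s x v t, 0 < t → Gam s x (t • v) = t ^ 3 * Gam s x v)
    (hs : ∀ s x v, 0 < s → s ≤ S → HasDerivAt (fun s => Gam s x v) (Gs s x v) s)
    (hx : ∀ i s x v, 0 < s → s ≤ S → HasDerivAt (fun t : ℝ => Gam s (x + t • p i) v) (Gx i s x v) 0)
    (hxx : ∀ i s x v, 0 < s → s ≤ S → HasDerivAt (fun t : ℝ => Gx i s (x + t • p i) v) (Gxx i s x v) 0)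
    (hv : ∀ i s x v, 0 < s → s ≤ S → v ≠ 0 → HasDerivAt (fun t : ℝ => Gam s x (v + t • p i)) (Gv i s x v) 0)
    (touch : ∀ s x v, 0 < s → s ≤ S → ‖v‖ = 1 → Gam s x v < 0 →
      (∀ i, Gv i s x v = 3 * Gam s x v * inner ℝ v (p i)) →
      K0 * Gam s x v ≤ Gs s x v - 1 / 2 * ∑ i, Gxx i s x v + ∑ i, w i s x * Gx i s x v)
    (hw : ∀ i s x, 0 < s → s ≤ S → |w i s x| ≤ C * (1 + ‖x‖))
    (hlow : ∀ s x v, 0 ≤ s → s ≤ S → ‖v‖ = 1 → -C ≤ Gam s x v)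
    (hini : ∀ x v, 0 ≤ Gam 0 x v) :
    ∀ s x v, 0 ≤ s → s ≤ S → 0 ≤ Gam s x v := by
  suffices H : ∀ s x v, 0 ≤ s → s ≤ S → ‖v‖ = 1 → 0 ≤ Gam s x v by
    intro s x v h0 h1
    by_cases hv0 : v = 0
    · have := hom s x v 2 (by norm_num)
      rw [hv0, smul_zero] at this
      rw [hv0]; linarith
    · have hn : 0 < ‖v‖ := norm_pos_iff.2 hv0
      have h2 := hom s x (‖v‖⁻¹ • v) ‖v‖ hn
      rw [smul_smul, mul_inv_cancel₀ hn.ne', one_smul] at h2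
      rw [h2]
      exact mul_nonneg (by positivity) (H s x _ h0 h1 (by rw [norm_smul, norm_inv, norm_norm, inv_mul_cancel₀ hn.ne']))
  intro s0 x0 v0 hs0 hs0S hv0
  by_contra hneg
  push Not at hneg
  have hC : 0 ≤ C := by
    have := hlow s0 x0 v0 hs0 hs0S hv0
    linarith
  obtain ⟨P1, hP1⟩ : ∃ P1 : ℝ, P1 = ∑ i, ‖p i‖ ^ 2 := ⟨_, rfl⟩
  obtain ⟨P2, hP2⟩ : ∃ P2 : ℝ, P2 = ∑ i, ‖p i‖ := ⟨_, rfl⟩
  have hP1n : 0 ≤ P1 := by rw [hP1]; exact Finset.sum_nonneg fun i _ => by positivity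
  have hP2n : 0 ≤ P2 := by rw [hP2]; exact Finset.sum_nonneg fun i _ => norm_nonneg _
  obtain ⟨Λ, hΛ⟩ : ∃ Λ : ℝ, Λ = P1 + 4 * C * P2 := ⟨_, rfl⟩
  have hΛn : 0 ≤ Λ := by rw [hΛ]; positivity
  obtain ⟨K, hK⟩ : ∃ K : ℝ, K = |K0| + Λ + 1 := ⟨_, rfl⟩
  have hKp : 0 < K := by rw [hK]; positivity
  obtain ⟨g0, hg0⟩ : ∃ g0 : ℝ, g0 = Real.exp (-K * s0) * Gam s0 x0 v0 := ⟨_, rfl⟩
  have hg0n : g0 < 0 := by rw [hg0]; exact mul_neg_of_pos_of_neg (Real.exp_pos _) hneg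
  obtain ⟨ε, hε⟩ : ∃ ε : ℝ, ε = -g0 / (2 * (1 + ‖x0‖ ^ 2)) := ⟨_, rfl⟩
  have hεp : 0 < ε := by
    rw [hε]
    apply div_pos (by linarith) (by positivity)
  have hneg' : Real.exp (-K * s0) * Gam s0 x0 v0 + ε * (1 + ‖x0‖ ^ 2) < 0 := by
    have h1 : ε * (1 + ‖x0‖ ^ 2) = -g0 / 2 := by rw [hε]; field_simp
    rw [h1, ← hg0]; linarith
  obtain ⟨s1, x1, v1, hs1p, hs1S, hv1, hval, hmin⟩ :=
    exists_min Gam S C K ε hεp hC hKp cont hlow hini s0 x0 v0 hs0 hs0S hv0 hneg'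
  obtain ⟨e, he⟩ : ∃ e : ℝ, e = Real.exp (-K * s1) := ⟨_, rfl⟩
  have hep : 0 < e := by rw [he]; exact Real.exp_pos _
  rw [← he] at hval
  have hGneg : Gam s1 x1 v1 < 0 := by
    by_contra h
    push Not at h
    have h1 : 0 ≤ e * Gam s1 x1 v1 := mul_nonneg hep.le h
    have h2 : 0 < ε * (1 + ‖x1‖ ^ 2) := by positivity
    linarith
  have hv1ne : v1 ≠ 0 := by
    intro h; rw [h, norm_zero] at hv1; exact absurd hv1 (by norm_num)
  have hGv : ∀ i, Gv i s1 x1 v1 = 3 * Gam s1 x1 v1 * inner ℝ v1 (p i) := by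
    intro i
    refine grad_v (Gam s1 x1) (fun v t ht => hom s1 x1 v t ht) v1 (p i) _ hv1 (fun v hv' => ?_)
      (hv i s1 x1 v1 hs1p hs1S hv1ne)
    have h3 := hmin s1 x1 v hs1p.le hs1S hv'
    rw [← he] at h3
    by_contra h
    push Not at h
    have := mul_lt_mul_of_pos_left h hep
    linarith
  have htouch := touch s1 x1 v1 hs1p hs1S hv1 hGneg hGv
  have hGs : Gs s1 x1 v1 ≤ K * Gam s1 x1 v1 := by
    have h1 := hs s1 x1 v1 hs1p hs1S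
    have h2 : HasDerivAt (fun s : ℝ => Real.exp (-K * s)) (Real.exp (-K * s1) * (-K)) s1 := by
      have : HasDerivAt (fun s : ℝ => -K * s) (-K) s1 := by simpa using (hasDerivAt_id s1).const_mul (-K)
      exact this.exp
    have h3 : HasDerivAt (fun s : ℝ => Real.exp (-K * s) * Gam s x1 v1 + ε * (1 + ‖x1‖ ^ 2))
        (Real.exp (-K * s1) * (-K) * Gam s1 x1 v1 + Real.exp (-K * s1) * Gs s1 x1 v1) s1 :=
      (h2.mul h1).add_const (ε * (1 + ‖x1‖ ^ 2))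
    have h4 := deriv_le_of_left_min hs1p h3 (fun t ht0 ht1 => hmin t x1 v1 ht0.le (ht1.trans hs1S) hv1)
    rw [← he] at h4
    by_contra h
    push Not at h
    have := mul_lt_mul_of_pos_left h hep
    linarith
  have hX : ∀ i, e * Gx i s1 x1 v1 + 2 * ε * inner ℝ x1 (p i) = 0 ∧
      0 ≤ e * Gxx i s1 x1 v1 + 2 * ε * ‖p i‖ ^ 2 := by
    intro i
    refine cond_x (fun x => Gam s1 x v1) (fun x => Gx i s1 x v1) x1 (p i) _ e ε
      (fun x => hx i s1 x v1 hs1p hs1S) (hxx i s1 x1 v1 hs1p hs1S) (fun x => ?_)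
    have := hmin s1 x v1 hs1p.le hs1S hv1
    rwa [← he] at this
  exact final_ineq e ε C K0 K Λ P1 P2 (Gam s1 x1 v1) (Gs s1 x1 v1) ‖x1‖ (fun i => Gx i s1 x1 v1)
    (fun i => Gxx i s1 x1 v1) (fun i => w i s1 x1) (fun i => inner ℝ x1 (p i)) (fun i => ‖p i‖)
    hep hεp hC (norm_nonneg _) (fun i => norm_nonneg _) hP1 hP2 hΛ hK hGneg hval htouch hGs
    (fun i => (hX i).1) (fun i => (hX i).2) (fun i => abs_real_inner_le_norm x1 (p i))
    (fun i => hw i s1 x1 hs1p hs1S)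

end Vale.Agent.P227.M.SC2.MPT985
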