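import Vale.Agent.P227.M.SC2.Cum
import Vale.Agent.P227.M.Bas

/-! The mode of `z ↦ W (p + A z) + ‖z‖²/2`. -/

open MeasureTheory Real Filter
open scoped Topology

set_option linter.unusedSectionVars false

namespace Vale.Agent.P227.M.Cum

/-- second order Taylor bounds -/
theorem taylor2 {h h' h'' : ℝ → ℝ} {a b : ℝ} (d : ∀ t, HasDerivAt h (h' t) t)
    (d' : ∀ t, HasDerivAt h' (h'' t) t) (ha : ∀ t, a ≤ h'' t) (hb : ∀ t, h'' t ≤ b) :
    h 0 + h' 0 + a / 2 ≤ h 1 ∧ h 1 ≤ h 0 + h' 0 + b / 2 := by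
  have key : ∀ t, 0 < t → a * t ≤ h' t - h' 0 ∧ h' t - h' 0 ≤ b * t := by
    intro t ht
    obtain ⟨c, hc, hc'⟩ := exists_hasDerivAt_eq_slope h' h'' ht
      (fun z _ => (d' z).continuousAt.continuousWithinAt) (fun z _ => d' z)
    have e : h' t - h' 0 = h'' c * t := by
      rw [sub_zero] at hc'
      rw [hc', div_mul_cancel₀ _ ht.ne']
    rw [e]
    exact ⟨mul_le_mul_of_nonneg_right (ha c) ht.le, mul_le_mul_of_nonneg_right (hb c) ht.le⟩
  constructor
  · obtain ⟨c, hc, hc'⟩ := exists_hasDerivAt_eq_slope (fun t => h t - h' 0 * t - a / 2 * t ^ 2)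
      (fun t => h' t - h' 0 - a * t) (zero_lt_one)
      (fun z _ => by
        have := ((d z).sub ((hasDerivAt_id z).const_mul (h' 0))).sub
          (((hasDerivAt_id z).pow 2).const_mul (a / 2))
        exact this.continuousAt.continuousWithinAt)
      (fun z _ => by
        have := ((d z).sub ((hasDerivAt_id z).const_mul (h' 0))).sub
          (((hasDerivAt_id z).pow 2).const_mul (a / 2))
        refine this.congr_deriv ?_
        simp; ring)
    have k := (key c hc.1).1
    have h2 : 0 ≤ h' c - h' 0 - a * c := by linarith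
    rw [hc'] at h2
    norm_num at h2
    linarith
  · obtain ⟨c, hc, hc'⟩ := exists_hasDerivAt_eq_slope (fun t => h t - h' 0 * t - b / 2 * t ^ 2)
      (fun t => h' t - h' 0 - b * t) (zero_lt_one)
      (fun z _ => by
        have := ((d z).sub ((hasDerivAt_id z).const_mul (h' 0))).sub
          (((hasDerivAt_id z).pow 2).const_mul (b / 2))
        exact this.continuousAt.continuousWithinAt)
      (fun z _ => by
        have := ((d z).sub ((hasDerivAt_id z).const_mul (h' 0))).sub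
          (((hasDerivAt_id z).pow 2).const_mul (b / 2))
        refine this.congr_deriv ?_
        simp; ring)
    have k := (key c hc.1).2
    have h2 : h' c - h' 0 - b * c ≤ 0 := by linarith
    rw [hc'] at h2
    norm_num at h2
    linarith

section
variable {V : Type*} [NormedAddCommGroup V] [InnerProductSpace ℝ V] [FiniteDimensional ℝ V]
variable {F : Type*} [NormedAddCommGroup F] [NormedSpace ℝ F]

/-- two-sided Taylor bounds of `W (p + A z) + ‖z‖²/2` -/
theorem taylor_line {W : F → ℝ} (hW : ContDiff ℝ 2 W) (A : V →L[ℝ] F) {L : ℝ}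
    (h0 : ∀ q z, 0 ≤ fderiv ℝ (fderiv ℝ W) q (A z) (A z))
    (hL : ∀ q z, fderiv ℝ (fderiv ℝ W) q (A z) (A z) ≤ L * ‖z‖ ^ 2) (p : F) (x y : V) :
    W (p + A x) + ‖x‖ ^ 2 / 2 + (fderiv ℝ W (p + A x) (A (y - x)) + inner ℝ x (y - x)) +
        ‖y - x‖ ^ 2 / 2 ≤ W (p + A y) + ‖y‖ ^ 2 / 2 ∧
      W (p + A y) + ‖y‖ ^ 2 / 2 ≤
        W (p + A x) + ‖x‖ ^ 2 / 2 + (fderiv ℝ W (p + A x) (A (y - x)) + inner ℝ x (y - x)) +
        (1 + L) * ‖y - x‖ ^ 2 / 2 := by
  have d1 : Differentiable ℝ W := hW.differentiable (by norm_num)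
  have d2 : Differentiable ℝ (fderiv ℝ W) :=
    (hW.fderiv_right (m := 1) (by norm_num)).differentiable (by norm_num)
  set v := y - x with hv
  have hq : ∀ t : ℝ, HasDerivAt (fun t : ℝ => p + A (x + t • v)) (A v) t := fun t => by
    have h1 : HasDerivAt (fun t : ℝ => x + t • v) v t := by
      simpa using ((hasDerivAt_id t).smul_const v).const_add x
    exact (A.hasFDerivAt.comp_hasDerivAt t h1).const_add p
  have hx : ∀ t : ℝ, HasDerivAt (fun t : ℝ => x + t • v) v t := fun t => by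
    simpa using ((hasDerivAt_id t).smul_const v).const_add x
  have e1 : ∀ t : ℝ, HasDerivAt (fun t : ℝ => W (p + A (x + t • v)) + ‖x + t • v‖ ^ 2 / 2)
      (fderiv ℝ W (p + A (x + t • v)) (A v) + inner ℝ (x + t • v) v) t := fun t => by
    have a1 := (d1 _).hasFDerivAt.comp_hasDerivAt t (hq t)
    have a2 := ((hx t).norm_sq).div_const 2
    refine (a1.add a2).congr_deriv ?_
    ring
  have e2 : ∀ t : ℝ, HasDerivAt
      (fun t : ℝ => fderiv ℝ W (p + A (x + t • v)) (A v) + inner ℝ (x + t • v) v)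
      (fderiv ℝ (fderiv ℝ W) (p + A (x + t • v)) (A v) (A v) + ‖v‖ ^ 2) t := fun t => by
    have a1 := ((d2 _).hasFDerivAt.comp_hasDerivAt t (hq t)).clm_apply (hasDerivAt_const t (A v))
    have a2 := (hx t).inner ℝ (hasDerivAt_const t v)
    refine (a1.add a2).congr_deriv ?_
    simp
  obtain ⟨b1, b2⟩ := taylor2 (a := ‖v‖ ^ 2) (b := (1 + L) * ‖v‖ ^ 2) e1 e2
    (fun t => by linarith [h0 (p + A (x + t • v)) v]) (fun t => by linarith [hL (p + A (x + t • v)) v])
  have ey : x + (1:ℝ) • v = y := by rw [hv]; simp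
  have ex : x + (0:ℝ) • v = x := by simp
  rw [ey] at b1 b2
  rw [ex] at b1 b2
  constructor <;> linarith

variable [MeasurableSpace V] [BorelSpace V]

theorem exists_pinch {W : F → ℝ} (hW : ContDiff ℝ 2 W) (A : V →L[ℝ] F) {L : ℝ}
    (h0 : ∀ q z, 0 ≤ fderiv ℝ (fderiv ℝ W) q (A z) (A z))
    (hL : ∀ q z, fderiv ℝ (fderiv ℝ W) q (A z) (A z) ≤ L * ‖z‖ ^ 2) (p : F) :
    ∃ y0 : V, Pinch (fun z => W (p + A z) + ‖z‖ ^ 2 / 2) (1 + L) y0 := by
  have hc : Continuous (fun z : V => W (p + A z) + ‖z‖ ^ 2 / 2) := by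
    have := hW.continuous
    fun_prop
  have d1 : Differentiable ℝ W := hW.differentiable (by norm_num)
  -- coercive
  have htend : Tendsto (fun z : V => W (p + A z) + ‖z‖ ^ 2 / 2) (cocompact V) atTop := by
    set G : ℝ := ‖(fderiv ℝ W (p + A 0)).comp A‖ with hG
    have hlow : ∀ z : V, W (p + A 0) + (‖z‖ * (‖z‖ / 2 - G)) ≤ W (p + A z) + ‖z‖ ^ 2 / 2 := fun z => by
      have := (taylor_line hW A h0 hL p 0 z).1
      simp only [sub_zero, norm_zero, inner_zero_left] at this
      have h2 : -(G * ‖z‖) ≤ fderiv ℝ W (p + A 0) (A z) := by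
        have := ((fderiv ℝ W (p + A 0)).comp A).le_opNorm z
        rw [Real.norm_eq_abs] at this
        exact (abs_le.mp this).1
      nlinarith
    refine tendsto_atTop_mono hlow ?_
    apply tendsto_atTop_add_const_left
    have h1 : Tendsto (fun z : V => ‖z‖) (cocompact V) atTop := tendsto_norm_cocompact_atTop
    have h2 : Tendsto (fun z : V => ‖z‖ / 2 - G) (cocompact V) atTop :=
      tendsto_atTop_add_const_right _ _ (h1.atTop_div_const (by norm_num))
    exact h1.atTop_mul_atTop₀ h2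
  obtain ⟨y0, hy0⟩ := hc.exists_forall_le htend
  refine ⟨y0, hc, fun y => ?_, fun y => ?_⟩
  all_goals
    have hmin : ∀ v : V, fderiv ℝ W (p + A y0) (A v) + inner ℝ y0 v = 0 := by
      intro v
      have hloc : IsLocalMin (fun t : ℝ => W (p + A (y0 + t • v)) + ‖y0 + t • v‖ ^ 2 / 2) 0 := by
        apply Filter.Eventually.of_forall
        intro t
        have := hy0 (y0 + t • v)
        simpa using this
      have hx : HasDerivAt (fun t : ℝ => y0 + t • v) v 0 := by
        simpa using ((hasDerivAt_id (0:ℝ)).smul_const v).const_add y0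
      have hd : HasDerivAt (fun t : ℝ => W (p + A (y0 + t • v)) + ‖y0 + t • v‖ ^ 2 / 2)
          (fderiv ℝ W (p + A (y0 + (0:ℝ) • v)) (A v) + inner ℝ (y0 + (0:ℝ) • v) v) 0 := by
        have a0 : HasDerivAt (fun t : ℝ => p + A (y0 + t • v)) (A v) 0 :=
          (A.hasFDerivAt.comp_hasDerivAt (0:ℝ) hx).const_add p
        have a1 := (d1 _).hasFDerivAt.comp_hasDerivAt (0:ℝ) a0
        have a2 := (hx.norm_sq).div_const 2
        refine (a1.add a2).congr_deriv ?_
        ring
      have := hloc.hasDerivAt_eq_zero hd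
      simpa using this
    have hT := taylor_line hW A h0 hL p y0 y
    have hm := hmin (y - y0)
  · linarith [hT.1]
  · linarith [hT.2]

end

/-- the potential of `heat W P x` is pinched -/
theorem exists_pinch_reg {n : ℕ} {W : E n → ℝ} {c C : ℝ} (hW : Reg W c C) (P : E n →L[ℝ] E n)
    (x : E n) : ∃ y0 : E n, Pinch (fun z => W (x + P z) + ‖z‖ ^ 2 / 2) (1 + C * ‖P‖ ^ 2) y0 := by
  have h2 : ContDiff ℝ 2 W := contDiff_infty.1 hW.smooth 2
  have hC : 0 ≤ C ∨ n = 0 := by
    rcases Nat.eq_zero_or_pos n with h | h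
    · exact Or.inr h
    · left
      have h1 := hW.lower 0 (ei ⟨0, h⟩)
      have h3 := hW.upper 0 (ei ⟨0, h⟩)
      rw [norm_ei] at h1 h3
      have := hW.c_pos
      linarith
  refine exists_pinch h2 P (fun q z => ?_) (fun q z => ?_) x
  · rw [← qf_hess_eq h2]
    exact le_trans (mul_nonneg hW.c_pos.le (sq_nonneg _)) (hW.lower q (P z))
  · rw [← qf_hess_eq h2]
    refine (hW.upper q (P z)).trans ?_
    rcases hC with hC | hn
    · have h5 : ‖P z‖ ^ 2 ≤ (‖P‖ * ‖z‖) ^ 2 := pow_le_pow_left₀ (norm_nonneg _) (P.le_opNorm z) 2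
      calc C * ‖P z‖ ^ 2 ≤ C * (‖P‖ * ‖z‖) ^ 2 := mul_le_mul_of_nonneg_left h5 hC
        _ = _ := by ring
    · subst hn
      have e1 : P z = 0 := Subsingleton.elim _ _
      have e2 : z = 0 := Subsingleton.elim _ _
      rw [e1, e2]
      simp

end Vale.Agent.P227.M.Cum
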