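import Vale.Agent.P227.M.SC.MargLow
import Vale.Agent.P227.M.Bas
import Vale.Agent.P227.M.SC2.Heat1Def

/-! The one-direction Gaussian average keeps the class `Reg` (`StmtRG`), from the marginal
theorem `RegG.marg`. -/

open MeasureTheory Set Filter
open scoped Topology ContDiff

namespace Vale.Agent.P227.M.SC

theorem nat_le_inf (m : ℕ) : (m : WithTop ℕ∞) ≤ ∞ := by exact_mod_cast le_top

theorem iteratedDeriv_two_of {f f1 : ℝ → ℝ} {a : ℝ} (h1 : ∀ t, HasDerivAt f (f1 t) t)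
    (h2 : HasDerivAt f1 a 0) : iteratedDeriv 2 f 0 = a := by
  have h3 : deriv f = f1 := funext fun t => (h1 t).deriv
  rw [iteratedDeriv_succ, iteratedDeriv_one, h3, h2.deriv]

section
variable {F : Type} [NormedAddCommGroup F] [NormedSpace ℝ F]

/-- `(x, g) ↦ W (x + g p) + g²/2` -/
noncomputable def lift1 (W : F → ℝ) (p : F) (q : F × ℝ) : ℝ := W (q.1 + q.2 • p) + q.2 ^ 2 / 2

theorem contDiff_lift1 {W : F → ℝ} (hW : ContDiff ℝ ∞ W) (p : F) : ContDiff ℝ ∞ (lift1 W p) := by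
  unfold lift1
  refine (hW.comp ?_).add ?_
  · exact contDiff_fst.add (contDiff_snd.smul contDiff_const)
  · exact (contDiff_snd.pow 2).div_const 2

theorem D2_lift1 {W : F → ℝ} (hW : ContDiff ℝ ∞ W) (p : F) (q w : F × ℝ) :
    Ld2 (lift1 W p) q w = Ld2 W (q.1 + q.2 • p) (w.1 + w.2 • p) + w.2 ^ 2 := by
  set y := q.1 + q.2 • p with hy
  set u := w.1 + w.2 • p with hu
  have h0 : (fun t : ℝ => lift1 W p (q + t • w)) =
      fun t => W (y + t • u) + (q.2 + t * w.2) ^ 2 / 2 := by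
    funext t
    simp only [lift1, Prod.fst_add, Prod.snd_add, Prod.smul_fst, Prod.smul_snd, smul_eq_mul]
    congr 2
    rw [hy, hu]
    module
  have hq : ∀ t : ℝ, HasDerivAt (fun t : ℝ => (q.2 + t * w.2) ^ 2 / 2) ((q.2 + t * w.2) * w.2) t := by
    intro t
    have h1 : HasDerivAt (fun t : ℝ => q.2 + t * w.2) w.2 t := by
      simpa using ((hasDerivAt_id t).mul_const w.2).const_add q.2
    refine ((h1.pow 2).div_const 2).congr_deriv ?_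
    simp
    ring
  have hq2 : HasDerivAt (fun t : ℝ => (q.2 + t * w.2) * w.2) (w.2 ^ 2) 0 := by
    have h1 : HasDerivAt (fun t : ℝ => q.2 + t * w.2) w.2 0 := by
      simpa using ((hasDerivAt_id (0 : ℝ)).mul_const w.2).const_add q.2
    refine (h1.mul_const w.2).congr_deriv ?_
    ring
  unfold Ld2
  rw [h0]
  refine iteratedDeriv_two_of (fun t => (hasDerivAt_line0 hW y u t).add (hq t)) ?_
  have h2 := (D2_add hW y u 0)
  rw [zero_smul, add_zero] at h2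
  exact h2.add hq2

theorem lower_lift1 {W : F → ℝ} (hW : ContDiff ℝ ∞ W) {c : ℝ} (hc : 0 < c)
    (hl : ∀ x v, c * ‖v‖ ^ 2 ≤ Ld2 W x v) (p : F) (q w : F × ℝ) :
    min c 1 / (2 * (1 + ‖p‖ ^ 2)) * ‖w‖ ^ 2 ≤ Ld2 (lift1 W p) q w := by
  rw [D2_lift1 hW]
  set m := min c 1 with hm
  have hm0 : 0 < m := lt_min hc one_pos
  have hmc : m ≤ c := min_le_left _ _
  have hm1 : m ≤ 1 := min_le_right _ _
  have h1 := hl (q.1 + q.2 • p) (w.1 + w.2 • p)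
  set s := ‖w.1 + w.2 • p‖ with hs
  have hs0 : 0 ≤ s := norm_nonneg _
  have hp : 0 < 2 * (1 + ‖p‖ ^ 2) := by positivity
  -- enough
  suffices h : m / (2 * (1 + ‖p‖ ^ 2)) * ‖w‖ ^ 2 ≤ m * s ^ 2 + w.2 ^ 2 by
    have : m * s ^ 2 ≤ c * s ^ 2 := by gcongr
    linarith
  rw [div_mul_eq_mul_div, div_le_iff₀ hp]
  have hn1 : ‖w.1‖ ≤ s + |w.2| * ‖p‖ := by
    have h2 : w.1 = (w.1 + w.2 • p) - w.2 • p := by simp
    calc ‖w.1‖ = ‖(w.1 + w.2 • p) - w.2 • p‖ := by rw [← h2]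
      _ ≤ ‖w.1 + w.2 • p‖ + ‖w.2 • p‖ := norm_sub_le _ _
      _ = _ := by rw [norm_smul, Real.norm_eq_abs]
  have hn1' : ‖w.1‖ ^ 2 ≤ 2 * s ^ 2 + 2 * w.2 ^ 2 * ‖p‖ ^ 2 := by
    calc ‖w.1‖ ^ 2 ≤ (s + |w.2| * ‖p‖) ^ 2 := by gcongr
      _ ≤ 2 * s ^ 2 + 2 * (|w.2| ^ 2 * ‖p‖ ^ 2) := by nlinarith [sq_nonneg (s - |w.2| * ‖p‖)]
      _ = _ := by rw [sq_abs]; ring
  have hp2 : 0 ≤ ‖p‖ ^ 2 := by positivity
  have hw2 : 0 ≤ w.2 ^ 2 := sq_nonneg _
  rcases max_choice ‖w.1‖ ‖w.2‖ with h2 | h2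
  · rw [Prod.norm_def, h2]
    have h3 : m * ‖w.1‖ ^ 2 ≤ m * (2 * s ^ 2 + 2 * w.2 ^ 2 * ‖p‖ ^ 2) := by gcongr
    have h4 : 0 ≤ m * s ^ 2 := by positivity
    have h5 : m * (w.2 ^ 2 * ‖p‖ ^ 2) ≤ 1 * (w.2 ^ 2 * ‖p‖ ^ 2) := by gcongr
    nlinarith [mul_nonneg h4 hp2]
  · rw [Prod.norm_def, h2, Real.norm_eq_abs, sq_abs]
    have h4 : 0 ≤ m * s ^ 2 := by positivity
    have h5 : m * w.2 ^ 2 ≤ 1 * w.2 ^ 2 := by gcongr
    nlinarith [mul_nonneg h4 hp2, mul_nonneg hw2 hp2]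

theorem bdd_lift1 {W : F → ℝ} (hW : ContDiff ℝ ∞ W)
    (hb : ∀ k : ℕ, 2 ≤ k → ∃ B : ℝ, ∀ x, ‖iteratedFDeriv ℝ k W x‖ ≤ B) (p : F) (k : ℕ)
    (hk : 2 ≤ k) : ∃ B : ℝ, ∀ q, ‖iteratedFDeriv ℝ k (lift1 W p) q‖ ≤ B := by
  obtain ⟨B, hB⟩ := hb k hk
  set A : F × ℝ →L[ℝ] F := ContinuousLinearMap.fst ℝ F ℝ +
    (ContinuousLinearMap.snd ℝ F ℝ).smulRight p with hA
  have hAe : ∀ q : F × ℝ, A q = q.1 + q.2 • p := fun q => by simp [hA]
  set Q : F × ℝ → ℝ := fun q => q.2 ^ 2 / 2 with hQ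
  have hQs : ContDiff ℝ ∞ Q := (contDiff_snd.pow 2).div_const 2
  set K : (F × ℝ) →L[ℝ] ((F × ℝ) →L[ℝ] ℝ) :=
    (ContinuousLinearMap.snd ℝ F ℝ).smulRight (ContinuousLinearMap.snd ℝ F ℝ) with hK
  have hQ1 : fderiv ℝ Q = fun q => K q := by
    funext q
    have h1 : HasFDerivAt (fun q : F × ℝ => q.2) (ContinuousLinearMap.snd ℝ F ℝ) q :=
      (ContinuousLinearMap.snd ℝ F ℝ).hasFDerivAt
    have h2 : HasFDerivAt Q (K q) q := by
      have h3 := ((h1.pow 2)).mul_const (1 / 2 : ℝ)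
      have h4 : Q = fun q : F × ℝ => q.2 ^ 2 * (1 / 2) := by funext q; simp [hQ]; ring
      rw [h4]
      refine h3.congr_fderiv ?_
      ext v <;> simp [hK] <;> ring
    exact h2.fderiv
  have hQ2 : fderiv ℝ (fderiv ℝ Q) = fun _ => K := by
    rw [hQ1]
    funext q
    exact K.fderiv
  obtain ⟨j, rfl⟩ : ∃ j, k = j + 2 := ⟨k - 2, by omega⟩
  refine ⟨B * ‖A‖ ^ (j + 2) + ‖K‖, fun q => ?_⟩
  have h1 : lift1 W p = (W ∘ A) + Q := by
    funext q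
    simp only [lift1, Pi.add_apply, Function.comp, hAe, hQ]
  have hWA : ContDiff ℝ ∞ (W ∘ A) := hW.comp A.contDiff
  rw [h1, iteratedFDeriv_add_apply ((hWA.of_le (nat_le_inf _)).contDiffAt)
    ((hQs.of_le (nat_le_inf _)).contDiffAt)]
  refine (norm_add_le _ _).trans (add_le_add ?_ ?_)
  · rw [A.iteratedFDeriv_comp_right hW q (nat_le_inf _)]
    refine (ContinuousMultilinearMap.norm_compContinuousLinearMap_le _ _).trans ?_
    rw [Finset.prod_const, Finset.card_univ, Fintype.card_fin]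
    have := hB (A q)
    gcongr
  · rw [← norm_iteratedFDeriv_fderiv, ← norm_iteratedFDeriv_fderiv, hQ2]
    rcases Nat.eq_zero_or_pos j with rfl | hj
    · rw [norm_iteratedFDeriv_zero]
    · rw [iteratedFDeriv_const_of_ne (by omega : j ≠ 0)]
      simp only [Pi.zero_apply, norm_zero]
      exact norm_nonneg K

theorem regG_lift1 {W : F → ℝ} {c : ℝ} (h : RegG W c) (p : F) :
    RegG (lift1 W p) (min c 1 / (2 * (1 + ‖p‖ ^ 2))) := by
  have hc := h.c_pos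
  exact ⟨div_pos (lt_min hc one_pos) (by positivity), contDiff_lift1 h.smooth p,
    fun x v => lower_lift1 h.smooth hc h.lower p x v, fun k hk => bdd_lift1 h.smooth h.bdd p k hk⟩

end

theorem regG_of_reg {n : ℕ} {W : E n → ℝ} {c C : ℝ} (h : Reg W c C) : RegG W c :=
  ⟨h.c_pos, h.smooth, fun x v => by
    rw [D2_eq h.smooth, ← qf_hess_eq h.C2]
    exact h.lower x v, h.bdd⟩

theorem reg_of_regG {n : ℕ} {W : E n → ℝ} {c : ℝ} (h : RegG W c) : ∃ C, Reg W c C := by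
  obtain ⟨B, hB⟩ := h.bdd 2 le_rfl
  refine ⟨B, h.c_pos, h.smooth, fun x v => ?_, fun x v => ?_, h.bdd⟩
  · rw [qf_hess_eq (h.smooth.of_le (by norm_cast)), ← D2_eq h.smooth]
    exact h.lower x v
  · rw [qf_hess_eq (h.smooth.of_le (by norm_cast)), ← D2_eq h.smooth]
    exact (le_abs_self _).trans (abs_D2_le h.smooth hB x v)

theorem heat1_eq_marg {n : ℕ} (W : E n → ℝ) (p : E n) : heat1 W p = marg (lift1 W p) := by
  funext x
  unfold heat1 marg lift1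
  simp only [neg_add]
  rfl

theorem stmtRG : StmtRG := by
  intro n W c C h p
  have h1 := (regG_lift1 (regG_of_reg h) p).marg
  rw [← heat1_eq_marg] at h1
  obtain ⟨C', hC'⟩ := reg_of_regG h1
  exact ⟨_, C', hC'⟩

end Vale.Agent.P227.M.SC
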