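import Mathlib

/-! # Closure of bounded derivatives of order `≥ 2` under marginals, part A: function classes. -/

open MeasureTheory Real Filter Topology
open scoped ContDiff

set_option linter.unusedSectionVars false

namespace Vale.Agent.P227.M.RegGen

variable {X Y : Type} [NormedAddCommGroup X] [NormedSpace ℝ X]
  [NormedAddCommGroup Y] [NormedSpace ℝ Y]

section classes

variable {G H K : Type} [NormedAddCommGroup G] [NormedSpace ℝ G] [NormedAddCommGroup H]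
  [NormedSpace ℝ H] [NormedAddCommGroup K] [NormedSpace ℝ K]

/-- jointly continuous, polynomial growth in `‖y - m x‖` -/
def Cls0 (m : X → Y) (F : X → Y → G) : Prop :=
  Continuous (fun p : X × Y => F p.1 p.2) ∧
    ∃ (C : ℝ) (r : ℕ), 0 ≤ C ∧ ∀ x y, ‖F x y‖ ≤ C * (1 + ‖y - m x‖) ^ r

/-- `j` derivatives in `x` in the class `Cls0` -/
def Cls (m : X → Y) : ∀ (_ : ℕ) {G : Type} [NormedAddCommGroup G] [NormedSpace ℝ G]
    (_ : X → Y → G), Prop
  | 0, _, _, _, F => Cls0 m F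
  | j + 1, _, _, _, F => Cls0 m F ∧
      ∃ F' : X → Y → (X →L[ℝ] _), (∀ x y, HasFDerivAt (fun x => F x y) (F' x y) x) ∧ Cls m j F'

/-- `j` bounded continuous derivatives -/
def Bd : ∀ (_ : ℕ) {G : Type} [NormedAddCommGroup G] [NormedSpace ℝ G] (_ : X → G), Prop
  | 0, _, _, _, f => Continuous f ∧ ∃ C : ℝ, ∀ x, ‖f x‖ ≤ C
  | j + 1, _, _, _, f => (Continuous f ∧ ∃ C : ℝ, ∀ x, ‖f x‖ ≤ C) ∧
      ∃ f' : X → (X →L[ℝ] _), (∀ x, HasFDerivAt f (f' x) x) ∧ Bd j f'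

theorem Cls.zero {m : X → Y} : ∀ {j : ℕ} {F : X → Y → G}, Cls m j F → Cls0 m F
  | 0, _, h => h
  | _ + 1, _, h => h.1

theorem Cls.mono_succ {m : X → Y} {j : ℕ} : ∀ {G : Type} [NormedAddCommGroup G] [NormedSpace ℝ G]
    {F : X → Y → G}, Cls m (j + 1) F → Cls m j F := by
  induction j with
  | zero => intro G _ _ F h; exact h.1
  | succ j ih =>
    intro G _ _ F h
    obtain ⟨h0, F', hF', h1⟩ := h
    exact ⟨h0, F', hF', ih h1⟩

theorem Cls0.add {m : X → Y} {F F2 : X → Y → G} (h : Cls0 m F) (h2 : Cls0 m F2) :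
    Cls0 m (fun x y => F x y + F2 x y) := by
  obtain ⟨hc, C, r, hC, hb⟩ := h
  obtain ⟨hc2, C2, r2, hC2, hb2⟩ := h2
  refine ⟨hc.add hc2, C + C2, r + r2, by positivity, fun x y => (norm_add_le _ _).trans ?_⟩
  have h1 : (1 : ℝ) ≤ 1 + ‖y - m x‖ := by linarith [norm_nonneg (y - m x)]
  have e1 : (1 + ‖y - m x‖) ^ r ≤ (1 + ‖y - m x‖) ^ (r + r2) := pow_le_pow_right₀ h1 (by omega)
  have e2 : (1 + ‖y - m x‖) ^ r2 ≤ (1 + ‖y - m x‖) ^ (r + r2) := pow_le_pow_right₀ h1 (by omega)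
  have := hb x y
  have := hb2 x y
  nlinarith [mul_le_mul_of_nonneg_left e1 hC, mul_le_mul_of_nonneg_left e2 hC2]

theorem Cls0.bilin {m : X → Y} (B : G →L[ℝ] H →L[ℝ] K) {F : X → Y → G} {F2 : X → Y → H}
    (h : Cls0 m F) (h2 : Cls0 m F2) : Cls0 m (fun x y => B (F x y) (F2 x y)) := by
  obtain ⟨hc, C, r, hC, hb⟩ := h
  obtain ⟨hc2, C2, r2, hC2, hb2⟩ := h2
  refine ⟨(B.continuous.comp hc).clm_apply hc2, ‖B‖ * C * C2, r + r2, by positivity,
    fun x y => (B.le_opNorm₂ _ _).trans ?_⟩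
  calc ‖B‖ * ‖F x y‖ * ‖F2 x y‖
      ≤ ‖B‖ * (C * (1 + ‖y - m x‖) ^ r) * (C2 * (1 + ‖y - m x‖) ^ r2) := by
        gcongr
        · exact hb x y
        · exact hb2 x y
    _ = _ := by rw [pow_add]; ring

theorem Cls0.clm {m : X → Y} (L : G →L[ℝ] H) {F : X → Y → G} (h : Cls0 m F) :
    Cls0 m (fun x y => L (F x y)) := by
  obtain ⟨hc, C, r, hC, hb⟩ := h
  refine ⟨L.continuous.comp hc, ‖L‖ * C, r, by positivity, fun x y => (L.le_opNorm _).trans ?_⟩
  calc ‖L‖ * ‖F x y‖ ≤ ‖L‖ * (C * (1 + ‖y - m x‖) ^ r) := by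
        gcongr
        exact hb x y
    _ = _ := by ring

theorem Cls.add {m : X → Y} {j : ℕ} : ∀ {G : Type} [NormedAddCommGroup G] [NormedSpace ℝ G]
    {F F2 : X → Y → G}, Cls m j F → Cls m j F2 → Cls m j (fun x y => F x y + F2 x y) := by
  induction j with
  | zero => intro G _ _ F F2 h h2; exact Cls0.add h h2
  | succ j ih =>
    intro G _ _ F F2 h h2
    obtain ⟨h0, F', hF', h1⟩ := h
    obtain ⟨h0', F2', hF2', h1'⟩ := h2
    exact ⟨h0.add h0', fun x y => F' x y + F2' x y, fun x y => (hF' x y).add (hF2' x y), ih h1 h1'⟩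

theorem Cls.clm {m : X → Y} {j : ℕ} : ∀ {G H : Type} [NormedAddCommGroup G] [NormedSpace ℝ G]
    [NormedAddCommGroup H] [NormedSpace ℝ H] (L : G →L[ℝ] H)
    {F : X → Y → G}, Cls m j F → Cls m j (fun x y => L (F x y)) := by
  induction j with
  | zero => intro G H _ _ _ _ L F h; exact Cls0.clm L h
  | succ j ih =>
    intro G H _ _ _ _ L F h
    obtain ⟨h0, F', hF', h1⟩ := h
    refine ⟨h0.clm L, fun x y => L.comp (F' x y), fun x y => L.hasFDerivAt.comp x (hF' x y), ?_⟩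
    exact ih (ContinuousLinearMap.compL ℝ X G H L) h1

theorem Cls.bilin {m : X → Y} {j : ℕ} : ∀ {G H K : Type} [NormedAddCommGroup G] [NormedSpace ℝ G]
    [NormedAddCommGroup H] [NormedSpace ℝ H] [NormedAddCommGroup K] [NormedSpace ℝ K]
    (B : G →L[ℝ] H →L[ℝ] K) {F : X → Y → G} {F2 : X → Y → H}, Cls m j F → Cls m j F2 →
    Cls m j (fun x y => B (F x y) (F2 x y)) := by
  induction j with
  | zero => intro G H K _ _ _ _ _ _ B F F2 h h2; exact Cls0.bilin B h h2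
  | succ j ih =>
    intro G H K _ _ _ _ _ _ B F F2 h h2
    have hm := h.mono_succ
    have hm2 := h2.mono_succ
    obtain ⟨h0, F', hF', h1⟩ := h
    obtain ⟨h0', F2', hF2', h1'⟩ := h2
    refine ⟨h0.bilin B h0', fun x y => B.precompR X (F x y) (F2' x y) + B.precompL X (F' x y) (F2 x y),
      fun x y => B.hasFDerivAt_of_bilinear (hF' x y) (hF2' x y), ?_⟩
    exact (ih (B.precompR X) hm h1').add (ih (B.precompL X) h1 hm2)

theorem Bd.cls {m : X → Y} {j : ℕ} : ∀ {G : Type} [NormedAddCommGroup G] [NormedSpace ℝ G]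
    {f : X → G}, Bd j f → Cls m j (fun x _ => f x) := by
  have key : ∀ {G : Type} [NormedAddCommGroup G] [NormedSpace ℝ G] {f : X → G},
      (Continuous f ∧ ∃ C : ℝ, ∀ x, ‖f x‖ ≤ C) → Cls0 m (fun x (_ : Y) => f x) := by
    intro G _ _ f h
    obtain ⟨hc, C, hb⟩ := h
    refine ⟨hc.comp continuous_fst, max C 0, 0, le_max_right _ _, fun x y => ?_⟩
    simpa using Or.inl (hb x)
  induction j with
  | zero => intro G _ _ f h; exact key h
  | succ j ih =>
    intro G _ _ f h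
    obtain ⟨h0, f', hf', h1⟩ := h
    exact ⟨key h0, fun x _ => f' x, fun x _ => hf' x, ih h1⟩

theorem Bd.contDiff {j : ℕ} : ∀ {G : Type} [NormedAddCommGroup G] [NormedSpace ℝ G]
    {f : X → G}, Bd j f → ContDiff ℝ j f := by
  induction j with
  | zero => intro G _ _ f h; simpa using h.1
  | succ j ih =>
    intro G _ _ f h
    obtain ⟨h0, f', hf', h1⟩ := h
    have e : fderiv ℝ f = f' := funext fun x => (hf' x).fderiv
    rw [show ((j + 1 : ℕ) : WithTop ℕ∞) = (j : WithTop ℕ∞) + 1 by norm_cast]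
    rw [contDiff_succ_iff_fderiv]
    refine ⟨fun x => (hf' x).differentiableAt, by simp, ?_⟩
    rw [e]
    exact ih h1

theorem Bd.bound {j : ℕ} : ∀ {G : Type} [NormedAddCommGroup G] [NormedSpace ℝ G]
    {f : X → G}, Bd j f → ∃ B : ℝ, ∀ x, ‖iteratedFDeriv ℝ j f x‖ ≤ B := by
  induction j with
  | zero =>
    intro G _ _ f h
    obtain ⟨_, C, hC⟩ := h
    exact ⟨C, fun x => by simpa using hC x⟩
  | succ j ih =>
    intro G _ _ f h
    obtain ⟨h0, f', hf', h1⟩ := h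
    have e : fderiv ℝ f = f' := funext fun x => (hf' x).fderiv
    obtain ⟨B, hB⟩ := ih h1
    refine ⟨B, fun x => ?_⟩
    rw [← norm_iteratedFDeriv_fderiv, e]
    exact hB x

/-- smooth with all derivatives (order `≥ 0`) bounded, joint variables -/
def BdJ {Z : Type} [NormedAddCommGroup Z] [NormedSpace ℝ Z] (Φ : Z → G) : Prop :=
  ContDiff ℝ ∞ Φ ∧ ∀ k : ℕ, ∃ B : ℝ, ∀ p, ‖iteratedFDeriv ℝ k Φ p‖ ≤ B

theorem BdJ.pder {Φ : X × Y → G} (hs : ContDiff ℝ ∞ Φ)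
    (hb : ∀ k : ℕ, 1 ≤ k → ∃ B : ℝ, ∀ p, ‖iteratedFDeriv ℝ k Φ p‖ ≤ B) :
    BdJ (fun p => (fderiv ℝ Φ p).comp (ContinuousLinearMap.inl ℝ X Y)) := by
  set L : ((X × Y) →L[ℝ] G) →L[ℝ] (X →L[ℝ] G) :=
    (ContinuousLinearMap.compL ℝ X (X × Y) G).flip (ContinuousLinearMap.inl ℝ X Y) with hL
  have h1 : ContDiff ℝ ∞ (fderiv ℝ Φ) := hs.fderiv_right (by simp)
  have e : (fun p => (fderiv ℝ Φ p).comp (ContinuousLinearMap.inl ℝ X Y)) = L ∘ (fderiv ℝ Φ) := by
    funext p; rfl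
  rw [e]
  refine ⟨L.contDiff.comp h1, fun k => ?_⟩
  obtain ⟨B, hB⟩ := hb (k + 1) (by omega)
  refine ⟨‖L‖ * B, fun p => ?_⟩
  refine (L.norm_iteratedFDeriv_comp_left (h1.contDiffAt.of_le (m := (k : WithTop ℕ∞)) (by exact_mod_cast le_top)) le_rfl).trans ?_
  gcongr
  rw [norm_iteratedFDeriv_fderiv]
  exact hB p

theorem BdJ.cls {m : X → Y} {j : ℕ} : ∀ {G : Type} [NormedAddCommGroup G] [NormedSpace ℝ G]
    {Φ : X × Y → G}, BdJ Φ → Cls m j (fun x y => Φ (x, y)) := by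
  have key : ∀ {G : Type} [NormedAddCommGroup G] [NormedSpace ℝ G] {Φ : X × Y → G},
      BdJ Φ → Cls0 m (fun x y => Φ (x, y)) := by
    intro G _ _ Φ h
    obtain ⟨B, hB⟩ := h.2 0
    refine ⟨h.1.continuous, max B 0, 0, le_max_right _ _, fun x y => ?_⟩
    have := hB (x, y)
    rw [norm_iteratedFDeriv_zero] at this
    simpa using Or.inl this
  induction j with
  | zero => intro G _ _ Φ h; exact key h
  | succ j ih =>
    intro G _ _ Φ h
    refine ⟨key h, fun x y => (fderiv ℝ Φ (x, y)).comp (ContinuousLinearMap.inl ℝ X Y), fun x y => ?_,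
      ih (BdJ.pder h.1 fun k _ => h.2 k)⟩
    have h1 : HasFDerivAt Φ (fderiv ℝ Φ (x, y)) (x, y) :=
      (h.1.differentiable (by simp) (x, y)).hasFDerivAt
    exact h1.comp x (hasFDerivAt_prodMk_left x y)

end classes

end Vale.Agent.P227.M.RegGen
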