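import Vale.Agent.P227.M.SC2.RegGenA
import Vale.Agent.P227.M.Loc.Parts

/-! # Closure of bounded derivatives of order `≥ 2` under marginals, part B: integrals. -/

open MeasureTheory Real Filter Topology
open scoped ContDiff

set_option linter.unusedSectionVars false

namespace Vale.Agent.P227.M.RegGen

variable {X Y : Type} [NormedAddCommGroup X] [NormedSpace ℝ X]
  [NormedAddCommGroup Y] [InnerProductSpace ℝ Y] [FiniteDimensional ℝ Y] [MeasurableSpace Y]
  [BorelSpace Y]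

variable {G H K : Type} [NormedAddCommGroup G] [NormedSpace ℝ G] [NormedAddCommGroup H]
  [NormedSpace ℝ H] [NormedAddCommGroup K] [NormedSpace ℝ K]

/-- polynomial growth in `y`, locally uniformly in `x` -/
def LG (F : X → Y → G) : Prop := Continuous (fun p : X × Y => F p.1 p.2) ∧
  ∃ (β : X → ℝ) (r : ℕ), Continuous β ∧ (∀ x, 0 ≤ β x) ∧ ∀ x y, ‖F x y‖ ≤ β x * (1 + ‖y‖) ^ r

theorem LG.add {F F2 : X → Y → G} (h : LG F) (h2 : LG F2) : LG (fun x y => F x y + F2 x y) := by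
  obtain ⟨hc, C, r, hC, hC0, hb⟩ := h
  obtain ⟨hc2, C2, r2, hC2, hC20, hb2⟩ := h2
  refine ⟨hc.add hc2, fun x => C x + C2 x, r + r2, hC.add hC2, fun x => add_nonneg (hC0 x) (hC20 x),
    fun x y => (norm_add_le _ _).trans ?_⟩
  have h1 : (1 : ℝ) ≤ 1 + ‖y‖ := by linarith [norm_nonneg y]
  have e1 : (1 + ‖y‖) ^ r ≤ (1 + ‖y‖) ^ (r + r2) := pow_le_pow_right₀ h1 (by omega)
  have e2 : (1 + ‖y‖) ^ r2 ≤ (1 + ‖y‖) ^ (r + r2) := pow_le_pow_right₀ h1 (by omega)
  have := hb x y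
  have := hb2 x y
  nlinarith [mul_le_mul_of_nonneg_left e1 (hC0 x), mul_le_mul_of_nonneg_left e2 (hC20 x)]

theorem LG.neg {F : X → Y → G} (h : LG F) : LG (fun x y => -F x y) := by
  obtain ⟨hc, C, r, hC, hC0, hb⟩ := h
  exact ⟨hc.neg, C, r, hC, hC0, fun x y => by rw [norm_neg]; exact hb x y⟩

theorem LG.sub {F F2 : X → Y → G} (h : LG F) (h2 : LG F2) : LG (fun x y => F x y - F2 x y) := by
  have := h.add h2.neg
  simpa [sub_eq_add_neg] using this

theorem LG.bilin (B : G →L[ℝ] H →L[ℝ] K) {F : X → Y → G} {F2 : X → Y → H}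
    (h : LG F) (h2 : LG F2) : LG (fun x y => B (F x y) (F2 x y)) := by
  obtain ⟨hc, C, r, hC, hC0, hb⟩ := h
  obtain ⟨hc2, C2, r2, hC2, hC20, hb2⟩ := h2
  refine ⟨(B.continuous.comp hc).clm_apply hc2, fun x => ‖B‖ * C x * C2 x, r + r2,
    (continuous_const.mul hC).mul hC2, fun x => mul_nonneg (mul_nonneg (norm_nonneg B) (hC0 x)) (hC20 x),
    fun x y => (B.le_opNorm₂ _ _).trans ?_⟩
  have := hC0 x
  have := hC20 x
  calc ‖B‖ * ‖F x y‖ * ‖F2 x y‖
      ≤ ‖B‖ * (C x * (1 + ‖y‖) ^ r) * (C2 x * (1 + ‖y‖) ^ r2) := by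
        gcongr
        · exact hb x y
        · exact hb2 x y
    _ = _ := by rw [pow_add]; ring

theorem LG.of_fst {f : X → G} (h : Continuous f) : LG (fun x (_ : Y) => f x) :=
  ⟨h.comp continuous_fst, fun x => ‖f x‖, 0, h.norm, fun _ => norm_nonneg _, fun x y => by simp⟩

theorem Cls0.lg {m : X → Y} {κ : X → ℝ} (hκ : Continuous κ) (hm : ∀ x, ‖m x‖ ≤ κ x)
    {F : X → Y → G} (h : Cls0 m F) : LG F := by
  obtain ⟨hc, C, r, hC, hb⟩ := h
  have hκ0 : ∀ x, 0 ≤ κ x := fun x => (norm_nonneg _).trans (hm x)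
  refine ⟨hc, fun x => C * (1 + κ x) ^ r, r, by fun_prop, fun x => ?_, fun x y => (hb x y).trans ?_⟩
  · have := hκ0 x
    positivity
  · have h1 : 1 + ‖y - m x‖ ≤ (1 + κ x) * (1 + ‖y‖) := by
      have := norm_sub_le y (m x)
      nlinarith [hm x, hκ0 x, norm_nonneg y, mul_nonneg (hκ0 x) (norm_nonneg y)]
    calc C * (1 + ‖y - m x‖) ^ r ≤ C * ((1 + κ x) * (1 + ‖y‖)) ^ r := by gcongr
      _ = _ := by rw [mul_pow]; ring

/-- a potential with its `x`-derivative and a lower bound -/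
structure Pot (U : X → Y → ℝ) (U1 : X → Y → X →L[ℝ] ℝ) (a : X → ℝ) (c : ℝ) : Prop where
  c_pos : 0 < c
  cont : Continuous (fun p : X × Y => U p.1 p.2)
  der : ∀ x y, HasFDerivAt (fun x => U x y) (U1 x y) x
  lg : LG U1
  a_cont : Continuous a
  low : ∀ x y, a x + c * ‖y‖ ^ 2 ≤ U x y

/-- `∫ e^{-U(x,y)} F(x,y) dy` -/
noncomputable def J (U : X → Y → ℝ) (F : X → Y → G) (x : X) : G := ∫ y, exp (-U x y) • F x y

theorem integrable_bound {c : ℝ} (hc : 0 < c) (r : ℕ) :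
    Integrable (fun y : Y => (1 + ‖y‖) ^ r * exp (-(c * ‖y‖ ^ 2))) := by
  obtain ⟨M, hM, hMb⟩ := Loc.one_add_pow_le (c / 2) (by positivity) r
  refine ((Loc.integrable_gauss (E := Y) (c / 2) (by positivity)).const_mul M).mono'
    (Continuous.aestronglyMeasurable (by fun_prop)) (Eventually.of_forall fun y => ?_)
  rw [norm_mul, norm_eq_abs, norm_eq_abs, abs_of_pos (exp_pos _),
    abs_of_nonneg (by positivity : (0 : ℝ) ≤ (1 + ‖y‖) ^ r)]
  calc (1 + ‖y‖) ^ r * exp (-(c * ‖y‖ ^ 2))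
      ≤ (M * exp (c / 2 * ‖y‖ ^ 2)) * exp (-(c * ‖y‖ ^ 2)) := by
        gcongr
        exact hMb _ (norm_nonneg _)
    _ = M * exp (-(c / 2 * ‖y‖ ^ 2)) := by
        rw [mul_assoc, ← exp_add]
        congr 2
        ring

variable {U : X → Y → ℝ} {U1 : X → Y → X →L[ℝ] ℝ} {a : X → ℝ} {c : ℝ}

theorem Pot.bound (h : Pot U U1 a c) {F : X → Y → G} (hF : LG F) (x₀ : X) :
    ∃ (b : Y → ℝ), Integrable b ∧ ∀ᶠ x in 𝓝 x₀, ∀ y, ‖exp (-U x y) • F x y‖ ≤ b y := by
  obtain ⟨hc, β, r, hβ, hβ0, hb⟩ := hF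
  refine ⟨fun y => ((β x₀ + 1) * exp (1 - a x₀)) * ((1 + ‖y‖) ^ r * exp (-(c * ‖y‖ ^ 2))),
    (integrable_bound h.c_pos r).const_mul _, ?_⟩
  have e1 : ∀ᶠ x in 𝓝 x₀, β x < β x₀ + 1 := hβ.continuousAt.eventually_lt_const (by linarith)
  have e2 : ∀ᶠ x in 𝓝 x₀, a x₀ - 1 < a x := h.a_cont.continuousAt.eventually_const_lt (by linarith)
  filter_upwards [e1, e2] with x h1 h2 y
  rw [norm_smul, norm_eq_abs, abs_of_pos (exp_pos _)]
  have h3 : exp (-U x y) ≤ exp (1 - a x₀) * exp (-(c * ‖y‖ ^ 2)) := by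
    rw [← exp_add]
    apply exp_le_exp.2
    linarith [h.low x y]
  have hb0 := hβ0 x
  calc exp (-U x y) * ‖F x y‖ ≤ (exp (1 - a x₀) * exp (-(c * ‖y‖ ^ 2))) * (β x * (1 + ‖y‖) ^ r) := by
        gcongr
        exact hb x y
    _ ≤ (exp (1 - a x₀) * exp (-(c * ‖y‖ ^ 2))) * ((β x₀ + 1) * (1 + ‖y‖) ^ r) := by gcongr
    _ = _ := by ring

theorem Pot.cont_snd (h : Pot U U1 a c) (x : X) : Continuous (fun y => U x y) :=
  h.cont.comp (by fun_prop : Continuous fun y => (x, y))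

theorem Pot.cont_fst (h : Pot U U1 a c) (y : Y) : Continuous (fun x => U x y) :=
  h.cont.comp (by fun_prop : Continuous fun x => (x, y))

theorem Pot.meas (h : Pot U U1 a c) {F : X → Y → G} (hF : LG F) (x : X) :
    AEStronglyMeasurable (fun y => exp (-U x y) • F x y) volume :=
  (Continuous.smul (continuous_exp.comp (h.cont_snd x).neg)
    (hF.1.comp (by fun_prop : Continuous fun y => (x, y)))).aestronglyMeasurable

theorem Pot.integrable (h : Pot U U1 a c) {F : X → Y → G} (hF : LG F) (x : X) :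
    Integrable (fun y => exp (-U x y) • F x y) := by
  obtain ⟨b, hb, hbb⟩ := h.bound hF x
  exact hb.mono' (h.meas hF x) (Eventually.of_forall hbb.self_of_nhds)

theorem Pot.J_continuous (h : Pot U U1 a c) {F : X → Y → G} (hF : LG F) : Continuous (J U F) := by
  rw [continuous_iff_continuousAt]
  intro x₀
  obtain ⟨b, hb, hbb⟩ := h.bound hF x₀
  refine continuousAt_of_dominated (Eventually.of_forall fun x => h.meas hF x)
    (hbb.mono fun x hx => Eventually.of_forall hx) hb (Eventually.of_forall fun y => ?_)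
  exact ((continuous_exp.comp (h.cont_fst y).neg).smul
    (hF.1.comp (by fun_prop : Continuous fun x => (x, y)))).continuousAt

/-- `F' - U1 ⊗ F` -/
noncomputable def D (U1 : X → Y → X →L[ℝ] ℝ) (F : X → Y → G) (F' : X → Y → X →L[ℝ] G) (x : X) (y : Y) :
    X →L[ℝ] G := F' x y - (U1 x y).smulRight (F x y)

theorem smulRight_eq (u : X →L[ℝ] ℝ) (g : G) :
    u.smulRight g = ContinuousLinearMap.smulRightL ℝ X G u g := rfl

theorem LG.D {F : X → Y → G} {F' : X → Y → X →L[ℝ] G} (h1 : LG U1) (hF : LG F) (hF' : LG F') :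
    LG (D U1 F F') :=
  hF'.sub (LG.bilin (ContinuousLinearMap.smulRightL ℝ X G) h1 hF)

theorem Pot.J_hasFDerivAt (h : Pot U U1 a c) {F : X → Y → G} {F' : X → Y → X →L[ℝ] G}
    (hF : LG F) (hF' : LG F') (hd : ∀ x y, HasFDerivAt (fun x => F x y) (F' x y) x) (x₀ : X) :
    HasFDerivAt (J U F) (J U (D U1 F F') x₀) x₀ := by
  have hD := h.lg.D hF hF'
  obtain ⟨b, hb, hbb⟩ := h.bound hD x₀
  refine hasFDerivAt_integral_of_dominated_of_fderiv_le (F' := fun x y => exp (-U x y) • D U1 F F' x y)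
    hbb (Eventually.of_forall fun x => h.meas hF x) (h.integrable hF x₀) (h.meas hD x₀)
    (Eventually.of_forall fun y x hx => hx y) hb (Eventually.of_forall fun y x _ => ?_)
  have e1 : HasFDerivAt (fun x => exp (-U x y)) (exp (-U x y) • (-(U1 x y))) x := (h.der x y).neg.exp
  refine (e1.smul (hd x y)).congr_fderiv ?_
  ext v
  simp only [D, ContinuousLinearMap.add_apply, ContinuousLinearMap.smul_apply,
    ContinuousLinearMap.sub_apply, ContinuousLinearMap.smulRight_apply,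
    ContinuousLinearMap.neg_apply, smul_eq_mul]
  module

end Vale.Agent.P227.M.RegGen
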