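import Vale.Agent.P227.M.SC2.RegGenB

/-! # Closure of bounded derivatives of order `≥ 2` under marginals, part C: the recursion. -/

open MeasureTheory Real Filter Topology
open scoped ContDiff

set_option linter.unusedSectionVars false

namespace Vale.Agent.P227.M.RegGen

variable {X Y : Type} [NormedAddCommGroup X] [NormedSpace ℝ X]
  [NormedAddCommGroup Y] [InnerProductSpace ℝ Y] [FiniteDimensional ℝ Y] [MeasurableSpace Y]
  [BorelSpace Y]

variable {G H : Type} [NormedAddCommGroup G] [NormedSpace ℝ G] [NormedAddCommGroup H]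
  [NormedSpace ℝ H]

/-- two-sided Gaussian comparison around `m x` -/
structure Cmp (U : X → Y → ℝ) (m : X → Y) (c K : ℝ) : Prop where
  c_pos : 0 < c
  K_pos : 0 < K
  low : ∀ x y, U x (m x) + c * ‖y - m x‖ ^ 2 ≤ U x y
  up : ∀ x y, U x y ≤ U x (m x) + K * ‖y - m x‖ ^ 2

/-- normalised potential -/
structure NPot (U : X → Y → ℝ) (R : X → Y → X →L[ℝ] ℝ) (a : X → ℝ) (m : X → Y) (κ : X → ℝ)
    (c c' K : ℝ) : Prop where
  pot : Pot U R a c
  cmp : Cmp U m c' K
  κ_cont : Continuous κ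
  m_le : ∀ x, ‖m x‖ ≤ κ x
  norm : ∀ x, ∫ y, exp (-U x y) = 1

variable {U : X → Y → ℝ} {R : X → Y → X →L[ℝ] ℝ} {a κ : X → ℝ} {m : X → Y} {c c' K : ℝ}

theorem NPot.int_bound (h : NPot U R a m κ c c' K) (r : ℕ) : ∃ C : ℝ, 0 ≤ C ∧ ∀ x,
    Integrable (fun y => exp (-U x y) * (1 + ‖y - m x‖) ^ r) ∧
      ∫ y, exp (-U x y) * (1 + ‖y - m x‖) ^ r ≤ C := by
  have hgK : Integrable (fun y : Y => exp (-(K * ‖y‖ ^ 2))) := Loc.integrable_gauss _ h.cmp.K_pos
  have hBpos : 0 < ∫ y : Y, exp (-(K * ‖y‖ ^ 2)) := integral_exp_pos hgK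
  set BK := ∫ y : Y, exp (-(K * ‖y‖ ^ 2)) with hBK
  have hA := integrable_bound (Y := Y) h.cmp.c_pos r
  set A := ∫ y : Y, (1 + ‖y‖) ^ r * exp (-(c' * ‖y‖ ^ 2)) with hAdef
  have hA0 : 0 ≤ A := integral_nonneg fun y => by positivity
  refine ⟨A / BK, by positivity, fun x => ?_⟩
  have hx0 : exp (-U x (m x)) * BK ≤ 1 := by
    rw [← h.norm x, hBK, ← integral_const_mul, ← integral_sub_right_eq_self
      (fun y : Y => exp (-U x (m x)) * exp (-(K * ‖y‖ ^ 2))) (m x)]
    refine integral_mono ((hgK.const_mul _).comp_sub_right (m x)) ?_ fun y => ?_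
    · exact .of_integral_ne_zero (by rw [h.norm x]; exact one_ne_zero)
    · show exp (-U x (m x)) * exp (-(K * ‖y - m x‖ ^ 2)) ≤ exp (-U x y)
      rw [← exp_add]
      exact exp_le_exp.2 (by linarith [h.cmp.up x y])
  have hx1 : exp (-U x (m x)) ≤ 1 / BK := by rwa [le_div_iff₀ hBpos]
  have hi : Integrable (fun y => exp (-U x (m x)) *
      ((1 + ‖y - m x‖) ^ r * exp (-(c' * ‖y - m x‖ ^ 2)))) :=
    (hA.comp_sub_right (m x)).const_mul _
  have hle : ∀ y, exp (-U x y) * (1 + ‖y - m x‖) ^ r ≤ exp (-U x (m x)) *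
      ((1 + ‖y - m x‖) ^ r * exp (-(c' * ‖y - m x‖ ^ 2))) := by
    intro y
    have e : exp (-U x y) ≤ exp (-U x (m x)) * exp (-(c' * ‖y - m x‖ ^ 2)) := by
      rw [← exp_add]
      exact exp_le_exp.2 (by linarith [h.cmp.low x y])
    calc exp (-U x y) * (1 + ‖y - m x‖) ^ r
        ≤ (exp (-U x (m x)) * exp (-(c' * ‖y - m x‖ ^ 2))) * (1 + ‖y - m x‖) ^ r := by gcongr
      _ = _ := by ring
  have hint : Integrable (fun y => exp (-U x y) * (1 + ‖y - m x‖) ^ r) := by
    refine hi.mono' ?_ (Eventually.of_forall fun y => ?_)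
    · have := h.pot.cont_snd x
      exact Continuous.aestronglyMeasurable (by fun_prop)
    · rw [norm_eq_abs, abs_of_nonneg (by positivity)]
      exact hle y
  refine ⟨hint, (integral_mono hint hi hle).trans ?_⟩
  rw [integral_const_mul, integral_sub_right_eq_self
    (fun y : Y => (1 + ‖y‖) ^ r * exp (-(c' * ‖y‖ ^ 2))) (m x), ← hAdef]
  calc exp (-U x (m x)) * A ≤ 1 / BK * A := by gcongr
    _ = A / BK := by ring

theorem NPot.J_bd0 (h : NPot U R a m κ c c' K) {F : X → Y → G} (hF : Cls0 m F) :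
    Continuous (J U F) ∧ ∃ C : ℝ, ∀ x, ‖J U F x‖ ≤ C := by
  refine ⟨h.pot.J_continuous (hF.lg h.κ_cont h.m_le), ?_⟩
  obtain ⟨hc, C, r, hC, hb⟩ := hF
  obtain ⟨C2, hC2, hb2⟩ := h.int_bound r
  refine ⟨C * C2, fun x => ?_⟩
  obtain ⟨hi, hle⟩ := hb2 x
  refine (norm_integral_le_of_norm_le (hi.const_mul C) (Eventually.of_forall fun y => ?_)).trans ?_
  · rw [norm_smul, norm_eq_abs, abs_of_pos (exp_pos _)]
    calc exp (-U x y) * ‖F x y‖ ≤ exp (-U x y) * (C * (1 + ‖y - m x‖) ^ r) := by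
          gcongr
          exact hb x y
      _ = _ := by ring
  · rw [integral_const_mul]
    gcongr

theorem Cls.sub {j : ℕ} {F F2 : X → Y → G} (h : Cls m j F) (h2 : Cls m j F2) :
    Cls m j (fun x y => F x y - F2 x y) := by
  have := h.add (h2.clm (-(ContinuousLinearMap.id ℝ G)))
  simpa [sub_eq_add_neg] using this

theorem LG.smulRight {F : X → Y → G} (h1 : LG R) (hF : LG F) :
    LG (fun x y => (R x y).smulRight (F x y)) :=
  LG.bilin (ContinuousLinearMap.smulRightL ℝ X G) h1 hF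

theorem int_smulRight_zero [CompleteSpace G] {V : X → Y → ℝ} {x : X} {g : G}
    (hiR : Integrable (fun y => exp (-V x y) • R x y))
    (hiQ : Integrable (fun y => exp (-V x y) • (R x y).smulRight g))
    (h0 : ∫ y, exp (-V x y) • R x y = 0) : ∫ y, exp (-V x y) • (R x y).smulRight g = 0 := by
  ext1 v
  rw [ContinuousLinearMap.integral_apply hiQ]
  have e7 : ∀ y, (exp (-V x y) • (R x y).smulRight g) v = ((exp (-V x y) • R x y) v) • g := by
    intro y
    simp only [ContinuousLinearMap.smulRight_apply, ContinuousLinearMap.smul_apply,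
      smul_eq_mul, mul_smul]
  rw [integral_congr_ae (Eventually.of_forall e7), integral_smul_const,
    ← ContinuousLinearMap.integral_apply hiR, h0]
  simp

theorem J_D_eq [CompleteSpace G] {V : X → Y → ℝ} {x : X} {g : G} {F F2 : X → Y → G}
    {F' : X → Y → X →L[ℝ] G} (hF2 : ∀ y, F x y = F2 x y + g)
    (hiR : Integrable (fun y => exp (-V x y) • R x y))
    (hiQ : Integrable (fun y => exp (-V x y) • (R x y).smulRight g))
    (hiD : Integrable (fun y => exp (-V x y) • D R F2 F' x y))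
    (h0 : ∫ y, exp (-V x y) • R x y = 0) : J V (D R F F') x = J V (D R F2 F') x := by
  have e0 : ∀ y, exp (-V x y) • D R F F' x y =
      exp (-V x y) • D R F2 F' x y - exp (-V x y) • (R x y).smulRight g := by
    intro y
    rw [← smul_sub]
    congr 1
    ext v
    simp only [D, ContinuousLinearMap.sub_apply, ContinuousLinearMap.smulRight_apply]
    rw [hF2, smul_add]
    abel
  rw [J, integral_congr_ae (Eventually.of_forall e0), integral_sub hiD hiQ,
    int_smulRight_zero hiR hiQ h0, sub_zero]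
  rfl

theorem Cls.D {j : ℕ} {F : X → Y → G} {F' : X → Y → X →L[ℝ] G} (hR : Cls m j R)
    (hF : Cls m j F) (hF' : Cls m j F') : Cls m j (D R F F') :=
  hF'.sub (Cls.bilin (ContinuousLinearMap.smulRightL ℝ X G) hR hF)

theorem NPot.J_bd (h : NPot U R a m κ c c' K) {j : ℕ} : Cls m j R →
    ∀ {G : Type} [NormedAddCommGroup G] [NormedSpace ℝ G] {F : X → Y → G},
      Cls m (j + 1) F → Bd (j + 1) (J U F) := by
  induction j with
  | zero =>
    intro hR G _ _ F hF
    have hm := hF.mono_succ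
    obtain ⟨h0, F', hF', h1⟩ := hF
    refine ⟨h.J_bd0 h0, J U (D R F F'), fun x => ?_, h.J_bd0 (Cls.D (j := 0) hR hm h1)⟩
    exact h.pot.J_hasFDerivAt (h0.lg h.κ_cont h.m_le) (Cls0.lg h.κ_cont h.m_le h1) hF' x
  | succ j ih =>
    intro hR G _ _ F hF
    have hm := hF.mono_succ
    obtain ⟨h0, F', hF', h1⟩ := hF
    refine ⟨h.J_bd0 h0, J U (D R F F'), fun x => ?_, ih hR.mono_succ (Cls.D hR hm h1)⟩
    exact h.pot.J_hasFDerivAt (h0.lg h.κ_cont h.m_le) (Cls0.lg h.κ_cont h.m_le h1.zero) hF' x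

theorem NPot.main (h : NPot U R a m κ c c' K) {U2 : X → Y → X →L[ℝ] X →L[ℝ] ℝ}
    (hU2 : ∀ j, Cls m j U2) (hR0 : Cls0 m R)
    (hder : ∀ x y, HasFDerivAt (fun x => R x y) (U2 x y - J U (D R R U2) x) x) :
    ∀ j, Bd j (J U (D R R U2)) := by
  have step : ∀ j, Cls m j R → Bd j (J U (D R R U2)) := by
    intro j hR
    rcases j with _ | i
    · exact h.J_bd0 (Cls.D (j := 0) hR hR (hU2 0))
    · exact h.J_bd hR.mono_succ (Cls.D hR hR (hU2 _))
  have hR : ∀ j, Cls m j R := by
    intro j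
    induction j with
    | zero => exact hR0
    | succ j ih => exact ⟨hR0, _, hder, (hU2 j).sub (step j ih).cls⟩
  exact fun j => step j (hR j)

/-! ### normalisation -/

variable {U1 : X → Y → X →L[ℝ] ℝ} {U2 : X → Y → X →L[ℝ] X →L[ℝ] ℝ}

noncomputable def ZZ (U : X → Y → ℝ) (x : X) : ℝ := ∫ y, exp (-U x y)

noncomputable def ww (U : X → Y → ℝ) (x : X) : ℝ := -Real.log (∫ y, exp (-U x y))

noncomputable def w1 (U : X → Y → ℝ) (U1 : X → Y → X →L[ℝ] ℝ) (x : X) : X →L[ℝ] ℝ :=
  (ZZ U x)⁻¹ • J U U1 x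

theorem ZZ_eq (U : X → Y → ℝ) : ZZ U = J U (fun _ _ => (1 : ℝ)) := by
  funext x
  simp [ZZ, J]

theorem Pot.ZZ_pos (h : Pot U U1 a c) (x : X) : 0 < ZZ U x := by
  refine integral_exp_pos ?_
  have := h.integrable (LG.of_fst (f := fun _ => (1 : ℝ)) continuous_const) x
  simpa using this

theorem Pot.ZZ_cont (h : Pot U U1 a c) : Continuous (ZZ U) := by
  rw [ZZ_eq]
  exact h.J_continuous (LG.of_fst (f := fun _ => (1 : ℝ)) continuous_const)

theorem Pot.ZZ_der (h : Pot U U1 a c) (x : X) : HasFDerivAt (ZZ U) (-J U U1 x) x := by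
  rw [ZZ_eq]
  have := h.J_hasFDerivAt (LG.of_fst (f := fun _ => (1 : ℝ)) continuous_const)
    (F' := fun _ _ => 0) (LG.of_fst (f := fun _ => (0 : X →L[ℝ] ℝ)) continuous_const)
    (fun x y => hasFDerivAt_const _ _) x
  refine this.congr_fderiv ?_
  rw [J, J, ← integral_neg]
  congr 1
  funext y
  ext v
  simp [D]

theorem Pot.ww_cont (h : Pot U U1 a c) : Continuous (ww U) :=
  (Continuous.log h.ZZ_cont fun x => (h.ZZ_pos x).ne').neg

theorem Pot.w1_cont (h : Pot U U1 a c) : Continuous (w1 U U1) :=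
  (h.ZZ_cont.inv₀ fun x => (h.ZZ_pos x).ne').smul (h.J_continuous h.lg)

theorem Pot.ww_der (h : Pot U U1 a c) (x : X) : HasFDerivAt (ww U) (w1 U U1 x) x := by
  have := ((h.ZZ_der x).log (h.ZZ_pos x).ne').neg
  refine this.congr_fderiv ?_
  rw [w1, smul_neg, neg_neg]

theorem Pot.exp_ww (h : Pot U U1 a c) (x : X) : exp (ww U x) = (ZZ U x)⁻¹ := by
  rw [ww, Real.exp_neg]
  congr 1
  exact Real.exp_log (h.ZZ_pos x)

theorem Pot.npot (h : Pot U U1 a c) (hc : Cmp U m c' K) (hκ : Continuous κ) (hm : ∀ x, ‖m x‖ ≤ κ x) :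
    NPot (fun x y => U x y - ww U x) (fun x y => U1 x y - w1 U U1 x) (fun x => a x - ww U x) m κ
      c c' K where
  pot :=
    { c_pos := h.c_pos
      cont := h.cont.sub (h.ww_cont.comp continuous_fst)
      der := fun x y => (h.der x y).sub (h.ww_der x)
      lg := h.lg.sub (LG.of_fst h.w1_cont)
      a_cont := h.a_cont.sub h.ww_cont
      low := fun x y => by linarith [h.low x y] }
  cmp :=
    { c_pos := hc.c_pos
      K_pos := hc.K_pos
      low := fun x y => by linarith [hc.low x y]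
      up := fun x y => by linarith [hc.up x y] }
  κ_cont := hκ
  m_le := hm
  norm := fun x => by
    have e : (fun y => exp (-(U x y - ww U x))) = fun y => exp (ww U x) * exp (-U x y) := by
      funext y
      rw [← exp_add]
      congr 1
      ring
    rw [e, integral_const_mul, h.exp_ww]
    exact inv_mul_cancel₀ (h.ZZ_pos x).ne'

theorem Pot.J_norm (h : Pot U U1 a c) (F : X → Y → G) (x : X) :
    J (fun x y => U x y - ww U x) F x = (ZZ U x)⁻¹ • J U F x := by
  rw [J, J, ← h.exp_ww, ← integral_smul]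
  congr 1
  funext y
  rw [smul_smul, ← exp_add]
  congr 2
  ring

theorem Pot.final (h : Pot U U1 a c) (hc : Cmp U m c' K) (hκ : Continuous κ)
    (hm : ∀ x, ‖m x‖ ≤ κ x) {L : ℝ} (hL0 : 0 ≤ L) (hL : ∀ x y y', ‖U1 x y - U1 x y'‖ ≤ L * ‖y - y'‖)
    (hU1 : ∀ x y, HasFDerivAt (fun x => U1 x y) (U2 x y) x) (hU2 : ∀ j, Cls m j U2) :
    ∃ w2 : X → X →L[ℝ] X →L[ℝ] ℝ, (∀ x, HasFDerivAt (w1 U U1) (w2 x) x) ∧ (∀ j, Bd j w2) ∧
      ∀ x v b, (∀ y, U2 x y v v ≤ b) → w2 x v v ≤ b := by
  have hN := h.npot hc hκ hm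
  set V : X → Y → ℝ := fun x y => U x y - ww U x with hV
  set R : X → Y → X →L[ℝ] ℝ := fun x y => U1 x y - w1 U U1 x with hRdef
  have hw1 : w1 U U1 = J V U1 := by
    funext x
    rw [h.J_norm U1 x]
    rfl
  have hi : ∀ x, Integrable (fun y => exp (-V x y)) := fun x =>
    .of_integral_ne_zero (by rw [hN.norm x]; exact one_ne_zero)
  have hiU : ∀ x, Integrable (fun y => exp (-V x y) • U1 x y) := fun x => hN.pot.integrable h.lg x
  -- `R` is in the class
  have hR0 : Cls0 m R := by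
    obtain ⟨C, hC, hb⟩ := hN.int_bound 1
    refine ⟨h.lg.1.sub (h.w1_cont.comp continuous_fst), L * (1 + C), 1, by positivity, fun x y => ?_⟩
    have e : R x y = ∫ y', exp (-V x y') • (U1 x y - U1 x y') := by
      have e1 : (fun y' => exp (-V x y') • (U1 x y - U1 x y')) =
          fun y' => exp (-V x y') • U1 x y - exp (-V x y') • U1 x y' := by
        funext y'; rw [smul_sub]
      rw [e1, integral_sub ((hi x).smul_const _) (hiU x), integral_smul_const, hN.norm x, one_smul]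
      show U1 x y - w1 U U1 x = _
      rw [hw1]
      rfl
    rw [e]
    obtain ⟨hb1, hb2⟩ := hb x
    have hbi : Integrable (fun y' => L * (‖y - m x‖ * exp (-V x y') +
        exp (-V x y') * (1 + ‖y' - m x‖) ^ 1)) :=
      (((hi x).const_mul _).add hb1).const_mul L
    refine (norm_integral_le_of_norm_le hbi (Eventually.of_forall fun y' => ?_)).trans ?_
    · rw [norm_smul, norm_eq_abs, abs_of_pos (exp_pos _)]
      have t1 : ‖y - y'‖ ≤ ‖y - m x‖ + ‖y' - m x‖ := by
        calc ‖y - y'‖ = ‖(y - m x) - (y' - m x)‖ := by congr 1; abel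
          _ ≤ _ := norm_sub_le _ _
      have t2 := hL x y y'
      have t3 := exp_pos (-V x y')
      have t4 : L * ‖y - y'‖ ≤ L * (‖y - m x‖ + ‖y' - m x‖) := by gcongr
      have t5 : exp (-V x y') * ‖U1 x y - U1 x y'‖ ≤
          exp (-V x y') * (L * (‖y - m x‖ + ‖y' - m x‖)) := by
        gcongr
        exact t2.trans t4
      have t6 : 0 ≤ L * exp (-V x y') := by positivity
      rw [pow_one]
      nlinarith
    · rw [integral_const_mul, integral_add ((hi x).const_mul _) hb1, integral_const_mul, hN.norm x]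
      have t7 : 0 ≤ ‖y - m x‖ := norm_nonneg _
      rw [pow_one, mul_assoc]
      gcongr
      nlinarith [mul_nonneg hC t7]
  have hlgR : LG R := hR0.lg hκ hm
  have hlgU2 : LG U2 := (hU2 0).lg hκ hm
  -- `∫ e^{-V} R = 0`
  have hER : ∀ x, ∫ y, exp (-V x y) • R x y = 0 := by
    intro x
    have e1 : (fun y => exp (-V x y) • R x y) =
        fun y => exp (-V x y) • U1 x y - exp (-V x y) • w1 U U1 x := by
      funext y'
      exact smul_sub _ _ _
    rw [e1, integral_sub (hiU x) ((hi x).smul_const _), integral_smul_const, hN.norm x, one_smul]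
    rw [hw1]
    exact sub_self _
  have hw1d : ∀ x, HasFDerivAt (w1 U U1) (J V (D R R U2) x) x := by
    intro x
    have h1 : HasFDerivAt (J V U1) (J V (D R U1 U2) x) x :=
      hN.pot.J_hasFDerivAt h.lg hlgU2 hU1 x
    rw [hw1]
    refine h1.congr_fderiv ?_
    exact J_D_eq (fun y => by rw [hRdef]; simp) (hN.pot.integrable hlgR x)
      (hN.pot.integrable (LG.smulRight hlgR (LG.of_fst h.w1_cont)) x)
      (hN.pot.integrable (hlgR.D hlgR hlgU2) x) (hER x)
  refine ⟨J V (D R R U2), hw1d, hN.main hU2 hR0 fun x y => (hU1 x y).sub (hw1d x), ?_⟩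
  intro x v b hb
  have hiD : Integrable (fun y => exp (-V x y) • D R R U2 x y) :=
    hN.pot.integrable (hlgR.D hlgR hlgU2) x
  have e1 : J V (D R R U2) x v v = ∫ y, (exp (-V x y) • D R R U2 x y) v v := by
    rw [J, ContinuousLinearMap.integral_apply hiD, ContinuousLinearMap.integral_apply]
    exact (ContinuousLinearMap.apply ℝ _ v).integrable_comp hiD
  have hiv : Integrable (fun y => (exp (-V x y) • D R R U2 x y) v v) :=
    (ContinuousLinearMap.apply ℝ ℝ v).integrable_comp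
      ((ContinuousLinearMap.apply ℝ (X →L[ℝ] ℝ) v).integrable_comp hiD)
  rw [e1]
  calc ∫ y, (exp (-V x y) • D R R U2 x y) v v ≤ ∫ y, exp (-V x y) * b := by
        refine integral_mono hiv ((hi x).mul_const b) fun y => ?_
        have t1 := hb y
        have t2 := exp_pos (-V x y)
        simp only [D, ContinuousLinearMap.sub_apply, ContinuousLinearMap.smulRight_apply,
          ContinuousLinearMap.smul_apply, smul_eq_mul]
        nlinarith [mul_nonneg t2.le (mul_self_nonneg (R x y v)), mul_le_mul_of_nonneg_left t1 t2.le]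
    _ = b := by rw [integral_mul_const, hN.norm x, one_mul]

end Vale.Agent.P227.M.RegGen
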