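import Vale.Agent.P227.M.SC2.RegGenC

/-! # Closure of bounded derivatives of order `≥ 2` under marginals, part D: the theorem. -/

open MeasureTheory Real Filter Topology
open scoped ContDiff

set_option linter.unusedSectionVars false

namespace Vale.Agent.P227.M.RegGen

variable {X Y : Type} [NormedAddCommGroup X] [NormedSpace ℝ X]
  [NormedAddCommGroup Y] [NormedSpace ℝ Y]

variable {G H : Type} [NormedAddCommGroup G] [NormedSpace ℝ G]

theorem pder_bd {Φ : X × Y → G} (hs : ContDiff ℝ ∞ Φ) {k : ℕ}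
    (hb : ∃ B : ℝ, ∀ p, ‖iteratedFDeriv ℝ (k + 1) Φ p‖ ≤ B) :
    ∃ B : ℝ, ∀ p, ‖iteratedFDeriv ℝ k
      (fun p => (fderiv ℝ Φ p).comp (ContinuousLinearMap.inl ℝ X Y)) p‖ ≤ B := by
  set L : ((X × Y) →L[ℝ] G) →L[ℝ] (X →L[ℝ] G) :=
    (ContinuousLinearMap.compL ℝ X (X × Y) G).flip (ContinuousLinearMap.inl ℝ X Y) with hL
  have h1 : ContDiff ℝ ∞ (fderiv ℝ Φ) := hs.fderiv_right (by simp)
  have e : (fun p => (fderiv ℝ Φ p).comp (ContinuousLinearMap.inl ℝ X Y)) = L ∘ (fderiv ℝ Φ) := by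
    funext p; rfl
  rw [e]
  obtain ⟨B, hB⟩ := hb
  refine ⟨‖L‖ * B, fun p => ?_⟩
  refine (L.norm_iteratedFDeriv_comp_left (h1.contDiffAt.of_le (m := (k : WithTop ℕ∞))
    (by exact_mod_cast le_top)) le_rfl).trans ?_
  gcongr
  rw [norm_iteratedFDeriv_fderiv]
  exact hB p

theorem pder_contDiff {Φ : X × Y → G} (hs : ContDiff ℝ ∞ Φ) :
    ContDiff ℝ ∞ (fun p => (fderiv ℝ Φ p).comp (ContinuousLinearMap.inl ℝ X Y)) := by
  have h1 : ContDiff ℝ ∞ (fderiv ℝ Φ) := hs.fderiv_right (by simp)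
  exact h1.clm_comp contDiff_const

theorem pder_der {Φ : X × Y → G} (hs : ContDiff ℝ ∞ Φ) (x : X) (y : Y) :
    HasFDerivAt (fun x => Φ (x, y)) ((fderiv ℝ Φ (x, y)).comp (ContinuousLinearMap.inl ℝ X Y)) x :=
  ((hs.differentiable (by simp) (x, y)).hasFDerivAt).comp x (hasFDerivAt_prodMk_left x y)

/-- one-variable Taylor bounds -/
theorem taylor_low {f f1 f2 : ℝ → ℝ} (h1 : ∀ t, HasDerivAt f (f1 t) t)
    (h2 : ∀ t, HasDerivAt f1 (f2 t) t) {b : ℝ} (hb : ∀ t, b ≤ f2 t) :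
    f 0 + f1 0 + b / 2 ≤ f 1 := by
  have g1 : ∀ t, HasDerivAt (fun t => f1 t - b * t) (f2 t - b) t := fun t => by
    exact ((h2 t).sub ((hasDerivAt_id t).const_mul b)).congr_deriv (by simp)
  have m1 : Monotone (fun t => f1 t - b * t) :=
    monotone_of_hasDerivAt_nonneg g1 fun t => by
      have := hb t
      simp only [Pi.zero_apply]
      linarith
  have g0 : ∀ t, HasDerivAt (fun t => f t - f1 0 * t - b / 2 * t ^ 2) (f1 t - f1 0 - b * t) t :=
    fun t => by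
      have := ((h1 t).sub ((hasDerivAt_id t).const_mul (f1 0))).sub
        (((hasDerivAt_id t).pow 2).const_mul (b / 2))
      refine this.congr_deriv ?_
      simp
      ring
  have m0 : MonotoneOn (fun t => f t - f1 0 * t - b / 2 * t ^ 2) (Set.Ici 0) := by
    refine monotoneOn_of_hasDerivWithinAt_nonneg (convex_Ici 0)
      (fun t _ => (g0 t).continuousAt.continuousWithinAt) (fun t _ => (g0 t).hasDerivWithinAt)
      fun t ht => ?_
    rw [interior_Ici] at ht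
    have := m1 (le_of_lt ht)
    simp only [mul_zero, sub_zero] at this
    linarith
  have := m0 (Set.self_mem_Ici) (Set.mem_Ici.2 zero_le_one) (zero_le_one (α := ℝ))
  simp only [mul_zero, sub_zero, mul_one, one_pow, ne_eq, OfNat.ofNat_ne_zero,
    not_false_eq_true, zero_pow] at this
  linarith

theorem taylor_up {f f1 f2 : ℝ → ℝ} (h1 : ∀ t, HasDerivAt f (f1 t) t)
    (h2 : ∀ t, HasDerivAt f1 (f2 t) t) {b : ℝ} (hb : ∀ t, f2 t ≤ b) :
    f 1 ≤ f 0 + f1 0 + b / 2 := by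
  have := taylor_low (fun t => (h1 t).neg) (fun t => (h2 t).neg) (b := -b)
    (fun t => neg_le_neg (hb t))
  simp only [Pi.neg_apply] at this
  linarith

section thm

variable {U : X × Y → ℝ} {c : ℝ}

theorem line_der (hs : ContDiff ℝ ∞ U) (x : X) (y h : Y) (t : ℝ) :
    HasDerivAt (fun t : ℝ => U (x, y + t • h)) (fderiv ℝ U (x, y + t • h) (0, h)) t := by
  have e : HasDerivAt (fun t : ℝ => ((x, y + t • h) : X × Y)) (0, h) t := by
    have := (hasDerivAt_const t x).prodMk (((hasDerivAt_id t).smul_const h).const_add y)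
    simpa using this
  exact (hs.differentiable (by simp) _).hasFDerivAt.comp_hasDerivAt t e

theorem line_der2 (hs : ContDiff ℝ ∞ U) (x : X) (y h : Y) (t : ℝ) :
    HasDerivAt (fun t : ℝ => fderiv ℝ U (x, y + t • h) (0, h))
      (fderiv ℝ (fderiv ℝ U) (x, y + t • h) (0, h) (0, h)) t := by
  have e : HasDerivAt (fun t : ℝ => ((x, y + t • h) : X × Y)) (0, h) t := by
    have := (hasDerivAt_const t x).prodMk (((hasDerivAt_id t).smul_const h).const_add y)
    simpa using this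
  have h1 : ContDiff ℝ ∞ (fderiv ℝ U) := hs.fderiv_right (by simp)
  have h2 := (h1.differentiable (by simp) _).hasFDerivAt.comp_hasDerivAt t e
  exact (ContinuousLinearMap.apply ℝ ℝ ((0, h) : X × Y)).hasFDerivAt.comp_hasDerivAt t h2

theorem quad_low (hs : ContDiff ℝ ∞ U)
    (hconv : ∀ p h, c * ‖h‖ ^ 2 ≤ fderiv ℝ (fderiv ℝ U) p (0, h) (0, h)) (x : X) (y h : Y) :
    U (x, y) + fderiv ℝ U (x, y) (0, h) + c * ‖h‖ ^ 2 / 2 ≤ U (x, y + h) := by
  have := taylor_low (line_der hs x y h) (line_der2 hs x y h) (b := c * ‖h‖ ^ 2)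
    (fun t => hconv _ _)
  simpa using this

theorem quad_up (hs : ContDiff ℝ ∞ U) {B : ℝ}
    (hB : ∀ p h, fderiv ℝ (fderiv ℝ U) p (0, h) (0, h) ≤ B * ‖h‖ ^ 2) (x : X) (y h : Y) :
    U (x, y + h) ≤ U (x, y) + fderiv ℝ U (x, y) (0, h) + B * ‖h‖ ^ 2 / 2 := by
  have := taylor_up (line_der hs x y h) (line_der2 hs x y h) (b := B * ‖h‖ ^ 2)
    (fun t => hB _ _)
  simpa using this

/-- the facts needed by the recursion -/
theorem pack [ProperSpace Y] (hs : ContDiff ℝ ∞ U)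
    (hb : ∀ k : ℕ, 2 ≤ k → ∃ B : ℝ, ∀ p, ‖iteratedFDeriv ℝ k U p‖ ≤ B) (hc : 0 < c)
    (hconv : ∀ p h, c * ‖h‖ ^ 2 ≤ fderiv ℝ (fderiv ℝ U) p (0, h) (0, h)) :
    ∃ (a : X → ℝ) (m : X → Y) (κ : X → ℝ) (K L : ℝ), Continuous a ∧ Continuous κ ∧ 0 < K ∧ 0 ≤ L ∧
      (∀ x y, a x + c / 4 * ‖y‖ ^ 2 ≤ U (x, y)) ∧ (∀ x, ‖m x‖ ≤ κ x) ∧
      (∀ x y, U (x, m x) + c / 2 * ‖y - m x‖ ^ 2 ≤ U (x, y)) ∧
      (∀ x y, U (x, y) ≤ U (x, m x) + K * ‖y - m x‖ ^ 2) ∧
      (∀ x y y', ‖(fderiv ℝ U (x, y)).comp (ContinuousLinearMap.inl ℝ X Y) -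
        (fderiv ℝ U (x, y')).comp (ContinuousLinearMap.inl ℝ X Y)‖ ≤ L * ‖y - y'‖) ∧
      (∀ j, Cls m j (fun x y => (fderiv ℝ (fun p => (fderiv ℝ U p).comp
        (ContinuousLinearMap.inl ℝ X Y)) (x, y)).comp (ContinuousLinearMap.inl ℝ X Y))) := by
  obtain ⟨B2, hB2⟩ := hb 2 le_rfl
  have hB2' : ∀ p, ‖fderiv ℝ (fderiv ℝ U) p‖ ≤ B2 := by
    intro p
    rw [← norm_iteratedFDeriv_one, norm_iteratedFDeriv_fderiv]
    exact hB2 p
  have hB2up : ∀ p h, fderiv ℝ (fderiv ℝ U) p (0, h) (0, h) ≤ |B2| * ‖h‖ ^ 2 := by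
    intro p h
    have e1 := (fderiv ℝ (fderiv ℝ U) p).le_opNorm₂ (0, h) (0, h)
    have e2 : ‖((0, h) : X × Y)‖ = ‖h‖ := by simp
    rw [e2] at e1
    have e3 := (le_abs_self _).trans (e1.trans_eq' (Real.norm_eq_abs _).symm)
    have e4 := (hB2' p).trans (le_abs_self B2)
    calc _ ≤ ‖fderiv ℝ (fderiv ℝ U) p‖ * ‖h‖ * ‖h‖ := e3
      _ ≤ |B2| * ‖h‖ * ‖h‖ := by gcongr
      _ = _ := by ring
  -- lower bound
  set q : X → ℝ := fun x => ‖(fderiv ℝ U (x, 0)).comp (ContinuousLinearMap.inr ℝ X Y)‖ with hq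
  have h1 : ContDiff ℝ ∞ (fderiv ℝ U) := hs.fderiv_right (by simp)
  have hqc : Continuous q := by
    have : Continuous fun x : X => fderiv ℝ U (x, (0 : Y)) := h1.continuous.comp (by fun_prop)
    exact (this.clm_comp continuous_const).norm
  have hlow : ∀ x y, (U (x, 0) - (q x) ^ 2 / c) + c / 4 * ‖y‖ ^ 2 ≤ U (x, y) := by
    intro x y
    have e1 := quad_low hs hconv x 0 y
    rw [zero_add] at e1
    have e2 : |fderiv ℝ U (x, 0) (0, y)| ≤ q x * ‖y‖ := by
      have := ((fderiv ℝ U (x, 0)).comp (ContinuousLinearMap.inr ℝ X Y)).le_opNorm y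
      simpa [hq] using this
    have e3 := (abs_le.1 e2).1
    have e4 : 0 ≤ (q x / c - ‖y‖ / 2) ^ 2 * c := by positivity
    have e5 : (q x / c - ‖y‖ / 2) ^ 2 * c = (q x) ^ 2 / c - q x * ‖y‖ + c / 4 * ‖y‖ ^ 2 := by
      field_simp
      ring
    nlinarith
  -- minimiser
  have hex : ∀ x : X, ∃ z : Y, ∀ y, U (x, z) ≤ U (x, y) := by
    intro x
    have hcont : Continuous fun y : Y => U (x, y) := hs.continuous.comp (by fun_prop)
    refine hcont.exists_forall_le ?_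
    refine tendsto_atTop_mono (hlow x) ?_
    refine tendsto_atTop_add_const_left _ _ ?_
    exact ((tendsto_pow_atTop two_ne_zero).comp (tendsto_norm_cocompact_atTop (E := Y))).const_mul_atTop
      (by positivity : 0 < c / 4)
  choose m hm using hex
  have hmκ : ∀ x, ‖m x‖ ≤ 2 * q x / c := by
    intro x
    have e1 := (hlow x (m x)).trans (hm x 0)
    have e2 : c / 4 * ‖m x‖ ^ 2 ≤ (q x) ^ 2 / c := by linarith
    have e3 : ‖m x‖ ^ 2 ≤ (2 * q x / c) ^ 2 := by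
      have : (2 * q x / c) ^ 2 = (q x) ^ 2 / c * (4 / c) := by field_simp; ring
      rw [this]
      calc ‖m x‖ ^ 2 = c / 4 * ‖m x‖ ^ 2 * (4 / c) := by field_simp
        _ ≤ _ := by gcongr
    have hq0 : 0 ≤ q x := norm_nonneg _
    exact (abs_le_of_sq_le_sq' e3 (by positivity)).2
  have hm0 : ∀ x h, fderiv ℝ U (x, m x) (0, h) = 0 := by
    intro x h
    have e1 : HasFDerivAt (fun y => U (x, y))
        ((fderiv ℝ U (x, m x)).comp (ContinuousLinearMap.inr ℝ X Y)) (m x) :=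
      ((hs.differentiable (by simp) (x, m x)).hasFDerivAt).comp (m x)
        (hasFDerivAt_prodMk_right x (m x))
    have e2 : IsLocalMin (fun y => U (x, y)) (m x) := Eventually.of_forall (hm x)
    have e3 := e2.hasFDerivAt_eq_zero e1
    have e4 := DFunLike.congr_fun e3 h
    simpa using e4
  -- Lipschitz
  obtain ⟨L, hL⟩ := pder_bd hs (k := 1) (hb 2 le_rfl)
  have hΦ1 := pder_contDiff hs
  have hLip : ∀ x y y', ‖(fderiv ℝ U (x, y)).comp (ContinuousLinearMap.inl ℝ X Y) -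
        (fderiv ℝ U (x, y')).comp (ContinuousLinearMap.inl ℝ X Y)‖ ≤ |L| * ‖y - y'‖ := by
    intro x y y'
    have e1 := Convex.norm_image_sub_le_of_norm_fderiv_le (𝕜 := ℝ) (s := Set.univ)
      (f := fun p => (fderiv ℝ U p).comp (ContinuousLinearMap.inl ℝ X Y)) (C := |L|)
      (fun p _ => hΦ1.differentiable (by simp) p) (fun p _ => by
        rw [← norm_iteratedFDeriv_one]
        exact (hL p).trans (le_abs_self L)) convex_univ (Set.mem_univ (x, y')) (Set.mem_univ (x, y))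
    simpa using e1
  refine ⟨fun x => U (x, 0) - (q x) ^ 2 / c, m, fun x => 2 * q x / c, |B2| / 2 + 1, |L|,
    (hs.continuous.comp (by fun_prop)).sub ((hqc.pow 2).div_const c),
    (hqc.const_mul 2).div_const c, by positivity, abs_nonneg _, hlow, hmκ, ?_, ?_, hLip, ?_⟩
  · intro x y
    have := quad_low hs hconv x (m x) (y - m x)
    rw [hm0, add_sub_cancel] at this
    linarith
  · intro x y
    have := quad_up hs hB2up x (m x) (y - m x)
    rw [hm0, add_sub_cancel] at this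
    nlinarith [sq_nonneg ‖y - m x‖]
  · intro j
    exact BdJ.cls (BdJ.pder hΦ1 fun k hk => pder_bd hs (hb (k + 1) (by omega)))

end thm

section final

variable {X Y : Type} [NormedAddCommGroup X] [NormedSpace ℝ X]
  [NormedAddCommGroup Y] [InnerProductSpace ℝ Y] [FiniteDimensional ℝ Y] [MeasurableSpace Y]
  [BorelSpace Y] {U : X × Y → ℝ} {c : ℝ}

/-- marginals of potentials with bounded derivatives of order `≥ 2` -/
theorem marg_main (hs : ContDiff ℝ ∞ U)
    (hb : ∀ k : ℕ, 2 ≤ k → ∃ B : ℝ, ∀ p, ‖iteratedFDeriv ℝ k U p‖ ≤ B) (hc : 0 < c)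
    (hconv : ∀ p h, c * ‖h‖ ^ 2 ≤ fderiv ℝ (fderiv ℝ U) p (0, h) (0, h)) :
    (∀ x, Integrable fun y => exp (-U (x, y))) ∧
    ContDiff ℝ ∞ (fun x => -Real.log (∫ y, exp (-U (x, y)))) ∧
    (∀ k : ℕ, 2 ≤ k → ∃ B : ℝ, ∀ x,
      ‖iteratedFDeriv ℝ k (fun x => -Real.log (∫ y, exp (-U (x, y)))) x‖ ≤ B) ∧
    (∀ x v b, (∀ y, fderiv ℝ (fderiv ℝ U) (x, y) (v, 0) (v, 0) ≤ b) →
      fderiv ℝ (fderiv ℝ (fun x => -Real.log (∫ y, exp (-U (x, y))))) x v v ≤ b) := by
  obtain ⟨a, m, κ, K, L, hac, hκc, hK, hL0, hlow, hmκ, hcl, hcu, hL, hcls⟩ := pack hs hb hc hconv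
  set V : X → Y → ℝ := fun x y => U (x, y) with hV
  set U1 : X → Y → X →L[ℝ] ℝ := fun x y => (fderiv ℝ U (x, y)).comp (ContinuousLinearMap.inl ℝ X Y)
    with hU1
  have hU1c : Continuous fun p : X × Y => U1 p.1 p.2 := (pder_contDiff hs).continuous
  have hpot : Pot V U1 a (c / 4) :=
    { c_pos := by positivity
      cont := hs.continuous
      der := fun x y => pder_der hs x y
      lg := by
        refine ⟨hU1c, fun x => ‖U1 x 0‖ + L, 1,
          (hU1c.comp (by fun_prop : Continuous fun x : X => (x, (0 : Y)))).norm.add continuous_const,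
          fun x => by positivity, fun x y => ?_⟩
        have e1 := hL x y 0
        rw [sub_zero] at e1
        have e2 : ‖U1 x y‖ ≤ ‖U1 x 0‖ + L * ‖y‖ := by
          have := norm_sub_norm_le (U1 x y) (U1 x 0)
          linarith
        rw [pow_one]
        nlinarith [norm_nonneg (U1 x 0), norm_nonneg y, mul_nonneg (norm_nonneg (U1 x 0)) (norm_nonneg y)]
      a_cont := hac
      low := hlow }
  have hcmp : Cmp V m (c / 2) K := ⟨by positivity, hK, hcl, hcu⟩
  obtain ⟨w2, hw2, hbd, hup⟩ := hpot.final hcmp hκc hmκ hL0 hL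
    (U2 := fun x y => (fderiv ℝ (fun p => (fderiv ℝ U p).comp
        (ContinuousLinearMap.inl ℝ X Y)) (x, y)).comp (ContinuousLinearMap.inl ℝ X Y))
    (fun x y => pder_der (pder_contDiff hs) x y) hcls
  have hww : (fun x => -Real.log (∫ y, exp (-U (x, y)))) = ww V := rfl
  rw [hww]
  have ew1 : fderiv ℝ (ww V) = w1 V U1 := funext fun x => (hpot.ww_der x).fderiv
  have ew2 : fderiv ℝ (w1 V U1) = w2 := funext fun x => (hw2 x).fderiv
  refine ⟨fun x => ?_, ?_, ?_, ?_⟩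
  · have := hpot.integrable (LG.of_fst (f := fun _ => (1 : ℝ)) continuous_const) x
    simpa using this
  · rw [contDiff_infty]
    intro j
    have c2 : ContDiff ℝ j w2 := (hbd j).contDiff
    have c1 : ContDiff ℝ (j + 1) (w1 V U1) := by
      rw [contDiff_succ_iff_fderiv]
      exact ⟨fun x => (hw2 x).differentiableAt, by simp, by rw [ew2]; exact c2⟩
    have c0 : ContDiff ℝ (j + 1 + 1) (ww V) := by
      rw [contDiff_succ_iff_fderiv]
      exact ⟨fun x => (hpot.ww_der x).differentiableAt, by simp, by rw [ew1]; exact c1⟩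
    exact c0.of_le (by norm_cast; omega)
  · intro k hk
    obtain ⟨j, rfl⟩ : ∃ j, k = j + 1 + 1 := ⟨k - 2, by omega⟩
    obtain ⟨B, hB⟩ := (hbd j).bound
    refine ⟨B, fun x => ?_⟩
    rw [← norm_iteratedFDeriv_fderiv, ew1, ← norm_iteratedFDeriv_fderiv, ew2]
    exact hB x
  · intro x v b hb'
    rw [ew1, ew2]
    refine hup x v b fun y => ?_
    refine le_trans (le_of_eq ?_) (hb' y)
    have h1 : ContDiff ℝ ∞ (fderiv ℝ U) := hs.fderiv_right (by simp)
    have e1 : HasFDerivAt (fun p => (fderiv ℝ U p).comp (ContinuousLinearMap.inl ℝ X Y))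
        (((ContinuousLinearMap.compL ℝ X (X × Y) ℝ).flip (ContinuousLinearMap.inl ℝ X Y)).comp
          (fderiv ℝ (fderiv ℝ U) (x, y))) (x, y) :=
      ((ContinuousLinearMap.compL ℝ X (X × Y) ℝ).flip
        (ContinuousLinearMap.inl ℝ X Y)).hasFDerivAt.comp (x, y)
        (h1.differentiable (by simp) (x, y)).hasFDerivAt
    rw [e1.fderiv]
    rfl

end final

end Vale.Agent.P227.M.RegGen
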