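import Vale.Agent.P227.M.SC2.RegHeatC
import Vale.Agent.P227.M.SC2.HeatDef
import Vale.Agent.P227.M.LK.LogConvE

/-! # P227/M/SC2 (helper619): the heated potential of a regular potential is regular.

Main results: `reg_hG` (noise space `EuclideanSpace ℝ (Fin d)`), `reg_heat` (`heat W P`),
`reg_heat1` (noise on the line). -/

open MeasureTheory Set Real
open scoped Topology

namespace Vale.Agent.P227.M.RegHeat

set_option linter.unusedSectionVars false

section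
variable {n : ℕ} {G : Type} [NormedAddCommGroup G] [InnerProductSpace ℝ G]
  [FiniteDimensional ℝ G] [MeasurableSpace G] [BorelSpace G]
variable {W : E n → ℝ} {c C : ℝ}

/-- strong convexity of a regular potential -/
theorem strong_conv (hW : Reg W c C) (a b : E n) {s t : ℝ} (hs : 0 ≤ s) (ht : 0 ≤ t)
    (hst : s + t = 1) :
    W (s • a + t • b) + c / 2 * (s * t) * ‖a - b‖ ^ 2 ≤ s * W a + t * W b := by
  obtain ⟨B, hB⟩ : ∃ B : ℕ → ℝ, ∀ k, 2 ≤ k → ∀ x, ‖iteratedFDeriv ℝ k W x‖ ≤ B k := by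
    have h := hW.bdd
    choose! B hB using h
    exact ⟨B, hB⟩
  set m := s • a + t • b with hm
  have hcls := rem_cls hW hB m
  have e1 : a - m = t • (a - b) := by
    have : s = 1 - t := by linarith
    rw [hm, this]
    module
  have e2 : b - m = -(s • (a - b)) := by
    have : t = 1 - s := by linarith
    rw [hm, this]
    module
  have h1 := hcls.low (a - m)
  have h2 := hcls.low (b - m)
  unfold rem at h1 h2
  rw [add_sub_cancel] at h1 h2
  rw [e1] at h1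
  rw [e2] at h2
  rw [norm_neg] at h2
  rw [norm_smul, Real.norm_of_nonneg ht] at h1
  rw [norm_smul, Real.norm_of_nonneg hs] at h2
  rw [map_smul, smul_eq_mul] at h1
  rw [map_neg, map_smul, smul_eq_mul] at h2
  set D := fderiv ℝ W m (a - b)
  have h3 : s * (c / 2 * (t * ‖a - b‖) ^ 2) + t * (c / 2 * (s * ‖a - b‖) ^ 2) ≤
      s * (W a - W m - t * D) + t * (W b - W m - -(s * D)) :=
    add_le_add (mul_le_mul_of_nonneg_left h1 hs) (mul_le_mul_of_nonneg_left h2 ht)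
  have h4 : s * (c / 2 * (t * ‖a - b‖) ^ 2) + t * (c / 2 * (s * ‖a - b‖) ^ 2) =
      c / 2 * (s * t) * ‖a - b‖ ^ 2 := by
    have : s * (c / 2 * (t * ‖a - b‖) ^ 2) + t * (c / 2 * (s * ‖a - b‖) ^ 2) =
      c / 2 * (s * t) * ‖a - b‖ ^ 2 * (s + t) := by ring
    rw [this, hst, mul_one]
  have h5 : s * (W a - W m - t * D) + t * (W b - W m - -(s * D)) =
      s * W a + t * W b - (s + t) * W m := by ring
  rw [h4, h5, hst, one_mul] at h3
  linarith

/-- the constant of the heated potential -/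
noncomputable def cP (c : ℝ) (P : G →L[ℝ] E n) : ℝ := c / (1 + c * ‖P‖ ^ 2)

theorem cP_pos (hc : 0 < c) (P : G →L[ℝ] E n) : 0 < cP c P := by
  unfold cP
  positivity

/-- the quadratic form inequality -/
theorem quad_ineq (hc : 0 < c) (P : G →L[ℝ] E n) (y : E n) (z : G) :
    cP c P / 2 * ‖y‖ ^ 2 ≤ c / 2 * ‖y + P z‖ ^ 2 + ‖z‖ ^ 2 / 2 := by
  have h1 : ‖y‖ ≤ ‖y + P z‖ + ‖P‖ * ‖z‖ := by
    calc ‖y‖ = ‖(y + P z) - P z‖ := by rw [add_sub_cancel_right]
      _ ≤ ‖y + P z‖ + ‖P z‖ := norm_sub_le _ _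
      _ ≤ _ := by gcongr; exact P.le_opNorm z
  set a := ‖y + P z‖
  set p := ‖P‖
  set b := ‖z‖
  have ha : 0 ≤ a := norm_nonneg _
  have hp : 0 ≤ p := norm_nonneg _
  have hb : 0 ≤ b := norm_nonneg _
  have h2 : ‖y‖ ^ 2 ≤ (a + p * b) ^ 2 := pow_le_pow_left₀ (norm_nonneg _) h1 2
  have h3 : c * (a + p * b) ^ 2 ≤ (c * a ^ 2 + b ^ 2) * (1 + c * p ^ 2) := by
    nlinarith [sq_nonneg (c * p * a - b)]
  have hd : 0 < 1 + c * p ^ 2 := by positivity
  have h4 : cP c P * ‖y‖ ^ 2 ≤ c * a ^ 2 + b ^ 2 := by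
    unfold cP
    rw [div_mul_eq_mul_div, div_le_iff₀ hd]
    refine le_trans ?_ h3
    exact mul_le_mul_of_nonneg_left h2 hc.le
  linarith

/-- the joint potential is convex -/
theorem joint_conv (hW : Reg W c C) (P : G →L[ℝ] E n) (y0 y1 : E n) (z0 z1 : G) {s t : ℝ}
    (hs : 0 ≤ s) (ht : 0 ≤ t) (hst : s + t = 1) :
    W ((s • y0 + t • y1) + P (s • z0 + t • z1)) + ‖s • z0 + t • z1‖ ^ 2 / 2 -
        cP c P / 2 * ‖s • y0 + t • y1‖ ^ 2 ≤
      s * (W (y0 + P z0) + ‖z0‖ ^ 2 / 2 - cP c P / 2 * ‖y0‖ ^ 2) +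
      t * (W (y1 + P z1) + ‖z1‖ ^ 2 / 2 - cP c P / 2 * ‖y1‖ ^ 2) := by
  have hq : ∀ {H : Type} [NormedAddCommGroup H] [InnerProductSpace ℝ H] (u v : H),
      ‖s • u + t • v‖ ^ 2 = s * ‖u‖ ^ 2 + t * ‖v‖ ^ 2 - s * t * ‖u - v‖ ^ 2 := by
    intro H _ _ u v
    rw [norm_add_sq_real, norm_sub_sq_real, norm_smul, norm_smul, Real.norm_of_nonneg hs,
      Real.norm_of_nonneg ht, real_inner_smul_left, real_inner_smul_right]
    have : t = 1 - s := by linarith
    rw [this]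
    ring
  have h1 := strong_conv hW (y0 + P z0) (y1 + P z1) hs ht hst
  have e1 : s • (y0 + P z0) + t • (y1 + P z1) = (s • y0 + t • y1) + P (s • z0 + t • z1) := by
    rw [map_add, map_smul, map_smul]
    module
  have e2 : y0 + P z0 - (y1 + P z1) = (y0 - y1) + P (z0 - z1) := by
    rw [map_sub]; abel
  rw [e1, e2] at h1
  rw [hq z0 z1, hq y0 y1]
  have h2 := quad_ineq hW.c_pos P (y0 - y1) (z0 - z1)
  have h3 := mul_le_mul_of_nonneg_left h2 (mul_nonneg hs ht)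
  nlinarith

/-- integrability -/
theorem int_heat (hW : Reg W c C) (P : G →L[ℝ] E n) (y : E n) :
    Integrable (fun z : G => Real.exp (-W (y + P z) - ‖z‖ ^ 2 / 2)) := by
  obtain ⟨A, hA⟩ := hW.quad_lower
  refine Integrable.mono' ((gw_int (G := G)).const_mul (Real.exp A)) ?_ (ae_of_all _ fun z => ?_)
  · have := hW.cont
    exact (by fun_prop : Continuous fun z : G => Real.exp (-W (y + P z) - ‖z‖ ^ 2 / 2)).aestronglyMeasurable
  · rw [Real.norm_of_nonneg (Real.exp_pos _).le]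
    unfold gw
    rw [← Real.exp_add]
    refine Real.exp_le_exp.2 ?_
    have h1 := hA (y + P z)
    have h2 : 0 ≤ c / 4 * ‖y + P z‖ ^ 2 := by have := hW.c_pos; positivity
    linarith

/-- Prekopa property of the noise space -/
def PK (G : Type) [NormedAddCommGroup G] [InnerProductSpace ℝ G]
    [MeasurableSpace G] [BorelSpace G] [FiniteDimensional ℝ G] : Prop :=
  ∀ (n : ℕ) (F : E n → G → ℝ),
    (∀ y0 y1 x0 x1, ∀ s t : ℝ, 0 < s → 0 < t → s + t = 1 →
      F (s • y0 + t • y1) (s • x0 + t • x1) ≤ s * F y0 x0 + t * F y1 x1) →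
    (∀ y, Measurable (F y)) → (∀ y, Integrable (fun x => Real.exp (- F y x))) →
    ConvexOn ℝ univ (fun y => - Real.log (∫ x, Real.exp (- F y x)))

theorem pk_euc (d : ℕ) : PK (EuclideanSpace ℝ (Fin d)) := fun _ F h1 h2 h3 =>
  Vale.Agent.P227.M.LKE.convexOn_neg_log_integral_exp_neg F h1 h2 h3

theorem hG_conv (hG0 : PK G) (hW : Reg W c C) (P : G →L[ℝ] E n) :
    ConvexOn ℝ univ (fun x => hG W P x - cP c P / 2 * ‖x‖ ^ 2) := by
  have hcont := hW.cont
  have hexp : ∀ y : E n, (fun z : G => Real.exp (-(W (y + P z) + ‖z‖ ^ 2 / 2 - cP c P / 2 * ‖y‖ ^ 2))) =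
      fun z => Real.exp (cP c P / 2 * ‖y‖ ^ 2) * Real.exp (-W (y + P z) - ‖z‖ ^ 2 / 2) := by
    intro y
    funext z
    rw [← Real.exp_add]
    congr 1
    ring
  have h := hG0 n (fun y z => W (y + P z) + ‖z‖ ^ 2 / 2 - cP c P / 2 * ‖y‖ ^ 2)
    (fun y0 y1 x0 x1 s t hs ht hst => joint_conv hW P y0 y1 x0 x1 hs.le ht.le hst)
    (fun y => (by fun_prop :
      Continuous fun z : G => W (y + P z) + ‖z‖ ^ 2 / 2 - cP c P / 2 * ‖y‖ ^ 2).measurable)
    (fun y => by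
      rw [hexp y]
      exact (int_heat hW P y).const_mul _)
  have heq : (fun y : E n => - Real.log (∫ z : G, Real.exp
      (-(W (y + P z) + ‖z‖ ^ 2 / 2 - cP c P / 2 * ‖y‖ ^ 2)))) =
      fun x => hG W P x - cP c P / 2 * ‖x‖ ^ 2 := by
    funext y
    rw [hexp y, integral_const_mul, Real.log_mul (Real.exp_pos _).ne'
      (integral_exp_pos (int_heat hW P y)).ne', Real.log_exp]
    unfold hG
    ring
  rw [heq] at h
  exact h

/-- from convexity to the Hessian -/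
theorem qf_lower_of_conv {f : E n → ℝ} (hf : ContDiff ℝ 2 f) {c' : ℝ}
    (h : ConvexOn ℝ univ (fun x => f x - c' / 2 * ‖x‖ ^ 2)) (x v : E n) :
    c' * ‖v‖ ^ 2 ≤ qf (hess f x) v := by
  have hd : Differentiable ℝ f := hf.differentiable (by norm_num)
  have h1 : Differentiable ℝ (fderiv ℝ f) :=
    (hf.fderiv_right (m := 1) (by norm_num)).differentiable (by norm_num)
  have hline : ∀ t : ℝ, HasDerivAt (fun t : ℝ => x + t • v) v t := fun t => by
    simpa using ((hasDerivAt_id t).smul_const v).const_add x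
  have hg : ∀ t : ℝ, HasDerivAt (fun t : ℝ => f (x + t • v)) (fderiv ℝ f (x + t • v) v) t := fun t =>
    (hd (x + t • v)).hasFDerivAt.comp_hasDerivAt t (hline t)
  have hg2 : ∀ t : ℝ, HasDerivAt (fun t : ℝ => fderiv ℝ f (x + t • v) v)
      ((fderiv ℝ (fderiv ℝ f) (x + t • v) v) v) t := fun t => by
    have h := (h1 (x + t • v)).hasFDerivAt.comp_hasDerivAt t (hline t)
    have h' := h.clm_apply (hasDerivAt_const t v)
    simpa using h'
  have hn : ∀ t : ℝ, ‖x + t • v‖ ^ 2 = ‖x‖ ^ 2 + 2 * t * inner ℝ x v + t ^ 2 * ‖v‖ ^ 2 := by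
    intro t
    rw [norm_add_sq_real, real_inner_smul_right, norm_smul, mul_pow, Real.norm_eq_abs, sq_abs]
    ring
  set φ : ℝ → ℝ := fun t => f (x + t • v) - c' / 2 * ‖x + t • v‖ ^ 2 with hφ
  have hφ1 : ∀ t : ℝ, HasDerivAt φ (fderiv ℝ f (x + t • v) v -
      c' / 2 * (2 * inner ℝ x v + 2 * t * ‖v‖ ^ 2)) t := by
    intro t
    have h3 : HasDerivAt (fun t : ℝ => c' / 2 * (‖x‖ ^ 2 + 2 * t * inner ℝ x v + t ^ 2 * ‖v‖ ^ 2))
        (c' / 2 * (2 * inner ℝ x v + 2 * t * ‖v‖ ^ 2)) t := by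
      have h4 := ((((hasDerivAt_id t).const_mul 2).mul_const (inner ℝ x v)).const_add
        (‖x‖ ^ 2)).add (((hasDerivAt_id t).pow 2).mul_const (‖v‖ ^ 2))
      refine (h4.const_mul (c' / 2)).congr_deriv ?_
      simp
    have h5 : φ = fun t => f (x + t • v) -
        c' / 2 * (‖x‖ ^ 2 + 2 * t * inner ℝ x v + t ^ 2 * ‖v‖ ^ 2) := by
      funext t
      rw [hφ]
      simp only
      rw [hn t]
    rw [h5]
    exact (hg t).sub h3
  have hφc : ConvexOn ℝ univ φ := by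
    refine ⟨convex_univ, fun a _ b _ s t hs ht hst => ?_⟩
    have h6 := h.2 (mem_univ (x + a • v)) (mem_univ (x + b • v)) hs ht hst
    have h7 : s • (x + a • v) + t • (x + b • v) = x + (s • a + t • b) • v := by
      have : t = 1 - s := by linarith
      rw [this, smul_eq_mul, smul_eq_mul]
      module
    rw [h7] at h6
    exact h6
  have hmono : Monotone (fun t : ℝ => fderiv ℝ f (x + t • v) v -
      c' / 2 * (2 * inner ℝ x v + 2 * t * ‖v‖ ^ 2)) := by
    have h8 := hφc.monotoneOn_deriv (fun t _ => (hφ1 t).differentiableAt)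
    have h9 : deriv φ = fun t : ℝ => fderiv ℝ f (x + t • v) v -
      c' / 2 * (2 * inner ℝ x v + 2 * t * ‖v‖ ^ 2) := by
      funext t
      exact (hφ1 t).deriv
    rw [h9] at h8
    exact monotoneOn_univ.1 h8
  have hdd : HasDerivAt (fun t : ℝ => fderiv ℝ f (x + t • v) v -
      c' / 2 * (2 * inner ℝ x v + 2 * t * ‖v‖ ^ 2))
      ((fderiv ℝ (fderiv ℝ f) (x + (0 : ℝ) • v) v) v - c' * ‖v‖ ^ 2) 0 := by
    have h3 : HasDerivAt (fun t : ℝ => c' / 2 * (2 * inner ℝ x v + 2 * t * ‖v‖ ^ 2))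
        (c' * ‖v‖ ^ 2) 0 := by
      have h4 := ((((hasDerivAt_id (0 : ℝ)).const_mul 2).mul_const (‖v‖ ^ 2)).const_add
        (2 * inner ℝ x v)).const_mul (c' / 2)
      refine h4.congr_deriv ?_
      ring
    exact (hg2 0).sub h3
  have hfin := hdd.nonneg_of_monotone hmono
  rw [zero_smul, add_zero, ← qf_hess_eq hf] at hfin
  linarith

theorem qf_upper_of_bdd {f : E n → ℝ} (hf : ContDiff ℝ 2 f) {M : ℝ}
    (h : ∀ x, ‖iteratedFDeriv ℝ 2 f x‖ ≤ M) (x v : E n) : qf (hess f x) v ≤ M * ‖v‖ ^ 2 := by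
  rw [qf_hess_eq hf]
  have h1 := norm_fderiv_fderiv_le h x
  have h2 := (fderiv ℝ (fderiv ℝ f) x).le_opNorm v
  have h3 := (fderiv ℝ (fderiv ℝ f) x v).le_opNorm v
  have h4 := le_abs_self ((fderiv ℝ (fderiv ℝ f) x v) v)
  rw [← Real.norm_eq_abs] at h4
  calc (fderiv ℝ (fderiv ℝ f) x v) v ≤ ‖fderiv ℝ (fderiv ℝ f) x v‖ * ‖v‖ := h4.trans h3
    _ ≤ (‖fderiv ℝ (fderiv ℝ f) x‖ * ‖v‖) * ‖v‖ := by gcongr
    _ ≤ (M * ‖v‖) * ‖v‖ := by gcongr
    _ = M * ‖v‖ ^ 2 := by ring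

/-- **the heated potential is regular** -/
theorem reg_hG (hG0 : PK G) (hW : Reg W c C) (P : G →L[ℝ] E n) :
    ∃ C' : ℝ, Reg (hG W P) (cP c P) C' := by
  have hs := hG_contDiff hW P
  have hs2 : ContDiff ℝ 2 (hG W P) := hs.of_le (by norm_cast)
  obtain ⟨M, hM⟩ := hG_bdd hW P 2 le_rfl
  exact ⟨M, cP_pos hW.c_pos P, hs, fun x v => qf_lower_of_conv hs2 (hG_conv hG0 hW P) x v,
    fun x v => qf_upper_of_bdd hs2 hM x v, fun k hk => hG_bdd hW P k hk⟩

end

section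
variable {n : ℕ} {W : E n → ℝ} {c C : ℝ}

/-- `heat W P` is regular -/
theorem reg_heat (hW : Reg W c C) (P : E n →L[ℝ] E n) : ∃ c' C' : ℝ, Reg (heat W P) c' C' := by
  obtain ⟨C', h⟩ := reg_hG (pk_euc n) hW P
  exact ⟨_, C', h⟩

end

end Vale.Agent.P227.M.RegHeat
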