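import Vale.Agent.P227.M.Bas

/-! # P227/M/SC2 (helper619): Gaussian averages of `C_b^∞` functions and uniform bounds, part A. -/

open MeasureTheory Set Real
open scoped Topology

namespace Vale.Agent.P227.M.RegHeat

set_option linter.unusedSectionVars false

/-- Gaussian weight -/
noncomputable def gw {G : Type} [NormedAddCommGroup G] (z : G) : ℝ := Real.exp (-(‖z‖ ^ 2 / 2))

section
variable {n : ℕ} {G : Type} [NormedAddCommGroup G] [InnerProductSpace ℝ G]
  [FiniteDimensional ℝ G] [MeasurableSpace G] [BorelSpace G]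

theorem gw_pos (z : G) : 0 < gw z := Real.exp_pos _

theorem gw_cont : Continuous (gw : G → ℝ) := by unfold gw; fun_prop

theorem gw_int : Integrable (gw : G → ℝ) := by
  have h := GaussianFourier.integrable_cexp_neg_mul_sq_norm_add (V := G) (b := (1 / 2 : ℂ))
    (by norm_num) 0 0
  refine h.norm.congr (ae_of_all _ fun x => ?_)
  simp only [Complex.norm_exp, gw]
  congr 1
  have : (-(1 / 2 : ℂ) * (‖x‖ : ℂ) ^ 2 + 0 * ((inner ℝ (0 : G) x : ℝ) : ℂ)) =
      ((-(‖x‖ ^ 2 / 2) : ℝ) : ℂ) := by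
    push_cast; ring
  rw [this, Complex.ofReal_re]

variable {F : Type} [NormedAddCommGroup F] [NormedSpace ℝ F]

/-- Gaussian average of translates -/
noncomputable def avg (P : G →L[ℝ] E n) (f : E n → F) (y : E n) : F :=
  ∫ z : G, gw z • f (y + P z)

/-- smooth with all derivatives bounded -/
structure CB (f : E n → F) : Prop where
  smooth : ContDiff ℝ (⊤ : ℕ∞) f
  bdd : ∀ k : ℕ, ∃ M : ℝ, ∀ x, ‖iteratedFDeriv ℝ k f x‖ ≤ M

theorem CB.fder {f : E n → F} (h : CB f) : CB (fderiv ℝ f) := by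
  refine ⟨h.smooth.fderiv_right (m := ((⊤ : ℕ∞) : WithTop ℕ∞)) (by simp), fun k => ?_⟩
  obtain ⟨M, hM⟩ := h.bdd (k + 1)
  exact ⟨M, fun x => by rw [norm_iteratedFDeriv_fderiv]; exact hM x⟩

theorem CB.norm_le {f : E n → F} (h : CB f) : ∃ M : ℝ, ∀ x, ‖f x‖ ≤ M := by
  obtain ⟨M, hM⟩ := h.bdd 0
  exact ⟨M, fun x => by simpa [norm_iteratedFDeriv_zero] using hM x⟩

theorem avg_integrable (P : G →L[ℝ] E n) {f : E n → F} (hf : Continuous f) {M : ℝ}
    (hb : ∀ x, ‖f x‖ ≤ M) (y : E n) : Integrable (fun z : G => gw z • f (y + P z)) := by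
  refine Integrable.mono' (gw_int.mul_const M) ?_ (ae_of_all _ fun z => ?_)
  · exact (gw_cont.smul (hf.comp (by fun_prop))).aestronglyMeasurable
  · rw [norm_smul, Real.norm_of_nonneg (gw_pos z).le]
    exact mul_le_mul_of_nonneg_left (hb _) (gw_pos z).le

theorem avg_hasFDerivAt (P : G →L[ℝ] E n) {f : E n → F} (h : CB f) (y : E n) :
    HasFDerivAt (avg P f) (avg P (fderiv ℝ f) y) y := by
  obtain ⟨M0, hM0⟩ := h.norm_le
  obtain ⟨M1, hM1⟩ := h.fder.norm_le
  refine hasFDerivAt_integral_of_dominated_of_fderiv_le (𝕜 := ℝ)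
    (F := fun y z => gw z • f (y + P z))
    (F' := fun y z => gw z • fderiv ℝ f (y + P z))
    (bound := fun z => gw z * M1) (s := univ) Filter.univ_mem ?_
    (avg_integrable P h.smooth.continuous hM0 y) ?_ ?_ ?_ ?_
  · exact Filter.Eventually.of_forall fun w =>
      (avg_integrable P h.smooth.continuous hM0 w).aestronglyMeasurable
  · exact (avg_integrable P h.fder.smooth.continuous hM1 y).aestronglyMeasurable
  · refine ae_of_all _ fun z w _ => ?_
    rw [norm_smul, Real.norm_of_nonneg (gw_pos z).le]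
    exact mul_le_mul_of_nonneg_left (hM1 _) (gw_pos z).le
  · exact gw_int.mul_const M1
  · refine ae_of_all _ fun z w _ => ?_
    have h1 : HasFDerivAt f (fderiv ℝ f (w + P z)) (w + P z) :=
      (h.smooth.differentiable (by simp) _).hasFDerivAt
    have h2 : HasFDerivAt (fun w : E n => w + P z) (ContinuousLinearMap.id ℝ (E n)) w :=
      (hasFDerivAt_id w).add_const _
    have h3 := (h1.comp w h2).const_smul (gw z)
    rw [ContinuousLinearMap.comp_id] at h3
    exact h3

theorem avg_contDiff_nat (P : G →L[ℝ] E n) (k : ℕ) :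
    ∀ {F : Type} [NormedAddCommGroup F] [NormedSpace ℝ F] (f : E n → F), CB f →
      ContDiff ℝ k (avg P f) := by
  induction k with
  | zero =>
    intro F _ _ f hf
    rw [Nat.cast_zero, contDiff_zero]
    exact continuous_iff_continuousAt.2 fun y => (avg_hasFDerivAt P hf y).continuousAt
  | succ k ih =>
    intro F _ _ f hf
    rw [Nat.cast_succ, contDiff_succ_iff_hasFDerivAt]
    exact ⟨avg P (fderiv ℝ f), ih _ hf.fder, fun y => avg_hasFDerivAt P hf y⟩

theorem avg_contDiff (P : G →L[ℝ] E n) {f : E n → F} (hf : CB f) :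
    ContDiff ℝ (⊤ : ℕ∞) (avg P f) :=
  contDiff_infty.2 fun k => avg_contDiff_nat P k f hf

theorem avg_iter_le (P : G →L[ℝ] E n) (k : ℕ) :
    ∀ {F : Type} [NormedAddCommGroup F] [NormedSpace ℝ F] (f : E n → F), CB f →
      ∀ M : ℝ, (∀ x, ‖iteratedFDeriv ℝ k f x‖ ≤ M) → ∀ y,
      ‖iteratedFDeriv ℝ k (avg P f) y‖ ≤ (∫ z : G, gw z) * M := by
  induction k with
  | zero =>
    intro F _ _ f hf M hM y
    rw [norm_iteratedFDeriv_zero]
    have hM' : ∀ x, ‖f x‖ ≤ M := fun x => by simpa [norm_iteratedFDeriv_zero] using hM x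
    rw [← integral_mul_const]
    refine norm_integral_le_of_norm_le (gw_int.mul_const M) (ae_of_all _ fun z => ?_)
    rw [norm_smul, Real.norm_of_nonneg (gw_pos z).le]
    exact mul_le_mul_of_nonneg_left (hM' _) (gw_pos z).le
  | succ k ih =>
    intro F _ _ f hf M hM y
    have h1 : fderiv ℝ (avg P f) = avg P (fderiv ℝ f) := by
      funext w
      exact (avg_hasFDerivAt P hf w).fderiv
    rw [← norm_iteratedFDeriv_fderiv, h1]
    exact ih (fderiv ℝ f) hf.fder M (fun x => by rw [norm_iteratedFDeriv_fderiv]; exact hM x) y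

end

end Vale.Agent.P227.M.RegHeat
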