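import Vale.Agent.P227.M.SC2.RegHeatA

/-! # P227/M/SC2 (helper619): Gaussian averages, part B: the normalised class. -/

open MeasureTheory Set Real
open scoped Topology

namespace Vale.Agent.P227.M.RegHeat

set_option linter.unusedSectionVars false

section
variable {n : ℕ}

/-- normalised potentials -/
structure Cls (R : E n → ℝ) (c : ℝ) (B : ℕ → ℝ) : Prop where
  c_pos : 0 < c
  smooth : ContDiff ℝ (⊤ : ℕ∞) R
  zero : R 0 = 0
  dzero : fderiv ℝ R 0 = 0
  low : ∀ x, c / 2 * ‖x‖ ^ 2 ≤ R x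
  bdd : ∀ k, 2 ≤ k → ∀ x, ‖iteratedFDeriv ℝ k R x‖ ≤ B k

/-- the constant used in the Faa di Bruno bounds -/
noncomputable def Kc (B : ℕ → ℝ) (k : ℕ) : ℝ := 1 + |B 2| + ∑ j ∈ Finset.range (k + 1), |B j|

theorem Kc_ge_one (B : ℕ → ℝ) (k : ℕ) : 1 ≤ Kc B k := by
  unfold Kc
  have h1 := abs_nonneg (B 2)
  have h2 : 0 ≤ ∑ j ∈ Finset.range (k + 1), |B j| := Finset.sum_nonneg fun _ _ => abs_nonneg _
  linarith

theorem le_Kc (B : ℕ → ℝ) {k i : ℕ} (hi : i ≤ k) : B i ≤ Kc B k := by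
  unfold Kc
  have h1 := abs_nonneg (B 2)
  have h2 : |B i| ≤ ∑ j ∈ Finset.range (k + 1), |B j| :=
    Finset.single_le_sum (f := fun j => |B j|) (fun _ _ => abs_nonneg _)
      (Finset.mem_range.2 (by omega))
  linarith [le_abs_self (B i)]

theorem two_le_Kc (B : ℕ → ℝ) (k : ℕ) : B 2 ≤ Kc B k := by
  unfold Kc
  have h2 : 0 ≤ ∑ j ∈ Finset.range (k + 1), |B j| := Finset.sum_nonneg fun _ _ => abs_nonneg _
  linarith [le_abs_self (B 2)]

variable {R : E n → ℝ} {c : ℝ} {B : ℕ → ℝ}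

theorem Cls.C2 (h : Cls R c B) : ContDiff ℝ 2 R := h.smooth.of_le (by norm_cast)

theorem Cls.grad_le (h : Cls R c B) (x : E n) : ‖fderiv ℝ R x‖ ≤ B 2 * ‖x‖ := by
  have h1 := norm_fderiv_le h.C2 (fun x => h.bdd 2 le_rfl x) x
  rwa [h.dzero, norm_zero, zero_add] at h1

theorem Cls.le_sq (h : Cls R c B) (x : E n) : R x ≤ |B 2| * ‖x‖ ^ 2 := by
  have hd : Differentiable ℝ R := h.C2.differentiable (by norm_num)
  have h2 := (convex_closedBall (0 : E n) ‖x‖).norm_image_sub_le_of_norm_fderiv_le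
    (f := R) (C := |B 2| * ‖x‖) (x := 0) (y := x) (fun z _ => hd z)
    (fun z hz => by
      have h3 : ‖z‖ ≤ ‖x‖ := by simpa using hz
      refine (h.grad_le z).trans ?_
      have h4 : B 2 * ‖z‖ ≤ |B 2| * ‖z‖ :=
        mul_le_mul_of_nonneg_right (le_abs_self _) (norm_nonneg _)
      exact h4.trans (mul_le_mul_of_nonneg_left h3 (abs_nonneg _)))
    (by simp) (by simp)
  rw [h.zero, sub_zero, sub_zero, Real.norm_eq_abs] at h2
  have h5 := le_abs_self (R x)
  nlinarith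

theorem norm_iter_exp (i : ℕ) (u : ℝ) : ‖iteratedFDeriv ℝ i Real.exp u‖ = Real.exp u := by
  rw [norm_iteratedFDeriv_eq_norm_iteratedDeriv, iteratedDeriv_eq_iterate, Real.iter_deriv_exp,
    Real.norm_of_nonneg (Real.exp_pos _).le]

/-- bounds of the derivatives of `exp (-R)` -/
theorem Cls.iter_exp_le (h : Cls R c B) (k : ℕ) (x : E n) :
    ‖iteratedFDeriv ℝ k (fun y => Real.exp (-R y)) x‖ ≤
      k.factorial * Real.exp (-R x) * (Kc B k * (1 + ‖x‖)) ^ k := by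
  have hc : (fun y => Real.exp (-R y)) = Real.exp ∘ (fun y => -R y) := rfl
  rw [hc]
  refine norm_iteratedFDeriv_comp_le (N := ((⊤ : ℕ∞) : WithTop ℕ∞)) Real.contDiff_exp h.smooth.neg
    (by exact_mod_cast le_top) x (fun i _ => (norm_iter_exp i _).le) (fun i hi hik => ?_)
  have h1 : ‖iteratedFDeriv ℝ i (fun y => -R y) x‖ = ‖iteratedFDeriv ℝ i R x‖ := by
    have : (fun y => -R y) = -R := rfl
    rw [this, iteratedFDeriv_neg_apply, norm_neg]
  rw [h1]
  have hK := Kc_ge_one B k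
  have hD : 1 ≤ Kc B k * (1 + ‖x‖) := by
    have := norm_nonneg x
    nlinarith
  rcases Nat.lt_or_ge i 2 with h2 | h2
  · have hi1 : i = 1 := by omega
    subst hi1
    have h3 : ‖iteratedFDeriv ℝ 1 R x‖ = ‖fderiv ℝ R x‖ := by
      have := norm_iteratedFDeriv_fderiv (𝕜 := ℝ) (f := R) (n := 0) (x := x)
      rw [norm_iteratedFDeriv_zero] at this
      exact this.symm
    rw [h3, pow_one]
    have h4 := h.grad_le x
    have h5 := two_le_Kc B k
    have := norm_nonneg x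
    nlinarith
  · refine (h.bdd i h2 x).trans ?_
    have h3 := le_Kc B hik
    have h4 : Kc B k ≤ Kc B k * (1 + ‖x‖) := by
      have := norm_nonneg x
      nlinarith
    exact (h3.trans h4).trans (le_self_pow₀ hD (by omega))

/-- uniform constant -/
noncomputable def Mc (c : ℝ) (B : ℕ → ℝ) (k : ℕ) : ℝ :=
  k.factorial * (Kc B k ^ k * (k.factorial * Real.exp (1 + 1 / (2 * c))))

theorem Cls.iter_exp_le' (h : Cls R c B) (k : ℕ) (x : E n) :
    ‖iteratedFDeriv ℝ k (fun y => Real.exp (-R y)) x‖ ≤ Mc c B k := by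
  refine (h.iter_exp_le k x).trans ?_
  unfold Mc
  rw [mul_pow, mul_assoc]
  refine mul_le_mul_of_nonneg_left ?_ (by positivity)
  have hK : 0 ≤ Kc B k ^ k := pow_nonneg (zero_le_one.trans (Kc_ge_one B k)) k
  have h1 : (1 + ‖x‖) ^ k ≤ (k.factorial : ℝ) * Real.exp (1 + ‖x‖) := by
    have h := Real.pow_div_factorial_le_exp (1 + ‖x‖) (by positivity) k
    have hq : (0 : ℝ) < k.factorial := by exact_mod_cast Nat.factorial_pos k
    rw [div_le_iff₀ hq] at h
    linarith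
  have h2 : Real.exp (-R x) * Real.exp (1 + ‖x‖) ≤ Real.exp (1 + 1 / (2 * c)) := by
    rw [← Real.exp_add]
    refine Real.exp_le_exp.2 ?_
    have h3 := h.low x
    have h4 : ‖x‖ ≤ c / 2 * ‖x‖ ^ 2 + 1 / (2 * c) := by
      have hc := h.c_pos
      have h5 : 0 ≤ (c * ‖x‖ - 1) ^ 2 / (2 * c) := by positivity
      have h6 : (c * ‖x‖ - 1) ^ 2 / (2 * c) = c / 2 * ‖x‖ ^ 2 + 1 / (2 * c) - ‖x‖ := by
        field_simp
        ring
      linarith
    linarith
  calc Real.exp (-R x) * (Kc B k ^ k * (1 + ‖x‖) ^ k)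
      ≤ Real.exp (-R x) * (Kc B k ^ k * ((k.factorial : ℝ) * Real.exp (1 + ‖x‖))) := by
        gcongr
    _ = Kc B k ^ k * (k.factorial * (Real.exp (-R x) * Real.exp (1 + ‖x‖))) := by ring
    _ ≤ Kc B k ^ k * (k.factorial * Real.exp (1 + 1 / (2 * c))) := by gcongr

theorem Cls.cb (h : Cls R c B) : CB (fun y => Real.exp (-R y)) :=
  ⟨Real.contDiff_exp.comp h.smooth.neg, fun k => ⟨Mc c B k, fun x => h.iter_exp_le' k x⟩⟩

end

section
variable {n : ℕ} {G : Type} [NormedAddCommGroup G] [InnerProductSpace ℝ G]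
  [FiniteDimensional ℝ G] [MeasurableSpace G] [BorelSpace G]

/-- the partition function -/
noncomputable def ZR (P : G →L[ℝ] E n) (R : E n → ℝ) (y : E n) : ℝ :=
  avg P (fun y => Real.exp (-R y)) y

theorem ZR_eq (P : G →L[ℝ] E n) (R : E n → ℝ) (y : E n) :
    ZR P R y = ∫ z : G, Real.exp (-R (y + P z) - ‖z‖ ^ 2 / 2) := by
  unfold ZR avg gw
  refine integral_congr_ae (ae_of_all _ fun z => ?_)
  simp only [smul_eq_mul]
  rw [← Real.exp_add]
  congr 1
  ring

variable {R : E n → ℝ} {c : ℝ} {B : ℕ → ℝ}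

/-- lower bound of `ZR` at `0` -/
noncomputable def m0 (P : G →L[ℝ] E n) (B : ℕ → ℝ) : ℝ :=
  ∫ z : G, gw z * Real.exp (-(|B 2| * (‖P‖ * ‖z‖) ^ 2))

theorem m0_int (P : G →L[ℝ] E n) (B : ℕ → ℝ) :
    Integrable (fun z : G => gw z * Real.exp (-(|B 2| * (‖P‖ * ‖z‖) ^ 2))) := by
  refine Integrable.mono' gw_int ?_ (ae_of_all _ fun z => ?_)
  · exact (gw_cont.mul (by fun_prop)).aestronglyMeasurable
  · rw [norm_mul, Real.norm_of_nonneg (gw_pos z).le, Real.norm_of_nonneg (Real.exp_pos _).le]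
    have h1 : Real.exp (-(|B 2| * (‖P‖ * ‖z‖) ^ 2)) ≤ 1 := by
      rw [Real.exp_le_one_iff]
      have : 0 ≤ |B 2| * (‖P‖ * ‖z‖) ^ 2 := by positivity
      linarith
    nlinarith [gw_pos z]

theorem m0_pos (P : G →L[ℝ] E n) (B : ℕ → ℝ) : 0 < m0 P B := by
  unfold m0
  rw [integral_pos_iff_support_of_nonneg (fun z => mul_nonneg (gw_pos z).le (Real.exp_pos _).le)
    (m0_int P B)]
  have : Function.support (fun z : G => gw z * Real.exp (-(|B 2| * (‖P‖ * ‖z‖) ^ 2))) = univ := by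
    ext z
    simp only [Function.mem_support, mem_univ, iff_true]
    exact (mul_pos (gw_pos z) (Real.exp_pos _)).ne'
  rw [this]
  exact Measure.measure_univ_pos.2 (NeZero.ne _)

theorem Cls.m0_le (h : Cls R c B) (P : G →L[ℝ] E n) : m0 P B ≤ ZR P R 0 := by
  obtain ⟨M, hM⟩ := h.cb.norm_le
  unfold m0 ZR avg
  refine integral_mono (m0_int P B) (avg_integrable P h.cb.smooth.continuous hM 0) fun z => ?_
  simp only [smul_eq_mul, zero_add]
  refine mul_le_mul_of_nonneg_left ?_ (gw_pos z).le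
  refine Real.exp_le_exp.2 (neg_le_neg ?_)
  refine (h.le_sq (P z)).trans ?_
  refine mul_le_mul_of_nonneg_left ?_ (abs_nonneg _)
  exact pow_le_pow_left₀ (norm_nonneg _) (P.le_opNorm z) 2

theorem ZR_pos (h : Cls R c B) (P : G →L[ℝ] E n) (y : E n) : 0 < ZR P R y := by
  obtain ⟨M, hM⟩ := h.cb.norm_le
  have hi : Integrable (fun z : G => gw z * Real.exp (-R (y + P z))) :=
    avg_integrable P h.cb.smooth.continuous hM y
  have key : 0 < ∫ z : G, gw z * Real.exp (-R (y + P z)) := by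
    rw [integral_pos_iff_support_of_nonneg
      (fun z => mul_nonneg (gw_pos z).le (Real.exp_pos _).le) hi]
    have : Function.support (fun z : G => gw z * Real.exp (-R (y + P z))) = univ := by
      ext z
      simp only [Function.mem_support, mem_univ, iff_true]
      exact (mul_pos (gw_pos z) (Real.exp_pos _)).ne'
    rw [this]
    exact Measure.measure_univ_pos.2 (NeZero.ne _)
  exact key

theorem Cls.iter_ZR_le (h : Cls R c B) (P : G →L[ℝ] E n) (k : ℕ) (y : E n) :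
    ‖iteratedFDeriv ℝ k (ZR P R) y‖ ≤ (∫ z : G, gw z) * Mc c B k :=
  avg_iter_le P k _ h.cb _ (fun x => h.iter_exp_le' k x) y

theorem Cls.ZR_contDiff (h : Cls R c B) (P : G →L[ℝ] E n) : ContDiff ℝ (⊤ : ℕ∞) (ZR P R) :=
  avg_contDiff P h.cb

theorem Cls.ZR_le (h : Cls R c B) (P : G →L[ℝ] E n) (y : E n) :
    ZR P R y ≤ (∫ z : G, gw z) * Mc c B 0 := by
  have h1 := h.iter_ZR_le P 0 y
  rw [norm_iteratedFDeriv_zero] at h1
  exact (le_abs_self _).trans h1

/-- uniform bound of the derivatives of `log` on compact intervals -/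
theorem exists_log_bound {a b : ℝ} (ha : 0 < a) (k : ℕ) :
    ∃ C : ℝ, ∀ i ≤ k, ∀ u ∈ Icc a b, ‖iteratedFDerivWithin ℝ i Real.log (Ioi 0) u‖ ≤ C := by
  have hlog : ContDiffOn ℝ (⊤ : ℕ∞) Real.log (Ioi 0) := fun u hu =>
    (Real.contDiffAt_log.2 (ne_of_gt hu)).contDiffWithinAt
  have h1 : ∀ i : ℕ, ∃ C : ℝ, ∀ u ∈ Icc a b,
      ‖iteratedFDerivWithin ℝ i Real.log (Ioi 0) u‖ ≤ C := by
    intro i
    have hc : ContinuousOn (fun u => ‖iteratedFDerivWithin ℝ i Real.log (Ioi 0) u‖) (Icc a b) := by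
      refine (ContinuousOn.norm ?_).mono (fun u hu => lt_of_lt_of_le ha hu.1)
      exact hlog.continuousOn_iteratedFDerivWithin (by exact_mod_cast le_top)
        (isOpen_Ioi.uniqueDiffOn)
    obtain ⟨C, hC⟩ := isCompact_Icc.bddAbove_image hc
    exact ⟨C, fun u hu => hC (mem_image_of_mem _ hu)⟩
  choose C hC using h1
  refine ⟨∑ i ∈ Finset.range (k + 1), |C i|, fun i hi u hu => ?_⟩
  refine (hC i u hu).trans ((le_abs_self _).trans ?_)
  exact Finset.single_le_sum (f := fun j => |C j|) (fun _ _ => abs_nonneg _)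
    (Finset.mem_range.2 (by omega))

/-- the heated potential -/
noncomputable def hR (P : G →L[ℝ] E n) (R : E n → ℝ) (y : E n) : ℝ := -Real.log (ZR P R y)

theorem Cls.hR_contDiff (h : Cls R c B) (P : G →L[ℝ] E n) : ContDiff ℝ (⊤ : ℕ∞) (hR P R) :=
  ((h.ZR_contDiff P).log fun y => (ZR_pos h P y).ne').neg

/-- **uniform bound** of all derivatives of `hR` at `0` -/
theorem exists_hR_bound (P : G →L[ℝ] E n) (c : ℝ) (B : ℕ → ℝ) (k : ℕ) :
    ∃ C : ℝ, ∀ R : E n → ℝ, Cls R c B → ‖iteratedFDeriv ℝ k (hR P R) 0‖ ≤ C := by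
  obtain ⟨L, hL⟩ := exists_log_bound (a := m0 P B) (b := (∫ z : G, gw z) * Mc c B 0) (m0_pos P B) k
  set D : ℝ := 1 + ∑ j ∈ Finset.range (k + 1), |(∫ z : G, gw z) * Mc c B j| with hD
  refine ⟨k.factorial * L * D ^ k, fun R h => ?_⟩
  have hD1 : 1 ≤ D := by
    have : 0 ≤ ∑ j ∈ Finset.range (k + 1), |(∫ z : G, gw z) * Mc c B j| :=
      Finset.sum_nonneg fun _ _ => abs_nonneg _
    linarith
  have hneg : hR P R = -(Real.log ∘ ZR P R) := rfl
  rw [hneg, iteratedFDeriv_neg_apply, norm_neg, ← iteratedFDerivWithin_univ]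
  refine norm_iteratedFDerivWithin_comp_le (N := ((⊤ : ℕ∞) : WithTop ℕ∞)) (t := Ioi 0)
    (fun u hu => (Real.contDiffAt_log.2 (ne_of_gt hu)).contDiffWithinAt)
    (h.ZR_contDiff P).contDiffOn (by exact_mod_cast le_top) isOpen_Ioi.uniqueDiffOn
    uniqueDiffOn_univ (fun y _ => ZR_pos h P y) (mem_univ _)
    (fun i hi => hL i hi _ ⟨h.m0_le P, h.ZR_le P 0⟩) (fun i hi hik => ?_)
  rw [iteratedFDerivWithin_univ]
  refine (h.iter_ZR_le P i 0).trans ?_
  have h2 : |(∫ z : G, gw z) * Mc c B i| ≤ ∑ j ∈ Finset.range (k + 1), |(∫ z : G, gw z) * Mc c B j| :=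
    Finset.single_le_sum (f := fun j => |(∫ z : G, gw z) * Mc c B j|) (fun _ _ => abs_nonneg _)
      (Finset.mem_range.2 (by omega))
  have h3 : (∫ z : G, gw z) * Mc c B i ≤ D := by
    have := le_abs_self ((∫ z : G, gw z) * Mc c B i)
    linarith
  exact h3.trans (le_self_pow₀ hD1 (by omega))

end

end Vale.Agent.P227.M.RegHeat
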