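import Vale.Agent.P227.M.SC2.RegHeatB

/-! # P227/M/SC2 (helper619): recentring at the mode, derivative bounds of the heated potential. -/

open MeasureTheory Set Real
open scoped Topology

namespace Vale.Agent.P227.M.RegHeat

set_option linter.unusedSectionVars false

section
variable {n : ℕ} {G : Type} [NormedAddCommGroup G] [InnerProductSpace ℝ G]
  [FiniteDimensional ℝ G] [MeasurableSpace G] [BorelSpace G]

/-- heated potential, noise space `G` -/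
noncomputable def hG (W : E n → ℝ) (P : G →L[ℝ] E n) (x : E n) : ℝ :=
  -Real.log (∫ z : G, Real.exp (-W (x + P z) - ‖z‖ ^ 2 / 2))

variable {W : E n → ℝ} {c C : ℝ}

/-- translate of a regular potential, minus its affine part -/
noncomputable def rem (W : E n → ℝ) (x0 : E n) (y : E n) : ℝ :=
  W (x0 + y) - W x0 - fderiv ℝ W x0 y

theorem rem_fderiv (hW : ContDiff ℝ (⊤ : ℕ∞) W) (x0 y : E n) :
    HasFDerivAt (rem W x0) (fderiv ℝ W (x0 + y) - fderiv ℝ W x0) y := by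
  have h1 : HasFDerivAt W (fderiv ℝ W (x0 + y)) (x0 + y) :=
    (hW.differentiable (by simp) _).hasFDerivAt
  have h2 : HasFDerivAt (fun y : E n => x0 + y) (ContinuousLinearMap.id ℝ (E n)) y :=
    (hasFDerivAt_id y).const_add _
  have h3 := h1.comp y h2
  rw [ContinuousLinearMap.comp_id] at h3
  exact (h3.sub_const (W x0)).sub (fderiv ℝ W x0).hasFDerivAt

theorem rem_contDiff (hW : ContDiff ℝ (⊤ : ℕ∞) W) (x0 : E n) : ContDiff ℝ (⊤ : ℕ∞) (rem W x0) := by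
  unfold rem
  exact ((hW.comp (contDiff_const.add contDiff_id)).sub contDiff_const).sub
    (fderiv ℝ W x0).contDiff

theorem norm_iter_rem (hW : ContDiff ℝ (⊤ : ℕ∞) W) (x0 : E n) (k : ℕ) (hk : 2 ≤ k) (y : E n) :
    ‖iteratedFDeriv ℝ k (rem W x0) y‖ = ‖iteratedFDeriv ℝ k W (x0 + y)‖ := by
  obtain ⟨j, rfl⟩ : ∃ j, k = j + 2 := ⟨k - 2, by omega⟩
  have h1 : fderiv ℝ (rem W x0) = fun y => fderiv ℝ W (x0 + y) - fderiv ℝ W x0 := by
    funext y
    exact (rem_fderiv hW x0 y).fderiv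
  have hW1 : ContDiff ℝ (⊤ : ℕ∞) (fderiv ℝ W) :=
    hW.fderiv_right (m := ((⊤ : ℕ∞) : WithTop ℕ∞)) (by simp)
  have h2 : fderiv ℝ (fderiv ℝ (rem W x0)) = fun y => fderiv ℝ (fderiv ℝ W) (x0 + y) := by
    rw [h1]
    funext y
    have h3 : HasFDerivAt (fderiv ℝ W) (fderiv ℝ (fderiv ℝ W) (x0 + y)) (x0 + y) :=
      (hW1.differentiable (by simp) _).hasFDerivAt
    have h4 : HasFDerivAt (fun y : E n => x0 + y) (ContinuousLinearMap.id ℝ (E n)) y :=
      (hasFDerivAt_id y).const_add _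
    have h5 := h3.comp y h4
    rw [ContinuousLinearMap.comp_id] at h5
    exact (h5.sub_const (fderiv ℝ W x0)).fderiv
  rw [← norm_iteratedFDeriv_fderiv (n := j + 1), ← norm_iteratedFDeriv_fderiv (n := j), h2,
    iteratedFDeriv_comp_add_left, norm_iteratedFDeriv_fderiv, norm_iteratedFDeriv_fderiv]

theorem rem_cls (hW : Reg W c C) {B : ℕ → ℝ} (hB : ∀ k, 2 ≤ k → ∀ x, ‖iteratedFDeriv ℝ k W x‖ ≤ B k)
    (x0 : E n) : Cls (rem W x0) c B := by
  have hd := rem_fderiv hW.smooth x0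
  have h0 : rem W x0 0 = 0 := by simp [rem]
  have hd0 : fderiv ℝ (rem W x0) 0 = 0 := by
    rw [(hd 0).fderiv, add_zero, sub_self]
  have hR := rem_contDiff hW.smooth x0
  refine ⟨hW.c_pos, hR, h0, hd0, fun x => ?_, fun k hk x => ?_⟩
  · have hR2 : ContDiff ℝ 2 (rem W x0) := hR.of_le (by norm_cast)
    have h1 := lower_quad hR2 (c := c) (fun x v => ?_) x
    · rw [h0, hd0] at h1
      simpa using h1
    · rw [qf_hess_eq hR2]
      have h2 : fderiv ℝ (fderiv ℝ (rem W x0)) x = fderiv ℝ (fderiv ℝ W) (x0 + x) := by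
        have h1 : fderiv ℝ (rem W x0) = fun y => fderiv ℝ W (x0 + y) - fderiv ℝ W x0 := by
          funext y
          exact (hd y).fderiv
        have hW1 : ContDiff ℝ (⊤ : ℕ∞) (fderiv ℝ W) :=
          hW.smooth.fderiv_right (m := ((⊤ : ℕ∞) : WithTop ℕ∞)) (by simp)
        rw [h1]
        have h3 : HasFDerivAt (fderiv ℝ W) (fderiv ℝ (fderiv ℝ W) (x0 + x)) (x0 + x) :=
          (hW1.differentiable (by simp) _).hasFDerivAt
        have h4 : HasFDerivAt (fun y : E n => x0 + y) (ContinuousLinearMap.id ℝ (E n)) x :=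
          (hasFDerivAt_id x).const_add _
        have h5 := h3.comp x h4
        rw [ContinuousLinearMap.comp_id] at h5
        exact (h5.sub_const (fderiv ℝ W x0)).fderiv
      rw [h2, ← qf_hess_eq hW.C2]
      exact hW.lower (x0 + x) v
  · rw [norm_iter_rem hW.smooth x0 k hk]
    exact hB k hk _

/-- existence of the mode -/
theorem exists_mode (hW : Reg W c C) (P : G →L[ℝ] E n) (x0 : E n) :
    ∃ z0 : G, ∀ η : G, fderiv ℝ W (x0 + P z0) (P η) + inner ℝ z0 η = 0 := by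
  have hcont : Continuous (fun z : G => W (x0 + P z) + ‖z‖ ^ 2 / 2) := by
    have := hW.cont
    fun_prop
  obtain ⟨B, hB⟩ : ∃ B : ℕ → ℝ, ∀ k, 2 ≤ k → ∀ x, ‖iteratedFDeriv ℝ k W x‖ ≤ B k := by
    have h := hW.bdd
    choose! B hB using h
    exact ⟨B, hB⟩
  have hlow : ∀ z : G, W x0 - ‖fderiv ℝ W x0‖ * ‖P‖ * ‖z‖ + ‖z‖ ^ 2 / 2 ≤ W (x0 + P z) + ‖z‖ ^ 2 / 2 := by
    intro z
    have h1 := (rem_cls hW hB x0).low (P z)
    unfold rem at h1
    have h2 : 0 ≤ c / 2 * ‖P z‖ ^ 2 := by have := hW.c_pos; positivity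
    have h3 := (fderiv ℝ W x0).le_opNorm (P z)
    have h4 := P.le_opNorm z
    have h5 : ‖fderiv ℝ W x0‖ * ‖P z‖ ≤ ‖fderiv ℝ W x0‖ * (‖P‖ * ‖z‖) :=
      mul_le_mul_of_nonneg_left h4 (norm_nonneg _)
    have h6 := neg_abs_le (fderiv ℝ W x0 (P z))
    rw [← Real.norm_eq_abs] at h6
    linarith
  have hlim : Filter.Tendsto (fun z : G => W (x0 + P z) + ‖z‖ ^ 2 / 2) (Filter.cocompact G)
      Filter.atTop := by
    refine Filter.tendsto_atTop_mono hlow ?_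
    have h1 : Filter.Tendsto (fun t : ℝ => W x0 - ‖fderiv ℝ W x0‖ * ‖P‖ * t + t ^ 2 / 2)
        Filter.atTop Filter.atTop := by
      have h2 : (fun t : ℝ => W x0 - ‖fderiv ℝ W x0‖ * ‖P‖ * t + t ^ 2 / 2) =
          fun t : ℝ => W x0 + t * (t / 2 - ‖fderiv ℝ W x0‖ * ‖P‖) := by
        funext t; ring
      rw [h2]
      refine Filter.tendsto_atTop_add_const_left _ _ ?_
      refine Filter.Tendsto.atTop_mul_atTop₀ Filter.tendsto_id ?_
      refine Filter.tendsto_atTop_add_const_right _ _ ?_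
      exact Filter.tendsto_id.atTop_div_const (by norm_num)
    exact h1.comp tendsto_norm_cocompact_atTop
  obtain ⟨z0, hz0⟩ := hcont.exists_forall_le hlim
  refine ⟨z0, fun η => ?_⟩
  have hmin : IsLocalMin (fun z : G => W (x0 + P z) + ‖z‖ ^ 2 / 2) z0 :=
    Filter.Eventually.of_forall hz0
  have hd1 : HasFDerivAt (fun z : G => W (x0 + P z)) ((fderiv ℝ W (x0 + P z0)).comp P) z0 := by
    have h1 : HasFDerivAt W (fderiv ℝ W (x0 + P z0)) (x0 + P z0) :=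
      (hW.smooth.differentiable (by simp) _).hasFDerivAt
    exact h1.comp z0 (P.hasFDerivAt.const_add _)
  have hd2 : HasFDerivAt (fun z : G => ‖z‖ ^ 2 / 2) (innerSL ℝ z0) z0 := by
    have h1 := (hasStrictFDerivAt_norm_sq z0).hasFDerivAt
    have h2 := h1.mul_const (1 / 2 : ℝ)
    have h3 : (fun z : G => ‖z‖ ^ 2 / 2) = fun z : G => ‖z‖ ^ 2 * (1 / 2 : ℝ) := by
      funext z; ring
    have h4 : ((1 / 2 : ℝ) • (2 • (innerSL ℝ) z0) : G →L[ℝ] ℝ) = innerSL ℝ z0 := by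
      ext v
      simp only [ContinuousLinearMap.smul_apply, nsmul_eq_mul, Nat.cast_ofNat, smul_eq_mul]
      ring
    rw [h4] at h2
    rw [h3]
    exact h2
  have h := hmin.hasFDerivAt_eq_zero (hd1.add hd2)
  have h' := congrArg (fun L : G →L[ℝ] ℝ => L η) h
  simpa using h'

/-- the recentring identity -/
theorem hG_shift (hW : Reg W c C) (P : G →L[ℝ] E n) (x0 : E n) :
    ∃ (x1 : E n) (a : ℝ) (ℓ : E n →L[ℝ] ℝ), ∀ y, hG W P (x0 + y) = a + ℓ y + hR P (rem W x1) y := by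
  obtain ⟨z0, hz0⟩ := exists_mode hW P x0
  obtain ⟨B, hB⟩ : ∃ B : ℕ → ℝ, ∀ k, 2 ≤ k → ∀ x, ‖iteratedFDeriv ℝ k W x‖ ≤ B k := by
    have h := hW.bdd
    choose! B hB using h
    exact ⟨B, hB⟩
  refine ⟨x0 + P z0, W (x0 + P z0) + ‖z0‖ ^ 2 / 2, fderiv ℝ W (x0 + P z0), fun y => ?_⟩
  have hcls := rem_cls hW hB (x0 + P z0)
  have h1 : (∫ z : G, Real.exp (-W (x0 + y + P z) - ‖z‖ ^ 2 / 2)) =
      Real.exp (-(W (x0 + P z0) + ‖z0‖ ^ 2 / 2 + fderiv ℝ W (x0 + P z0) y)) *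
        ZR P (rem W (x0 + P z0)) y := by
    rw [ZR_eq, ← integral_const_mul,
      ← integral_add_left_eq_self (fun z : G => Real.exp (-W (x0 + y + P z) - ‖z‖ ^ 2 / 2)) z0]
    refine integral_congr_ae (ae_of_all _ fun z => ?_)
    simp only
    rw [← Real.exp_add]
    congr 1
    unfold rem
    have h2 : x0 + y + P (z0 + z) = x0 + P z0 + (y + P z) := by
      rw [map_add]; abel
    have h3 := hz0 z
    have h4 : ‖z0 + z‖ ^ 2 = ‖z0‖ ^ 2 + 2 * inner ℝ z0 z + ‖z‖ ^ 2 := norm_add_sq_real z0 z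
    rw [h2, h4, map_add]
    linarith
  unfold hG hR
  rw [h1, Real.log_mul (Real.exp_pos _).ne' (ZR_pos hcls P y).ne', Real.log_exp]
  ring

/-- smoothness -/
theorem hG_contDiff (hW : Reg W c C) (P : G →L[ℝ] E n) : ContDiff ℝ (⊤ : ℕ∞) (hG W P) := by
  obtain ⟨x1, a, ℓ, h⟩ := hG_shift hW P 0
  obtain ⟨B, hB⟩ : ∃ B : ℕ → ℝ, ∀ k, 2 ≤ k → ∀ x, ‖iteratedFDeriv ℝ k W x‖ ≤ B k := by
    have h := hW.bdd
    choose! B hB using h
    exact ⟨B, hB⟩
  have h1 : hG W P = fun y => a + ℓ y + hR P (rem W x1) y := by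
    funext y
    have := h y
    rwa [zero_add] at this
  rw [h1]
  exact (contDiff_const.add ℓ.contDiff).add ((rem_cls hW hB x1).hR_contDiff P)

theorem iter_affine_add {f : E n → ℝ} (hf : ContDiff ℝ (⊤ : ℕ∞) f) (a : ℝ) (ℓ : E n →L[ℝ] ℝ)
    (k : ℕ) (hk : 2 ≤ k) (y : E n) :
    ‖iteratedFDeriv ℝ k (fun y => a + ℓ y + f y) y‖ = ‖iteratedFDeriv ℝ k f y‖ := by
  obtain ⟨j, rfl⟩ : ∃ j, k = j + 2 := ⟨k - 2, by omega⟩
  have hf1 : ContDiff ℝ (⊤ : ℕ∞) (fderiv ℝ f) :=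
    hf.fderiv_right (m := ((⊤ : ℕ∞) : WithTop ℕ∞)) (by simp)
  have h1 : fderiv ℝ (fun y => a + ℓ y + f y) = fun y => ℓ + fderiv ℝ f y := by
    funext y
    exact ((ℓ.hasFDerivAt.const_add a).add (hf.differentiable (by simp) y).hasFDerivAt).fderiv
  have h2 : fderiv ℝ (fderiv ℝ (fun y => a + ℓ y + f y)) = fderiv ℝ (fderiv ℝ f) := by
    rw [h1]
    funext y
    exact ((hf1.differentiable (by simp) y).hasFDerivAt.const_add ℓ).fderiv
  rw [← norm_iteratedFDeriv_fderiv (n := j + 1), ← norm_iteratedFDeriv_fderiv (n := j), h2,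
    norm_iteratedFDeriv_fderiv, norm_iteratedFDeriv_fderiv]

/-- **derivative bounds** -/
theorem hG_bdd (hW : Reg W c C) (P : G →L[ℝ] E n) (k : ℕ) (hk : 2 ≤ k) :
    ∃ M : ℝ, ∀ x, ‖iteratedFDeriv ℝ k (hG W P) x‖ ≤ M := by
  obtain ⟨B, hB⟩ : ∃ B : ℕ → ℝ, ∀ k, 2 ≤ k → ∀ x, ‖iteratedFDeriv ℝ k W x‖ ≤ B k := by
    have h := hW.bdd
    choose! B hB using h
    exact ⟨B, hB⟩
  obtain ⟨M, hM⟩ := exists_hR_bound P c B k
  refine ⟨M, fun x => ?_⟩
  obtain ⟨x1, a, ℓ, h⟩ := hG_shift hW P x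
  have hcls := rem_cls hW hB x1
  have h1 : iteratedFDeriv ℝ k (hG W P) x = iteratedFDeriv ℝ k (fun y => hG W P (x + y)) 0 := by
    rw [iteratedFDeriv_comp_add_left, add_zero]
  have h2 : (fun y => hG W P (x + y)) = fun y => a + ℓ y + hR P (rem W x1) y := funext h
  rw [h1, h2, iter_affine_add (hcls.hR_contDiff P) a ℓ k hk]
  exact hM _ hcls

end

end Vale.Agent.P227.M.RegHeat
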