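import Mathlib

/-!
P227, block SC-2: algebra at the touching point for `Gam = 2 c a √a - ε b` (helper629).
-/

namespace Vale.Agent.P227.M.SC2.TouchAlg

/-- one index -/
lemma one (c ε r r₀ m q g : ℝ) (hc : 0 < c) (hc1 : c ≤ 1) (hε : ε ^ 2 = 1) (hr₀ : 0 < r₀)
    (hr : r₀ ≤ r) (hcrit : 6 * c * r * m - 3 * ε * q = 3 * g) :
    -((3 / (4 * c) + 3 * c / 4) / r₀ * g ^ 2) ≤
      -(3 * c * r * m ^ 2) - 3 * c / (4 * r) * q ^ 2 + 3 * ε * (m * q) := by
  have hrp : 0 < r := lt_of_lt_of_le hr₀ hr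
  have h1 : ε * q = 2 * c * r * m - g := by linarith
  have h2 : q ^ 2 = (2 * c * r * m - g) ^ 2 := by
    rw [← h1, mul_pow, hε, one_mul]
  have h3 : 3 * ε * (m * q) = 3 * m * (2 * c * r * m - g) := by rw [← h1]; ring
  rw [h2, h3]
  have h4 : -(3 * c * r * m ^ 2) - 3 * c / (4 * r) * (2 * c * r * m - g) ^ 2
      + 3 * m * (2 * c * r * m - g)
      = 3 * (1 - c ^ 2) * (2 * c * r * m - g) ^ 2 / (4 * c * r)
        - (3 * (1 - c ^ 2) / (4 * c) + 3 * c / 4) / r * g ^ 2 := by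
    field_simp
    ring
  rw [h4]
  have h5 : 0 ≤ 3 * (1 - c ^ 2) * (2 * c * r * m - g) ^ 2 / (4 * c * r) := by
    have : 0 ≤ 1 - c ^ 2 := by nlinarith
    positivity
  have h6 : (3 * (1 - c ^ 2) / (4 * c) + 3 * c / 4) / r ≤ (3 / (4 * c) + 3 * c / 4) / r₀ := by
    have h7 : 3 * (1 - c ^ 2) / (4 * c) ≤ 3 / (4 * c) := by
      apply div_le_div_of_nonneg_right _ (by positivity)
      nlinarith
    exact div_le_div₀ (by positivity) (by linarith) hr₀ hr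
  have h7 := mul_le_mul_of_nonneg_right h6 (sq_nonneg g)
  linarith

/-- the touching inequality: `K0 = card · P² · C · (3/(4c) + 3c/4) / √a₀` -/
lemma touch {ι : Type*} [Fintype ι] (c ε a a₀ G C P : ℝ) (m q g : ι → ℝ) (hc : 0 < c)
    (hc1 : c ≤ 1) (hε : ε ^ 2 = 1) (ha₀ : 0 < a₀) (ha : a₀ ≤ a) (hG : G ≤ 0) (hGC : -C ≤ G)
    (hg : ∀ i, |g i| ≤ P * |G|)
    (hcrit : ∀ i, 6 * c * Real.sqrt a * m i - 3 * ε * q i = 3 * g i) :
    (Fintype.card ι * (P ^ 2 * C) * ((3 / (4 * c) + 3 * c / 4) / Real.sqrt a₀)) * G ≤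
      -(3 * c * Real.sqrt a * ∑ i, m i ^ 2) - 3 * c / (4 * Real.sqrt a) * ∑ i, q i ^ 2
        + 3 * ε * ∑ i, m i * q i := by
  set κ : ℝ := (3 / (4 * c) + 3 * c / 4) / Real.sqrt a₀ with hκ
  have hs₀ : 0 < Real.sqrt a₀ := Real.sqrt_pos.2 ha₀
  have hκ0 : 0 ≤ κ := by positivity
  have h1 : ∀ i, (P ^ 2 * C) * κ * G ≤ -(3 * c * Real.sqrt a * m i ^ 2)
      - 3 * c / (4 * Real.sqrt a) * q i ^ 2 + 3 * ε * (m i * q i) := by
    intro i
    refine le_trans ?_ (one c ε (Real.sqrt a) (Real.sqrt a₀) (m i) (q i) (g i) hc hc1 hε hs₀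
      (Real.sqrt_le_sqrt ha) (hcrit i))
    have h2 : g i ^ 2 ≤ P ^ 2 * (C * (-G)) := by
      have h3 : g i ^ 2 ≤ (P * |G|) ^ 2 := sq_le_sq' (by linarith [neg_abs_le (g i), hg i])
        ((le_abs_self _).trans (hg i))
      have h4 : (P * |G|) ^ 2 = P ^ 2 * (|G| * |G|) := by ring
      have h5 : |G| = -G := abs_of_nonpos hG
      rw [h4, h5] at h3
      refine h3.trans (mul_le_mul_of_nonneg_left ?_ (sq_nonneg P))
      exact mul_le_mul_of_nonneg_right (by linarith) (by linarith)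
    have h3 := mul_le_mul_of_nonneg_left h2 hκ0
    have h4 : κ * (P ^ 2 * (C * -G)) = -((P ^ 2 * C) * κ * G) := by ring
    linarith
  have h2 := Finset.sum_le_sum (s := Finset.univ) fun i (_ : i ∈ Finset.univ) => h1 i
  rw [Finset.sum_const, Finset.card_univ, nsmul_eq_mul] at h2
  rw [Finset.sum_add_distrib, Finset.sum_sub_distrib, Finset.sum_neg_distrib, ← Finset.mul_sum,
    ← Finset.mul_sum, ← Finset.mul_sum] at h2
  refine le_trans (le_of_eq ?_) h2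
  ring

/-- derivative of `2 c a √a - ε b` -/
lemma hasDerivAt_Gam {f k : ℝ → ℝ} {f' k' x c ε : ℝ} (hf : HasDerivAt f f' x)
    (hk : HasDerivAt k k' x) (hx : 0 < f x) :
    HasDerivAt (fun y => 2 * c * (f y * Real.sqrt (f y)) - ε * k y)
      (3 * c * Real.sqrt (f x) * f' - ε * k') x := by
  have h1 := hf.mul (hf.sqrt hx.ne')
  have h2 := (h1.const_mul (2 * c)).sub (hk.const_mul ε)
  refine h2.congr_deriv ?_
  have h3 : Real.sqrt (f x) ≠ 0 := (Real.sqrt_pos.2 hx).ne'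
  have h5 : f x * (f' / (2 * Real.sqrt (f x))) = f' * Real.sqrt (f x) / 2 := by
    nth_rewrite 1 [← Real.mul_self_sqrt hx.le]
    field_simp
  rw [h5]
  ring

/-- second derivative: derivative of `3 c √a a' - ε b'` -/
lemma hasDerivAt_Gam2 {f f1 k1 : ℝ → ℝ} {f2 k2 x c ε : ℝ} (hf : HasDerivAt f (f1 x) x)
    (hf1 : HasDerivAt f1 f2 x) (hk1 : HasDerivAt k1 k2 x) (hx : 0 < f x) :
    HasDerivAt (fun y => 3 * c * Real.sqrt (f y) * f1 y - ε * k1 y)
      (3 * c * (Real.sqrt (f x) * f2 + f1 x ^ 2 / (2 * Real.sqrt (f x))) - ε * k2) x := by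
  have h2 := (((hf.sqrt hx.ne').const_mul (3 * c)).mul hf1).sub (hk1.const_mul ε)
  refine h2.congr_deriv ?_
  have h3 : Real.sqrt (f x) ≠ 0 := (Real.sqrt_pos.2 hx).ne'
  field_simp
  ring

/-- the whole identity: `D Gam = - 3 c √a Σ m² - 3c/(4√a) Σ q² + 3 ε Σ m q` -/
lemma DGam {ι : Type*} [Fintype ι] (c ε r as bs : ℝ) (m q qx B BB w : ι → ℝ) (hr : 0 < r)
    (has : as = 1 / 2 * ∑ i, qx i - ∑ i, w i * q i - ∑ i, m i ^ 2)
    (hbs : bs = 1 / 2 * ∑ i, BB i - ∑ i, w i * B i - 3 * ∑ i, m i * q i) :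
    (3 * c * r * as - ε * bs)
      - 1 / 2 * ∑ i, (3 * c * (r * qx i + q i ^ 2 / (2 * r)) - ε * BB i)
      + ∑ i, w i * (3 * c * r * q i - ε * B i)
      = -(3 * c * r * ∑ i, m i ^ 2) - 3 * c / (4 * r) * ∑ i, q i ^ 2 + 3 * ε * ∑ i, m i * q i := by
  have e1 : ∑ i, (3 * c * (r * qx i + q i ^ 2 / (2 * r)) - ε * BB i)
      = 3 * c * r * ∑ i, qx i + 3 * c / (2 * r) * ∑ i, q i ^ 2 - ε * ∑ i, BB i := by
    rw [Finset.mul_sum, Finset.mul_sum, Finset.mul_sum, ← Finset.sum_add_distrib,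
      ← Finset.sum_sub_distrib]
    refine Finset.sum_congr rfl fun i _ => ?_
    field_simp
  have e2 : ∑ i, w i * (3 * c * r * q i - ε * B i)
      = 3 * c * r * ∑ i, w i * q i - ε * ∑ i, w i * B i := by
    rw [Finset.mul_sum, Finset.mul_sum, ← Finset.sum_sub_distrib]
    exact Finset.sum_congr rfl fun i _ => by ring
  rw [e1, e2, has, hbs]
  field_simp
  ring

end Vale.Agent.P227.M.SC2.TouchAlg
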